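import Vale.Agent.P150.High.CertSpec
import Vale.Agent.P150.Fast.OpNormBridge
import Vale.Agent.P150.TapInv

/-!
# P150, all `β < 1`: Lipschitz bounds for the AMP fields

`ampZ_lip`: at a fixed time in the couplings and the two inputs. `candLip`: the clipped candidate in
time and observation, at fixed couplings, given that the state evolution map is `1`-Lipschitz.
-/

open MeasureTheory ProbabilityTheory Matrix

namespace Vale.Agent.P150.High.AmpLip

open Vale.Agent.P150 Vale.Agent.P150.Fast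

variable {n : ℕ}

open Vale.Agent.P150.PartB (nrm)

lemma nrm_nonneg (v : Fin n → ℝ) : 0 ≤ nrm v := Real.sqrt_nonneg _

lemma nrm_add (v w : Fin n → ℝ) : nrm (v + w) ≤ nrm v + nrm w := OpNorm.sqrt_nsq_add v w

lemma nrm_smul (c : ℝ) (v : Fin n → ℝ) : nrm (c • v) = |c| * nrm v := by
  rw [OpNorm.nrm_eq, OpNorm.nrm_eq, OpNorm.nsq_smul, Real.sqrt_mul (sq_nonneg c), Real.sqrt_sq_eq_abs]

lemma nrm_mono {v w : Fin n → ℝ} (h : ∀ i, |v i| ≤ |w i|) : nrm v ≤ nrm w :=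
  Real.sqrt_le_sqrt (Finset.sum_le_sum fun i _ => sq_le_sq.2 (h i))

lemma nrm_le_const {v : Fin n → ℝ} {c : ℝ} (hc : 0 ≤ c) (h : ∀ i, |v i| ≤ c) :
    nrm v ≤ c * Real.sqrt n := by
  calc nrm v ≤ nrm fun _ : Fin n => c := nrm_mono fun i => (h i).trans (le_abs_self c)
    _ = c * Real.sqrt n := by
      simp only [PartB.nrm, Finset.sum_const, Finset.card_univ, Fintype.card_fin, nsmul_eq_mul]
      rw [mul_comm, Real.sqrt_mul (sq_nonneg c), Real.sqrt_sq hc]

lemma nrm_mulVec {X : Matrix (Fin n) (Fin n) ℝ} {K : ℝ} (h : OpNorm.OpLe X K) (v : Fin n → ℝ) :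
    nrm (X *ᵥ v) ≤ K * nrm v := by
  rw [OpNorm.nrm_eq, OpNorm.nrm_eq, ← Real.sqrt_sq h.1, ← Real.sqrt_mul (sq_nonneg K)]
  exact Real.sqrt_le_sqrt (h.2 v)

lemma tanh_lip (a b : ℝ) : |Real.tanh a - Real.tanh b| ≤ |a - b| := by
  have := Convex.norm_image_sub_le_of_norm_hasDerivWithin_le (s := Set.univ)
    (fun z _ => (Tap.hasDeriv_tanh z).hasDerivWithinAt) (C := 1)
    (fun z _ => by rw [Real.norm_eq_abs, abs_of_pos (Tap.w_mem z).1]; exact (Tap.w_mem z).2)
    convex_univ (Set.mem_univ b) (Set.mem_univ a)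
  simpa using this

lemma nrm_tanh_sub (v w : Fin n → ℝ) :
    nrm (fun i => Real.tanh (v i) - Real.tanh (w i)) ≤ nrm (v - w) :=
  nrm_mono fun _ => tanh_lip _ _

lemma nrm_tanh (v : Fin n → ℝ) : nrm (fun i => Real.tanh (v i)) ≤ Real.sqrt n := by
  refine (nrm_le_const zero_le_one fun i => ?_).trans_eq (one_mul _)
  exact (Real.abs_tanh_lt_one _).le

lemma qSE_mem (γ : ℝ) : 0 ≤ qSE γ ∧ qSE γ ≤ 1 := by
  have hb : ∀ t : ℝ, Real.tanh (γ + Real.sqrt γ * t) ^ 2 ≤ 1 := fun t =>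
    ((sq_lt_one_iff_abs_lt_one _).2 (Real.abs_tanh_lt_one _)).le
  refine ⟨integral_nonneg fun t => sq_nonneg _, ?_⟩
  unfold qSE
  by_cases hi : Integrable (fun t => Real.tanh (γ + Real.sqrt γ * t) ^ 2) (gaussianReal 0 1)
  · exact (integral_mono hi (integrable_const (1 : ℝ)) hb).trans_eq (by simp)
  · rw [integral_undef hi]; exact zero_le_one

lemma plantVar_pos {β shift : ℝ} (hc : 4 ≤ shift) : 0 < plantVar β shift :=
  div_pos two_pos (by linarith [Real.sqrt_nonneg (shift ^ 2 - 4 * β ^ 2)])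

/-- The fields as vector recursions. -/
lemma ampZ_one (β shift s : ℝ) (J : Fin n → Fin n → ℝ) (y f : Fin n → ℝ) :
    ampZ β shift s J y f 1 =
      y + (1 - s) • (Matrix.of J *ᵥ fun i => Real.tanh (ampZ β shift s J y f 0 i))
        + (β ^ 2 * (1 - s) * (1 - qSE (gamSE β shift s 0))) • f := by
  funext i; simp [ampZ, mulVec, dotProduct]

lemma ampZ_two (β shift s : ℝ) (J : Fin n → Fin n → ℝ) (y f : Fin n → ℝ) (l : ℕ) :
    ampZ β shift s J y f (l + 2) =
      y + (1 - s) • (Matrix.of J *ᵥ fun i => Real.tanh (ampZ β shift s J y f (l + 1) i))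
        + (-(β ^ 2 * (1 - s) ^ 2 * (1 - qSE (gamSE β shift s (l + 1))))) •
          fun i => Real.tanh (ampZ β shift s J y f l i) := by
  funext i
  simp only [Pi.add_apply, Pi.smul_apply, mulVec, dotProduct, of_apply, smul_eq_mul]
  rw [ampZ]
  ring

lemma step_le {u c Λ A B : ℝ} {J J' : Matrix (Fin n) (Fin n) ℝ} {y y' a a' b b' : Fin n → ℝ}
    (hu : |u| ≤ 1) (hc : |c| ≤ 1) (hJ : OpNorm.OpLe J Λ) (ha' : nrm a' ≤ Real.sqrt n)
    (hA : nrm (a - a') ≤ A) (hB : nrm (b - b') ≤ B) :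
    nrm ((y + u • (J *ᵥ a) + c • b) - (y' + u • (J' *ᵥ a') + c • b')) ≤
      nrm (y - y') + (Λ * A + PartB.fnrm (J - J') * Real.sqrt n) + B := by
  have e : (y + u • (J *ᵥ a) + c • b) - (y' + u • (J' *ᵥ a') + c • b') =
      (y - y') + u • (J *ᵥ (a - a') + (J - J') *ᵥ a') + c • (b - b') := by
    rw [mulVec_sub, sub_mulVec, smul_sub, smul_add, smul_sub, smul_sub]; abel
  rw [e]
  refine (nrm_add _ _).trans (add_le_add ((nrm_add _ _).trans (add_le_add le_rfl ?_)) ?_)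
  · rw [nrm_smul]
    refine (mul_le_of_le_one_left (nrm_nonneg _) hu).trans ((nrm_add _ _).trans (add_le_add ?_ ?_))
    · exact (nrm_mulVec hJ _).trans (mul_le_mul_of_nonneg_left hA hJ.1)
    · refine (nrm_mulVec (OpNorm.opLe_sqrt_fsq _) _).trans ?_
      exact mul_le_mul_of_nonneg_left ha' (Real.sqrt_nonneg _)
  · rw [nrm_smul]; exact (mul_le_of_le_one_left (nrm_nonneg _) hc).trans hB

lemma coef_le {β s q : ℝ} (hβ : |β| ≤ 1) (hs : s ∈ Set.Icc (0 : ℝ) 1) (hq : 0 ≤ q ∧ q ≤ 1) :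
    |1 - s| ≤ 1 ∧ |β ^ 2 * (1 - s) * (1 - q)| ≤ 1 ∧ |-(β ^ 2 * (1 - s) ^ 2 * (1 - q))| ≤ 1 := by
  have h1 : 0 ≤ 1 - s ∧ 1 - s ≤ 1 := ⟨by linarith [hs.2], by linarith [hs.1]⟩
  have h2 : 0 ≤ β ^ 2 ∧ β ^ 2 ≤ 1 := ⟨sq_nonneg β, (sq_le_one_iff_abs_le_one β).2 hβ⟩
  have h3 : 0 ≤ 1 - q ∧ 1 - q ≤ 1 := ⟨by linarith [hq.2], by linarith [hq.1]⟩
  have h4 : 0 ≤ (1 - s) ^ 2 ∧ (1 - s) ^ 2 ≤ 1 := ⟨sq_nonneg _, pow_le_one₀ h1.1 h1.2⟩
  refine ⟨abs_le.2 ⟨by linarith, h1.2⟩, ?_, ?_⟩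
  · rw [abs_of_nonneg (by have := h2.1; have := h1.1; have := h3.1; positivity)]
    exact mul_le_one₀ (mul_le_one₀ h2.2 h1.1 h1.2) h3.1 h3.2
  · rw [abs_neg, abs_of_nonneg (by have := h2.1; have := h3.1; positivity)]
    exact mul_le_one₀ (mul_le_one₀ h2.2 h4.1 h4.2) h3.1 h3.2

/-- At a fixed time the fields are Lipschitz in the couplings and the inputs. -/
theorem ampZ_lip {β shift : ℝ} (hβ : |β| ≤ 1) (hc : 4 ≤ shift) (Λ : ℝ) (k : ℕ) :
    ∃ K : ℝ, 0 ≤ K ∧ ∀ (n : ℕ) (s : ℝ), s ∈ Set.Icc (0 : ℝ) 1 →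
      ∀ (J J' : Fin n → Fin n → ℝ), OpNorm.OpLe (Matrix.of J) Λ → ∀ y y' f f' : Fin n → ℝ,
        nrm (fun i => ampMag β shift s J y f k i - ampMag β shift s J' y' f' k i) ≤
            nrm (ampZ β shift s J y f k - ampZ β shift s J' y' f' k) ∧
        nrm (ampZ β shift s J y f k - ampZ β shift s J' y' f' k) ≤
          K * (nrm (y - y') + nrm (f - f') +
            PartB.fnrm (Matrix.of J - Matrix.of J') * Real.sqrt n) := by
  suffices h : ∃ K : ℝ, 0 ≤ K ∧ ∀ (n : ℕ) (s : ℝ), s ∈ Set.Icc (0 : ℝ) 1 →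
      ∀ (J J' : Fin n → Fin n → ℝ), OpNorm.OpLe (Matrix.of J) Λ → ∀ y y' f f' : Fin n → ℝ,
        nrm (ampZ β shift s J y f k - ampZ β shift s J' y' f' k) ≤
          K * (nrm (y - y') + nrm (f - f') +
            PartB.fnrm (Matrix.of J - Matrix.of J') * Real.sqrt n) by
    obtain ⟨K, h0, hK⟩ := h
    exact ⟨K, h0, fun n s hs J J' hJ y y' f f' =>
      ⟨nrm_tanh_sub _ _, hK n s hs J J' hJ y y' f f'⟩⟩
  have hv := plantVar_pos (β := β) hc
  induction k using Nat.twoStepInduction with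
  | zero =>
    refine ⟨1 / plantVar β shift, by positivity, fun n s _ J J' _ y y' f f' => ?_⟩
    have e : ampZ β shift s J y f 0 - ampZ β shift s J' y' f' 0 =
        (1 / plantVar β shift) • (f - f') := by
      funext i; simp only [ampZ, Pi.sub_apply, Pi.smul_apply, smul_eq_mul]; ring
    rw [e, nrm_smul, abs_of_pos (by positivity)]
    refine mul_le_mul_of_nonneg_left ?_ (by positivity)
    have : 0 ≤ PartB.fnrm (Matrix.of J - Matrix.of J') * Real.sqrt n :=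
      mul_nonneg (Real.sqrt_nonneg _) (Real.sqrt_nonneg _)
    linarith [nrm_nonneg (y - y')]
  | one =>
    refine ⟨1 + |Λ| / plantVar β shift, by positivity, fun n s hs J J' hJ y y' f f' => ?_⟩
    set δ := PartB.fnrm (Matrix.of J - Matrix.of J') * Real.sqrt n
    have hδ : 0 ≤ δ := mul_nonneg (Real.sqrt_nonneg _) (Real.sqrt_nonneg _)
    obtain ⟨hu, hb, -⟩ := coef_le hβ hs (qSE_mem (gamSE β shift s 0))
    have hA : nrm ((fun i => Real.tanh (ampZ β shift s J y f 0 i)) -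
        fun i => Real.tanh (ampZ β shift s J' y' f' 0 i)) ≤ nrm (f - f') / plantVar β shift := by
      refine (nrm_tanh_sub _ _).trans (le_of_eq ?_)
      have e : ampZ β shift s J y f 0 - ampZ β shift s J' y' f' 0 =
          (1 / plantVar β shift) • (f - f') := by
        funext i; simp only [ampZ, Pi.sub_apply, Pi.smul_apply, smul_eq_mul]; ring
      rw [e, nrm_smul, abs_of_pos (by positivity), div_mul_eq_mul_div, one_mul]
    rw [ampZ_one, ampZ_one]
    refine (step_le hu hb hJ (nrm_tanh _) hA le_rfl).trans ?_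
    have h1 : Λ * (nrm (f - f') / plantVar β shift) ≤
        |Λ| / plantVar β shift * (nrm (y - y') + nrm (f - f') + δ) := by
      rw [← mul_div_assoc, div_mul_eq_mul_div]
      exact div_le_div_of_nonneg_right (mul_le_mul (le_abs_self Λ)
        (by linarith [nrm_nonneg (y - y')]) (nrm_nonneg _) (abs_nonneg Λ)) hv.le
    linarith
  | more l h1 h2 =>
    obtain ⟨K1, hK1, h1⟩ := h1
    obtain ⟨K2, hK2, h2⟩ := h2
    refine ⟨1 + |Λ| * K2 + K1, by positivity, fun n s hs J J' hJ y y' f f' => ?_⟩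
    set δ := PartB.fnrm (Matrix.of J - Matrix.of J') * Real.sqrt n
    have hδ : 0 ≤ δ := mul_nonneg (Real.sqrt_nonneg _) (Real.sqrt_nonneg _)
    obtain ⟨hu, -, hb⟩ := coef_le hβ hs (qSE_mem (gamSE β shift s (l + 1)))
    rw [ampZ_two, ampZ_two]
    refine (step_le hu hb hJ (nrm_tanh _) ((nrm_tanh_sub _ _).trans (h2 n s hs J J' hJ y y' f f'))
      ((nrm_tanh_sub _ _).trans (h1 n s hs J J' hJ y y' f f'))).trans ?_
    have h3 : Λ * (K2 * (nrm (y - y') + nrm (f - f') + δ)) ≤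
        |Λ| * (K2 * (nrm (y - y') + nrm (f - f') + δ)) :=
      mul_le_mul_of_nonneg_right (le_abs_self Λ)
        (mul_nonneg hK2 (by linarith [nrm_nonneg (y - y'), nrm_nonneg (f - f')]))
    linarith [nrm_nonneg (f - f')]

lemma gamSE_nonneg {β shift s : ℝ} (hc : 4 ≤ shift) (hs : s ∈ Set.Icc (0 : ℝ) 1) :
    ∀ l, 0 ≤ gamSE β shift s l := by
  intro l
  cases l with
  | zero => exact div_nonneg hs.1 (plantVar_pos hc).le
  | succ l =>
    have h1 : 0 ≤ 1 - (1 - s) ^ 2 := by nlinarith [hs.1, hs.2]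
    have h2 := (qSE_mem (gamSE β shift s l)).1
    have h3 : (0 : ℝ) ≤ shift * s := mul_nonneg (by linarith) hs.1
    simp only [gamSE]
    positivity

/-- `qSE` is `1`-Lipschitz on the half line. -/
def QLip : Prop := ∀ γ γ' : ℝ, 0 ≤ γ → 0 ≤ γ' → |qSE γ - qSE γ'| ≤ |γ - γ'|

lemma gamSE_lip {β shift : ℝ} (hq : QLip) (hβ : |β| ≤ 1) (hc : 4 ≤ shift) (l : ℕ) :
    ∃ G : ℝ, 0 ≤ G ∧ ∀ s ∈ Set.Icc (0 : ℝ) 1, ∀ t ∈ Set.Icc (0 : ℝ) 1,
      |gamSE β shift s l - gamSE β shift t l| ≤ G * |s - t| := by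
  induction l with
  | zero =>
    have hv := plantVar_pos (β := β) hc
    refine ⟨1 / plantVar β shift, by positivity, fun s _ t _ => le_of_eq ?_⟩
    simp only [gamSE, ← sub_div, abs_div, abs_of_pos hv]
    ring
  | succ l ih =>
    obtain ⟨G, hG, ih⟩ := ih
    refine ⟨shift + 4 + G, by linarith, fun s hs t ht => ?_⟩
    have hb : β ^ 2 ≤ 1 := (sq_le_one_iff_abs_le_one β).2 hβ
    have hq1 := qSE_mem (gamSE β shift s l)
    have hd := (hq _ _ (gamSE_nonneg hc hs l) (gamSE_nonneg hc ht l)).trans (ih s hs t ht)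
    have h2 : |(1 - s) ^ 2 - (1 - t) ^ 2| ≤ 2 * |s - t| := by
      rw [show (1 - s) ^ 2 - (1 - t) ^ 2 = (s - t) * (s + t - 2) by ring, abs_mul, mul_comm]
      exact mul_le_mul_of_nonneg_right
        (abs_le.2 ⟨by linarith [hs.1, ht.1], by linarith [hs.2, ht.2]⟩) (abs_nonneg _)
    have e : gamSE β shift s (l + 1) - gamSE β shift t (l + 1) = shift * (s - t)
        + β ^ 2 * ((1 - s) ^ 2 - (1 - t) ^ 2) * (qSE (gamSE β shift s l) - 1)
        + β ^ 2 * (1 - t) ^ 2 * (qSE (gamSE β shift s l) - qSE (gamSE β shift t l)) := by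
      simp only [gamSE]; ring
    rw [e]
    refine (abs_add_three _ _ _).trans ?_
    simp only [abs_mul, abs_of_nonneg (sq_nonneg β), abs_of_nonneg (sq_nonneg (1 - t)),
      abs_of_pos (show (0 : ℝ) < shift by linarith)]
    have h3 : |qSE (gamSE β shift s l) - 1| ≤ 1 := abs_le.2 ⟨by linarith [hq1.1], by linarith [hq1.2]⟩
    have h4 : (1 - t) ^ 2 ≤ 1 := pow_le_one₀ (by linarith [ht.2]) (by linarith [ht.1])
    have t1 : β ^ 2 * |(1 - s) ^ 2 - (1 - t) ^ 2| * |qSE (gamSE β shift s l) - 1| ≤ 2 * |s - t| :=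
      ((mul_le_of_le_one_right (by positivity) h3).trans
        (mul_le_of_le_one_left (abs_nonneg _) hb)).trans h2
    have t2 : β ^ 2 * (1 - t) ^ 2 * |qSE (gamSE β shift s l) - qSE (gamSE β shift t l)| ≤
        G * |s - t| :=
      (mul_le_of_le_one_left (abs_nonneg _) (mul_le_one₀ hb (sq_nonneg _) h4)).trans hd
    linarith [abs_nonneg (s - t)]

lemma coef_lip {β shift : ℝ} (hq : QLip) (hβ : |β| ≤ 1) (hc : 4 ≤ shift) (l : ℕ) :
    ∃ G : ℝ, 0 ≤ G ∧ ∀ s ∈ Set.Icc (0 : ℝ) 1, ∀ t ∈ Set.Icc (0 : ℝ) 1,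
      |β ^ 2 * (1 - s) * (1 - qSE (gamSE β shift s l)) -
          β ^ 2 * (1 - t) * (1 - qSE (gamSE β shift t l))| ≤ G * |s - t| ∧
      |-(β ^ 2 * (1 - s) ^ 2 * (1 - qSE (gamSE β shift s l))) -
          -(β ^ 2 * (1 - t) ^ 2 * (1 - qSE (gamSE β shift t l)))| ≤ G * |s - t| := by
  obtain ⟨G, hG, hg⟩ := gamSE_lip hq hβ hc l
  refine ⟨2 + G, by linarith, fun s hs t ht => ?_⟩
  set p := qSE (gamSE β shift s l)
  set r := qSE (gamSE β shift t l)
  have hd : |r - p| ≤ G * |s - t| := by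
    rw [abs_sub_comm]
    exact (hq _ _ (gamSE_nonneg hc hs l) (gamSE_nonneg hc ht l)).trans (hg s hs t ht)
  have hb : β ^ 2 ≤ 1 := (sq_le_one_iff_abs_le_one β).2 hβ
  have hp : |1 - p| ≤ 1 := abs_le.2
    ⟨by linarith [(qSE_mem (gamSE β shift s l)).2], by linarith [(qSE_mem (gamSE β shift s l)).1]⟩
  have gen : ∀ x x' : ℝ, |x - x'| ≤ 2 * |s - t| → |x'| ≤ 1 →
      |β ^ 2 * x * (1 - p) - β ^ 2 * x' * (1 - r)| ≤ (2 + G) * |s - t| := by
    intro x x' hx hx'
    rw [show β ^ 2 * x * (1 - p) - β ^ 2 * x' * (1 - r) =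
      β ^ 2 * ((x - x') * (1 - p) + x' * (r - p)) by ring, abs_mul, abs_of_nonneg (sq_nonneg β)]
    refine (mul_le_of_le_one_left (abs_nonneg _) hb).trans ((abs_add_le _ _).trans ?_)
    rw [abs_mul, abs_mul, add_mul]
    exact add_le_add ((mul_le_of_le_one_right (abs_nonneg _) hp).trans hx)
      ((mul_le_of_le_one_left (abs_nonneg _) hx').trans hd)
  constructor
  · refine gen _ _ ?_ (coef_le hβ ht ⟨le_rfl, zero_le_one⟩).1
    rw [show 1 - s - (1 - t) = -(s - t) by ring, abs_neg]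
    linarith [abs_nonneg (s - t)]
  · rw [show ∀ a b : ℝ, -a - -b = -(a - b) from fun a b => by ring, abs_neg]
    refine gen _ _ ?_ (abs_le.2 ⟨by linarith [sq_nonneg (1 - t)],
      pow_le_one₀ (by linarith [ht.2]) (by linarith [ht.1])⟩)
    rw [show (1 - s) ^ 2 - (1 - t) ^ 2 = (s - t) * (s + t - 2) by ring, abs_mul, mul_comm]
    exact mul_le_mul_of_nonneg_right
      (abs_le.2 ⟨by linarith [hs.1, ht.1], by linarith [hs.2, ht.2]⟩) (abs_nonneg _)

lemma time_step {u u' c c' Λ A B G R δ : ℝ} {J : Matrix (Fin n) (Fin n) ℝ}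
    {y a a' b b' : Fin n → ℝ} (hu : |u - u'| ≤ δ) (hu' : |u'| ≤ 1) (hc : |c - c'| ≤ G)
    (hc' : |c'| ≤ 1) (hJ : OpNorm.OpLe J Λ) (ha : nrm a ≤ Real.sqrt n) (hb : nrm b ≤ R)
    (hA : nrm (a - a') ≤ A) (hB : nrm (b - b') ≤ B) :
    nrm ((y + u • (J *ᵥ a) + c • b) - (y + u' • (J *ᵥ a') + c' • b')) ≤
      δ * (Λ * Real.sqrt n) + Λ * A + G * R + B := by
  have e : (y + u • (J *ᵥ a) + c • b) - (y + u' • (J *ᵥ a') + c' • b') =
      ((u - u') • (J *ᵥ a) + u' • (J *ᵥ (a - a'))) + ((c - c') • b + c' • (b - b')) := by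
    rw [mulVec_sub, smul_sub, smul_sub, sub_smul, sub_smul]; abel
  rw [e]
  have h1 : nrm ((u - u') • (J *ᵥ a)) ≤ δ * (Λ * Real.sqrt n) := by
    rw [nrm_smul]
    exact mul_le_mul hu ((nrm_mulVec hJ _).trans (mul_le_mul_of_nonneg_left ha hJ.1))
      (nrm_nonneg _) ((abs_nonneg _).trans hu)
  have h2 : nrm (u' • (J *ᵥ (a - a'))) ≤ Λ * A := by
    rw [nrm_smul]
    exact (mul_le_of_le_one_left (nrm_nonneg _) hu').trans
      ((nrm_mulVec hJ _).trans (mul_le_mul_of_nonneg_left hA hJ.1))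
  have h3 : nrm ((c - c') • b) ≤ G * R := by
    rw [nrm_smul]; exact mul_le_mul hc hb (nrm_nonneg _) ((abs_nonneg _).trans hc)
  have h4 : nrm (c' • (b - b')) ≤ B := by
    rw [nrm_smul]; exact (mul_le_of_le_one_left (nrm_nonneg _) hc').trans hB
  linarith [nrm_add ((u - u') • (J *ᵥ a) + u' • (J *ᵥ (a - a'))) ((c - c') • b + c' • (b - b')),
    nrm_add ((u - u') • (J *ᵥ a)) (u' • (J *ᵥ (a - a'))), nrm_add ((c - c') • b) (c' • (b - b'))]

/-- The fields are Lipschitz in time when the second input is bounded. -/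
theorem ampZ_time {β shift : ℝ} (hq : QLip) (hβ : |β| ≤ 1) (hc : 4 ≤ shift) (Λ : ℝ) (k : ℕ) :
    ∃ M : ℝ, 0 ≤ M ∧ ∀ (n : ℕ) (J : Fin n → Fin n → ℝ), OpNorm.OpLe (Matrix.of J) Λ →
      ∀ y f : Fin n → ℝ, nrm f ≤ 2 * Real.sqrt n →
        ∀ s ∈ Set.Icc (0 : ℝ) 1, ∀ t ∈ Set.Icc (0 : ℝ) 1,
          nrm (ampZ β shift s J y f k - ampZ β shift t J y f k) ≤ M * (|s - t| * Real.sqrt n) := by
  induction k using Nat.twoStepInduction with
  | zero =>
    refine ⟨0, le_rfl, fun n J _ y f _ s _ t _ => le_of_eq ?_⟩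
    have e : ampZ β shift s J y f 0 = ampZ β shift t J y f 0 := by funext i; simp only [ampZ]
    simp [e, PartB.nrm]
  | one =>
    obtain ⟨G, hG, hg⟩ := coef_lip hq hβ hc 0
    refine ⟨|Λ| + 2 * G, by positivity, fun n J hJ y f hf s hs t ht => ?_⟩
    rw [ampZ_one, ampZ_one]
    have e : (fun i => Real.tanh (ampZ β shift t J y f 0 i)) =
        fun i => Real.tanh (ampZ β shift s J y f 0 i) := by funext i; simp only [ampZ]
    rw [e]
    have hu : |(1 - s) - (1 - t)| ≤ |s - t| := by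
      rw [show (1 - s) - (1 - t) = -(s - t) by ring, abs_neg]
    have hc' := coef_le hβ ht (qSE_mem (gamSE β shift t 0))
    refine (time_step hu hc'.1 (hg s hs t ht).1 hc'.2.1 hJ (nrm_tanh _) hf
      (A := 0) (B := 0) (by simp [PartB.nrm]) (by simp [PartB.nrm])).trans ?_
    nlinarith [mul_nonneg (abs_nonneg (s - t)) (Real.sqrt_nonneg (n : ℝ)), le_abs_self Λ]
  | more l h1 h2 =>
    obtain ⟨M1, hM1, h1⟩ := h1
    obtain ⟨M2, hM2, h2⟩ := h2
    obtain ⟨G, hG, hg⟩ := coef_lip hq hβ hc (l + 1)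
    refine ⟨|Λ| * (1 + M2) + G + M1, by positivity, fun n J hJ y f hf s hs t ht => ?_⟩
    rw [ampZ_two, ampZ_two]
    have hu : |(1 - s) - (1 - t)| ≤ |s - t| := by
      rw [show (1 - s) - (1 - t) = -(s - t) by ring, abs_neg]
    have hc' := coef_le hβ ht (qSE_mem (gamSE β shift t (l + 1)))
    refine (time_step hu hc'.1 (hg s hs t ht).2 hc'.2.2 hJ (nrm_tanh _) (nrm_tanh _)
      ((nrm_tanh_sub _ _).trans (h2 n J hJ y f hf s hs t ht))
      ((nrm_tanh_sub _ _).trans (h1 n J hJ y f hf s hs t ht))).trans ?_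
    have hx := mul_nonneg (abs_nonneg (s - t)) (Real.sqrt_nonneg (n : ℝ))
    nlinarith [mul_le_mul_of_nonneg_right (le_abs_self Λ) hx,
      mul_le_mul_of_nonneg_right (le_abs_self Λ) (mul_nonneg hM2 hx)]

lemma clip_scalar {a b R : ℝ} (ha : 0 ≤ a) (hb : 0 ≤ b) (hR : 0 ≤ R) :
    |min 1 (R / a) - min 1 (R / b)| * b ≤ |a - b| := by
  rcases hb.eq_or_lt with rfl | hb'
  · simp
  have mb : min 1 (R / b) * b = min b R := by
    rw [min_mul_of_nonneg _ _ hb, one_mul, div_mul_cancel₀ _ hb'.ne']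
  rw [← abs_of_nonneg hb, ← abs_mul, abs_of_nonneg hb, sub_mul, mb]
  rcases ha.eq_or_lt with rfl | ha'
  · rw [div_zero, min_eq_right zero_le_one, zero_mul, zero_sub, zero_sub, abs_neg, abs_neg,
      abs_of_nonneg (le_min hb hR), abs_of_nonneg hb]
    exact min_le_left _ _
  rcases le_total a R with h | h
  · rw [min_eq_left ((one_le_div ha').2 h), one_mul]
    rcases le_total b R with h' | h'
    · rw [min_eq_left h', sub_self, abs_zero]; exact abs_nonneg _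
    · rw [min_eq_right h', abs_of_nonneg (by linarith), abs_of_nonpos (by linarith)]
      linarith
  · rw [min_eq_right ((div_le_one ha').2 h), div_mul_eq_mul_div]
    rcases le_total b R with h' | h'
    · have h1 : R * b / a ≤ b := by rw [div_le_iff₀ ha']; nlinarith
      have h2 : b - R * b / a ≤ a - b := by
        rw [sub_le_iff_le_add, ← sub_le_iff_le_add', le_div_iff₀ ha']
        nlinarith [mul_le_mul_of_nonneg_left h' (sub_nonneg.2 h)]
      rw [min_eq_left h', abs_sub_comm, abs_of_nonneg (by linarith), abs_of_nonneg (by linarith)]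
      exact h2
    · have e : R * b / a - R = R / a * (b - a) := by field_simp
      rw [min_eq_right h', e, abs_mul, abs_of_nonneg (div_nonneg hR ha), abs_sub_comm b a]
      exact mul_le_of_le_one_left (abs_nonneg _) ((div_le_one ha').2 h)

lemma nrm_clipBall (f : Fin n → ℝ) : nrm (clipBall f) ≤ 2 * Real.sqrt n := by
  have e : clipBall f = min 1 (2 * Real.sqrt n / nrm f) • f := by
    funext i; simp [clipBall, PartB.nrm, mul_comm]
  have h0 : 0 ≤ min 1 (2 * Real.sqrt n / nrm f) :=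
    le_min zero_le_one (div_nonneg (by positivity) (nrm_nonneg _))
  rw [e, nrm_smul, abs_of_nonneg h0]
  rcases (nrm_nonneg f).eq_or_lt with h | h
  · rw [← h, mul_zero]; positivity
  · exact (mul_le_mul_of_nonneg_right (min_le_right _ _) h.le).trans_eq (div_mul_cancel₀ _ h.ne')

lemma clipBall_lip (f g : Fin n → ℝ) : nrm (clipBall f - clipBall g) ≤ 2 * nrm (f - g) := by
  set lf := min 1 (2 * Real.sqrt n / nrm f)
  set lg := min 1 (2 * Real.sqrt n / nrm g)
  have e : clipBall f - clipBall g = lf • (f - g) + (lf - lg) • g := by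
    funext i; simp only [clipBall, Pi.sub_apply, Pi.add_apply, Pi.smul_apply, smul_eq_mul, lf, lg, PartB.nrm]; ring
  have h0 : 0 ≤ lf := le_min zero_le_one (div_nonneg (by positivity) (nrm_nonneg _))
  have h1 : |nrm f - nrm g| ≤ nrm (f - g) := by
    have a1 := nrm_add (f - g) g
    have a2 := nrm_add (g - f) f
    rw [sub_add_cancel] at a1 a2
    have a3 : nrm (g - f) = nrm (f - g) := by
      rw [show g - f = (-1 : ℝ) • (f - g) by simp, nrm_smul]; simp
    exact abs_le.2 ⟨by linarith, by linarith⟩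
  rw [e]
  refine (nrm_add _ _).trans ?_
  rw [nrm_smul, nrm_smul, abs_of_nonneg h0]
  have h2 := clip_scalar (nrm_nonneg f) (nrm_nonneg g) (show 0 ≤ 2 * Real.sqrt n by positivity)
  linarith [mul_le_of_le_one_left (nrm_nonneg (f - g)) (min_le_left 1 (2 * Real.sqrt n / nrm f))]

/-- The clipped candidate is Lipschitz in time and observation. -/
theorem candLip {β shift : ℝ} (hq : QLip) (hβ : |β| ≤ 1) (hc : 4 ≤ shift) (Λ : ℝ)
    (hΛ : Λ < shift) (k : ℕ) :
    ∃ Lk : ℝ, 0 < Lk ∧ ∀ (n : ℕ) (J : Fin n → Fin n → ℝ), OpNorm.OpLe (Matrix.of J) Λ →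
      PartB.CandLip Lk fun s y => ampCand β shift s J y k := by
  obtain ⟨K, hK, hlip⟩ := ampZ_lip hβ hc Λ k
  obtain ⟨M, hM, htime⟩ := ampZ_time hq hβ hc Λ k
  have hη : 0 < shift - Λ := sub_pos.2 hΛ
  refine ⟨1 + K * (1 + 2 / (shift - Λ)) + M, by positivity, fun n J hJ s hs t ht y w => ?_⟩
  have hinv : OpNorm.OpLe (shiftMat shift J)⁻¹ (1 / (shift - Λ)) := by
    refine OpNorm.opLe_inv_of_coercive hη fun v => ?_
    have := (abs_le.1 (hJ.quad v)).1
    rw [shiftMat, add_mulVec, dotProduct_add, smul_mulVec, one_mulVec, dotProduct_smul,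
      smul_eq_mul, ← OpNorm.nsq_eq_dot]
    nlinarith
  set F := fun y : Fin n → ℝ => clipBall ((shiftMat shift J)⁻¹ *ᵥ y)
  have h1 : nrm (ampZ β shift s J y (F y) k - ampZ β shift s J w (F w) k) ≤
      K * (1 + 2 / (shift - Λ)) * nrm (y - w) := by
    refine (hlip n s hs J J hJ y w (F y) (F w)).2.trans ?_
    rw [mul_assoc]
    refine mul_le_mul_of_nonneg_left ?_ hK
    have hF : nrm (F y - F w) ≤ 2 * (1 / (shift - Λ) * nrm (y - w)) := by
      refine (clipBall_lip _ _).trans (mul_le_mul_of_nonneg_left ?_ two_pos.le)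
      rw [← mulVec_sub]; exact nrm_mulVec hinv _
    have e0 : PartB.fnrm (Matrix.of J - Matrix.of J) = 0 := by simp [PartB.fnrm]
    rw [e0, zero_mul, add_zero, add_mul, one_mul]
    have e2 : 2 * (1 / (shift - Λ) * nrm (y - w)) = 2 / (shift - Λ) * nrm (y - w) := by ring
    linarith
  have h2 : nrm (ampZ β shift s J w (F w) k - ampZ β shift t J w (F w) k) ≤
      M * (|s - t| * Real.sqrt n) := htime n J hJ w (F w) (nrm_clipBall _) s hs t ht
  show nrm (fun i => Real.tanh (ampCand β shift s J y k i) - Real.tanh (ampCand β shift t J w k i)) ≤ _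
  refine (nrm_tanh_sub _ _).trans ?_
  have h3 := nrm_add (ampZ β shift s J y (F y) k - ampZ β shift s J w (F w) k)
    (ampZ β shift s J w (F w) k - ampZ β shift t J w (F w) k)
  rw [sub_add_sub_cancel] at h3
  have hd : nrm (fun i => y i - w i) = nrm (y - w) := rfl
  rw [hd]
  have hx := mul_nonneg (abs_nonneg (s - t)) (Real.sqrt_nonneg (n : ℝ))
  have hK2 : 0 ≤ K * (1 + 2 / (shift - Λ)) := by positivity
  show nrm (ampZ β shift s J y (F y) k - ampZ β shift t J w (F w) k) ≤ _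
  nlinarith [nrm_nonneg (y - w), mul_nonneg hK2 hx, mul_nonneg hM (nrm_nonneg (y - w))]

end Vale.Agent.P150.High.AmpLip
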