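import Vale.Agent.P150.Concentration
import Vale.Agent.P157.Gen.Lip

/-!
# Gaussian concentration for Euclidean Lipschitz functions

Even moments from `P157.Gen.gauss_two`, hence `P(f - E f ≥ t) ≤ C exp (-c t²/L²)` and `Var f ≤ K L²`.
-/

open MeasureTheory ProbabilityTheory Filter
open scoped NNReal

namespace Vale.Agent.P150.High.LipConc

open Vale.Agent.P150 Vale.Agent.P249.Lower

/-- even Gaussian moments -/
lemma gmom_even_le {k : ℕ} (hk : 1 ≤ k) : gmom (2 * k : ℕ) ≤ Real.sqrt 2 * (4 * k : ℝ) ^ k := by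
  obtain ⟨hi, he⟩ := integral_exp_mul_sq (show (1 / 4 : ℝ) < 1 / 2 by norm_num)
  have hv : ∫ t : ℝ, Real.exp (1 / 4 * t ^ 2) ∂gaussianReal 0 1 = Real.sqrt 2 := by
    rw [he, show (1:ℝ) - 2 * (1 / 4) = 2⁻¹ by norm_num, Real.sqrt_inv, inv_inv]
  have hpt : ∀ t : ℝ, |t| ^ ((2 * k : ℕ) : ℝ) ≤ (4 * k : ℝ) ^ k * Real.exp (1 / 4 * t ^ 2) := fun t => by
    have h := Real.pow_div_factorial_le_exp (1 / 4 * t ^ 2) (by positivity) k
    rw [div_le_iff₀ (by positivity)] at h
    rw [Real.rpow_natCast, pow_mul, sq_abs]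
    have hf : (k.factorial : ℝ) ≤ (k:ℝ) ^ k := by exact_mod_cast Nat.factorial_le_pow k
    calc (t ^ 2) ^ k = 4 ^ k * (1 / 4 * t ^ 2) ^ k := by rw [← mul_pow]; ring_nf
      _ ≤ 4 ^ k * (Real.exp (1 / 4 * t ^ 2) * k.factorial) := mul_le_mul_of_nonneg_left h (by positivity)
      _ ≤ 4 ^ k * (Real.exp (1 / 4 * t ^ 2) * (k:ℝ) ^ k) := by gcongr
      _ = _ := by rw [mul_pow]; ring
  rw [gmom]
  refine (integral_mono (integrable_abs_rpow_real (by exact_mod_cast (by omega : 0 < 2 * k)) 1)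
    (hi.const_mul _) hpt).trans_eq ?_
  rw [integral_const_mul, hv, mul_comm]

/-- central even moments on `Fin N` -/
lemma moment_fin {N k : ℕ} (hk : 1 ≤ k) {F : (Fin N → ℝ) → ℝ} {L : ℝ} (hL : 0 ≤ L)
    (hF : ∀ y w, |F y - F w| ≤ L * √(∑ i, (y i - w i) ^ 2)) :
    Integrable F (gauss (Fin N)) ∧
      Integrable (fun y => (F y - ∫ z, F z ∂gauss (Fin N)) ^ (2 * k)) (gauss (Fin N)) ∧
      ∫ y, (F y - ∫ z, F z ∂gauss (Fin N)) ^ (2 * k) ∂gauss (Fin N) ≤
        Real.sqrt 2 * (Real.pi ^ 2 * L ^ 2 * k) ^ k := by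
  set φ := fun g : Euc N => F g.ofLp
  have hφ : LipschitzWith L.toNNReal φ := LipschitzWith.of_dist_le' fun g g' => by
    rw [Real.dist_eq, dist_eq_norm]
    refine (hF g.ofLp g'.ofLp).trans (le_of_eq ?_)
    rw [EuclideanSpace.norm_eq]
    simp only [Real.norm_eq_abs, sq_abs, PiLp.sub_apply]
  set γ := stdGaussian (Euc N)
  have hp : (1:ℝ) ≤ ((2 * k : ℕ) : ℝ) := by exact_mod_cast (by omega : 1 ≤ 2 * k)
  have hp0 : (0:ℝ) < ((2 * k : ℕ) : ℝ) := by linarith
  have habs : ∀ x : ℝ, |x| ^ ((2 * k : ℕ) : ℝ) = x ^ (2 * k) := fun x => by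
    rw [Real.rpow_natCast, pow_mul, pow_mul, sq_abs]
  have iφ : Integrable φ γ := by
    refine ((integrable_const |φ 0|).add ((IsGaussian.integrable_id (μ := γ)).norm.const_mul L)).mono'
      hφ.continuous.aestronglyMeasurable (Eventually.of_forall fun g => ?_)
    have := hφ.norm_sub_le g 0
    rw [sub_zero, Real.coe_toNNReal L hL, Real.norm_eq_abs] at this
    rw [Real.norm_eq_abs, Pi.add_apply]
    show |φ g| ≤ |φ 0| + L * ‖g‖
    linarith [abs_sub_abs_le_abs_sub (φ g) (φ 0)]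
  have i2 : Integrable (fun z : Euc N × Euc N => (φ z.1 - φ z.2) ^ (2 * k)) (γ.prod γ) := by
    have := integrable_inc hp hφ (fun z => z.1) (fun z => z.2) continuous_fst continuous_snd 1
      fun z => by rw [one_mul]; exact norm_sub_le _ _
    simpa only [habs] using this
  set m := ∫ g, φ g ∂γ
  have hpt : ∀ᵐ g ∂γ, (φ g - m) ^ (2 * k) ≤ ∫ g', (φ g - φ g') ^ (2 * k) ∂γ := by
    filter_upwards [i2.prod_right_ae] with g hg
    have h := (Even.convexOn_pow (𝕜 := ℝ) (even_two_mul k)).map_integral_le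
      (f := fun g' => φ g - φ g') (continuous_pow _).continuousOn isClosed_univ (by simp)
      ((integrable_const _).sub iφ) hg
    rwa [integral_sub (integrable_const _) iφ, integral_const, probReal_univ, one_smul] at h
  have im : Integrable (fun g => (φ g - m) ^ (2 * k)) γ := by
    refine i2.integral_prod_left.mono' ((hφ.continuous.sub continuous_const).pow _).aestronglyMeasurable ?_
    filter_upwards [hpt] with g hg
    rw [Real.norm_eq_abs, abs_of_nonneg ((even_two_mul k).pow_nonneg _)]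
    exact hg
  have hb : ∫ g, (φ g - m) ^ (2 * k) ∂γ ≤ Real.sqrt 2 * (Real.pi ^ 2 * L ^ 2 * k) ^ k := by
    refine (integral_mono_ae im i2.integral_prod_left hpt).trans ?_
    rw [← integral_prod _ i2]
    have key := Vale.Agent.P157.Gen.gauss_two hp hφ
    simp only [habs] at key
    rw [Real.coe_toNNReal L hL, Real.rpow_natCast, Real.rpow_natCast] at key
    refine key.trans ((mul_le_mul_of_nonneg_left (mul_le_mul_of_nonneg_left (gmom_even_le hk) (by positivity))
      (by positivity)).trans (le_of_eq ?_))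
    rw [pow_mul, pow_mul, show (Real.pi / 2) ^ 2 = Real.pi ^ 2 / 4 by ring]
    simp only [mul_pow, div_pow]
    field_simp
  have hm : Measurable (WithLp.toLp 2 : (Fin N → ℝ) → Euc N) := by fun_prop
  have e : (gauss (Fin N)).map (WithLp.toLp 2) = γ := Vale.Agent.P157.Lim.gauss_toLp N
  have em : m = ∫ y, F y ∂gauss (Fin N) := by
    simp only [m]
    rw [← e, integral_map hm.aemeasurable hφ.continuous.aestronglyMeasurable]
  rw [← e] at iφ im hb
  refine ⟨(integrable_map_measure hφ.continuous.aestronglyMeasurable hm.aemeasurable).1 iφ, ?_, ?_⟩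
  · rw [← em]
    exact (integrable_map_measure ((hφ.continuous.sub continuous_const).pow _).aestronglyMeasurable hm.aemeasurable).1 im
  · rw [integral_map (f := fun g => (φ g - m) ^ (2 * k)) hm.aemeasurable
      ((hφ.continuous.sub continuous_const).pow _).aestronglyMeasurable] at hb
    rw [← em]
    exact hb

variable {ι : Type*} [Fintype ι]

/-- central even moments on any finite index type -/
theorem moment {k : ℕ} (hk : 1 ≤ k) {f : (ι → ℝ) → ℝ} {L : ℝ} (hL : 0 ≤ L)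
    (hf : ∀ z w, |f z - f w| ≤ L * √(∑ i, (z i - w i) ^ 2)) :
    Integrable f (gauss ι) ∧ Integrable (fun z => (f z - ∫ w, f w ∂gauss ι) ^ (2 * k)) (gauss ι) ∧
      ∫ z, (f z - ∫ w, f w ∂gauss ι) ^ (2 * k) ∂gauss ι ≤ Real.sqrt 2 * (Real.pi ^ 2 * L ^ 2 * k) ^ k := by
  set e := (Fintype.equivFin ι).symm
  set E := MeasurableEquiv.piCongrLeft (fun _ : ι => ℝ) e
  have hmp : MeasurePreserving E (gauss (Fin (Fintype.card ι))) (gauss ι) :=
    measurePreserving_piCongrLeft (fun _ => gaussianReal 0 1) e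
  have hE : ∀ z i, E z (e i) = z i := fun z i => MeasurableEquiv.piCongrLeft_apply_apply _ _ _
  obtain ⟨h1, h2, h3⟩ := moment_fin hk hL (F := fun z => f (E z)) fun y w =>
    (hf (E y) (E w)).trans (le_of_eq (by rw [← Equiv.sum_comp e]; simp only [hE]))
  rw [hmp.integral_comp' (g := f)] at h2 h3
  refine ⟨(hmp.integrable_comp_emb E.measurableEmbedding).1 h1,
    (hmp.integrable_comp_emb E.measurableEmbedding).1 h2, ?_⟩
  rw [← hmp.integral_comp' (g := fun z => (f z - ∫ w, f w ∂gauss ι) ^ (2 * k))]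
  exact h3

/-- `Var f ≤ √2 π² L²` -/
theorem variance {f : (ι → ℝ) → ℝ} {L : ℝ} (hL : 0 ≤ L)
    (hf : ∀ z w, |f z - f w| ≤ L * √(∑ i, (z i - w i) ^ 2)) :
    Integrable (fun z => (f z - ∫ w, f w ∂gauss ι) ^ 2) (gauss ι) ∧
      ∫ z, (f z - ∫ w, f w ∂gauss ι) ^ 2 ∂gauss ι ≤ Real.sqrt 2 * Real.pi ^ 2 * L ^ 2 := by
  have h := moment (k := 1) le_rfl hL hf
  simpa [mul_assoc] using h.2

/-- `P(f - E f ≥ t) ≤ √2 e exp (-t² / (e π² L²))` -/
theorem tail {f : (ι → ℝ) → ℝ} {L : ℝ} (hL : 0 < L)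
    (hf : ∀ z w, |f z - f w| ≤ L * √(∑ i, (z i - w i) ^ 2)) {t : ℝ} (ht : 0 < t) :
    (gauss ι).real {z | t ≤ f z - ∫ w, f w ∂gauss ι} ≤
      Real.sqrt 2 * Real.exp 1 * Real.exp (-(t ^ 2 / (Real.exp 1 * Real.pi ^ 2 * L ^ 2))) := by
  set A := Real.pi ^ 2 * L ^ 2
  have hA : 0 < A := by positivity
  rw [show Real.exp 1 * Real.pi ^ 2 * L ^ 2 = Real.exp 1 * A by simp only [A]; ring]
  set x := t ^ 2 / (Real.exp 1 * A)
  have hs : (1:ℝ) ≤ Real.sqrt 2 := Real.one_le_sqrt.2 one_le_two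
  by_cases hk : x < 1
  · refine le_trans measureReal_le_one ?_
    rw [mul_assoc, ← Real.exp_add]
    exact one_le_mul_of_one_le_of_one_le hs (Real.one_le_exp (by linarith))
  push Not at hk
  set k := ⌊x⌋₊
  have hk1 : 1 ≤ k := Nat.one_le_floor_iff _ |>.2 hk
  have hkx : (k:ℝ) ≤ x := Nat.floor_le (by linarith)
  have hxk : x < k + 1 := Nat.lt_floor_add_one x
  obtain ⟨-, hi, hm⟩ := moment hk1 hL.le hf
  have hM := mul_meas_ge_le_integral_of_nonneg
    (μ := gauss ι) (.of_forall fun z => (even_two_mul k).pow_nonneg _) hi (t ^ (2 * k))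
  have hsub : (gauss ι).real {z | t ≤ f z - ∫ w, f w ∂gauss ι} ≤
      (gauss ι).real {z | t ^ (2 * k) ≤ (f z - ∫ w, f w ∂gauss ι) ^ (2 * k)} :=
    measureReal_mono fun z hz => pow_le_pow_left₀ ht.le hz _
  refine hsub.trans (le_of_mul_le_mul_left (a := t ^ (2 * k)) ?_ (by positivity))
  refine hM.trans (hm.trans ?_)
  have hkey : (A * k) ^ k ≤ t ^ (2 * k) * Real.exp (-(k:ℝ)) := by
    have h1 : A * k * Real.exp 1 ≤ t ^ 2 := by
      have := (le_div_iff₀ (by positivity)).1 hkx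
      linarith
    rw [pow_mul, Real.exp_neg, ← div_eq_mul_inv, le_div_iff₀ (Real.exp_pos _),
      ← mul_one (k:ℝ), Real.exp_nat_mul, ← mul_pow, mul_one]
    exact pow_le_pow_left₀ (by positivity) h1 k
  calc Real.sqrt 2 * (A * k) ^ k ≤ Real.sqrt 2 * (t ^ (2 * k) * Real.exp (-(k:ℝ))) :=
        mul_le_mul_of_nonneg_left hkey (Real.sqrt_nonneg _)
    _ ≤ Real.sqrt 2 * (t ^ (2 * k) * (Real.exp 1 * Real.exp (-x))) := by
        refine mul_le_mul_of_nonneg_left (mul_le_mul_of_nonneg_left ?_ (by positivity)) (Real.sqrt_nonneg _)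
        rw [← Real.exp_add, Real.exp_le_exp]; linarith
    _ = _ := by ring

end Vale.Agent.P150.High.LipConc
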