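import Vale.Agent.P150.High.DetMean

/-! # P150, all `β < 1`: upper tail of `det (c + J)` on the event that `c + J` is positive

Markov for the exact mean determinant; the part of the mean outside the positive event is removed by
Cauchy–Schwarz, a Hadamard type bound and an exponentially small norm tail.
-/

open MeasureTheory ProbabilityTheory Matrix Filter
open scoped Topology

namespace Vale.Agent.P150.High.Det

open Vale.Agent.P150

variable {n : ℕ}

/-- the quadratic form exceeds `3.88` somewhere -/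
def wideBad (n : ℕ) : Set (Edge n → ℝ) :=
  {g | ∃ x : Fin n → ℝ, 97 / 25 * Real.sqrt n * ∑ i, x i ^ 2 < |∑ i, ∑ j, coupling g i j * (x i * x j)|}

lemma wideBad_prob (hn : 0 < n) : (disorder n).real (wideBad n) ≤ 2 * Real.exp (-(19 / 100 * n)) := by
  set δ : ℝ := 1 / 100 with hδ
  set r : ℝ := 1 / 4000000 with hr
  obtain ⟨S, hS, hcov, hnear, hcard⟩ := card_le_exp (show (0:ℝ) < δ by rw [hδ]; norm_num) hn
  have : Nonempty S := ⟨⟨hS.choose, hS.choose_spec⟩⟩
  set v := fun P : S => fun i => ((‖(P : P157.Vec n)‖⁻¹) • (P : P157.Vec n)) i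
  have hv : ∀ P : S, ∑ i, v P i ^ 2 = 1 := fun P => by
    have h0 : 0 < ‖(P : P157.Vec n)‖ := by have := (abs_le.1 (hnear P P.2)).1; rw [hδ] at this; linarith
    rw [← norm_sq_vec, norm_smul]; simp [h0.ne']
  have hb : ∀ s : ℝ, s * s = 1 → (disorder n).real
      {g | ∃ a : S, (19 / 5) * Real.sqrt n < s * ∑ i, ∑ j, coupling g i j * (v a i * v a j)} ≤
      Real.exp (-(19 / 100 * n)) := fun s hs => by
    rw [disorder_eq_gauss]
    refine (net_bound_gen v hv hs (ε := 11 / 50) (a₀ := 19 / 5) (r := r) (by norm_num) (by norm_num)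
      (by rw [hr]; norm_num) (by rw [hr]; norm_num) hn).trans ?_
    refine (mul_le_mul_of_nonneg_right (Real.rpow_le_rpow (Nat.cast_nonneg _)
      ((Fintype.card_coe S).symm ▸ hcard) (by rw [hr]; norm_num)) (Real.exp_pos _).le).trans ?_
    rw [← Real.exp_mul, ← Real.exp_add]
    refine Real.exp_le_exp.2 ?_
    have h4 : Real.log 4 ≤ 3 := (Real.log_le_sub_one_of_pos (by norm_num)).trans (by norm_num)
    have := mul_le_mul_of_nonneg_left h4 (Nat.cast_nonneg n : (0:ℝ) ≤ n)
    have := (Nat.cast_nonneg n : (0:ℝ) ≤ n)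
    simp only [hδ, hr]
    norm_num
    linarith
  refine (measureReal_mono (s₂ := {g | ∃ a : S, (19 / 5) * Real.sqrt n < (1:ℝ) * ∑ i, ∑ j, coupling g i j * (v a i * v a j)} ∪
      {g | ∃ a : S, (19 / 5) * Real.sqrt n < (-1:ℝ) * ∑ i, ∑ j, coupling g i j * (v a i * v a j)}) fun g hg => ?_).trans
    ((measureReal_union_le _ _).trans (by linarith [hb 1 (by norm_num), hb (-1) (by norm_num)]))
  by_contra hcon
  simp only [Set.mem_union, Set.mem_ofPred_eq, not_or, not_exists, not_lt, one_mul, neg_one_mul] at hcon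
  obtain ⟨w, hw⟩ := hg
  have := net_to_all (fun i j => coupling_symm g i j) hn (show (0:ℝ) < δ by rw [hδ]; norm_num)
    (by rw [hδ]; norm_num) S hcov hnear
    (fun P hP => abs_le.2 ⟨by linarith [hcon.2 ⟨P, hP⟩], hcon.1 ⟨P, hP⟩⟩) w
  have h2 : 19 / 5 * Real.sqrt n / (1 - 2 * δ) * ∑ i, w i ^ 2 ≤ 97 / 25 * Real.sqrt n * ∑ i, w i ^ 2 :=
    mul_le_mul_of_nonneg_right (by rw [hδ, div_le_iff₀ (by norm_num)]; nlinarith [Real.sqrt_nonneg (n:ℝ)])
      (Finset.sum_nonneg fun i _ => sq_nonneg _)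
  exact absurd hw (not_lt.2 (this.trans h2))

/-- `v (c - β²/n + J)` -/
noncomputable def dMatrix (β c v : ℝ) (g : Edge n → ℝ) : Matrix (Fin n) (Fin n) ℝ :=
  v • ((c - β ^ 2 / n) • (1 : Matrix (Fin n) (Fin n) ℝ) + Matrix.of (cpl β g))

lemma dMatrix_eq (β c v : ℝ) (g : Edge n → ℝ) :
    dMatrix β c v g = v • matS (c - β ^ 2 / n) (β / Real.sqrt n) g Finset.univ := by
  ext a b
  simp only [dMatrix, matS, cpl, Matrix.smul_apply, Matrix.add_apply, Matrix.one_apply, Matrix.of_apply,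
    Finset.mem_univ, if_true, smul_eq_mul]
  by_cases h : a = b
  · subst h; simp
  · simp [h, Ne.symm h]

lemma dMatrix_det (β c v : ℝ) (g : Edge n → ℝ) :
    (dMatrix β c v g).det = v ^ n * (matS (c - β ^ 2 / n) (β / Real.sqrt n) g Finset.univ).det := by
  rw [dMatrix_eq, det_smul, Fintype.card_fin]

lemma dMatrix_symm (β c v : ℝ) (g : Edge n → ℝ) : (dMatrix β c v g).IsHermitian := by
  ext a b
  simp only [conjTranspose_apply, star_trivial, dMatrix, Matrix.smul_apply, Matrix.add_apply, Matrix.one_apply,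
    Matrix.of_apply, cpl, coupling_symm g a b, eq_comm (a := a)]

lemma quad_dMatrix (β c v : ℝ) (g : Edge n → ℝ) (x : Fin n → ℝ) :
    x ⬝ᵥ (dMatrix β c v g *ᵥ x) =
      v * ((c - β ^ 2 / n) * ∑ i, x i ^ 2 + β / Real.sqrt n * ∑ i, ∑ j, coupling g i j * (x i * x j)) := by
  rw [dMatrix, Matrix.smul_mulVec, Matrix.add_mulVec, Matrix.smul_mulVec, Matrix.one_mulVec]
  simp only [dotProduct, Pi.smul_apply,
    Pi.add_apply, smul_eq_mul, mulVec, Matrix.of_apply, cpl, Finset.mul_sum, mul_add, ← Finset.sum_add_distrib]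
  refine Finset.sum_congr rfl fun i _ => ?_
  congr 1
  · ring
  · exact Finset.sum_congr rfl fun j _ => by ring

lemma dMatrix_posDef {β c v : ℝ} (hn : 9 ≤ n) (hβ : 0 ≤ β) (hβ1 : β ≤ 1) (hc : 4 ≤ c) (hv : 0 < v)
    {g : Edge n → ℝ} (hg : g ∉ wideBad n) : (dMatrix β c v g).PosDef := by
  refine Matrix.PosDef.of_dotProduct_mulVec_pos (dMatrix_symm β c v g) fun x hx => ?_
  rw [star_trivial, quad_dMatrix]
  have hn' : (9:ℝ) ≤ n := by exact_mod_cast hn
  have hs : 0 < Real.sqrt n := Real.sqrt_pos.2 (by linarith)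
  simp only [wideBad, Set.mem_ofPred_eq, not_exists, not_lt] at hg
  have h := (abs_le.1 (hg x)).1
  obtain ⟨i, hi⟩ : ∃ i, x i ≠ 0 := Function.ne_iff.1 hx
  have hp : 0 < ∑ i, x i ^ 2 := lt_of_lt_of_le (by positivity : 0 < x i ^ 2)
    (Finset.single_le_sum (f := fun i => x i ^ 2) (fun _ _ => sq_nonneg _) (Finset.mem_univ i))
  refine mul_pos hv ?_
  have h2 : -(97 / 25 * ∑ i, x i ^ 2) ≤ β / Real.sqrt n * ∑ i, ∑ j, coupling g i j * (x i * x j) := by
    refine le_trans ?_ (mul_le_mul_of_nonneg_left h (by positivity))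
    rw [show β / Real.sqrt n * -(97 / 25 * Real.sqrt n * ∑ i, x i ^ 2) = β * -(97 / 25 * ∑ i, x i ^ 2) by
      field_simp]
    nlinarith
  have h3 : β ^ 2 / (n:ℝ) ≤ 1 / 9 := by
    rw [div_le_div_iff₀ (by linarith) (by norm_num)]; nlinarith
  nlinarith

/-- `det A² ≤ K^n exp (|A|_F² / K - n)` -/
lemma det_sq_le {A : Matrix (Fin n) (Fin n) ℝ} {K : ℝ} (hK : 0 < K) :
    A.det ^ 2 ≤ K ^ n * Real.exp ((∑ i, ∑ j, A i j ^ 2) / K - n) := by
  have hM := posSemidef_conjTranspose_mul_self A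
  have h1 : (Aᴴ * A).det = A.det ^ 2 := by rw [det_mul, det_conjTranspose, star_trivial]; ring
  have h2 : (Aᴴ * A).trace = ∑ i, ∑ j, A i j ^ 2 := by
    simp only [trace, diag_apply, mul_apply, conjTranspose_apply, star_trivial, ← sq]
    exact Finset.sum_comm
  rw [← h1, hM.1.det_eq_prod_eigenvalues, ← h2, hM.1.trace_eq_sum_eigenvalues]
  simp only [RCLike.ofReal_real_eq_id, id]
  calc ∏ i, hM.1.eigenvalues i ≤ ∏ i, K * Real.exp (hM.1.eigenvalues i / K - 1) := by
        refine Finset.prod_le_prod (fun i _ => hM.eigenvalues_nonneg i) fun i _ => ?_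
        have := Real.add_one_le_exp (hM.1.eigenvalues i / K - 1)
        rw [sub_add_cancel, div_le_iff₀ hK] at this
        linarith
    _ = _ := by
        rw [Finset.prod_mul_distrib, Finset.prod_const, Finset.card_univ, Fintype.card_fin, ← Real.exp_sum,
          Finset.sum_sub_distrib, Finset.sum_div]
        simp

lemma card_edge : 2 * (Fintype.card (Edge n) : ℝ) = (n:ℝ) ^ 2 - n := by
  have h := two_sum_edge (fun _ : Fin n => (1:ℝ))
  simpa using h

lemma sum_sq_dMatrix (β c v : ℝ) (g : Edge n → ℝ) :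
    ∑ i, ∑ j, dMatrix β c v g i j ^ 2 =
      v ^ 2 * (n * (c - β ^ 2 / n) ^ 2 + 2 * (β / Real.sqrt n) ^ 2 * ∑ e, g e ^ 2) := by
  have h1 : ∀ i j, dMatrix β c v g i j ^ 2 =
      v ^ 2 * ((if i = j then (c - β ^ 2 / n) ^ 2 else 0) + (β / Real.sqrt n) ^ 2 * coupling g i j ^ 2) := fun i j => by
    simp only [dMatrix, Matrix.smul_apply, Matrix.add_apply, Matrix.one_apply, Matrix.of_apply, cpl, smul_eq_mul]
    by_cases h : i = j
    · subst h; simp [coupling_self]; ring
    · simp [h]; ring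
  have h2 : ∑ i, ∑ j, coupling g i j ^ 2 = 2 * ∑ e, g e ^ 2 := by
    have h := quad_coupling (fun e => g e ^ 2) (fun _ : Fin n => (1:ℝ))
    simp only [mul_one, ← coupling_sq] at h
    rw [h, Finset.mul_sum]
  simp only [h1, mul_add, Finset.sum_add_distrib, ← Finset.mul_sum, h2, Finset.sum_ite_eq, Finset.mem_univ, if_true,
    Finset.sum_const, Finset.card_univ, Fintype.card_fin, nsmul_eq_mul]
  ring

lemma integral_det_sq {β c v : ℝ} (hn : 9 ≤ n) (hβ1 : β ^ 2 ≤ 1) (hc : 4 ≤ c) (hv : 0 < v)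
    (hroot : c * v = 1 + β ^ 2 * v ^ 2) :
    Integrable (fun g => (dMatrix β c v g).det ^ 2) (gauss (Edge n)) ∧
      ∫ g, (dMatrix β c v g).det ^ 2 ∂gauss (Edge n) ≤ Real.exp ((2 * β ^ 2 * v ^ 2 + 1 / 16) * n + 1) := by
  have hn' : (9:ℝ) ≤ n := by exact_mod_cast hn
  set K := (v * c) ^ 2 with hK
  have hK0 : 0 < K := by positivity
  set s := 2 * β ^ 2 / (n * c ^ 2) with hs
  have hs0 : 0 ≤ s := by positivity
  have hc2 : (16:ℝ) ≤ c ^ 2 := by nlinarith
  have hs4 : s ≤ 1 / 4 := by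
    rw [hs, div_le_iff₀ (by positivity)]
    nlinarith
  obtain ⟨hi, he⟩ := exp_sumsq (ι := Edge n) (show s < 1 / 2 by linarith)
  have hc' : (c - β ^ 2 / n) ^ 2 ≤ c ^ 2 := by
    have h0 : 0 ≤ β ^ 2 / (n:ℝ) := by positivity
    have h1 : β ^ 2 / (n:ℝ) ≤ 1 := (div_le_one (by linarith)).2 (by linarith)
    nlinarith
  have pt : ∀ g : Edge n → ℝ, (dMatrix β c v g).det ^ 2 ≤ K ^ n * Real.exp (s * ∑ e, g e ^ 2) := fun g => by
    refine (det_sq_le hK0).trans (mul_le_mul_of_nonneg_left (Real.exp_le_exp.2 ?_) (by positivity))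
    rw [sum_sq_dMatrix, sub_le_iff_le_add, div_le_iff₀ hK0, hK, hs, div_pow, Real.sq_sqrt (by linarith : (0:ℝ) ≤ n)]
    have hS : 0 ≤ ∑ e, g e ^ 2 := Finset.sum_nonneg fun e _ => sq_nonneg _
    have e1 : (2 * β ^ 2 / (n * c ^ 2) * (∑ e, g e ^ 2) + n) * (v * c) ^ 2 =
        v ^ 2 * (n * c ^ 2 + 2 * (β ^ 2 / n) * ∑ e, g e ^ 2) := by field_simp; ring
    rw [e1]
    exact mul_le_mul_of_nonneg_left (add_le_add (mul_le_mul_of_nonneg_left hc' (by linarith)) le_rfl) (sq_nonneg v)
  have hcont : Continuous fun g : Edge n → ℝ => (dMatrix β c v g).det ^ 2 := by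
    simp only [dMatrix_det]
    refine (continuous_const.mul (Continuous.matrix_det (continuous_matrix fun a b => ?_))).pow 2
    simp only [matS, of_apply]; have := continuous_coupling (n := n) a b; split_ifs <;> fun_prop
  have hint : Integrable (fun g => (dMatrix β c v g).det ^ 2) (gauss (Edge n)) :=
    (hi.const_mul (K ^ n)).mono' hcont.aestronglyMeasurable (Eventually.of_forall fun g => by
      rw [Real.norm_eq_abs, abs_of_nonneg (sq_nonneg _)]; exact pt g)
  refine ⟨hint, (integral_mono hint (hi.const_mul _) pt).trans ?_⟩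
  rw [integral_const_mul, he]
  have hbase : (Real.sqrt (1 - 2 * s))⁻¹ ≤ Real.exp (s + 4 * s ^ 2) := by
    have h12 : 0 < 1 - 2 * s := by linarith
    rw [← Real.sqrt_inv, Real.sqrt_le_left (Real.exp_pos _).le, ← Real.exp_nat_mul, ← Real.log_le_iff_le_exp (inv_pos.2 h12)]
    refine (Real.log_le_sub_one_of_pos (inv_pos.2 h12)).trans ?_
    rw [sub_le_iff_le_add, inv_le_iff_one_le_mul₀ h12]
    push_cast
    have := mul_nonneg (sq_nonneg s) (by linarith : (0:ℝ) ≤ 1 / 4 - s)
    linarith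
  have hKe : K ^ n ≤ Real.exp (2 * β ^ 2 * v ^ 2 * n) := by
    have h1 : v * c ≤ Real.exp (β ^ 2 * v ^ 2) := by
      rw [mul_comm, hroot]; linarith [Real.add_one_le_exp (β ^ 2 * v ^ 2)]
    refine (pow_le_pow_left₀ hK0.le (pow_le_pow_left₀ (by positivity) h1 2) n).trans (le_of_eq ?_)
    rw [← Real.exp_nat_mul, ← Real.exp_nat_mul]; push_cast; ring_nf
  refine (mul_le_mul hKe (pow_le_pow_left₀ (inv_nonneg.2 (Real.sqrt_nonneg _)) hbase _) (by positivity)
    (Real.exp_pos _).le).trans ?_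
  rw [← Real.exp_nat_mul, ← Real.exp_add]
  refine Real.exp_le_exp.2 ?_
  have hE : (Fintype.card (Edge n) : ℝ) ≤ (n:ℝ) ^ 2 / 2 := by linarith [card_edge (n := n)]
  have hE0 : (0:ℝ) ≤ (Fintype.card (Edge n) : ℝ) := Nat.cast_nonneg _
  have h1 : (n:ℝ) * s ≤ 1 / 8 := by
    rw [hs, show (n:ℝ) * (2 * β ^ 2 / (n * c ^ 2)) = 2 * β ^ 2 / c ^ 2 by field_simp, div_le_iff₀ (by positivity)]
    linarith
  have h2 : (Fintype.card (Edge n) : ℝ) * (s + 4 * s ^ 2) ≤ 1 / 16 * n + 1 := by
    refine (mul_le_mul_of_nonneg_right hE (by positivity)).trans ?_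
    have h3 : (n:ℝ) * s * ((n:ℝ) * s) ≤ 1 / 8 * (1 / 8) := mul_le_mul h1 h1 (by positivity) (by norm_num)
    have h4 := mul_le_mul_of_nonneg_left h1 (by linarith : (0:ℝ) ≤ n)
    nlinarith
  linarith

/-- the mean of the determinant on the positive event -/
lemma mean_det_good {β c v : ℝ} (hn : 9 ≤ n) (hβ : 0 ≤ β) (hβ1 : β ≤ 1) (hc : 4 ≤ c) (hv : 0 < v)
    (hv2 : v ≤ 2 / 7) (hroot : c * v = 1 + β ^ 2 * v ^ 2) (G : Set (Edge n → ℝ)) (hG : MeasurableSet G)
    (_hGw : Disjoint G (wideBad n)) :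
    ∫ g in G, (dMatrix β c v g).det ∂gauss (Edge n) ≤
      (Real.exp 1 * n + 3) * Real.exp (n * (β ^ 2 * v ^ 2 / 2)) := by
  have hn' : (9:ℝ) ≤ n := by exact_mod_cast hn
  have hb2 : β ^ 2 ≤ 1 := by nlinarith
  set κ := β ^ 2 * v ^ 2 / 2 with hκ
  have hD : Integrable (fun g => (dMatrix β c v g).det) (gauss (Edge n)) := by
    simp only [dMatrix_det]; exact (integrable_det _ _ _).const_mul _
  obtain ⟨hD2, hD2e⟩ := integral_det_sq hn hb2 hc hv hroot
  have hmean : ∫ g, (dMatrix β c v g).det ∂gauss (Edge n) ≤ Real.exp 1 * n * Real.exp (n * κ) := by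
    simp only [dMatrix_det]
    rw [integral_const_mul, mean_det, Finset.card_univ, Fintype.card_fin, div_pow,
      Real.sq_sqrt (by linarith : (0:ℝ) ≤ n)]
    have hw : 0 < 2 * v := by linarith
    refine hseq_le (c₀ := c) (w := 2 * v) (by omega) (by field_simp) hv (by linarith) (by linarith) hb2 ?_
      (sub_le_self _ (by positivity)) hroot
    rw [div_le_iff₀ hw]
    have h1 : β ^ 2 / (n:ℝ) ≤ 1 / 9 := by
      rw [div_le_div_iff₀ (by linarith) (by norm_num)]; nlinarith
    have h2 : β ^ 2 * v ^ 2 ≤ 1 * (2 / 7 * v) := mul_le_mul hb2 (by rw [sq]; exact mul_le_mul_of_nonneg_right hv2 hv.le)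
      (sq_nonneg v) zero_le_one
    nlinarith
  -- removing the part outside `G`
  have hW : MeasurableSet Gᶜ := hG.compl
  set l := Real.exp ((κ - (2 * β ^ 2 * v ^ 2 + 1 / 16)) * n) with hl
  have hl0 : 0 < l := Real.exp_pos _
  have hsplit := integral_add_compl hG hD
  have hneg : -(∫ g in Gᶜ, (dMatrix β c v g).det ∂gauss (Edge n)) ≤ 3 * Real.exp (n * κ) := by
    rw [← integral_neg, ← integral_indicator hW]
    have pt : ∀ g, Gᶜ.indicator (fun g => -(dMatrix β c v g).det) g ≤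
        l / 2 * (dMatrix β c v g).det ^ 2 + (wideBad n).indicator (fun _ => 1 / (2 * l)) g := fun g => by
      by_cases hw : g ∈ wideBad n
      · rw [Set.indicator_of_mem hw]
        have key : -(dMatrix β c v g).det ≤ l / 2 * (dMatrix β c v g).det ^ 2 + 1 / (2 * l) := by
          have := sq_nonneg (l * (dMatrix β c v g).det + 1)
          have e : l / 2 * (dMatrix β c v g).det ^ 2 + 1 / (2 * l) + (dMatrix β c v g).det =
              (l * (dMatrix β c v g).det + 1) ^ 2 / (2 * l) := by field_simp; ring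
          have h2 : 0 ≤ (l * (dMatrix β c v g).det + 1) ^ 2 / (2 * l) := by positivity
          linarith
        by_cases hg : g ∈ Gᶜ
        · rw [Set.indicator_of_mem hg]; exact key
        · rw [Set.indicator_of_notMem hg]; positivity
      · rw [Set.indicator_of_notMem hw, add_zero]
        refine le_trans ?_ (by positivity)
        by_cases hg : g ∈ Gᶜ
        · rw [Set.indicator_of_mem hg]
          linarith [(dMatrix_posDef hn hβ hβ1 hc hv hw).det_pos]
        · rw [Set.indicator_of_notMem hg]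
    have hWm : MeasurableSet (toMeasurable (gauss (Edge n)) (wideBad n)) := measurableSet_toMeasurable _ _
    set W := toMeasurable (gauss (Edge n)) (wideBad n)
    have pt' : ∀ g, Gᶜ.indicator (fun g => -(dMatrix β c v g).det) g ≤
        l / 2 * (dMatrix β c v g).det ^ 2 + W.indicator (fun _ => 1 / (2 * l)) g := fun g =>
      (pt g).trans (add_le_add le_rfl (Set.indicator_le_indicator_of_subset (subset_toMeasurable _ _)
        (fun _ => by positivity) g))
    refine (integral_mono (hD.neg.indicator hW) ((hD2.const_mul _).add ((integrable_const _).indicator hWm)) pt').trans ?_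
    simp only [Pi.add_apply]
    rw [integral_add (hD2.const_mul _) ((integrable_const _).indicator hWm), integral_const_mul,
      integral_indicator_const _ hWm, smul_eq_mul]
    have hP : (gauss (Edge n)).real W ≤ 2 * Real.exp (-(19 / 100 * n)) := by
      rw [measureReal_def, measure_toMeasurable, ← measureReal_def, ← disorder_eq_gauss]
      exact wideBad_prob (by omega)
    refine (add_le_add (mul_le_mul_of_nonneg_left hD2e (by positivity)) (mul_le_mul_of_nonneg_right hP (by positivity))).trans ?_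
    rw [show l / 2 * Real.exp ((2 * β ^ 2 * v ^ 2 + 1 / 16) * n + 1) = Real.exp 1 / 2 * Real.exp (n * κ) by
      rw [Real.exp_add, hl, div_mul_eq_mul_div, div_mul_eq_mul_div, ← mul_assoc, ← Real.exp_add]; ring_nf]
    have h2 : 2 * Real.exp (-(19 / 100 * n)) * (1 / (2 * l)) ≤ Real.exp (n * κ) := by
      rw [show 2 * Real.exp (-(19 / 100 * n)) * (1 / (2 * l)) = Real.exp (-(19 / 100 * n)) / l by field_simp,
        hl, ← Real.exp_sub, Real.exp_le_exp]
      have h3 : β ^ 2 * v ^ 2 ≤ 1 * (2 / 7) ^ 2 := mul_le_mul hb2 (pow_le_pow_left₀ hv.le hv2 2) (sq_nonneg v) zero_le_one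
      rw [hκ]
      nlinarith
    have he3 : Real.exp 1 / 2 ≤ 2 := by linarith [Real.exp_one_lt_d9]
    have := mul_le_mul_of_nonneg_right he3 (Real.exp_pos (n * κ)).le
    linarith
  nlinarith [Real.exp_pos (n * κ)]

/-- Markov for the determinant on the positive event -/
theorem det_tail {β c v : ℝ} (hβ : 0 ≤ β) (hβ1 : β ≤ 1) (hc : 4 ≤ c) (hv : 0 < v) (hv2 : v ≤ 2 / 7)
    (hroot : c * v = 1 + β ^ 2 * v ^ 2) {t : ℝ} (ht : 0 < t) :
    ∀ᶠ n : ℕ in atTop, ∀ G : Set (Edge n → ℝ), MeasurableSet G → Disjoint G (wideBad n) →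
      (disorder n).real {g | g ∈ G ∧ Real.exp ((β ^ 2 * v ^ 2 / 2 + 2 * t) * n) ≤ (dMatrix β c v g).det} ≤
        Real.exp (-(t * n)) := by
  have hlim : Tendsto (fun n : ℕ => (Real.exp 1 * n + 3) * Real.exp (-(t * n))) atTop (𝓝 0) := by
    have h1 := (Real.tendsto_pow_mul_exp_neg_atTop_nhds_zero 1).comp (tendsto_natCast_atTop_atTop.const_mul_atTop ht)
    have h2 := (Real.tendsto_pow_mul_exp_neg_atTop_nhds_zero 0).comp (tendsto_natCast_atTop_atTop.const_mul_atTop ht)
    have := (h1.const_mul (Real.exp 1 / t)).add (h2.const_mul 3)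
    simp only [mul_zero, add_zero] at this
    refine this.congr fun n => ?_
    simp only [Function.comp_apply, pow_one, pow_zero, one_mul]
    field_simp
  filter_upwards [hlim.eventually_le_const one_pos, eventually_ge_atTop 9] with n hsmall hn G hG hGw
  have hD : Integrable (fun g : Edge n → ℝ => (dMatrix β c v g).det) (gauss (Edge n)) := by
    simp only [dMatrix_det]; exact (integrable_det _ _ _).const_mul _
  set T := Real.exp ((β ^ 2 * v ^ 2 / 2 + 2 * t) * n) with hT
  have h0 : 0 ≤ᵐ[gauss (Edge n)] G.indicator (fun g => (dMatrix β c v g).det) :=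
    Eventually.of_forall fun g => Set.indicator_nonneg (fun g hg =>
      (dMatrix_posDef hn hβ hβ1 hc hv (Set.disjoint_left.1 hGw hg)).det_pos.le) g
  have h := mul_meas_ge_le_integral_of_nonneg h0 (hD.indicator hG) T
  rw [integral_indicator hG] at h
  have hle := h.trans (mean_det_good hn hβ hβ1 hc hv hv2 hroot G hG hGw)
  rw [mul_comm, ← le_div_iff₀ (Real.exp_pos _)] at hle
  rw [disorder_eq_gauss]
  refine ((measureReal_mono fun g hg => ?_).trans hle).trans ?_
  · simp only [Set.mem_ofPred_eq] at hg ⊢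
    rw [Set.indicator_of_mem hg.1]
    exact hg.2
  · rw [mul_div_assoc, ← Real.exp_sub,
      show (n:ℝ) * (β ^ 2 * v ^ 2 / 2) - (β ^ 2 * v ^ 2 / 2 + 2 * t) * n = -(t * n) + -(t * n) by ring,
      Real.exp_add, ← mul_assoc]
    exact (mul_le_mul_of_nonneg_right hsmall (Real.exp_pos _).le).trans_eq (one_mul _)

end Vale.Agent.P150.High.Det
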