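import Vale.Agent.P150.GaussCalc

/-! # P150, all `β < 1`: large deviations of `|z|²/n` beat the quadratic tilt off the shell -/

open MeasureTheory ProbabilityTheory Filter
open scoped Topology

namespace Vale.Agent.P150.High

open Vale.Agent.P150

/-- `q - 1 - log q ≥ (q-1)²/(2 max(1,q))`, in two pieces -/
lemma rate_lower {q : ℝ} (hq : 0 < q) :
    (q ≤ 1 → (q - 1) ^ 2 / 2 ≤ q - 1 - Real.log q) ∧ (1 ≤ q → (q - 1) ^ 2 / (2 * q) ≤ q - 1 - Real.log q) := by
  constructor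
  · intro h1
    set g := fun x : ℝ => x - 1 - Real.log x - (x - 1) ^ 2 / 2
    have hd : ∀ x : ℝ, 0 < x → HasDerivAt g (-((x - 1) ^ 2) / x) x := fun x hx => by
      refine ((((hasDerivAt_id x).sub_const 1).sub (Real.hasDerivAt_log hx.ne')).sub
        ((((hasDerivAt_id x).sub_const 1).pow 2).div_const 2)).congr_deriv ?_
      simp only [id, Nat.cast_ofNat]
      field_simp
      ring
    have h := (antitoneOn_of_hasDerivWithinAt_nonpos (convex_Ioc (0:ℝ) 1)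
      (fun x hx => (hd x hx.1).continuousAt.continuousWithinAt)
      (fun x hx => (hd x (interior_subset hx).1).hasDerivWithinAt)
      (fun x hx => div_nonpos_of_nonpos_of_nonneg (neg_nonpos.2 (sq_nonneg _)) (interior_subset hx).1.le))
      ⟨hq, h1⟩ (Set.right_mem_Ioc.2 one_pos) h1
    simp [g] at h
    linarith
  · intro h1
    set g := fun x : ℝ => (x - x⁻¹) / 2 - Real.log x
    have hd : ∀ x : ℝ, 0 < x → HasDerivAt g ((x - 1) ^ 2 / (2 * x ^ 2)) x := fun x hx => by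
      refine ((((hasDerivAt_id x).sub (hasDerivAt_inv hx.ne')).div_const 2).sub
        (Real.hasDerivAt_log hx.ne')).congr_deriv ?_
      field_simp
      ring
    have h := (monotoneOn_of_hasDerivWithinAt_nonneg (convex_Ici (1:ℝ))
      (fun x (hx : x ∈ Set.Ici (1:ℝ)) => (hd x (one_pos.trans_le hx)).continuousAt.continuousWithinAt)
      (fun x hx => (hd x (one_pos.trans_le (interior_subset hx : x ∈ Set.Ici (1:ℝ)))).hasDerivWithinAt)
      (fun x _ => by positivity)) (Set.self_mem_Ici) (Set.mem_Ici.2 h1) h1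
    simp [g] at h
    rw [div_le_iff₀ (by positivity)]
    have e : q⁻¹ * q = 1 := inv_mul_cancel₀ hq.ne'
    nlinarith

/-- `-1/2 log (1 - 2s)`, the cumulant generating function of `z²` -/
noncomputable def cgf (s : ℝ) : ℝ := -(1 / 2) * Real.log (1 - 2 * s)

lemma exp_sumsq_cgf (n : ℕ) {s : ℝ} (hs : s < 1 / 2) :
    Integrable (fun z : Fin n → ℝ => Real.exp (s * ∑ i, z i ^ 2)) (gauss (Fin n)) ∧
      ∫ z, Real.exp (s * ∑ i, z i ^ 2) ∂gauss (Fin n) = Real.exp (n * cgf s) := by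
  obtain ⟨hi, he⟩ := exp_sumsq (ι := Fin n) hs
  refine ⟨hi, ?_⟩
  have h12 : 0 < 1 - 2 * s := by linarith
  rw [he, Fintype.card_fin, Real.exp_nat_mul, cgf, Real.sqrt_eq_rpow, Real.rpow_def_of_pos h12, ← Real.exp_neg]
  congr 2
  ring

/-- for every `q` off `1` some exponential tilt beats the quadratic term -/
lemma tilt_exists {a q : ℝ} (ha1 : 4 * a < 1) (hq0 : 0 ≤ q) (hqa : 4 * a * q < 1) (hq : q ≠ 1) :
    ∃ s : ℝ, s < 1 / 2 ∧ a * (q - 1) ^ 2 - s * q + cgf s < 0 := by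
  rcases hq0.eq_or_lt with rfl | hp
  · refine ⟨(1 - Real.exp 2) / 2, by linarith [Real.exp_pos 2], ?_⟩
    rw [cgf, show 1 - 2 * ((1 - Real.exp 2) / 2) = Real.exp 2 by ring, Real.log_exp]
    linarith
  refine ⟨(1 - q⁻¹) / 2, by linarith [inv_pos.2 hp], ?_⟩
  rw [cgf, show 1 - 2 * ((1 - q⁻¹) / 2) = q⁻¹ by ring, Real.log_inv]
  have e : (1 - q⁻¹) / 2 * q = (q - 1) / 2 := by field_simp
  rw [e]
  obtain ⟨hl, hu⟩ := rate_lower hp
  have hsq : 0 < (q - 1) ^ 2 := pow_two_pos_of_ne_zero (sub_ne_zero.2 hq)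
  rcases le_total q 1 with h | h
  · have := mul_lt_mul_of_pos_right ha1 hsq
    linarith [hl h]
  · have h2 := hu h
    have h3 : 4 * a * (q - 1) ^ 2 < (q - 1) ^ 2 / q := by
      rw [lt_div_iff₀ hp]
      nlinarith
    have e2 : (q - 1) ^ 2 / (2 * q) = (q - 1) ^ 2 / q / 2 := by rw [div_div, mul_comm]
    linarith

/-- off the shell `|q - 1| < δ`, with `q ≤ Q`, the tilted mass is exponentially small -/
theorem shell_ld {a δ Q : ℝ} (ha : 0 ≤ a) (ha1 : 4 * a < 1) (haQ : 4 * a * Q < 1) (hδ : 0 < δ) :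
    ∃ γ K : ℝ, 0 < γ ∧ 0 ≤ K ∧ ∀ n : ℕ, 0 < n →
      ∫⁻ z, ({z : Fin n → ℝ | δ ≤ |(∑ i, z i ^ 2) / n - 1| ∧ (∑ i, z i ^ 2) / n ≤ Q}.indicator
        (fun z => ENNReal.ofReal (Real.exp (n * (a * ((∑ i, z i ^ 2) / n - 1) ^ 2)))) z) ∂gauss (Fin n) ≤
        ENNReal.ofReal (K * Real.exp (-(γ * n))) := by
  set S := {q : ℝ | (0 ≤ q ∧ q ≤ Q) ∧ δ ≤ |q - 1|}
  have hS : IsCompact S := by
    have : S = Set.Icc 0 Q ∩ {q | δ ≤ |q - 1|} := rfl
    rw [this]
    exact isCompact_Icc.inter_right (isClosed_le continuous_const (by fun_prop))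
  set U := fun p : ℝ × ℕ => {q : ℝ | p.1 < 1 / 2 ∧ a * (q - 1) ^ 2 - p.1 * q + cgf p.1 < -(1 / ((p.2 : ℝ) + 1))}
  have hU : ∀ p, IsOpen (U p) := fun p => by
    by_cases hp : p.1 < 1 / 2
    · simp only [U, hp, true_and]
      exact isOpen_lt (by fun_prop) continuous_const
    · rw [show U p = ∅ from Set.eq_empty_of_forall_notMem fun q hq => hp hq.1]
      exact isOpen_empty
  obtain ⟨t, ht⟩ := hS.elim_finite_subcover U hU fun q hq => by
    obtain ⟨s, hs, hlt⟩ := tilt_exists ha1 hq.1.1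
      (lt_of_le_of_lt (mul_le_mul_of_nonneg_left hq.1.2 (by linarith)) haQ) fun h => by
        have := hq.2; rw [h, sub_self, abs_zero] at this; linarith
    obtain ⟨m, hm⟩ := exists_nat_one_div_lt (neg_pos.2 hlt)
    exact Set.mem_iUnion.2 ⟨(s, m), hs, by linarith⟩
  set M := t.sup Prod.snd
  refine ⟨1 / ((M : ℝ) + 1), t.card, by positivity, Nat.cast_nonneg _, fun n hn => ?_⟩
  set t' := t.filter fun p => p.1 < 1 / 2
  set γ := 1 / ((M : ℝ) + 1)
  have hn' : (0:ℝ) < n := by exact_mod_cast hn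
  have pt : ∀ z : Fin n → ℝ, ({z : Fin n → ℝ | δ ≤ |(∑ i, z i ^ 2) / n - 1| ∧ (∑ i, z i ^ 2) / n ≤ Q}.indicator
      (fun z => ENNReal.ofReal (Real.exp (n * (a * ((∑ i, z i ^ 2) / n - 1) ^ 2)))) z) ≤
      ENNReal.ofReal (∑ p ∈ t', Real.exp (-(n * (γ + cgf p.1))) * Real.exp (p.1 * ∑ i, z i ^ 2)) := by
    intro z
    by_cases hz : z ∈ {z : Fin n → ℝ | δ ≤ |(∑ i, z i ^ 2) / n - 1| ∧ (∑ i, z i ^ 2) / n ≤ Q}
    · rw [Set.indicator_of_mem hz]
      refine ENNReal.ofReal_le_ofReal ?_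
      obtain ⟨p, hp, hp1, hp2⟩ : ∃ p ∈ t, (∑ i, z i ^ 2) / n ∈ U p := by
        simpa using ht (show (∑ i, z i ^ 2) / n ∈ S from ⟨⟨by positivity, hz.2⟩, hz.1⟩)
      refine le_trans ?_ (Finset.single_le_sum (f := fun p : ℝ × ℕ =>
        Real.exp (-(n * (γ + cgf p.1))) * Real.exp (p.1 * ∑ i, z i ^ 2)) (fun _ _ => by positivity)
        (Finset.mem_filter.2 ⟨hp, hp1⟩))
      rw [← Real.exp_add, Real.exp_le_exp]
      have hM : γ ≤ 1 / ((p.2 : ℝ) + 1) := one_div_le_one_div_of_le (by positivity)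
        (add_le_add (by exact_mod_cast Finset.le_sup (f := Prod.snd) hp) le_rfl)
      have h2 := mul_le_mul_of_nonneg_left (show a * ((∑ i, z i ^ 2) / n - 1) ^ 2 - p.1 * ((∑ i, z i ^ 2) / n) +
        cgf p.1 ≤ -γ by linarith) hn'.le
      have e : (n:ℝ) * (p.1 * ((∑ i, z i ^ 2) / n)) = p.1 * ∑ i, z i ^ 2 := by field_simp
      nlinarith [e]
    · rw [Set.indicator_of_notMem hz]; exact bot_le
  refine (lintegral_mono pt).trans ?_
  have hi : ∀ p ∈ t', Integrable (fun z : Fin n → ℝ =>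
      Real.exp (-(n * (γ + cgf p.1))) * Real.exp (p.1 * ∑ i, z i ^ 2)) (gauss (Fin n)) := fun p hp =>
    (exp_sumsq_cgf n (Finset.mem_filter.1 hp).2).1.const_mul _
  rw [← ofReal_integral_eq_lintegral_ofReal (integrable_finsetSum _ hi)
    (Eventually.of_forall fun z => Finset.sum_nonneg fun p _ => by positivity), integral_finsetSum _ hi]
  refine ENNReal.ofReal_le_ofReal (le_trans (Finset.sum_le_card_nsmul _ _ (Real.exp (-(γ * n))) fun p hp => ?_) ?_)
  · rw [integral_const_mul, (exp_sumsq_cgf n (Finset.mem_filter.1 hp).2).2, ← Real.exp_add]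
    exact Real.exp_le_exp.2 (le_of_eq (by ring))
  · rw [nsmul_eq_mul]
    exact mul_le_mul_of_nonneg_right (by exact_mod_cast Finset.card_filter_le _ _) (Real.exp_pos _).le

end Vale.Agent.P150.High
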