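import Vale.Agent.P150.High.PlantedSpec
import Vale.Agent.P150.High.DetTail
import Vale.Agent.P150.High.ShellLD
import Vale.Agent.P150.PA.Translate

/-!
# P150, all `β < 1`: change of variables for the planted channel

The field `A⁻¹ Bᵀ z` has density `√det (v A) exp (|y|²/2 - v yᵀ A y / 2)` against `√v · y`, `y` standard.
The average over the disorder of the density tilts the couplings to `tiltCpl` and leaves the weight
`exp (n a ((q-1)² - 1))`, `a = β² v² / 4`, `q = |y|²/n`; the determinant cancels `exp (-a n)`.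
-/

open MeasureTheory ProbabilityTheory Filter Matrix
open scoped Topology ENNReal

namespace Vale.Agent.P150.High

open Vale.Agent.P150

variable {n : ℕ}

namespace Planted

/-! ### the root -/

lemma var_spec {β c : ℝ} (hβ : 0 ≤ β) (hβ1 : β < 1) (hc : 4 ≤ c) :
    0 < plantVar β c ∧ plantVar β c ≤ 2 / 7 ∧ c * plantVar β c = 1 + β ^ 2 * plantVar β c ^ 2 := by
  have hb : β ^ 2 ≤ 1 := by nlinarith
  have h0 : 0 ≤ c ^ 2 - 4 * β ^ 2 := by nlinarith
  have hs : 3 ≤ Real.sqrt (c ^ 2 - 4 * β ^ 2) := Real.le_sqrt_of_sq_le (by nlinarith)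
  have hw : 0 < c + Real.sqrt (c ^ 2 - 4 * β ^ 2) := by linarith
  have hsq := Real.sq_sqrt h0
  unfold plantVar
  refine ⟨div_pos two_pos hw, div_le_div_of_nonneg_left zero_le_two (by norm_num) (by linarith), ?_⟩
  generalize Real.sqrt (c ^ 2 - 4 * β ^ 2) = s at *
  field_simp
  linear_combination -hsq

/-! ### the law of the field -/

/-- change of variables `z = √v B y` -/
lemma field_law {A : Matrix (Fin n) (Fin n) ℝ} {B : Fin n → Fin n → ℝ} (hA : A.det ≠ 0)
    (hB : (Matrix.of B)ᵀ * Matrix.of B = A) {v : ℝ} (hv : 0 < v) {S : Set (Fin n → ℝ)} (hS : MeasurableSet S) :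
    gauss (Fin n) {z | A⁻¹ *ᵥ fieldOf B z ∈ S} = ENNReal.ofReal (Real.sqrt (v • A).det) *
      ∫⁻ y, {y : Fin n → ℝ | Real.sqrt v • y ∈ S}.indicator
        (fun y => ENNReal.ofReal (Real.exp (((∑ i, y i ^ 2) - v * (y ⬝ᵥ (A *ᵥ y))) / 2))) y ∂gauss (Fin n) := by
  set Bm : Matrix (Fin n) (Fin n) ℝ := Matrix.of B
  have hdet : A.det = Bm.det * Bm.det := by rw [← hB, det_mul, det_transpose]
  have hBd : Bm.det ≠ 0 := fun h => hA (by rw [hdet, h, zero_mul])
  set M := Real.sqrt v • Bm with hMdef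
  have hMd : M.det ≠ 0 := by
    rw [hMdef, det_smul]
    exact mul_ne_zero (pow_ne_zero _ (Real.sqrt_pos.2 hv).ne') hBd
  have hfld : ∀ z, fieldOf B z = Bmᵀ *ᵥ z := fun z => rfl
  have hξ : ∀ y, A⁻¹ *ᵥ fieldOf B (M *ᵥ y) = Real.sqrt v • y := fun y => by
    rw [hfld, mulVec_mulVec, mulVec_mulVec, hMdef, Matrix.mul_smul, Matrix.mul_assoc, hB,
      nonsing_inv_mul _ hA.isUnit, smul_mulVec, one_mulVec]
  have habs : |M.det| = Real.sqrt (v • A).det := by
    rw [← Real.sqrt_sq_eq_abs, hMdef, det_smul, det_smul, hdet, mul_pow, ← pow_mul, mul_comm (Fintype.card (Fin n)),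
      pow_mul, Real.sq_sqrt hv.le, sq]
  have hT : MeasurableSet {z : Fin n → ℝ | A⁻¹ *ᵥ fieldOf B z ∈ S} := by
    have : Continuous fun z : Fin n → ℝ => A⁻¹ *ᵥ fieldOf B z :=
      Continuous.matrix_mulVec continuous_const (continuous_pi fun i => by unfold fieldOf; fun_prop)
    exact this.measurable hS
  set p := fun z : Fin n → ℝ => ENNReal.ofReal (∏ i, gaussianPDFReal 0 1 (z i))
  have hp : Measurable p := by fun_prop
  have hlin : Continuous (toLin' M) := LinearMap.continuous_on_pi _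
  have hf := hp.indicator hT
  have key : ∫⁻ z, {z : Fin n → ℝ | A⁻¹ *ᵥ fieldOf B z ∈ S}.indicator p z =
      ENNReal.ofReal |M.det| * ∫⁻ y, {z : Fin n → ℝ | A⁻¹ *ᵥ fieldOf B z ∈ S}.indicator p (M *ᵥ y) := by
    have h := lintegral_map (μ := (volume : Measure (Fin n → ℝ))) hf hlin.measurable
    rw [Real.map_matrix_volume_pi_eq_smul_volume_pi hMd, lintegral_smul_measure, smul_eq_mul] at h
    simp only [toLin'_apply] at h
    rw [← h, ← mul_assoc, ← ENNReal.ofReal_mul (abs_nonneg _), ← abs_mul, mul_inv_cancel₀ hMd, abs_one,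
      ENNReal.ofReal_one, one_mul]
  rw [PA.gauss_eq_withDensity, withDensity_apply _ hT, ← lintegral_indicator hT, key, habs,
    lintegral_withDensity_eq_lintegral_mul_non_measurable volume hp
      (Eventually.of_forall fun _ => ENNReal.ofReal_lt_top)]
  congr 1
  refine lintegral_congr fun y => ?_
  simp only [Pi.mul_apply]
  by_cases hy : Real.sqrt v • y ∈ S
  · rw [Set.indicator_of_mem (show M *ᵥ y ∈ {z | A⁻¹ *ᵥ fieldOf B z ∈ S} by
        simp only [Set.mem_ofPred_eq, hξ]; exact hy),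
      Set.indicator_of_mem (show y ∈ {y : Fin n → ℝ | Real.sqrt v • y ∈ S} from hy)]
    simp only [p]
    rw [← ENNReal.ofReal_mul (Finset.prod_nonneg fun i _ => gaussianPDFReal_nonneg 0 1 _)]
    congr 1
    simp only [gaussianPDFReal_def, sub_zero, NNReal.coe_one, mul_one]
    rw [Finset.prod_mul_distrib, Finset.prod_mul_distrib, mul_assoc, ← Real.exp_sum, ← Real.exp_sum, ← Real.exp_add]
    congr 2
    have e : ∑ i, (M *ᵥ y) i ^ 2 = v * (y ⬝ᵥ (A *ᵥ y)) := by
      have h1 : ∑ i, (M *ᵥ y) i ^ 2 = (M *ᵥ y) ⬝ᵥ (M *ᵥ y) := by simp only [dotProduct, sq]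
      rw [h1, dotProduct_mulVec, vecMul_mulVec, hMdef, transpose_smul, Matrix.smul_mul, Matrix.mul_smul, hB, smul_smul,
        Real.mul_self_sqrt hv.le, vecMul_smul, smul_dotProduct, smul_eq_mul, ← dotProduct_mulVec]
    rw [← Finset.sum_div, ← Finset.sum_div, Finset.sum_neg_distrib, Finset.sum_neg_distrib, e]
    ring
  · rw [Set.indicator_of_notMem (show M *ᵥ y ∉ {z | A⁻¹ *ᵥ fieldOf B z ∈ S} by
        simp only [Set.mem_ofPred_eq, hξ]; exact hy),
      Set.indicator_of_notMem (show y ∉ {y : Fin n → ℝ | Real.sqrt v • y ∈ S} from hy), mul_zero]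

/-! ### the good event for the couplings -/

/-- the quadratic form is below `2.25` -/
def normEvent (n : ℕ) : Set (Edge n → ℝ) :=
  {g | ∀ x : Fin n → ℝ, |∑ i, ∑ j, coupling g i j * (x i * x j)| ≤ 9 / 4 * Real.sqrt n * ∑ i, x i ^ 2}

lemma normEvent_measurable : MeasurableSet (normEvent n) := by
  have : normEvent n = ⋂ x : Fin n → ℝ,
      {g | |∑ i, ∑ j, coupling g i j * (x i * x j)| ≤ 9 / 4 * Real.sqrt n * ∑ i, x i ^ 2} := by
    ext g; simp [normEvent]
  rw [this]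
  refine (isClosed_iInter fun x => isClosed_le ?_ continuous_const).measurableSet
  exact (continuous_finsetSum _ fun i _ => continuous_finsetSum _ fun j _ =>
    (Det.continuous_coupling i j).mul continuous_const).abs

lemma normEvent_disjoint : Disjoint (normEvent n) (Det.wideBad n) := by
  refine Set.disjoint_left.2 fun g hg ⟨x, hx⟩ => ?_
  have := hg x
  nlinarith [mul_nonneg (Real.sqrt_nonneg (n:ℝ)) (Finset.sum_nonneg fun i (_ : i ∈ Finset.univ) => sq_nonneg (x i))]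

lemma normEvent_compl : ∃ c : ℝ, 0 < c ∧ ∀ n, 0 < n →
    (disorder n).real (normEvent n)ᶜ ≤ 2 * Real.exp (-(c * n)) := by
  obtain ⟨c, hc, h⟩ := opnorm_bound (ε := 1 / 40) (δ := 1 / 50) (by norm_num) (by norm_num) (by norm_num) (by norm_num)
  refine ⟨c, hc, fun n hn => (measureReal_mono fun g hg => ?_).trans (h n hn)⟩
  simp only [normEvent, Set.mem_compl_iff, Set.mem_ofPred_eq, not_forall, not_le] at hg ⊢
  obtain ⟨x, hx⟩ := hg
  refine ⟨x, lt_of_le_of_lt (mul_le_mul_of_nonneg_right (mul_le_mul_of_nonneg_right (by norm_num)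
    (Real.sqrt_nonneg _)) (Finset.sum_nonneg fun i _ => sq_nonneg _)) hx⟩

lemma quad_shift (β c : ℝ) (g : Edge n → ℝ) (x : Fin n → ℝ) :
    x ⬝ᵥ (shiftMat c (plantCpl β g) *ᵥ x) = β / Real.sqrt n * (∑ i, ∑ j, coupling g i j * (x i * x j)) +
      β ^ 2 / n * ((∑ i, x i) ^ 2 - ∑ i, x i ^ 2) + c * ∑ i, x i ^ 2 := by
  have hrow : ∀ i, (shiftMat c (plantCpl β g) *ᵥ x) i =
      β / Real.sqrt n * (∑ j, coupling g i j * x j) + β ^ 2 / n * ((∑ j, x j) - x i) + c * x i := fun i => by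
    have e : ∀ j, shiftMat c (plantCpl β g) i j * x j = β / Real.sqrt n * (coupling g i j * x j) +
        β ^ 2 / n * x j + if i = j then (c - β ^ 2 / n) * x j else 0 := fun j => by
      simp only [shiftMat, plantCpl, cpl, Matrix.add_apply, Matrix.of_apply, Matrix.smul_apply, Matrix.one_apply,
        smul_eq_mul]
      split_ifs <;> ring
    simp only [mulVec, dotProduct, e, Finset.sum_add_distrib, ← Finset.mul_sum, Finset.sum_ite_eq, Finset.mem_univ,
      if_true]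
    ring
  simp only [dotProduct, hrow, mul_add, mul_sub, Finset.sum_add_distrib, Finset.sum_sub_distrib]
  have e1 : ∑ i, x i * (β / Real.sqrt n * ∑ j, coupling g i j * x j) =
      β / Real.sqrt n * ∑ i, ∑ j, coupling g i j * (x i * x j) := by
    simp only [Finset.mul_sum]
    exact Finset.sum_congr rfl fun i _ => Finset.sum_congr rfl fun j _ => by ring
  have e2 : ∑ i, x i * (β ^ 2 / n * ∑ j, x j) = β ^ 2 / n * (∑ i, x i) ^ 2 := by
    rw [← Finset.sum_mul]; ring
  have e3 : ∀ k : ℝ, ∑ i, x i * (k * x i) = k * ∑ i, x i ^ 2 := fun k => by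
    rw [Finset.mul_sum]; exact Finset.sum_congr rfl fun i _ => by ring
  rw [e1, e2, e3, e3]

lemma shift_symm (β c : ℝ) (g : Edge n → ℝ) : (shiftMat c (plantCpl β g)).IsHermitian := by
  ext i j
  simp only [conjTranspose_apply, star_trivial, shiftMat, plantCpl, cpl, Matrix.add_apply, Matrix.of_apply,
    Matrix.smul_apply, Matrix.one_apply, coupling_symm g i j, eq_comm (a := i)]

/-- `A ≥ 3/2` on the good event -/
lemma shift_lower {β c : ℝ} (hn : 4 ≤ n) (hβ : 0 ≤ β) (hβ1 : β < 1) (hc : 4 ≤ c) {g : Edge n → ℝ}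
    (hg : g ∈ normEvent n) (x : Fin n → ℝ) :
    3 / 2 * ∑ i, x i ^ 2 ≤ x ⬝ᵥ (shiftMat c (plantCpl β g) *ᵥ x) := by
  have hn' : (4:ℝ) ≤ n := by exact_mod_cast hn
  have hs : 0 < Real.sqrt n := Real.sqrt_pos.2 (by linarith)
  have hS : 0 ≤ ∑ i, x i ^ 2 := Finset.sum_nonneg fun i _ => sq_nonneg _
  have h1 : -(9 / 4 * ∑ i, x i ^ 2) ≤ β / Real.sqrt n * ∑ i, ∑ j, coupling g i j * (x i * x j) := by
    refine le_trans ?_ (mul_le_mul_of_nonneg_left (abs_le.1 (hg x)).1 (by positivity))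
    rw [show β / Real.sqrt n * -(9 / 4 * Real.sqrt n * ∑ i, x i ^ 2) = β * -(9 / 4 * ∑ i, x i ^ 2) by field_simp]
    nlinarith
  have h2 : β ^ 2 / (n:ℝ) ≤ 1 / 4 := by
    rw [div_le_div_iff₀ (by linarith) (by norm_num)]; nlinarith
  have h3 : 0 ≤ β ^ 2 / (n:ℝ) * (∑ i, x i) ^ 2 := by positivity
  rw [quad_shift]
  nlinarith

lemma shift_det_pos {β c : ℝ} (hn : 4 ≤ n) (hβ : 0 ≤ β) (hβ1 : β < 1) (hc : 4 ≤ c) {g : Edge n → ℝ}
    (hg : g ∈ normEvent n) : 0 < (shiftMat c (plantCpl β g)).det := by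
  refine (Matrix.PosDef.of_dotProduct_mulVec_pos (shift_symm β c g) fun x hx => ?_).det_pos
  rw [star_trivial]
  obtain ⟨i, hi⟩ : ∃ i, x i ≠ 0 := Function.ne_iff.1 hx
  have hp : 0 < ∑ i, x i ^ 2 := lt_of_lt_of_le (by positivity : 0 < x i ^ 2)
    (Finset.single_le_sum (f := fun i => x i ^ 2) (fun _ _ => sq_nonneg _) (Finset.mem_univ i))
  linarith [shift_lower hn hβ hβ1 hc hg x]

/-- the rank one term costs a factor `2` -/
lemma det_rank_one {β c v : ℝ} (hn : 9 ≤ n) (hβ : 0 ≤ β) (hβ1 : β < 1) (hc : 4 ≤ c) (hv : 0 < v)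
    {g : Edge n → ℝ} (hg : g ∈ normEvent n) :
    (v • shiftMat c (plantCpl β g)).det ≤ 2 * (Det.dMatrix β c v g).det := by
  set D := Det.dMatrix β c v g
  have hD := Det.dMatrix_posDef hn hβ hβ1.le hc hv (Set.disjoint_left.1 normEvent_disjoint hg)
  set k := v * (β ^ 2 / n)
  have e : v • shiftMat c (plantCpl β g) =
      D + replicateCol Unit (fun _ : Fin n => k) * replicateRow Unit (fun _ : Fin n => (1:ℝ)) := by
    ext i j
    simp only [D, k, Det.dMatrix, shiftMat, plantCpl, cpl, Matrix.smul_apply, Matrix.add_apply, Matrix.of_apply,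
      Matrix.one_apply, Matrix.mul_apply, replicateCol_apply, replicateRow_apply, smul_eq_mul, Finset.univ_unique,
      Finset.sum_singleton]
    split_ifs <;> ring
  set x := D⁻¹ *ᵥ fun _ => (1:ℝ)
  have hDx : D *ᵥ x = fun _ => (1:ℝ) := by
    rw [mulVec_mulVec, mul_nonsing_inv _ hD.det_pos.ne'.isUnit, one_mulVec]
  have e2 : (1 + replicateRow Unit (fun _ : Fin n => (1:ℝ)) * D⁻¹ * replicateCol Unit (fun _ : Fin n => k)).det =
      1 + k * ∑ i, x i := by
    rw [det_unique]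
    simp only [Matrix.add_apply, Matrix.one_apply_eq, Matrix.mul_apply, replicateCol_apply, replicateRow_apply,
      one_mul, x, mulVec, dotProduct, mul_one, Finset.sum_mul, Finset.mul_sum]
    congr 1
    rw [Finset.sum_comm]
    exact Finset.sum_congr rfl fun i _ => Finset.sum_congr rfl fun j _ => by ring
  rw [e, det_add_replicateCol_mul_replicateRow hD.det_pos.ne'.isUnit, e2, mul_comm (2:ℝ)]
  refine mul_le_mul_of_nonneg_left ?_ hD.det_pos.le
  have hn' : (9:ℝ) ≤ n := by exact_mod_cast hn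
  have hcs := sq_sum_le_card_mul_sum_sq (s := (Finset.univ : Finset (Fin n))) (f := x)
  simp only [Finset.card_univ, Fintype.card_fin] at hcs
  have hS : 0 ≤ ∑ i, x i ^ 2 := Finset.sum_nonneg fun i _ => sq_nonneg _
  have hlow : 3 / 2 * v * ∑ i, x i ^ 2 ≤ ∑ i, x i := by
    have h := Det.quad_dMatrix β c v g x
    rw [hDx] at h
    simp only [dotProduct, mul_one] at h
    rw [h, mul_comm (3 / 2) v, mul_assoc]
    refine mul_le_mul_of_nonneg_left ?_ hv.le
    have hs : 0 < Real.sqrt n := Real.sqrt_pos.2 (by linarith)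
    have h1 : -(9 / 4 * ∑ i, x i ^ 2) ≤ β / Real.sqrt n * ∑ i, ∑ j, coupling g i j * (x i * x j) := by
      refine le_trans ?_ (mul_le_mul_of_nonneg_left (abs_le.1 (hg x)).1 (by positivity))
      rw [show β / Real.sqrt n * -(9 / 4 * Real.sqrt n * ∑ i, x i ^ 2) = β * -(9 / 4 * ∑ i, x i ^ 2) by field_simp]
      nlinarith
    have h2 : β ^ 2 / (n:ℝ) ≤ 1 / 9 := by
      rw [div_le_div_iff₀ (by linarith) (by norm_num)]; nlinarith
    nlinarith
  have hX : 0 ≤ ∑ i, x i := le_trans (by positivity) hlow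
  have hX2 : 3 / 2 * v * (∑ i, x i) ≤ n := by
    rcases hX.eq_or_lt with h | h
    · rw [← h]; linarith
    refine le_of_mul_le_mul_right ?_ h
    have h1 := mul_le_mul_of_nonneg_left hcs (by positivity : (0:ℝ) ≤ 3 / 2 * v)
    have h2 := mul_le_mul_of_nonneg_left hlow (by positivity : (0:ℝ) ≤ (n:ℝ))
    nlinarith
  have hb2 : β ^ 2 ≤ 1 := by nlinarith
  have hk : k * ∑ i, x i ≤ 2 / 3 := by
    have : k * ∑ i, x i = β ^ 2 / n * (v * ∑ i, x i) := by simp only [k]; ring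
    rw [this]
    calc β ^ 2 / n * (v * ∑ i, x i) ≤ 1 / n * (2 / 3 * n) :=
          mul_le_mul (div_le_div_of_nonneg_right hb2 (by positivity)) (by linarith) (by positivity) (by positivity)
      _ = 2 / 3 := by field_simp
  linarith

/-! ### averaging over the disorder -/

lemma tilt_lintegral (a : Edge n → ℝ) {S : Set (Edge n → ℝ)} (hS : MeasurableSet S) :
    ∫⁻ g, S.indicator (fun g => ENNReal.ofReal (Real.exp (dot a g))) g ∂gauss (Edge n) =
      ENNReal.ofReal (Real.exp (Channel.nsq a / 2)) * gauss (Edge n) {g | g + a ∈ S} := by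
  have hi : Integrable (fun g => Real.exp (dot a g)) (gauss (Edge n)) :=
    Integrable.of_integral_ne_zero (by rw [mgf_dot]; exact (Real.exp_pos _).ne')
  have e : S.indicator (fun g => ENNReal.ofReal (Real.exp (dot a g))) =
      fun g => ENNReal.ofReal (S.indicator (fun g => Real.exp (dot a g)) g) := by
    funext g
    by_cases hg : g ∈ S <;> simp [hg]
  have hm : MeasurableSet {g : Edge n → ℝ | g + a ∈ S} := (measurable_add_const a) hS
  rw [e, ← ofReal_integral_eq_lintegral_ofReal (hi.indicator hS)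
    (Eventually.of_forall fun g => Set.indicator_nonneg (fun _ _ => (Real.exp_pos _).le) g),
    ← ofReal_measureReal, ← ENNReal.ofReal_mul (Real.exp_pos _).le]
  congr 1
  have ht := Channel.translate a (S.indicator fun _ => (1:ℝ))
  have e1 : (fun g : Edge n → ℝ => S.indicator (fun _ => (1:ℝ)) (g + a)) = {g | g + a ∈ S}.indicator 1 := by
    funext g
    by_cases hg : g + a ∈ S <;> simp [hg]
  rw [show ∫ g, S.indicator (fun _ => (1:ℝ)) (g + a) ∂gauss (Edge n) = (gauss (Edge n)).real {g | g + a ∈ S} by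
    rw [e1, integral_indicator_one hm]] at ht
  rw [ht, ← integral_const_mul]
  refine integral_congr_ae (Eventually.of_forall fun g => ?_)
  by_cases hg : g ∈ S
  · simp only [Set.indicator_of_mem hg, mul_one, ← Real.exp_add]; ring_nf
  · simp [hg]

/-- the integrand of the field law, cut at `|y|² ≤ n / v` -/
noncomputable def weight (β c v : ℝ) (E : Set ((Fin n → Fin n → ℝ) × (Fin n → ℝ))) (g : Edge n → ℝ)
    (y : Fin n → ℝ) : ℝ≥0∞ :=
  {p : (Edge n → ℝ) × (Fin n → ℝ) | (∑ i, p.2 i ^ 2) / n ≤ 1 / v ∧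
      (plantCpl β p.1, Real.sqrt v • p.2) ∈ E}.indicator
    (fun p => ENNReal.ofReal (Real.exp (((∑ i, p.2 i ^ 2) - v * (p.2 ⬝ᵥ (shiftMat c (plantCpl β p.1) *ᵥ p.2))) / 2))) (g, y)

lemma measurable_cpl (β : ℝ) : Measurable fun g : Edge n → ℝ => cpl β g :=
  measurable_pi_lambda _ fun i => measurable_pi_lambda _ fun j => by unfold cpl coupling; split_ifs <;> fun_prop

lemma measurable_plantCpl (β : ℝ) : Measurable fun g : Edge n → ℝ => plantCpl β g :=
  measurable_pi_lambda _ fun i => measurable_pi_lambda _ fun j => by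
    unfold plantCpl cpl coupling; split_ifs <;> fun_prop

lemma measurable_weight (β c v : ℝ) {E : Set ((Fin n → Fin n → ℝ) × (Fin n → ℝ))} (hE : MeasurableSet E) :
    Measurable (Function.uncurry (weight β c v E)) := by
  have hf : Measurable fun p : (Edge n → ℝ) × (Fin n → ℝ) => (plantCpl β p.1, Real.sqrt v • p.2) :=
    ((measurable_plantCpl β).comp measurable_fst).prodMk
      (measurable_pi_lambda _ fun i => ((measurable_pi_apply i).comp measurable_snd).const_mul _)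
  have hq : Measurable fun p : (Edge n → ℝ) × (Fin n → ℝ) => (∑ i, p.2 i ^ 2) / (n:ℝ) := by fun_prop
  refine Measurable.indicator ?_ ((measurableSet_le hq measurable_const).inter (hf hE))
  refine (Real.measurable_exp.comp ?_).ennreal_ofReal
  simp only [quad_shift]
  have : ∀ i j : Fin n, Measurable fun p : (Edge n → ℝ) × (Fin n → ℝ) => coupling p.1 i j := fun i j =>
    ((Det.continuous_coupling i j).measurable).comp measurable_fst
  fun_prop

lemma plant_add_tilt (β v : ℝ) (hv : 0 ≤ v) (g : Edge n → ℝ) (y : Fin n → ℝ) :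
    plantCpl β (g + fun e => -(v * β / Real.sqrt n) * (y e.1.1 * y e.1.2)) = tiltCpl β g (Real.sqrt v • y) := by
  funext i j
  have hs := Real.mul_self_sqrt hv
  have hn : Real.sqrt n * Real.sqrt n = n := Real.mul_self_sqrt (Nat.cast_nonneg n)
  simp only [plantCpl, tiltCpl, cpl, coupling, Pi.add_apply, Pi.smul_apply, smul_eq_mul]
  rw [show Real.sqrt v * y i * (Real.sqrt v * y j) = v * (y i * y j) by rw [mul_mul_mul_comm, hs]]
  rcases lt_trichotomy i j with h | rfl | h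
  · simp only [dif_pos h, if_neg h.ne]
    rw [mul_add, show β / Real.sqrt n * (-(v * β / Real.sqrt n) * (y i * y j)) =
      -(β ^ 2 / (Real.sqrt n * Real.sqrt n)) * (v * (y i * y j)) by ring, hn]
    ring
  · simp
  · simp only [dif_neg h.not_gt, dif_pos h, if_neg h.ne']
    rw [mul_add, show β / Real.sqrt n * (-(v * β / Real.sqrt n) * (y j * y i)) =
      -(β ^ 2 / (Real.sqrt n * Real.sqrt n)) * (v * (y i * y j)) by ring, hn]
    ring

/-- the disorder average at fixed `y` -/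
lemma avg_le {β c v : ℝ} (hn : 0 < n) (hβ : 0 ≤ β) (hβ1 : β < 1) (hv : 0 < v)
    (hroot : c * v = 1 + β ^ 2 * v ^ 2) {E : Set ((Fin n → Fin n → ℝ) × (Fin n → ℝ))} (hE : MeasurableSet E)
    (y : Fin n → ℝ) :
    ∫⁻ g, weight β c v E g y ∂gauss (Edge n) ≤ {y : Fin n → ℝ | (∑ i, y i ^ 2) / n ≤ 1 / v}.indicator
      (fun y => ENNReal.ofReal (Real.exp (n * (β ^ 2 * v ^ 2 / 4) * (((∑ i, y i ^ 2) / n - 1) ^ 2 - 1) + 1)) *
        gauss (Edge n) {g | (tiltCpl β g (Real.sqrt v • y), Real.sqrt v • y) ∈ E}) y := by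
  by_cases hy : (∑ i, y i ^ 2) / n ≤ 1 / v
  swap
  · rw [Set.indicator_of_notMem (show y ∉ {y : Fin n → ℝ | (∑ i, y i ^ 2) / n ≤ 1 / v} from hy)]
    refine le_of_eq (lintegral_eq_zero_of_ae_eq_zero (Eventually.of_forall fun g => ?_))
    exact Set.indicator_of_notMem (fun h => hy h.1) _
  rw [Set.indicator_of_mem (show y ∈ {y : Fin n → ℝ | (∑ i, y i ^ 2) / n ≤ 1 / v} from hy)]
  have hn' : (0:ℝ) < n := by exact_mod_cast hn
  set S := ∑ i, y i ^ 2
  set a : Edge n → ℝ := fun e => -(v * β / Real.sqrt n) * (y e.1.1 * y e.1.2)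
  set T := {g : Edge n → ℝ | (plantCpl β g, Real.sqrt v • y) ∈ E}
  have hT : MeasurableSet T := ((measurable_plantCpl β).prodMk measurable_const) hE
  set k := ((1 - v * c) * S - v * (β ^ 2 / n) * ((∑ i, y i) ^ 2 - S)) / 2
  have hw : ∀ g, weight β c v E g y =
      ENNReal.ofReal (Real.exp k) * T.indicator (fun g => ENNReal.ofReal (Real.exp (dot a g))) g := fun g => by
    by_cases hg : g ∈ T
    · rw [weight, Set.indicator_of_mem (show (g, y) ∈ {p : (Edge n → ℝ) × (Fin n → ℝ) | (∑ i, p.2 i ^ 2) / n ≤ 1 / v ∧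
          (plantCpl β p.1, Real.sqrt v • p.2) ∈ E} from ⟨hy, hg⟩), Set.indicator_of_mem hg,
        ← ENNReal.ofReal_mul (Real.exp_pos _).le, ← Real.exp_add, quad_shift, quad_coupling]
      congr 2
      have e : dot a g = -(v * β / Real.sqrt n) / 2 * ∑ e : Edge n, 2 * (y e.1.1 * y e.1.2) * g e := by
        rw [dot, Finset.mul_sum]; exact Finset.sum_congr rfl fun e _ => by simp only [a]; ring
      rw [e]; simp only [k, S]; ring
    · rw [weight, Set.indicator_of_notMem (fun h => hg h.2), Set.indicator_of_notMem hg, mul_zero]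
  simp only [hw]
  rw [lintegral_const_mul' _ _ ENNReal.ofReal_ne_top, tilt_lintegral a hT, ← mul_assoc,
    ← ENNReal.ofReal_mul (Real.exp_pos _).le, ← Real.exp_add,
    show {g : Edge n → ℝ | g + a ∈ T} = {g | (tiltCpl β g (Real.sqrt v • y), Real.sqrt v • y) ∈ E} by
      ext g; simp only [T, a, Set.mem_ofPred_eq, plant_add_tilt β v hv.le]]
  refine mul_le_mul' (ENNReal.ofReal_le_ofReal (Real.exp_le_exp.2 ?_)) le_rfl
  have h2 := two_sum_edge fun i => y i ^ 2
  have hns : Channel.nsq a = v ^ 2 * β ^ 2 / n * ∑ e : Edge n, y e.1.1 ^ 2 * y e.1.2 ^ 2 := by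
    rw [Channel.nsq, Finset.mul_sum]
    refine Finset.sum_congr rfl fun e _ => ?_
    simp only [a, mul_pow, neg_sq, div_pow, Real.sq_sqrt hn'.le]
  have h4 : 0 ≤ ∑ i, (y i ^ 2) ^ 2 := Finset.sum_nonneg fun i _ => sq_nonneg _
  have hq : S * v ≤ n := by
    rw [div_le_div_iff₀ hn' hv] at hy; linarith
  rw [hns]
  have key : k + v ^ 2 * β ^ 2 / n * (∑ e : Edge n, y e.1.1 ^ 2 * y e.1.2 ^ 2) / 2 =
      n * (β ^ 2 * v ^ 2 / 4) * ((S / n - 1) ^ 2 - 1) - v * (β ^ 2 / n) / 2 * (∑ i, y i) ^ 2 +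
        v * (β ^ 2 / n) / 2 * S - v ^ 2 * β ^ 2 / (4 * n) * ∑ i, (y i ^ 2) ^ 2 := by
    simp only [k]
    rw [show ∑ e : Edge n, y e.1.1 ^ 2 * y e.1.2 ^ 2 = (S ^ 2 - ∑ i, (y i ^ 2) ^ 2) / 2 by linarith,
      show v * c = 1 + β ^ 2 * v ^ 2 by linarith]
    field_simp
    ring
  rw [key]
  have h5 : 0 ≤ v * (β ^ 2 / n) / 2 * (∑ i, y i) ^ 2 := by positivity
  have h6 : 0 ≤ v ^ 2 * β ^ 2 / (4 * n) * ∑ i, (y i ^ 2) ^ 2 := by positivity
  have h7 : v * (β ^ 2 / n) / 2 * S ≤ 1 := by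
    rw [show v * (β ^ 2 / n) / 2 * S = β ^ 2 * (S * v) / (2 * n) by ring, div_le_one (by positivity)]
    have hb2 : β ^ 2 ≤ 1 := by nlinarith
    nlinarith [mul_le_mul hb2 hq (mul_nonneg (Finset.sum_nonneg fun i (_ : i ∈ Finset.univ) => sq_nonneg (y i)) hv.le)
      zero_le_one]
  linarith

/-- the mean of the cut integrand -/
lemma mean_le {β c δ γ K e₀ : ℝ} (hn : 0 < n) (hβ : 0 ≤ β) (hβ1 : β < 1) (hc : 4 ≤ c) (hK : 0 ≤ K)
    (hshell : ∫⁻ z, ({z : Fin n → ℝ | δ ≤ |(∑ i, z i ^ 2) / n - 1| ∧ (∑ i, z i ^ 2) / n ≤ 1 / plantVar β c}.indicator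
      (fun z => ENNReal.ofReal (Real.exp (n * (β ^ 2 * plantVar β c ^ 2 / 4 * ((∑ i, z i ^ 2) / n - 1) ^ 2)))) z)
      ∂gauss (Fin n) ≤ ENNReal.ofReal (K * Real.exp (-(γ * n))))
    {E : Set ((Fin n → Fin n → ℝ) × (Fin n → ℝ))} (hE : MeasurableSet E)
    (hP : (prodLaw n).real {p | (tiltCpl β p.1 (prodXi β c p.2), prodXi β c p.2) ∈ E} ≤ e₀) :
    ∫⁻ g, ∫⁻ y, weight β c (plantVar β c) E g y ∂gauss (Fin n) ∂gauss (Edge n) ≤
      ENNReal.ofReal (Real.exp (1 - β ^ 2 * plantVar β c ^ 2 / 4 * n) *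
        (Real.exp (β ^ 2 * plantVar β c ^ 2 / 4 * δ ^ 2 * n) * e₀ + K * Real.exp (-(γ * n)))) := by
  obtain ⟨hv, hv2, hroot⟩ := var_spec hβ hβ1 hc
  set v := plantVar β c with hvdef
  set a := β ^ 2 * v ^ 2 / 4 with ha
  have ha0 : 0 ≤ a := by positivity
  have hn' : (0:ℝ) ≤ n := Nat.cast_nonneg n
  set P := {p : (Edge n → ℝ) × (Fin n → ℝ) | (tiltCpl β p.1 (prodXi β c p.2), prodXi β c p.2) ∈ E}
  have hPm : MeasurableSet P := by
    refine (Measurable.prodMk ?_ ?_) hE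
    · refine measurable_pi_lambda _ fun i => measurable_pi_lambda _ fun j => ?_
      have : Measurable fun p : (Edge n → ℝ) × (Fin n → ℝ) => cpl β p.1 i j :=
        (measurable_pi_iff.1 (measurable_pi_iff.1 (measurable_cpl β) i) j).comp measurable_fst
      unfold tiltCpl prodXi
      by_cases h : i = j
      · subst h; simp only [if_true, add_zero]; exact this
      · simp only [if_neg h]; fun_prop
    · unfold prodXi; fun_prop
  have he0 : 0 ≤ e₀ := measureReal_nonneg.trans hP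
  rw [lintegral_lintegral_swap (measurable_weight β c v hE).aemeasurable]
  set sh := fun z : Fin n → ℝ => ({z : Fin n → ℝ | δ ≤ |(∑ i, z i ^ 2) / n - 1| ∧ (∑ i, z i ^ 2) / n ≤ 1 / v}.indicator
      (fun z => ENNReal.ofReal (Real.exp (n * (a * ((∑ i, z i ^ 2) / n - 1) ^ 2)))) z)
  set P₁ := fun y : Fin n → ℝ => gauss (Edge n) ((fun g => (g, y)) ⁻¹' P)
  have hP1m : Measurable P₁ := measurable_measure_prodMk_right hPm
  have pt : ∀ y, ∫⁻ g, weight β c v E g y ∂gauss (Edge n) ≤ ENNReal.ofReal (Real.exp (1 - a * n)) *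
      (ENNReal.ofReal (Real.exp (a * δ ^ 2 * n)) * P₁ y + sh y) := fun y => by
    refine (avg_le hn hβ hβ1 hv hroot hE y).trans ?_
    have hset : {g | (tiltCpl β g (Real.sqrt v • y), Real.sqrt v • y) ∈ E} = (fun g => (g, y)) ⁻¹' P := rfl
    by_cases hy : (∑ i, y i ^ 2) / n ≤ 1 / v
    swap
    · rw [Set.indicator_of_notMem (show y ∉ {y : Fin n → ℝ | (∑ i, y i ^ 2) / n ≤ 1 / v} from hy)]; exact bot_le
    rw [Set.indicator_of_mem (show y ∈ {y : Fin n → ℝ | (∑ i, y i ^ 2) / n ≤ 1 / v} from hy), hset]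
    rw [show (n:ℝ) * (β ^ 2 * v ^ 2 / 4) * (((∑ i, y i ^ 2) / n - 1) ^ 2 - 1) + 1 =
      (1 - a * n) + n * (a * ((∑ i, y i ^ 2) / n - 1) ^ 2) by rw [ha]; ring, Real.exp_add,
      ENNReal.ofReal_mul (Real.exp_pos _).le, mul_assoc]
    refine mul_le_mul' le_rfl ?_
    rcases lt_or_ge |(∑ i, y i ^ 2) / n - 1| δ with h | h
    · refine le_add_right (mul_le_mul' (ENNReal.ofReal_le_ofReal (Real.exp_le_exp.2 ?_)) le_rfl)
      have : ((∑ i, y i ^ 2) / n - 1) ^ 2 ≤ δ ^ 2 := by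
        rw [← sq_abs]; exact pow_le_pow_left₀ (abs_nonneg _) h.le 2
      nlinarith [mul_le_mul_of_nonneg_left this (mul_nonneg ha0 hn')]
    · refine le_add_left ?_
      simp only [sh]
      rw [Set.indicator_of_mem (show y ∈ {z : Fin n → ℝ | δ ≤ |(∑ i, z i ^ 2) / n - 1| ∧
        (∑ i, z i ^ 2) / n ≤ 1 / v} from ⟨h, hy⟩)]
      exact mul_le_of_le_one_right' prob_le_one
  refine (lintegral_mono pt).trans ?_
  rw [lintegral_const_mul' _ _ ENNReal.ofReal_ne_top, lintegral_add_left (hP1m.const_mul _),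
    lintegral_const_mul' _ _ ENNReal.ofReal_ne_top, ENNReal.ofReal_mul (Real.exp_pos _).le,
    ENNReal.ofReal_add (mul_nonneg (Real.exp_pos _).le he0) (mul_nonneg hK (Real.exp_pos _).le),
    ENNReal.ofReal_mul (Real.exp_pos (a * δ ^ 2 * n)).le]
  refine mul_le_mul' le_rfl (add_le_add (mul_le_mul' le_rfl ?_) hshell)
  have : IsProbabilityMeasure (prodLaw n) := by unfold prodLaw; infer_instance
  have h : prodLaw n P = ∫⁻ y, P₁ y ∂gauss (Fin n) := by
    rw [prodLaw, Measure.prod_apply_symm hPm]; rfl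
  rw [← h, ← ofReal_measureReal]
  exact ENNReal.ofReal_le_ofReal hP

/-- the far tail `|z|² > 3n/2` -/
lemma gauss_far (n : ℕ) :
    (gauss (Fin n)).real {z | 3 / 2 * n ≤ ∑ i, z i ^ 2} ≤ Real.exp (-(1 / 40 * n)) := by
  obtain ⟨hi, he⟩ := exp_sumsq_cgf n (show (1:ℝ) / 10 < 1 / 2 by norm_num)
  have h := mul_meas_ge_le_integral_of_nonneg (Eventually.of_forall fun z => (Real.exp_pos _).le) hi
    (Real.exp (1 / 10 * (3 / 2 * n)))
  rw [he, mul_comm, ← le_div_iff₀ (Real.exp_pos _), ← Real.exp_sub] at h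
  refine (measureReal_mono (s₁ := {z : Fin n → ℝ | 3 / 2 * (n:ℝ) ≤ ∑ i, z i ^ 2}) fun z hz => ?_).trans
    (h.trans (Real.exp_le_exp.2 ?_))
  · exact Real.exp_le_exp.2 (mul_le_mul_of_nonneg_left hz (by norm_num : (0:ℝ) ≤ 1 / 10))
  · have h2 : cgf (1 / 10) ≤ 1 / 8 := by
      rw [cgf, show (1:ℝ) - 2 * (1 / 10) = (5 / 4 : ℝ)⁻¹ by norm_num, Real.log_inv]
      linarith [Real.log_le_sub_one_of_pos (show (0:ℝ) < 5 / 4 by norm_num)]
    nlinarith [mul_le_mul_of_nonneg_left h2 (Nat.cast_nonneg n : (0:ℝ) ≤ n)]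

/-- the field lands in `E` with probability at most `√det · weight + tail` -/
lemma field_le {β c : ℝ} (hn : 4 ≤ n) (hβ : 0 ≤ β) (hβ1 : β < 1) (hc : 4 ≤ c) {g : Edge n → ℝ}
    (hg : g ∈ normEvent n) {B : Fin n → Fin n → ℝ} (hB : IsFactor (plantCpl β g) c B)
    {E : Set ((Fin n → Fin n → ℝ) × (Fin n → ℝ))} (hE : MeasurableSet E) :
    gauss (Fin n) {z | (plantCpl β g, (shiftMat c (plantCpl β g))⁻¹ *ᵥ fieldOf B z) ∈ E} ≤
      ENNReal.ofReal (Real.sqrt (plantVar β c • shiftMat c (plantCpl β g)).det) *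
        (∫⁻ y, weight β c (plantVar β c) E g y ∂gauss (Fin n)) + ENNReal.ofReal (Real.exp (-(1 / 40 * n))) := by
  obtain ⟨hv, -, -⟩ := var_spec hβ hβ1 hc
  set v := plantVar β c with hvdef
  set A := shiftMat c (plantCpl β g) with hAdef
  have hA := (shift_det_pos hn hβ hβ1 hc hg).ne'
  have hBA : (Matrix.of B)ᵀ * Matrix.of B = A := by
    ext i j
    simp only [hAdef, Matrix.mul_apply, transpose_apply, Matrix.of_apply, shiftMat, Matrix.add_apply,
      Matrix.smul_apply, Matrix.one_apply, smul_eq_mul, mul_ite, mul_one, mul_zero]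
    exact hB.2.1 i j
  set S := {ξ : Fin n → ℝ | (plantCpl β g, ξ) ∈ E}
  set R := {ξ : Fin n → ℝ | ∑ i, ξ i ^ 2 ≤ n}
  have hS : MeasurableSet (S ∩ R) :=
    ((measurable_const.prodMk measurable_id) hE).inter (measurableSet_le (by fun_prop) measurable_const)
  have hsub : {z | (plantCpl β g, A⁻¹ *ᵥ fieldOf B z) ∈ E} ⊆
      {z | A⁻¹ *ᵥ fieldOf B z ∈ S ∩ R} ∪ {z | 3 / 2 * n ≤ ∑ i, z i ^ 2} := fun z hz => by
    by_cases hR : A⁻¹ *ᵥ fieldOf B z ∈ R
    · exact Or.inl ⟨hz, hR⟩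
    refine Or.inr ?_
    set ξ := A⁻¹ *ᵥ fieldOf B z
    have hR' : (n:ℝ) < ∑ i, ξ i ^ 2 := not_le.1 hR
    have hBu : IsUnit (Matrix.of B)ᵀ.det := by
      refine isUnit_iff_ne_zero.2 fun h => hA ?_
      rw [← hAdef, ← hBA, det_mul, h, zero_mul]
    have hz' : z = Matrix.of B *ᵥ ξ := by
      have h1 : (Matrix.of B)ᵀ *ᵥ z = (Matrix.of B)ᵀ *ᵥ (Matrix.of B *ᵥ ξ) := by
        rw [mulVec_mulVec, hBA, mulVec_mulVec, mul_nonsing_inv _ hA.isUnit, one_mulVec]; rfl
      have h2 := congrArg ((Matrix.of B)ᵀ⁻¹ *ᵥ ·) h1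
      simpa only [mulVec_mulVec _ _ (Matrix.of B)ᵀ, nonsing_inv_mul _ hBu, one_mulVec] using h2
    have e : ∑ i, z i ^ 2 = ξ ⬝ᵥ (A *ᵥ ξ) := by
      rw [hz', ← hBA, ← mulVec_mulVec, dotProduct_mulVec, vecMul_transpose]
      simp only [dotProduct, sq]
    show 3 / 2 * (n:ℝ) ≤ _
    rw [e]
    linarith [shift_lower hn hβ hβ1 hc hg ξ]
  refine (measure_mono hsub).trans ((measure_union_le _ _).trans (add_le_add ?_ ?_))
  · rw [field_law hA hBA hv hS]
    refine mul_le_mul' le_rfl (le_of_eq (lintegral_congr fun y => ?_))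
    have hiff : Real.sqrt v • y ∈ R ↔ (∑ i, y i ^ 2) / n ≤ 1 / v := by
      have hn' : (0:ℝ) < n := by exact_mod_cast (by omega : 0 < n)
      simp only [R, Set.mem_ofPred_eq, Pi.smul_apply, smul_eq_mul, mul_pow, Real.sq_sqrt hv.le, ← Finset.mul_sum]
      rw [div_le_div_iff₀ hn' hv, mul_comm v, one_mul]
    by_cases hy : Real.sqrt v • y ∈ S ∩ R
    · rw [weight, Set.indicator_of_mem (show y ∈ {y : Fin n → ℝ | Real.sqrt v • y ∈ S ∩ R} from hy),
        Set.indicator_of_mem (show (g, y) ∈ {p : (Edge n → ℝ) × (Fin n → ℝ) | (∑ i, p.2 i ^ 2) / n ≤ 1 / v ∧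
          (plantCpl β p.1, Real.sqrt v • p.2) ∈ E} from ⟨hiff.1 hy.2, hy.1⟩)]
    · rw [weight, Set.indicator_of_notMem (show y ∉ {y : Fin n → ℝ | Real.sqrt v • y ∈ S ∩ R} from hy),
        Set.indicator_of_notMem fun h => hy ⟨h.2, hiff.2 h.1⟩]
  · rw [← ofReal_measureReal]
    exact ENNReal.ofReal_le_ofReal (gauss_far n)

lemma eventually_exp_le {C R r : ℝ} (h : r < R) :
    ∀ᶠ n : ℕ in atTop, C * Real.exp (-(R * n)) ≤ Real.exp (-(r * n)) := by
  have ht : Tendsto (fun n : ℕ => C * Real.exp (-((R - r) * n))) atTop (𝓝 0) := by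
    simpa using (Real.tendsto_exp_atBot.comp (tendsto_neg_atTop_atBot.comp
      (tendsto_natCast_atTop_atTop.const_mul_atTop (sub_pos.2 h)))).const_mul C
  filter_upwards [ht.eventually_le_const one_pos] with n hn
  rw [show -(R * (n:ℝ)) = -((R - r) * n) + -(r * n) by ring, Real.exp_add, ← mul_assoc]
  exact (mul_le_mul_of_nonneg_right hn (Real.exp_pos _).le).trans_eq (one_mul _)

end Planted

open Planted

/-- **Planted.** -/
theorem planted : PlantedStatement := by
  intro β c c₀ hβ hβ1 hc hc₀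
  obtain ⟨hv, hv2, hroot⟩ := var_spec hβ hβ1 hc
  set v := plantVar β c with hvdef
  have hb2 : β ^ 2 ≤ 1 := by nlinarith
  have hav : 4 * (β ^ 2 * v ^ 2 / 4) ≤ v := by nlinarith
  set a := β ^ 2 * v ^ 2 / 4 with ha
  set δ := Real.sqrt c₀
  have hδ2 : δ ^ 2 = c₀ := Real.sq_sqrt hc₀.le
  have haQ : 4 * a * (1 / v) < 1 := by
    rw [ha, show 4 * (β ^ 2 * v ^ 2 / 4) * (1 / v) = β ^ 2 * v by field_simp]
    nlinarith
  obtain ⟨γ, K, hγ, hK, hshell⟩ := shell_ld (a := a) (by positivity) (by linarith) haQ (Real.sqrt_pos.2 hc₀)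
  obtain ⟨cop, hcop, hop⟩ := normEvent_compl
  set r := min (3 * c₀ / 4) γ
  have hr : 0 < r := lt_min (by positivity) hγ
  set t := r / 4 with ht
  set c₁ := min (min (r / 8) (1 / 80)) (cop / 2) with hc1
  have h1 : c₁ ≤ r / 8 := (min_le_left _ _).trans (min_le_left _ _)
  have h2 : c₁ ≤ 1 / 80 := (min_le_left _ _).trans (min_le_right _ _)
  have h3 : c₁ ≤ cop / 2 := min_le_right _ _
  refine ⟨c₁, lt_min (lt_min (by positivity) (by norm_num)) (by positivity), ?_⟩
  filter_upwards [Det.det_tail hβ hβ1.le hc hv hv2 hroot (show 0 < t by positivity), eventually_ge_atTop 9,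
    eventually_exp_le (C := 4) (show c₁ < r / 4 by linarith), eventually_exp_le (C := 2) (show c₁ < 1 / 40 by linarith),
    eventually_exp_le (C := 6) (show c₁ < cop by linarith), eventually_exp_le (C := 3) (show c₁ < t by linarith),
    eventually_exp_le (C := 3 * (Real.exp 1 * (1 + K))) (show c₁ < r / 2 by linarith)]
    with n hdet hn he1 he2 he3 he4 he5 E hE hP
  have hn' : (0:ℝ) ≤ n := Nat.cast_nonneg n
  set J := fun g : Edge n → ℝ => ∫⁻ y, weight β c v E g y ∂gauss (Fin n)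
  set Bdet := {g : Edge n → ℝ | g ∈ normEvent n ∧ Real.exp ((β ^ 2 * v ^ 2 / 2 + 2 * t) * n) ≤ (Det.dMatrix β c v g).det}
  set BJ := {g : Edge n → ℝ | ENNReal.ofReal (Real.exp (-((a + r / 2) * n))) ≤ J g}
  have hsub : {g : Edge n → ℝ | ∃ B, IsFactor (plantCpl β g) c B ∧ Real.exp (-(c₁ * n)) <
      (gauss (Fin n)).real {z | (plantCpl β g, (shiftMat c (plantCpl β g))⁻¹ *ᵥ fieldOf B z) ∈ E}} ⊆
      ((normEvent n)ᶜ ∪ Bdet) ∪ BJ := by
    rintro g ⟨B, hB, hlt⟩
    by_contra hcon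
    simp only [Set.mem_union, Set.mem_compl_iff, not_or, not_not, Bdet, BJ, Set.mem_ofPred_eq, not_and, not_le] at hcon
    obtain ⟨⟨hg, hd⟩, hJ⟩ := hcon
    have hsq : Real.sqrt (v • shiftMat c (plantCpl β g)).det ≤ 2 * Real.exp ((a + t) * n) := by
      rw [Real.sqrt_le_left (by positivity)]
      refine (det_rank_one hn hβ hβ1 hc hv hg).trans ?_
      rw [mul_pow, ← Real.exp_nat_mul]
      push_cast
      rw [show 2 * ((a + t) * n) = (β ^ 2 * v ^ 2 / 2 + 2 * t) * n by rw [ha]; ring]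
      nlinarith [hd hg, Real.exp_pos ((β ^ 2 * v ^ 2 / 2 + 2 * t) * n)]
    have hb := field_le (by omega) hβ hβ1 hc hg hB hE
    have hfin := hb.trans (add_le_add (mul_le_mul' (ENNReal.ofReal_le_ofReal hsq) hJ.le) le_rfl)
    rw [← ENNReal.ofReal_mul (by positivity), ← ENNReal.ofReal_add (by positivity) (Real.exp_pos _).le] at hfin
    have hreal := ENNReal.toReal_mono ENNReal.ofReal_ne_top hfin
    rw [ENNReal.toReal_ofReal (by positivity)] at hreal
    have e : 2 * Real.exp ((a + t) * n) * Real.exp (-((a + r / 2) * n)) = 2 * Real.exp (-(r / 4 * n)) := by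
      rw [mul_assoc, ← Real.exp_add, ht]; ring_nf
    rw [e, ← measureReal_def] at hreal
    linarith
  have hJm : Measurable J := (measurable_weight β c v hE).lintegral_prod_right'
  have hPJ : (disorder n).real BJ ≤ Real.exp 1 * (1 + K) * Real.exp (-(r / 2 * n)) := by
    have hm := mean_le (δ := δ) (by omega) hβ hβ1 hc hK (hshell n (by omega)) hE hP
    have hmk := mul_meas_ge_le_lintegral (μ := gauss (Edge n)) hJm (ENNReal.ofReal (Real.exp (-((a + r / 2) * n))))
    have hle := ENNReal.toReal_mono ENNReal.ofReal_ne_top (hmk.trans hm)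
    rw [ENNReal.toReal_mul, ENNReal.toReal_ofReal (Real.exp_pos _).le,
      ENNReal.toReal_ofReal (by positivity), ← measureReal_def, mul_comm, ← le_div_iff₀ (Real.exp_pos _)] at hle
    rw [disorder_eq_gauss]
    refine hle.trans ?_
    rw [div_le_iff₀ (Real.exp_pos _)]
    have b1 : Real.exp (a * δ ^ 2 * n) * Real.exp (-(c₀ * n)) ≤ Real.exp (-(r * n)) := by
      rw [← Real.exp_add, hδ2]
      refine Real.exp_le_exp.2 ?_
      have hr1 : r ≤ 3 * c₀ / 4 := min_le_left _ _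
      have := mul_le_mul_of_nonneg_left (show a ≤ 1 / 4 by linarith) (mul_nonneg hc₀.le hn')
      nlinarith [mul_le_mul_of_nonneg_right hr1 hn']
    have b2 : K * Real.exp (-(γ * n)) ≤ K * Real.exp (-(r * n)) :=
      mul_le_mul_of_nonneg_left (Real.exp_le_exp.2
        (neg_le_neg (mul_le_mul_of_nonneg_right (min_le_right _ _) hn'))) hK
    refine (mul_le_mul_of_nonneg_left (add_le_add b1 b2) (Real.exp_pos _).le).trans (le_of_eq ?_)
    rw [show Real.exp 1 * (1 + K) * Real.exp (-(r / 2 * n)) * Real.exp (-((a + r / 2) * n)) =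
      Real.exp 1 * (Real.exp (-(r / 2 * n)) * Real.exp (-((a + r / 2) * n))) * (1 + K) by ring,
      ← Real.exp_add, ← Real.exp_add,
      show Real.exp (-(r * n)) + K * Real.exp (-(r * n)) = Real.exp (-(r * n)) * (1 + K) by ring,
      ← mul_assoc, ← Real.exp_add]
    congr 2
    ring
  have hPd : (disorder n).real Bdet ≤ Real.exp (-(t * n)) := hdet _ normEvent_measurable normEvent_disjoint
  refine (measureReal_mono hsub).trans ((measureReal_union_le _ _).trans
    ((add_le_add (measureReal_union_le _ _) le_rfl).trans ?_))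
  have := hop n (by omega)
  linarith

end Vale.Agent.P150.High
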