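import Vale.Agent.P150.High.MinEigSpec
import Vale.Agent.P150.High.AmpLip
import Vale.Agent.P150.High.LipConc
import Vale.Agent.P150.High.Planted

/-!
# P150, all `β < 1`: the margin with exponentially small failure probability

The distance to the event where the margin holds and the inputs are bounded is Lipschitz; it vanishes on a
set of probability `1/2`, hence is `o(√n)` outside an exponentially small event, and the margin is stable
under such moves.
-/

open MeasureTheory ProbabilityTheory Filter Matrix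
open scoped Topology

namespace Vale.Agent.P150.High.MinEigBoost

open Vale.Agent.P150 Vale.Agent.P150.Fast
open Vale.Agent.P150.PartB (nrm fnrm)
open AmpLip (nrm_add nrm_smul nrm_nonneg nrm_mulVec)

variable {n : ℕ}

/-- squared distance of two inputs -/
def dist2 (p q : (Edge n → ℝ) × (Fin n → ℝ)) : ℝ := ∑ e, (p.1 e - q.1 e) ^ 2 + ∑ i, (p.2 i - q.2 i) ^ 2

/-- far from a set of probability `1/2` is exponentially unlikely -/
lemma far_prob {A : Set ((Edge n → ℝ) × (Fin n → ℝ))} (hA : 1 / 2 ≤ (prodLaw n).real A) {τ : ℝ} (hτ : 0 < τ)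
    (hsmall : Real.sqrt 2 * Real.exp 1 * Real.exp (-(τ ^ 2 / (Real.exp 1 * Real.pi ^ 2))) < 1 / 2) :
    (prodLaw n).real {p | ∀ q ∈ A, (2 * τ) ^ 2 ≤ dist2 p q} ≤
      Real.sqrt 2 * Real.exp 1 * Real.exp (-(τ ^ 2 / (Real.exp 1 * Real.pi ^ 2))) := by
  set e := MeasurableEquiv.sumPiEquivProdPi fun _ : Edge n ⊕ Fin n => ℝ
  have hmp : MeasurePreserving e (gauss (Edge n ⊕ Fin n)) (prodLaw n) :=
    measurePreserving_sumPiEquivProdPi fun _ => gaussianReal 0 1
  have hpre : ∀ s, (prodLaw n).real s = (gauss (Edge n ⊕ Fin n)).real (e ⁻¹' s) := fun s => by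
    rw [measureReal_def, measureReal_def, hmp.measure_preimage_equiv]
  have hd : ∀ z w, dist2 (e z) (e w) = ∑ k, (z k - w k) ^ 2 := fun z w => by
    rw [Fintype.sum_sum_type]; rfl
  set S := WithLp.toLp 2 '' (e ⁻¹' A)
  set f : (Edge n ⊕ Fin n → ℝ) → ℝ := fun z => Metric.infDist (WithLp.toLp 2 z) S
  have hdist : ∀ z w : Edge n ⊕ Fin n → ℝ,
      dist (WithLp.toLp 2 z) (WithLp.toLp 2 w) = √(∑ k, (z k - w k) ^ 2) := fun z w => by
    rw [EuclideanSpace.dist_eq]; simp [Real.dist_eq, sq_abs]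
  have hf : ∀ z w, |f z - f w| ≤ 1 * √(∑ k, (z k - w k) ^ 2) := fun z w => by
    rw [one_mul, ← hdist, ← Real.dist_eq]
    exact (Metric.lipschitz_infDist_pt S).dist_le_mul _ _ |>.trans_eq (by simp)
  have hne : S.Nonempty := by
    refine Set.Nonempty.image _ (Set.nonempty_iff_ne_empty.2 fun h => ?_)
    have := hA
    rw [hpre, h, measureReal_empty] at this
    norm_num at this
  have hf' : ∀ z w, |(fun z => -f z) z - (fun z => -f z) w| ≤ 1 * √(∑ k, (z k - w k) ^ 2) := fun z w => by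
    rw [show -f z - -f w = -(f z - f w) by ring, abs_neg]; exact hf z w
  have hmean : ∫ z, f z ∂gauss (Edge n ⊕ Fin n) < τ := by
    by_contra hcon
    have h := LipConc.tail one_pos hf' hτ
    rw [integral_neg, one_pow, mul_one] at h
    have hsub : (prodLaw n).real A ≤
        (gauss (Edge n ⊕ Fin n)).real {z | τ ≤ -f z - -∫ w, f w ∂gauss (Edge n ⊕ Fin n)} := by
      rw [hpre]
      refine measureReal_mono fun z hz => ?_
      have h0 : f z = 0 := Metric.infDist_zero_of_mem ⟨z, hz, rfl⟩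
      show τ ≤ -f z - -_
      rw [h0]; linarith
    linarith
  have h := LipConc.tail one_pos hf hτ
  rw [one_pow, mul_one] at h
  refine le_trans ?_ h
  rw [hpre]
  refine measureReal_mono fun z hz => ?_
  show τ ≤ f z - _
  suffices 2 * τ ≤ f z by linarith
  refine (Metric.le_infDist hne).2 fun y hy => ?_
  obtain ⟨w, hw, rfl⟩ := hy
  rw [hdist, ← hd, ← Real.sqrt_sq (by linarith : (0:ℝ) ≤ 2 * τ)]
  exact Real.sqrt_le_sqrt (hz _ hw)

/-- bounded inputs -/
def goodSet (n : ℕ) : Set ((Edge n → ℝ) × (Fin n → ℝ)) :=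
  {p | p.1 ∈ Planted.normEvent n ∧ ∑ i, p.2 i ^ 2 < 3 / 2 * n}

lemma goodSet_compl {cop : ℝ} (hop : (disorder n).real (Planted.normEvent n)ᶜ ≤ 2 * Real.exp (-(cop * n))) :
    (prodLaw n).real (goodSet n)ᶜ ≤ 2 * Real.exp (-(cop * n)) + Real.exp (-(1 / 40 * n)) := by
  refine (measureReal_mono (s₂ := (Planted.normEvent n)ᶜ ×ˢ Set.univ ∪
      Set.univ ×ˢ {z : Fin n → ℝ | 3 / 2 * n ≤ ∑ i, z i ^ 2}) (fun p hp => ?_)
      (by rw [prodLaw]; exact measure_ne_top _ _)).trans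
    ((measureReal_union_le _ _).trans (add_le_add ?_ ?_))
  · simp only [goodSet, Set.mem_compl_iff, Set.mem_ofPred_eq, not_and_or, not_lt] at hp
    simpa using hp
  · rw [prodLaw, measureReal_prod_prod, probReal_univ, mul_one]; exact hop
  · rw [prodLaw, measureReal_prod_prod]
    exact (mul_le_of_le_one_left measureReal_nonneg measureReal_le_one).trans (Planted.gauss_far n)

/-! ### stability -/

lemma tilt_symm (β : ℝ) (g : Edge n → ℝ) (ξ : Fin n → ℝ) (i j : Fin n) :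
    tiltCpl β g ξ i j = tiltCpl β g ξ j i := by
  simp only [tiltCpl, cpl, coupling_symm g i j, eq_comm (a := i), mul_comm (ξ i)]

lemma nrm_le_of_sq {v : Fin n → ℝ} {R : ℝ} (hR : 0 ≤ R) (h : ∑ i, v i ^ 2 ≤ R ^ 2) : nrm v ≤ R := by
  rw [PartB.nrm, ← Real.sqrt_sq hR]; exact Real.sqrt_le_sqrt h

lemma nrm_xi {β c : ℝ} (hβ : 0 ≤ β) (hβ1 : β < 1) (hc : 4 ≤ c) (z : Fin n → ℝ) :
    ∑ i, prodXi β c z i ^ 2 ≤ 2 / 7 * ∑ i, z i ^ 2 := by
  obtain ⟨hv, hv2, -⟩ := Planted.var_spec hβ hβ1 hc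
  simp only [prodXi, mul_pow, Real.sq_sqrt hv.le, ← Finset.mul_sum]
  exact mul_le_mul_of_nonneg_right hv2 (Finset.sum_nonneg fun i _ => sq_nonneg _)

/-- the couplings given bounded inputs -/
lemma tilt_opLe {β c : ℝ} (hn : 0 < n) (hβ : 0 ≤ β) (hβ1 : β < 1) (hc : 4 ≤ c)
    {p : (Edge n → ℝ) × (Fin n → ℝ)} (hp : p ∈ goodSet n) :
    OpNorm.OpLe (Matrix.of (tiltCpl β p.1 (prodXi β c p.2))) 5 := by
  have hn' : (0:ℝ) < n := by exact_mod_cast hn
  set ξ := prodXi β c p.2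
  have hx : ∑ i, ξ i ^ 2 ≤ n := by linarith [nrm_xi hβ hβ1 hc p.2, hp.2]
  refine OpNorm.opLe_of_quad (by norm_num) (Matrix.IsSymm.ext fun i j => tilt_symm β p.1 ξ j i) fun v => ?_
  set S := ∑ i, v i ^ 2
  have hS : 0 ≤ S := Finset.sum_nonneg fun i _ => sq_nonneg _
  have e : v ⬝ᵥ (Matrix.of (tiltCpl β p.1 ξ) *ᵥ v) =
      β / Real.sqrt n * (∑ i, ∑ j, coupling p.1 i j * (v i * v j)) +
        β ^ 2 / n * ((∑ i, v i) ^ 2 - (∑ i, v i * ξ i) ^ 2 - (S - ∑ i, (v i * ξ i) ^ 2)) := by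
    have ee : ∀ i j, v i * (tiltCpl β p.1 ξ i j * v j) = β / Real.sqrt n * (coupling p.1 i j * (v i * v j)) +
        β ^ 2 / n * (v i * v j) - β ^ 2 / n * (v i * ξ i * (v j * ξ j)) -
        if i = j then β ^ 2 / n * (v j ^ 2 - (v j * ξ j) ^ 2) else 0 := fun i j => by
      simp only [tiltCpl, cpl]
      by_cases h : i = j
      · subst h; simp only [if_true]; ring
      · simp only [if_neg h]; ring
    simp only [dotProduct, mulVec, of_apply, Finset.mul_sum, ee, Finset.sum_add_distrib, Finset.sum_sub_distrib,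
      Finset.sum_ite_eq, Finset.mem_univ, if_true]
    simp only [← Finset.mul_sum, ← Finset.sum_mul, Finset.sum_sub_distrib, S]
    ring
  rw [e, OpNorm.nsq]
  have h1 : |β / Real.sqrt n * ∑ i, ∑ j, coupling p.1 i j * (v i * v j)| ≤ 9 / 4 * S := by
    have hs : 0 < Real.sqrt n := Real.sqrt_pos.2 hn'
    rw [abs_mul, abs_of_nonneg (by positivity)]
    refine (mul_le_mul_of_nonneg_left (hp.1 v) (by positivity)).trans ?_
    rw [show β / Real.sqrt n * (9 / 4 * Real.sqrt n * S) = β * (9 / 4 * S) by field_simp]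
    exact mul_le_of_le_one_left (by positivity) hβ1.le
  have h2 : (∑ i, v i) ^ 2 ≤ n * S := by
    have := sq_sum_le_card_mul_sum_sq (s := (Finset.univ : Finset (Fin n))) (f := v)
    simpa using this
  have h3 : (∑ i, v i * ξ i) ^ 2 ≤ n * S := by
    refine (Finset.sum_mul_sq_le_sq_mul_sq _ v ξ).trans ?_
    rw [mul_comm]; exact mul_le_mul_of_nonneg_right hx hS
  have h4 : ∑ i, (v i * ξ i) ^ 2 ≤ n * S := by
    rw [Finset.mul_sum]
    refine Finset.sum_le_sum fun i _ => ?_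
    rw [mul_pow, mul_comm]
    exact mul_le_mul_of_nonneg_right
      ((Finset.single_le_sum (f := fun i => ξ i ^ 2) (fun _ _ => sq_nonneg _) (Finset.mem_univ i)).trans hx) (sq_nonneg _)
  have h5 : 0 ≤ ∑ i, (v i * ξ i) ^ 2 := Finset.sum_nonneg fun i _ => sq_nonneg _
  have hn1 : (1:ℝ) ≤ n := by exact_mod_cast hn
  have h6 : S ≤ n * S := le_mul_of_one_le_left hS hn1
  have h7 : |β ^ 2 / n * ((∑ i, v i) ^ 2 - (∑ i, v i * ξ i) ^ 2 - (S - ∑ i, (v i * ξ i) ^ 2))| ≤ 2 * S := by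
    rw [abs_mul, abs_of_nonneg (by positivity)]
    calc β ^ 2 / (n:ℝ) * |(∑ i, v i) ^ 2 - (∑ i, v i * ξ i) ^ 2 - (S - ∑ i, (v i * ξ i) ^ 2)|
        ≤ 1 / n * (2 * (n * S)) := by
          refine mul_le_mul (div_le_div_of_nonneg_right (by nlinarith) hn'.le) ?_ (abs_nonneg _) (by positivity)
          rw [abs_le]
          constructor <;> nlinarith [sq_nonneg (∑ i, v i), sq_nonneg (∑ i, v i * ξ i)]
      _ = 2 * S := by field_simp
  exact (abs_add_le _ _).trans (by linarith)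

/-- the inputs of the iteration move by `O(d)` -/
lemma moves {β c s : ℝ} (hn : 0 < n) (hβ : 0 ≤ β) (hβ1 : β < 1) (hc : 4 ≤ c) (hs : s ∈ Set.Icc (0 : ℝ) 1)
    {p q : (Edge n → ℝ) × (Fin n → ℝ)} (hp : p ∈ goodSet n) (hq : q ∈ goodSet n) {d : ℝ} (hd0 : 0 ≤ d)
    (hd : dist2 p q ≤ d ^ 2) :
    fnrm (Matrix.of (tiltCpl β p.1 (prodXi β c p.2)) - Matrix.of (tiltCpl β q.1 (prodXi β c q.2))) *
        Real.sqrt n ≤ 4 * d ∧
      nrm (prodF β c s p.2 - prodF β c s q.2) ≤ d ∧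
      nrm (prodY β c s p.1 p.2 - prodY β c s q.1 q.2) ≤ (13 + c) * d := by
  obtain ⟨hv, hv2, -⟩ := Planted.var_spec hβ hβ1 hc
  have hn' : (0:ℝ) < n := by exact_mod_cast hn
  set ξ := prodXi β c p.2
  set η := prodXi β c q.2
  have hd' : ∑ e, (p.1 e - q.1 e) ^ 2 + ∑ i, (p.2 i - q.2 i) ^ 2 ≤ d ^ 2 := hd
  have hg : ∑ e, (p.1 e - q.1 e) ^ 2 ≤ d ^ 2 := (le_add_of_nonneg_right (Finset.sum_nonneg fun i _ => sq_nonneg _)).trans hd'
  have hz : ∑ i, (p.2 i - q.2 i) ^ 2 ≤ d ^ 2 := (le_add_of_nonneg_left (Finset.sum_nonneg fun i _ => sq_nonneg _)).trans hd'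
  have hξd : ∑ i, (ξ i - η i) ^ 2 ≤ d ^ 2 := by
    simp only [ξ, η, prodXi, ← mul_sub, mul_pow, Real.sq_sqrt hv.le, ← Finset.mul_sum]
    exact (mul_le_of_le_one_left (Finset.sum_nonneg fun i _ => sq_nonneg _) (by linarith)).trans hz
  have hξ : ∑ i, ξ i ^ 2 ≤ n := by linarith [nrm_xi hβ hβ1 hc p.2, hp.2]
  have hη : ∑ i, η i ^ 2 ≤ n := by linarith [nrm_xi hβ hβ1 hc q.2, hq.2]
  have hF : fnrm (Matrix.of (tiltCpl β p.1 ξ) - Matrix.of (tiltCpl β q.1 η)) * Real.sqrt n ≤ 4 * d := by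
    rw [PartB.fnrm, ← Real.sqrt_mul' _ hn'.le, ← Real.sqrt_sq (by linarith : (0:ℝ) ≤ 4 * d)]
    refine Real.sqrt_le_sqrt ?_
    have hb2 : β ^ 2 ≤ 1 := by nlinarith
    have pt : ∀ i j, (Matrix.of (tiltCpl β p.1 ξ) - Matrix.of (tiltCpl β q.1 η)) i j ^ 2 * n ≤
        2 * coupling (fun e => (p.1 e - q.1 e) ^ 2) i j +
          4 / n * ((ξ i - η i) ^ 2 * ξ j ^ 2 + η i ^ 2 * (ξ j - η j) ^ 2) := by
      intro i j
      set a := coupling p.1 i j - coupling q.1 i j
      have ha : coupling (fun e => (p.1 e - q.1 e) ^ 2) i j = a ^ 2 := by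
        simp only [a]; unfold coupling; split_ifs <;> simp
      set b := if i = j then (0:ℝ) else ξ i * ξ j - η i * η j
      have e : (Matrix.of (tiltCpl β p.1 ξ) - Matrix.of (tiltCpl β q.1 η)) i j =
          β / Real.sqrt n * a - β ^ 2 / n * b := by
        simp only [Matrix.sub_apply, of_apply, tiltCpl, cpl, a, b]
        split_ifs <;> ring
      have hb : b ^ 2 ≤ 2 * ((ξ i - η i) ^ 2 * ξ j ^ 2 + η i ^ 2 * (ξ j - η j) ^ 2) := by
        simp only [b]
        split_ifs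
        · rw [zero_pow two_ne_zero]; positivity
        · nlinarith [sq_nonneg ((ξ i - η i) * ξ j - η i * (ξ j - η j))]
      rw [e, ha]
      have hsn := Real.sq_sqrt hn'.le
      calc (β / Real.sqrt n * a - β ^ 2 / n * b) ^ 2 * n
          ≤ (2 * (β / Real.sqrt n * a) ^ 2 + 2 * (β ^ 2 / n * b) ^ 2) * n :=
            mul_le_mul_of_nonneg_right (by nlinarith [sq_nonneg (β / Real.sqrt n * a + β ^ 2 / n * b)]) hn'.le
        _ = 2 * β ^ 2 * a ^ 2 + 2 * (β ^ 2) ^ 2 / n * b ^ 2 := by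
            rw [mul_pow, div_pow, hsn]; field_simp
        _ ≤ _ := by
            refine add_le_add (by nlinarith [sq_nonneg a]) ?_
            calc 2 * (β ^ 2) ^ 2 / n * b ^ 2
                ≤ 2 / n * (2 * ((ξ i - η i) ^ 2 * ξ j ^ 2 + η i ^ 2 * (ξ j - η j) ^ 2)) :=
                  mul_le_mul (div_le_div_of_nonneg_right (by nlinarith [pow_le_one₀ (n := 2) (sq_nonneg β) hb2]) hn'.le)
                    hb (sq_nonneg _) (by positivity)
              _ = _ := by ring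
    rw [Finset.sum_mul]
    simp only [Finset.sum_mul]
    refine (Finset.sum_le_sum fun i _ => Finset.sum_le_sum fun j _ => pt i j).trans ?_
    simp only [Finset.sum_add_distrib, ← Finset.mul_sum, ← Finset.sum_mul]
    have hsum : ∑ i, ∑ j, coupling (fun e => (p.1 e - q.1 e) ^ 2) i j = 2 * ∑ e, (p.1 e - q.1 e) ^ 2 := by
      have h := quad_coupling (fun e => (p.1 e - q.1 e) ^ 2) (fun _ : Fin n => (1:ℝ))
      simpa [Finset.mul_sum] using h
    rw [hsum]
    have h8 : 4 / (n:ℝ) * ((∑ i, (ξ i - η i) ^ 2) * (∑ i, ξ i ^ 2) + (∑ i, η i ^ 2) * ∑ i, (ξ i - η i) ^ 2) ≤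
        4 / (n:ℝ) * (d ^ 2 * n + n * d ^ 2) := by
      refine mul_le_mul_of_nonneg_left (add_le_add (mul_le_mul hξd hξ ?_ (sq_nonneg d))
        (mul_le_mul hη hξd ?_ hn'.le)) (by positivity) <;> exact Finset.sum_nonneg fun i _ => sq_nonneg _
    rw [show 4 / (n:ℝ) * (d ^ 2 * n + n * d ^ 2) = 8 * d ^ 2 by field_simp; ring] at h8
    nlinarith
  have hf : nrm (prodF β c s p.2 - prodF β c s q.2) ≤ d := by
    refine nrm_le_of_sq hd0 ?_
    simp only [Pi.sub_apply, prodF, add_sub_add_left_eq_sub, ← mul_sub, mul_pow, Real.sq_sqrt hs.1, ← Finset.mul_sum]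
    exact (mul_le_of_le_one_left (Finset.sum_nonneg fun i _ => sq_nonneg _) hs.2).trans hξd
  refine ⟨hF, hf, ?_⟩
  set f := prodF β c s p.2
  set f' := prodF β c s q.2
  set J := Matrix.of (tiltCpl β p.1 ξ)
  set J' := Matrix.of (tiltCpl β q.1 η)
  have hf' : nrm f' ≤ 2 * Real.sqrt n := by
    refine nrm_le_of_sq (by positivity) ?_
    rw [mul_pow, Real.sq_sqrt hn'.le]
    have pt : ∀ i, f' i ^ 2 ≤ 2 + 2 * η i ^ 2 := fun i => by
      show (s + Real.sqrt s * η i) ^ 2 ≤ _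
      have h1 : (Real.sqrt s * η i) ^ 2 ≤ η i ^ 2 := by
        rw [mul_pow, Real.sq_sqrt hs.1]; exact mul_le_of_le_one_left (sq_nonneg _) hs.2
      nlinarith [sq_nonneg (s - Real.sqrt s * η i), hs.1, hs.2]
    refine (Finset.sum_le_sum fun i _ => pt i).trans ?_
    simp only [Finset.sum_add_distrib, ← Finset.mul_sum, Finset.sum_const, Finset.card_univ, Fintype.card_fin,
      nsmul_eq_mul]
    linarith
  have e : prodY β c s p.1 p.2 - prodY β c s q.1 q.2 = J *ᵥ (f - f') + c • (f - f') + (J - J') *ᵥ f' := by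
    show (J + c • (1 : Matrix (Fin n) (Fin n) ℝ)) *ᵥ f - (J' + c • (1 : Matrix (Fin n) (Fin n) ℝ)) *ᵥ f' = _
    rw [add_mulVec, add_mulVec, sub_mulVec, mulVec_sub, smul_mulVec, smul_mulVec, one_mulVec, one_mulVec, smul_sub]
    abel
  rw [e]
  refine (nrm_add _ _).trans ((add_le_add (nrm_add _ _) le_rfl).trans ?_)
  have a1 := (nrm_mulVec (tilt_opLe hn hβ hβ1 hc hp) (f - f')).trans (mul_le_mul_of_nonneg_left hf (by norm_num))
  have a2 : nrm (c • (f - f')) ≤ c * d := by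
    rw [nrm_smul, abs_of_pos (by linarith)]; exact mul_le_mul_of_nonneg_left hf (by linarith)
  have a3 : nrm ((J - J') *ᵥ f') ≤ 8 * d := by
    refine (nrm_mulVec (OpNorm.opLe_sqrt_fsq _) _).trans ?_
    refine (mul_le_mul_of_nonneg_left hf' (Real.sqrt_nonneg _)).trans ?_
    rw [← OpNorm.fnrm_eq]; linarith
  linarith

/-- the margin survives a move of `d` -/
lemma stable {β c η ρ t K s : ℝ} {k : ℕ} (hn : 0 < n) (hβ : 0 ≤ β) (hβ1 : β < 1) (hc : 4 ≤ c) (hρ : 0 < ρ)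
    (hη : 8 * t ≤ η) (ht : 0 ≤ t) (hK : 0 ≤ K) (htρ : K * (18 + c) * t ≤ Real.sqrt ρ / 2)
    (hs : s ∈ Set.Icc (0 : ℝ) 1)
    (hlip : ∀ (J J' : Fin n → Fin n → ℝ), OpNorm.OpLe (Matrix.of J) 5 → ∀ y y' f f' : Fin n → ℝ,
      nrm (fun i => ampMag β c s J y f k i - ampMag β c s J' y' f' k i) ≤
          nrm (ampZ β c s J y f k - ampZ β c s J' y' f' k) ∧
      nrm (ampZ β c s J y f k - ampZ β c s J' y' f' k) ≤
        K * (nrm (y - y') + nrm (f - f') + fnrm (Matrix.of J - Matrix.of J') * Real.sqrt n))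
    {p q : (Edge n → ℝ) × (Fin n → ℝ)} (hp : p ∈ goodSet n) (hq : q ∈ goodSet n)
    (hd : dist2 p q ≤ (t * Real.sqrt n) ^ 2)
    (hgood : ∀ m, InBall ρ (prodCentre β c s q.1 q.2 k) m → Margin β η s (tiltCpl β q.1 (prodXi β c q.2)) m)
    {m : Fin n → ℝ} (hm : InBall (ρ / 4) (prodCentre β c s p.1 p.2 k) m) :
    Margin β (η / 2) s (tiltCpl β p.1 (prodXi β c p.2)) m := by
  have hn' : (0:ℝ) < n := by exact_mod_cast hn
  have hsn : 0 < Real.sqrt n := Real.sqrt_pos.2 hn'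
  set d := t * Real.sqrt n
  have hd0 : 0 ≤ d := by positivity
  obtain ⟨hF, hf, hy⟩ := moves hn hβ hβ1 hc hs hp hq hd0 hd
  obtain ⟨h1, h2⟩ := hlip _ (tiltCpl β q.1 (prodXi β c q.2)) (tilt_opLe hn hβ hβ1 hc hp)
    (prodY β c s p.1 p.2) (prodY β c s q.1 q.2) (prodF β c s p.2) (prodF β c s q.2)
  set a := prodCentre β c s p.1 p.2 k
  set a' := prodCentre β c s q.1 q.2 k
  have hcm : nrm (fun i => a i - a' i) ≤ K * ((18 + c) * d) :=
    h1.trans (h2.trans (mul_le_mul_of_nonneg_left (by linarith) hK))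
  have hball : InBall ρ a' m := by
    refine ⟨hm.1, ?_⟩
    have hma : nrm (fun i => m i - a i) ≤ Real.sqrt ρ / 2 * Real.sqrt n := by
      refine nrm_le_of_sq (by positivity) ?_
      rw [mul_pow, div_pow, Real.sq_sqrt hρ.le, Real.sq_sqrt hn'.le]
      linarith [hm.2]
    have hh : nrm (fun i => m i - a' i) ≤ Real.sqrt ρ * Real.sqrt n := by
      have e : (fun i => m i - a' i) = (fun i => m i - a i) + fun i => a i - a' i := by
        funext i; simp only [Pi.add_apply]; ring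
      rw [e]
      refine (nrm_add _ _).trans ?_
      have := mul_le_mul_of_nonneg_right htρ hsn.le
      nlinarith
    rw [PartB.nrm, ← Real.sqrt_mul hρ.le] at hh
    exact (Real.sqrt_le_sqrt_iff (by positivity)).1 hh
  intro w
  have hM := hgood m hball w
  set J := tiltCpl β p.1 (prodXi β c p.2)
  set J' := tiltCpl β q.1 (prodXi β c q.2)
  set x := fun j => profileOf m j * w j
  have hq' : |x ⬝ᵥ ((Matrix.of J - Matrix.of J') *ᵥ x)| ≤ 4 * t * ∑ j, x j ^ 2 := by
    refine ((OpNorm.opLe_sqrt_fsq _).quad x).trans (mul_le_mul_of_nonneg_right ?_ (OpNorm.nsq_nonneg x))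
    rw [← OpNorm.fnrm_eq]
    refine le_of_mul_le_mul_right ?_ hsn
    calc fnrm (Matrix.of J - Matrix.of J') * Real.sqrt n ≤ 4 * d := hF
      _ = 4 * t * Real.sqrt n := by simp only [d]; ring
  have e : x ⬝ᵥ ((Matrix.of J - Matrix.of J') *ᵥ x) =
      (∑ j, ∑ i, x j * J j i * x i) - ∑ j, ∑ i, x j * J' j i * x i := by
    simp only [dotProduct, mulVec, Matrix.sub_apply, of_apply, Finset.mul_sum, ← Finset.sum_sub_distrib]
    exact Finset.sum_congr rfl fun j _ => Finset.sum_congr rfl fun i _ => by ring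
  rw [e] at hq'
  have hX : 0 ≤ ∑ j, x j ^ 2 := Finset.sum_nonneg fun i _ => sq_nonneg _
  have hu : (1 - s) * ((∑ j, ∑ i, x j * J j i * x i) - ∑ j, ∑ i, x j * J' j i * x i) ≤
      4 * t * ∑ j, x j ^ 2 :=
    (mul_le_mul_of_nonneg_left ((le_abs_self _).trans hq') (by linarith [hs.2])).trans
      (mul_le_of_le_one_left (by positivity) (by linarith [hs.1]))
  have hηX := mul_le_mul_of_nonneg_right hη hX
  simp only [x] at hu hηX
  linarith

end MinEigBoost

open MinEigBoost Vale.Agent.P150.Fast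

/-- **The margin, with a rate.** -/
theorem marginBoost : MarginBoostStatement := by
  intro hhalf β hβ hβ1
  obtain ⟨η, hη, hh⟩ := hhalf β hβ hβ1
  refine ⟨η / 2, by positivity, fun c hc => ?_⟩
  obtain ⟨ρ, hρ, k₀, hk₀⟩ := hh c hc
  refine ⟨ρ / 4, by positivity, k₀, fun k hk => ?_⟩
  obtain ⟨K, hK, hlip⟩ := AmpLip.ampZ_lip (β := β) (shift := c) (by rw [abs_of_nonneg hβ]; exact hβ1.le) hc 5 k
  obtain ⟨cop, hcop, hop⟩ := Planted.normEvent_compl
  set t := min (η / 8) (Real.sqrt ρ / 2 / (K * (18 + c) + 1))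
  have hKc : 0 < K * (18 + c) + 1 := by positivity
  have ht : 0 < t := lt_min (by positivity) (by positivity)
  have htρ : K * (18 + c) * t ≤ Real.sqrt ρ / 2 := by
    have h := mul_le_mul_of_nonneg_left (min_le_right (η / 8) (Real.sqrt ρ / 2 / (K * (18 + c) + 1))) hKc.le
    rw [mul_div_cancel₀ _ hKc.ne'] at h
    nlinarith
  set C := Real.sqrt 2 * Real.exp 1
  set R := (t / 2) ^ 2 / (Real.exp 1 * Real.pi ^ 2) with hR
  have hR0 : 0 < R := by positivity
  set c₁ := min (min (cop / 2) (1 / 80)) (R / 2)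
  have b1 : c₁ ≤ cop / 2 := (min_le_left _ _).trans (min_le_left _ _)
  have b2 : c₁ ≤ 1 / 80 := (min_le_left _ _).trans (min_le_right _ _)
  have b3 : c₁ ≤ R / 2 := min_le_right _ _
  have hc₁ : 0 < c₁ := lt_min (lt_min (by positivity) (by norm_num)) (by positivity)
  refine ⟨c₁, hc₁, fun s hs => ?_⟩
  filter_upwards [(hk₀ k hk s hs).eventually_le_const (show (0:ℝ) < 1 / 8 by norm_num),
    Planted.eventually_exp_le (C := 32) (show (0:ℝ) < c₁ by exact hc₁),
    Planted.eventually_exp_le (C := 6) (show c₁ < cop by linarith),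
    Planted.eventually_exp_le (C := 3) (show c₁ < 1 / 40 by linarith),
    Planted.eventually_exp_le (C := 3 * C) (show c₁ < R by linarith), eventually_gt_atTop 0]
    with n hbad hsmall he1 he2 he3 hn
  have hn' : (0:ℝ) < n := by exact_mod_cast hn
  rw [zero_mul, neg_zero, Real.exp_zero] at hsmall
  set bad := {p : (Edge n → ℝ) × (Fin n → ℝ) | ∃ m, InBall ρ (prodCentre β c s p.1 p.2 k) m ∧
    ¬ Margin β η s (tiltCpl β p.1 (prodXi β c p.2)) m}
  have hPp : IsProbabilityMeasure (prodLaw n) := by unfold prodLaw; infer_instance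
  have hG := goodSet_compl (hop n hn)
  have hA : 1 / 2 ≤ (prodLaw n).real (goodSet n \ bad) := by
    have h : (prodLaw n).real Set.univ ≤
        (prodLaw n).real (goodSet n \ bad) + ((prodLaw n).real (goodSet n)ᶜ + (prodLaw n).real bad) := by
      refine (measureReal_mono fun p _ => ?_).trans ((measureReal_union_le _ _).trans (add_le_add le_rfl
        (measureReal_union_le _ _)))
      by_cases h1 : p ∈ goodSet n <;> by_cases h2 : p ∈ bad <;> simp [h1, h2]
    rw [probReal_univ] at h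
    linarith
  set τ := t / 2 * Real.sqrt n with hτ
  have e : C * Real.exp (-(τ ^ 2 / (Real.exp 1 * Real.pi ^ 2))) = C * Real.exp (-(R * n)) := by
    rw [hτ, hR, mul_pow, Real.sq_sqrt hn'.le]; ring_nf
  have hfar := far_prob hA (τ := τ) (by positivity) (by rw [e]; linarith)
  rw [e] at hfar
  refine (measureReal_mono (s₂ := (goodSet n)ᶜ ∪ {p | ∀ q ∈ goodSet n \ bad, (2 * τ) ^ 2 ≤ dist2 p q})
    fun p hp => ?_).trans ((measureReal_union_le _ _).trans ((add_le_add hG hfar).trans (by linarith)))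
  by_contra hcon
  simp only [Set.mem_union, Set.mem_compl_iff, Set.mem_ofPred_eq, not_or, not_not, not_forall, not_le] at hcon
  obtain ⟨hpG, q, hq, hd⟩ := hcon
  obtain ⟨m, hm, hnm⟩ := hp
  refine hnm (stable hn hβ hβ1 hc hρ ?_ ht.le hK htρ hs (hlip n s hs) hpG hq.1 ?_ (fun m' hm' => ?_) hm)
  · linarith [min_le_left (η / 8) (Real.sqrt ρ / 2 / (K * (18 + c) + 1))]
  · rw [hτ, show 2 * (t / 2 * Real.sqrt n) = t * Real.sqrt n by ring] at hd; exact hd.le
  · by_contra hM; exact hq.2 ⟨m', hm', hM⟩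

end Vale.Agent.P150.High
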