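import Vale.Agent.P150.High.AmpConcSpec
import Vale.Agent.P150.High.MinEigBoost

/-!
# P150, all `β < 1`: from convergence in probability to exponential bounds for the AMP fields

On bounded inputs the two functionals move by `O(t)` under a move of `t √n`, so the distance argument of
`MinEigBoost` applies.
-/

open MeasureTheory ProbabilityTheory Filter Matrix
open scoped Topology

namespace Vale.Agent.P150.High.Amp

open Vale.Agent.P150 Vale.Agent.P150.Fast MinEigBoost
open Vale.Agent.P150.PartB (nrm fnrm)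
open AmpLip (nrm_add nrm_smul nrm_nonneg)

variable {n : ℕ}

/-- the rate attached to a move of `t √n` -/
lemma boost {t : ℝ} (ht : 0 < t) : ∃ c : ℝ, 0 < c ∧ ∀ B₀ B₁ : ∀ n, Set ((Edge n → ℝ) × (Fin n → ℝ)),
    Tendsto (fun n => (prodLaw n).real (B₀ n)) atTop (𝓝 0) →
    (∀ n, 0 < n → ∀ p ∈ goodSet n, ∀ q ∈ goodSet n, q ∉ B₀ n → dist2 p q ≤ (t * Real.sqrt n) ^ 2 → p ∉ B₁ n) →
      ∀ᶠ n : ℕ in atTop, (prodLaw n).real (B₁ n) ≤ Real.exp (-(c * n)) := by
  obtain ⟨cop, hcop, hop⟩ := Planted.normEvent_compl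
  set C := Real.sqrt 2 * Real.exp 1
  set R := (t / 2) ^ 2 / (Real.exp 1 * Real.pi ^ 2) with hR
  have hR0 : 0 < R := by positivity
  set c₁ := min (min (cop / 2) (1 / 80)) (R / 2)
  have b1 : c₁ ≤ cop / 2 := (min_le_left _ _).trans (min_le_left _ _)
  have b2 : c₁ ≤ 1 / 80 := (min_le_left _ _).trans (min_le_right _ _)
  have b3 : c₁ ≤ R / 2 := min_le_right _ _
  have hc₁ : 0 < c₁ := lt_min (lt_min (by positivity) (by norm_num)) (by positivity)
  refine ⟨c₁, hc₁, fun B₀ B₁ h₀ hst => ?_⟩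
  filter_upwards [h₀.eventually_le_const (show (0:ℝ) < 1 / 8 by norm_num),
    Planted.eventually_exp_le (C := 32) hc₁, Planted.eventually_exp_le (C := 6) (show c₁ < cop by linarith),
    Planted.eventually_exp_le (C := 3) (show c₁ < 1 / 40 by linarith),
    Planted.eventually_exp_le (C := 3 * C) (show c₁ < R by linarith), eventually_gt_atTop 0]
    with n hbad hsmall he1 he2 he3 hn
  have hn' : (0:ℝ) < n := by exact_mod_cast hn
  rw [zero_mul, neg_zero, Real.exp_zero] at hsmall
  have : IsProbabilityMeasure (prodLaw n) := by unfold prodLaw; infer_instance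
  have hG := goodSet_compl (hop n hn)
  have hA : 1 / 2 ≤ (prodLaw n).real (goodSet n \ B₀ n) := by
    have h : (prodLaw n).real Set.univ ≤
        (prodLaw n).real (goodSet n \ B₀ n) + ((prodLaw n).real (goodSet n)ᶜ + (prodLaw n).real (B₀ n)) := by
      refine (measureReal_mono fun p _ => ?_).trans ((measureReal_union_le _ _).trans (add_le_add le_rfl
        (measureReal_union_le _ _)))
      by_cases h1 : p ∈ goodSet n <;> by_cases h2 : p ∈ B₀ n <;> simp [h1, h2]
    rw [probReal_univ] at h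
    linarith
  set τ := t / 2 * Real.sqrt n with hτ
  have e : C * Real.exp (-(τ ^ 2 / (Real.exp 1 * Real.pi ^ 2))) = C * Real.exp (-(R * n)) := by
    rw [hτ, hR, mul_pow, Real.sq_sqrt hn'.le]; ring_nf
  have hfar := far_prob hA (τ := τ) (by positivity) (by rw [e]; linarith)
  rw [e] at hfar
  refine (measureReal_mono (s₂ := (goodSet n)ᶜ ∪ {p | ∀ q ∈ goodSet n \ B₀ n, (2 * τ) ^ 2 ≤ dist2 p q})
    fun p hp => ?_).trans ((measureReal_union_le _ _).trans ((add_le_add hG hfar).trans (by linarith)))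
  by_contra hcon
  simp only [Set.mem_union, Set.mem_compl_iff, Set.mem_ofPred_eq, not_or, not_not, not_forall, not_le] at hcon
  obtain ⟨hpG, q, hq, hd⟩ := hcon
  rw [hτ, show 2 * (t / 2 * Real.sqrt n) = t * Real.sqrt n by ring] at hd
  exact hst n hn p hpG q hq.1 hq.2 hd.le hp

/-- the fields move by `O(d)` on bounded inputs -/
lemma field_move {β c : ℝ} (hβ : 0 ≤ β) (hβ1 : β < 1) (hc : 4 ≤ c) (k : ℕ) :
    ∃ L : ℝ, 0 ≤ L ∧ ∀ n, 0 < n → ∀ s ∈ Set.Icc (0 : ℝ) 1, ∀ p ∈ goodSet n, ∀ q ∈ goodSet n,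
      ∀ d : ℝ, 0 ≤ d → dist2 p q ≤ d ^ 2 →
        nrm (ampAt β c s k p - ampAt β c s k q) ≤ L * d ∧
        nrm (fun i => Real.tanh (ampAt β c s k p i) - Real.tanh (ampAt β c s k q i)) ≤ L * d := by
  obtain ⟨K, hK, hlip⟩ := AmpLip.ampZ_lip (β := β) (shift := c) (by rw [abs_of_nonneg hβ]; exact hβ1.le) hc 5 k
  refine ⟨K * (18 + c), by positivity, fun n hn s hs p hp q hq d hd0 hd => ?_⟩
  obtain ⟨hF, hf, hy⟩ := moves hn hβ hβ1 hc hs hp hq hd0 hd
  obtain ⟨h1, h2⟩ := hlip n s hs _ (tiltCpl β q.1 (prodXi β c q.2)) (tilt_opLe hn hβ hβ1 hc hp)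
    (prodY β c s p.1 p.2) (prodY β c s q.1 q.2) (prodF β c s p.2) (prodF β c s q.2)
  have h : nrm (ampAt β c s k p - ampAt β c s k q) ≤ K * (18 + c) * d := by
    rw [mul_assoc]
    exact h2.trans (mul_le_mul_of_nonneg_left (by linarith) hK)
  exact ⟨h, h1.trans h⟩

/-- **Concentration of the AMP functionals.** -/
theorem concStatement : ConcStatement := by
  intro β c hβ hβ1 hc k τ hτ
  obtain ⟨L, hL, hmove⟩ := field_move hβ hβ1 hc k
  obtain ⟨L', hL', hmove'⟩ := field_move hβ hβ1 hc (k + 1)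
  set t := τ / (2 * L + L' + 1) with htd
  have hLs : 0 < 2 * L + L' + 1 := by positivity
  have ht : 0 < t := by positivity
  have htτ : t * (2 * L + L' + 1) = τ := by rw [htd]; field_simp
  obtain ⟨c₁, hc₁, hb⟩ := boost ht
  refine ⟨c₁, hc₁, fun s hs a => ⟨fun h => hb (fun n => {p | a < fieldGap β c s k p})
    (fun n => {p | a + τ < fieldGap β c s k p}) h ?_, fun h => hb (fun n => {p | τ < |overlapAt β c s k p - a|})
    (fun n => {p | 2 * τ < |overlapAt β c s k p - a|}) h ?_⟩⟩
  · intro n hn p hp q hq hq0 hd hlt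
    simp only [Set.mem_ofPred_eq, not_lt] at hq0 hlt
    have hsn : 0 < Real.sqrt n := Real.sqrt_pos.2 (by exact_mod_cast hn)
    set d := t * Real.sqrt n
    have hd0 : 0 ≤ d := by positivity
    have e1 := (hmove n hn s hs p hp q hq d hd0 hd).1
    have e2 := (hmove' n hn s hs p hp q hq d hd0 hd).1
    have hgap : nrm (ampAt β c s (k + 1) p - ampAt β c s k p) ≤
        nrm (ampAt β c s (k + 1) q - ampAt β c s k q) + (L' + L) * d := by
      rw [show ampAt β c s (k + 1) p - ampAt β c s k p = (ampAt β c s (k + 1) q - ampAt β c s k q) +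
        ((ampAt β c s (k + 1) p - ampAt β c s (k + 1) q) + (-1 : ℝ) • (ampAt β c s k p - ampAt β c s k q)) by
          rw [neg_one_smul]; abel]
      refine (nrm_add _ _).trans (add_le_add le_rfl ((nrm_add _ _).trans ?_))
      rw [nrm_smul, abs_neg, abs_one, one_mul]
      linarith
    have hgap' := div_le_div_of_nonneg_right hgap hsn.le
    rw [add_div, show (L' + L) * d / Real.sqrt n = (L' + L) * t by simp only [d]; field_simp] at hgap'
    simp only [fieldGap] at hq0 hlt
    nlinarith [mul_nonneg hL ht.le]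
  · intro n hn p hp q hq hq0 hd hlt
    simp only [Set.mem_ofPred_eq, not_lt] at hq0 hlt
    have hn' : (0:ℝ) < n := by exact_mod_cast hn
    have hsn : 0 < Real.sqrt n := Real.sqrt_pos.2 hn'
    set d := t * Real.sqrt n
    have hd0 : 0 ≤ d := by positivity
    have e1 := (hmove n hn s hs p hp q hq d hd0 hd).2
    set u := fun i => Real.tanh (ampAt β c s k p i)
    set v := fun i => Real.tanh (ampAt β c s k q i)
    have hdiff : |∑ i, u i ^ 2 - ∑ i, v i ^ 2| ≤ L * d * (2 * Real.sqrt n) := by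
      have e : ∑ i, u i ^ 2 - ∑ i, v i ^ 2 = (fun i => u i - v i) ⬝ᵥ (u + v) := by
        simp only [dotProduct, ← Finset.sum_sub_distrib, Pi.add_apply]
        exact Finset.sum_congr rfl fun i _ => by ring
      rw [e]
      refine (OpNorm.abs_dot_le _ _).trans (mul_le_mul e1 ?_ (Real.sqrt_nonneg _) (by positivity))
      refine (OpNorm.sqrt_nsq_add u v).trans ?_
      have a1 : nrm u ≤ Real.sqrt n := AmpLip.nrm_tanh _
      have a2 : nrm v ≤ Real.sqrt n := AmpLip.nrm_tanh _
      rw [← OpNorm.nrm_eq, ← OpNorm.nrm_eq]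
      linarith
    have hov : |overlapAt β c s k p - overlapAt β c s k q| ≤ 2 * L * t := by
      rw [overlapAt, overlapAt, ← sub_div, abs_div, abs_of_pos hn', div_le_iff₀ hn']
      refine hdiff.trans (le_of_eq ?_)
      simp only [d]
      linear_combination (2 * L * t) * Real.mul_self_sqrt hn'.le
    have := (abs_sub_le (overlapAt β c s k p) (overlapAt β c s k q) a).trans (add_le_add hov hq0)
    nlinarith [mul_nonneg hL' ht.le]

end Vale.Agent.P150.High.Amp
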