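import Vale.Agent.P150.High.AmpLimit
import Vale.Agent.P150.High.AmpConc

/-!
# P150, all `β < 1`: the AMP centre nearly solves the TAP equation
-/

open MeasureTheory ProbabilityTheory Filter Finset Matrix
open scoped Topology

namespace Vale.Agent.P150.High.Amp

open Vale.Agent.P150 Vale.Agent.P150.Fast

variable {n : ℕ}

lemma gapLim_le {β shift s : ℝ} (hβ : |β| ≤ 1) (hc : 4 ≤ shift) (hs : s ∈ Set.Icc (0 : ℝ) 1) (k : ℕ) :
    gapLim β shift s k ≤ Real.sqrt (20 * (β ^ 2) ^ k) := by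
  have h0 := gamInc_nonneg hβ hc hs (k + 1)
  have h1 : gamInc β shift s (k + 1) ≤ 4 * (β ^ 2) ^ k := gamSE_inc_le hβ hc hs k
  have h2 : gamInc β shift s (k + 1) ≤ 4 :=
    h1.trans (by linarith [pow_le_one₀ (sq_nonneg β) ((sq_le_one_iff_abs_le_one β).2 hβ) (n := k)])
  refine Real.sqrt_le_sqrt ?_
  nlinarith

/-- The residual is the last step, the one before and the overlap error. -/
lemma residual_le {β shift s : ℝ} (hβ : |β| ≤ 1) (hs : s ∈ Set.Icc (0 : ℝ) 1) (k : ℕ)
    (p : (Edge n → ℝ) × (Fin n → ℝ)) :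
    PartB.nrm (fun i => ampAt β shift s (k + 1) p i
        + β ^ 2 * (1 - s) ^ 2 * (1 - (∑ j, prodCentre β shift s p.1 p.2 (k + 1) j ^ 2) / n) *
          prodCentre β shift s p.1 p.2 (k + 1) i
        - (1 - s) * (∑ j, tiltCpl β p.1 (prodXi β shift p.2) i j * prodCentre β shift s p.1 p.2 (k + 1) j)
        - prodY β shift s p.1 p.2 i) ≤
      (fieldGap β shift s (k + 1) p + fieldGap β shift s k p
        + |overlapAt β shift s (k + 1) p - qSE (gamSE β shift s (k + 1))|) * Real.sqrt n := by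
  rcases Nat.eq_zero_or_pos n with rfl | hn
  · simp [PartB.nrm]
  have hn' : Real.sqrt n ≠ 0 := (Real.sqrt_pos.2 (Nat.cast_pos.2 hn)).ne'
  set q := qSE (gamSE β shift s (k + 1))
  set b := β ^ 2 * (1 - s) ^ 2 * (1 - q)
  have ha : β ^ 2 * (1 - s) ^ 2 ≤ 1 :=
    mul_le_one₀ ((sq_le_one_iff_abs_le_one β).2 hβ) (sq_nonneg _)
      (pow_le_one₀ (by linarith [hs.2]) (by linarith [hs.1]))
  have hb : |b| ≤ 1 := by
    have := (AmpLip.coef_le hβ hs (AmpLip.qSE_mem (gamSE β shift s (k + 1)))).2.2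
    rwa [abs_neg] at this
  set z2 := ampAt β shift s (k + 1 + 1) p with hz2
  set z1 := ampAt β shift s (k + 1) p with hz1
  set z0 := ampAt β shift s k p with hz0
  have hov : overlapAt β shift s (k + 1) p = (∑ j, prodCentre β shift s p.1 p.2 (k + 1) j ^ 2) / n := rfl
  have e : (fun i => z1 i
        + β ^ 2 * (1 - s) ^ 2 * (1 - (∑ j, prodCentre β shift s p.1 p.2 (k + 1) j ^ 2) / n) *
          prodCentre β shift s p.1 p.2 (k + 1) i
        - (1 - s) * (∑ j, tiltCpl β p.1 (prodXi β shift p.2) i j * prodCentre β shift s p.1 p.2 (k + 1) j)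
        - prodY β shift s p.1 p.2 i) =
      ((-1 : ℝ) • (z2 - z1) + b • fun i => Real.tanh (z1 i) - Real.tanh (z0 i))
        + (β ^ 2 * (1 - s) ^ 2 * (q - overlapAt β shift s (k + 1) p)) • fun i => Real.tanh (z1 i) := by
    funext i
    rw [hov]
    have e2 : z2 i = prodY β shift s p.1 p.2 i
        + (1 - s) * (∑ j, tiltCpl β p.1 (prodXi β shift p.2) i j * prodCentre β shift s p.1 p.2 (k + 1) j)
        - b * Real.tanh (z0 i) := rfl
    have e1 : prodCentre β shift s p.1 p.2 (k + 1) i = Real.tanh (z1 i) := rfl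
    simp only [Pi.add_apply, Pi.smul_apply, Pi.sub_apply, smul_eq_mul]
    rw [e2, e1]
    simp only [b]
    ring
  rw [e, add_mul, add_mul, fieldGap, fieldGap, div_mul_cancel₀ _ hn', div_mul_cancel₀ _ hn', ← hz2, ← hz1, ← hz0]
  refine (AmpLip.nrm_add _ _).trans (add_le_add ((AmpLip.nrm_add _ _).trans (add_le_add (le_of_eq ?_) ?_)) ?_)
  · rw [AmpLip.nrm_smul, abs_neg, abs_one, one_mul]
  · rw [AmpLip.nrm_smul]
    exact (mul_le_of_le_one_left (AmpLip.nrm_nonneg _) hb).trans (AmpLip.nrm_tanh_sub z1 z0)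
  · rw [AmpLip.nrm_smul, abs_mul, abs_of_nonneg (by positivity : 0 ≤ β ^ 2 * (1 - s) ^ 2), abs_sub_comm]
    exact mul_le_mul (mul_le_of_le_one_left (abs_nonneg _) ha) (AmpLip.nrm_tanh z1) (AmpLip.nrm_nonneg _)
      (abs_nonneg _)

/-- The centre nearly solves the TAP equation. -/
theorem residual : ResidualStatement := by
  intro β shift ε hβ hβ1 hc hε
  have hb : |β| ≤ 1 := (abs_of_nonneg hβ).le.trans hβ1.le
  have hb2 : β ^ 2 < 1 := by nlinarith
  set e := Real.sqrt ε / 7
  have he : 0 < e := div_pos (Real.sqrt_pos.2 hε) (by norm_num)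
  obtain ⟨N, hN⟩ := exists_pow_lt_of_lt_one (show 0 < e ^ 2 / 20 by positivity) hb2
  refine ⟨N + 2, fun k hk => ?_⟩
  obtain ⟨m, rfl⟩ : ∃ m, k = m + 2 := ⟨k - 2, by omega⟩
  set t := min (e / 2) (ε / 2)
  have ht : 0 < t := lt_min (half_pos he) (half_pos hε)
  obtain ⟨c1, hc1, h1⟩ := concStatement β shift hβ hβ1 hc (m + 2) e he
  obtain ⟨c0, hc0, h0⟩ := concStatement β shift hβ hβ1 hc (m + 1) e he
  obtain ⟨c2, hc2, h2⟩ := concStatement β shift hβ hβ1 hc (m + 2) t ht
  set c := min c1 (min c0 c2)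
  have hc' : 0 < c := lt_min hc1 (lt_min hc0 hc2)
  refine ⟨c / 2, half_pos hc', fun s hs => ?_⟩
  have hL : ∀ j, N ≤ j → gapLim β shift s j ≤ e := fun j hj => by
    refine (gapLim_le hb hc hs j).trans ((Real.sqrt_le_left he.le).2 ?_)
    have := (pow_le_pow_of_le_one (sq_nonneg β) hb2.le hj).trans hN.le
    linarith
  obtain ⟨l1, l2⟩ := limits hβ hβ1 hc hs (m + 1) (τ := e) he
  obtain ⟨l0, -⟩ := limits hβ hβ1 hc hs m (τ := e) he
  obtain ⟨-, l3⟩ := limits hβ hβ1 hc hs (m + 1) (τ := t) ht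
  have h3n : ∀ᶠ n : ℕ in atTop, 3 * Real.exp (-(c * n)) ≤ Real.exp (-(c / 2 * n)) := by
    have h := (Real.tendsto_exp_neg_atTop_nhds_zero.comp
      (tendsto_natCast_atTop_atTop.const_mul_atTop (half_pos hc'))).const_mul (3 : ℝ)
    rw [mul_zero] at h
    filter_upwards [h.eventually_lt_const one_pos] with n hn
    have e2 : Real.exp (-(c * n)) = Real.exp (-(c / 2 * n)) * Real.exp (-(c / 2 * n)) := by
      rw [← Real.exp_add]; congr 1; ring
    simp only [Function.comp] at hn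
    rw [e2, ← mul_assoc]
    exact mul_le_of_le_one_left (Real.exp_pos _).le hn.le
  filter_upwards [(h1 s hs (gapLim β shift s (m + 2) + e)).1 l1, (h0 s hs (gapLim β shift s (m + 1) + e)).1 l0,
    (h2 s hs (qSE (gamSE β shift s (m + 2)))).2 l3, h3n] with n n1 n0 n2 n3
  have hexp : ∀ a, c ≤ a → Real.exp (-(a * n)) ≤ Real.exp (-(c * n)) := fun a ha =>
    Real.exp_le_exp.2 (by linarith [mul_le_mul_of_nonneg_right ha (Nat.cast_nonneg (α := ℝ) n)])
  refine (measureReal_mono (s₂ :=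
      ({p | gapLim β shift s (m + 2) + e + e < fieldGap β shift s (m + 2) p} ∪
        {p | gapLim β shift s (m + 1) + e + e < fieldGap β shift s (m + 1) p}) ∪
        {p | 2 * t < |overlapAt β shift s (m + 2) p - qSE (gamSE β shift s (m + 2))|}) ?_).trans
    ((measureReal_union_le _ _).trans ((add_le_add (measureReal_union_le _ _) le_rfl).trans
      ((add_le_add (add_le_add (n1.trans (hexp _ (min_le_left _ _)))
        (n0.trans (hexp _ ((min_le_right _ _).trans (min_le_left _ _)))))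
        (n2.trans (hexp _ ((min_le_right _ _).trans (min_le_right _ _))))).trans
        (le_trans (le_of_eq (by ring)) n3))))
  intro p hp
  by_contra hcon
  simp only [Set.mem_union, Set.mem_ofPred_eq, not_or, not_lt] at hcon
  obtain ⟨⟨g1, g0⟩, g2⟩ := hcon
  have ht1 : t ≤ e / 2 := min_le_left _ _
  have ht2 : t ≤ ε / 2 := min_le_right _ _
  rcases hp with hp | hp
  · have hres := residual_le (shift := shift) hb hs (m + 1) p
    have hbound : fieldGap β shift s (m + 2) p + fieldGap β shift s (m + 1) p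
        + |overlapAt β shift s (m + 2) p - qSE (gamSE β shift s (m + 2))| ≤ Real.sqrt ε := by
      have := hL (m + 2) (by omega)
      have := hL (m + 1) (by omega)
      have : 7 * e = Real.sqrt ε := by simp only [e]; ring
      linarith [Real.sqrt_nonneg ε]
    have h6 := hres.trans (mul_le_mul_of_nonneg_right hbound (Real.sqrt_nonneg _))
    rw [← Real.sqrt_mul hε.le] at h6
    exact absurd ((Real.sqrt_le_sqrt_iff (mul_nonneg hε.le (Nat.cast_nonneg n))).1 h6) (not_le.2 hp)
  · have e1 : (∑ j, prodCentre β shift s p.1 p.2 (m + 2) j ^ 2) / (n : ℝ) = overlapAt β shift s (m + 2) p := rfl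
    rw [e1] at hp
    linarith

end Vale.Agent.P150.High.Amp
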