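import Vale.Agent.P150.High.AmpSpec
import Vale.Agent.P150.Fast.PartB.Defs

/-!
# P150, all `β < 1`: from convergence in probability to exponential bounds for the AMP fields
-/

open MeasureTheory Filter
open scoped Topology

namespace Vale.Agent.P150.High.Amp

open Vale.Agent.P150

variable {n : ℕ}

/-- The `k`-th field under the product law. -/
noncomputable def ampAt (β shift s : ℝ) (k : ℕ) (p : (Edge n → ℝ) × (Fin n → ℝ)) : Fin n → ℝ :=
  ampZ β shift s (tiltCpl β p.1 (prodXi β shift p.2)) (prodY β shift s p.1 p.2) (prodF β shift s p.2) k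

/-- `|z_(k+1) - z_k| / √n`. -/
noncomputable def fieldGap (β shift s : ℝ) (k : ℕ) (p : (Edge n → ℝ) × (Fin n → ℝ)) : ℝ :=
  PartB.nrm (ampAt β shift s (k + 1) p - ampAt β shift s k p) / Real.sqrt n

/-- `|tanh z_k|² / n`. -/
noncomputable def overlapAt (β shift s : ℝ) (k : ℕ) (p : (Edge n → ℝ) × (Fin n → ℝ)) : ℝ :=
  (∑ i, Real.tanh (ampAt β shift s k p i) ^ 2) / n

/-- `AmpConc.lean`: bounds holding in probability hold, up to `τ`, with exponential probability. -/
def ConcStatement : Prop :=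
  ∀ β shift : ℝ, 0 ≤ β → β < 1 → 4 ≤ shift → ∀ (k : ℕ) (τ : ℝ), 0 < τ → ∃ c : ℝ, 0 < c ∧
    ∀ s ∈ Set.Icc (0 : ℝ) 1, ∀ a : ℝ,
      (Tendsto (fun n => (prodLaw n).real {p | a < fieldGap β shift s k p}) atTop (𝓝 0) →
        ∀ᶠ n : ℕ in atTop, (prodLaw n).real {p | a + τ < fieldGap β shift s k p} ≤ Real.exp (-(c * n))) ∧
      (Tendsto (fun n => (prodLaw n).real {p | τ < |overlapAt β shift s k p - a|}) atTop (𝓝 0) →
        ∀ᶠ n : ℕ in atTop,
          (prodLaw n).real {p | 2 * τ < |overlapAt β shift s k p - a|} ≤ Real.exp (-(c * n)))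

end Vale.Agent.P150.High.Amp
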