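import Vale.Agent.P150.High.ResolventSpec
import Vale.Agent.P150.Fast.OpNorm
import Vale.Agent.P150.SKNorm

/-!
# P150, resolvent calculus for all profiles

For a real symmetric `V`, a profile `D` and a regularisation `τ ≥ 0` put `W = V - iτ`,
`G = (1 + D W)⁻¹ D`, `M = 1 - G W` and `H = -W + W G W`.  Under the form condition with constant `η`
one has `|G| ≤ 1/η`, and for `τ > 0` one has `|G| ≤ 1/τ` for every disorder.  All difference
identities divide by nothing.  The projection on the convex ball `|J| ≤ Λ` makes them global.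
-/

open Matrix Finset
open scoped Matrix.Norms.L2Operator ComplexConjugate

namespace Vale.Agent.P150.High.ResCalc

open Vale.Agent.P150

variable {n : ℕ}

/-- a real matrix as a complex one -/
def cmat (A : Matrix (Fin n) (Fin n) ℝ) : Matrix (Fin n) (Fin n) ℂ := A.map (↑)

/-- the profile as a complex diagonal matrix -/
def cdiag (D : Fin n → ℝ) : Matrix (Fin n) (Fin n) ℂ := Matrix.diagonal fun j => (D j : ℂ)

/-- `V - iτ` -/
noncomputable def cW (τ : ℝ) (V : Matrix (Fin n) (Fin n) ℝ) : Matrix (Fin n) (Fin n) ℂ :=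
  cmat V - ((τ : ℂ) * Complex.I) • 1

/-- `G = (1 + D W)⁻¹ D` -/
noncomputable def cG (W : Matrix (Fin n) (Fin n) ℂ) (D : Fin n → ℝ) : Matrix (Fin n) (Fin n) ℂ :=
  (1 + cdiag D * W)⁻¹ * cdiag D

/-- `M = 1 - G W` -/
noncomputable def cM (W : Matrix (Fin n) (Fin n) ℂ) (D : Fin n → ℝ) : Matrix (Fin n) (Fin n) ℂ :=
  1 - cG W D * W

/-- `H = -W + W G W` -/
noncomputable def cH (W : Matrix (Fin n) (Fin n) ℂ) (D : Fin n → ℝ) : Matrix (Fin n) (Fin n) ℂ :=
  -W + W * cG W D * W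

/-- squared Euclidean norm -/
noncomputable def csq (x : Fin n → ℂ) : ℝ := ∑ i, ‖x i‖ ^ 2

/-- squared Frobenius norm -/
noncomputable def cfsq (X : Matrix (Fin n) (Fin n) ℂ) : ℝ := ∑ i, ∑ j, ‖X i j‖ ^ 2

/-- the form condition with constant `η` -/
def FormGe (η : ℝ) (V : Matrix (Fin n) (Fin n) ℝ) (D : Fin n → ℝ) : Prop :=
  ∀ v : Fin n → ℝ, η * ∑ j, (D j * v j) ^ 2 ≤
    ∑ j, D j * v j ^ 2 + dotProduct (fun j => D j * v j) (V *ᵥ fun j => D j * v j)

/-! ### norms -/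

lemma csq_nonneg (x : Fin n → ℂ) : 0 ≤ csq x := sum_nonneg fun _ _ => sq_nonneg _

lemma cfsq_nonneg (X : Matrix (Fin n) (Fin n) ℂ) : 0 ≤ cfsq X :=
  sum_nonneg fun _ _ => sum_nonneg fun _ _ => sq_nonneg _

lemma eq_zero_of_csq {x : Fin n → ℂ} (h : csq x ≤ 0) : x = 0 := by
  funext i
  have h1 : ‖x i‖ ^ 2 ≤ 0 := (single_le_sum (fun j _ => sq_nonneg ‖x j‖) (mem_univ i)).trans h
  simpa using sq_eq_zero_iff.1 (le_antisymm h1 (sq_nonneg _))

lemma csq_re_im (x : Fin n → ℂ) :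
    csq x = Fast.OpNorm.nsq (fun i => (x i).re) + Fast.OpNorm.nsq fun i => (x i).im := by
  simp only [csq, Fast.OpNorm.nsq, Complex.sq_norm, Complex.normSq_apply, ← sum_add_distrib]
  simp only [sq]

lemma csq_mulVec_le (A : Matrix (Fin n) (Fin n) ℂ) (x : Fin n → ℂ) :
    csq (A *ᵥ x) ≤ ‖A‖ ^ 2 * csq x := by
  have h := A.l2_opNorm_mulVec (WithLp.toLp 2 x)
  have h2 := pow_le_pow_left₀ (norm_nonneg _) h 2
  rw [mul_pow, EuclideanSpace.norm_sq_eq, EuclideanSpace.norm_sq_eq] at h2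
  exact h2

lemma norm_le_of_csq {A : Matrix (Fin n) (Fin n) ℂ} {K : ℝ} (hK : 0 ≤ K)
    (h : ∀ x, csq (A *ᵥ x) ≤ K ^ 2 * csq x) : ‖A‖ ≤ K := by
  rw [← Matrix.l2_opNorm_toEuclideanCLM]
  refine ContinuousLinearMap.opNorm_le_bound _ hK fun x => ?_
  refine (sq_le_sq₀ (norm_nonneg _) (by positivity)).1 ?_
  rw [mul_pow, EuclideanSpace.norm_sq_eq, EuclideanSpace.norm_sq_eq, Matrix.ofLp_toEuclideanCLM]
  exact h _

lemma col_le (A : Matrix (Fin n) (Fin n) ℂ) (j : Fin n) : ∑ i, ‖A i j‖ ^ 2 ≤ ‖A‖ ^ 2 := by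
  have h := csq_mulVec_le A (Pi.single j 1)
  simpa [csq, Matrix.mulVec_single_one, Pi.single_apply, apply_ite norm] using h

lemma entry_le (A : Matrix (Fin n) (Fin n) ℂ) (i j : Fin n) : ‖A i j‖ ≤ ‖A‖ :=
  (pow_le_pow_iff_left₀ (norm_nonneg _) (norm_nonneg _) two_ne_zero).1
    ((single_le_sum (fun k _ => sq_nonneg ‖A k j‖) (mem_univ i)).trans (col_le A j))

lemma norm_le_cfsq (A : Matrix (Fin n) (Fin n) ℂ) : ‖A‖ ≤ √(cfsq A) := by
  refine norm_le_of_csq (Real.sqrt_nonneg _) fun x => ?_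
  rw [Real.sq_sqrt (cfsq_nonneg A), cfsq, sum_mul]
  refine sum_le_sum fun i _ => ?_
  rw [Matrix.mulVec, dotProduct]
  refine (pow_le_pow_left₀ (norm_nonneg _) (norm_sum_le _ _) 2).trans ?_
  simp only [norm_mul]
  exact sum_mul_sq_le_sq_mul_sq univ _ _

lemma norm_transpose (A : Matrix (Fin n) (Fin n) ℂ) : ‖Aᵀ‖ = ‖A‖ := by
  have key : ∀ B : Matrix (Fin n) (Fin n) ℂ, ‖Bᵀ‖ ≤ ‖B‖ := fun B => by
    refine norm_le_of_csq (norm_nonneg _) fun x => ?_
    have h := csq_mulVec_le Bᴴ fun i => conj (x i)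
    rw [Matrix.l2_opNorm_conjTranspose] at h
    have e : ∀ i, (Bᴴ *ᵥ fun i => conj (x i)) i = conj ((Bᵀ *ᵥ x) i) := fun i => by
      simp [Matrix.mulVec, dotProduct, Matrix.conjTranspose_apply]
    simpa only [csq, e, Complex.norm_conj] using h
  exact le_antisymm (key A) (by simpa using key Aᵀ)

lemma cfsq_mul_le (A B : Matrix (Fin n) (Fin n) ℂ) : cfsq (A * B) ≤ ‖A‖ ^ 2 * cfsq B := by
  calc cfsq (A * B) = ∑ j, csq (A *ᵥ fun k => B k j) := Finset.sum_comm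
    _ ≤ ∑ j, ‖A‖ ^ 2 * csq (fun k => B k j) := sum_le_sum fun j _ => csq_mulVec_le _ _
    _ = ‖A‖ ^ 2 * cfsq B := by rw [← mul_sum]; congr 1; exact Finset.sum_comm

lemma cfsq_transpose (A : Matrix (Fin n) (Fin n) ℂ) : cfsq Aᵀ = cfsq A := Finset.sum_comm

lemma cfsq_mul_le_right (A B : Matrix (Fin n) (Fin n) ℂ) : cfsq (A * B) ≤ cfsq A * ‖B‖ ^ 2 := by
  rw [← cfsq_transpose, Matrix.transpose_mul, mul_comm (cfsq A), ← cfsq_transpose A, ← norm_transpose B]
  exact cfsq_mul_le _ _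

lemma sqrt_cfsq_sandwich (A X B : Matrix (Fin n) (Fin n) ℂ) :
    √(cfsq (A * X * B)) ≤ ‖A‖ * ‖B‖ * √(cfsq X) := by
  rw [Real.sqrt_le_left (mul_nonneg (mul_nonneg (norm_nonneg _) (norm_nonneg _)) (Real.sqrt_nonneg _)),
    mul_pow, Real.sq_sqrt (cfsq_nonneg X), mul_pow]
  calc cfsq (A * X * B) ≤ cfsq (A * X) * ‖B‖ ^ 2 := cfsq_mul_le_right _ _
    _ ≤ ‖A‖ ^ 2 * cfsq X * ‖B‖ ^ 2 := mul_le_mul_of_nonneg_right (cfsq_mul_le _ _) (sq_nonneg _)
    _ = ‖A‖ ^ 2 * ‖B‖ ^ 2 * cfsq X := by ring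

lemma sqrt_cfsq_add (A B : Matrix (Fin n) (Fin n) ℂ) :
    √(cfsq (A + B)) ≤ √(cfsq A) + √(cfsq B) := by
  have e : ∀ X : Matrix (Fin n) (Fin n) ℂ,
      √(cfsq X) = ‖(WithLp.toLp 2 fun p : Fin n × Fin n => X p.1 p.2 : EuclideanSpace ℂ (Fin n × Fin n))‖ :=
    fun X => by rw [EuclideanSpace.norm_eq, Fintype.sum_prod_type]; rfl
  rw [e, e, e]
  exact norm_add_le (WithLp.toLp 2 fun p : Fin n × Fin n => A p.1 p.2 : EuclideanSpace ℂ (Fin n × Fin n))
    (WithLp.toLp 2 fun p : Fin n × Fin n => B p.1 p.2)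

/-! ### real matrices -/

lemma cmat_mulVec_re (A : Matrix (Fin n) (Fin n) ℝ) (x : Fin n → ℂ) (i : Fin n) :
    ((cmat A *ᵥ x) i).re = (A *ᵥ fun j => (x j).re) i := by
  simp [cmat, Matrix.mulVec, dotProduct, Complex.re_sum]

lemma cmat_mulVec_im (A : Matrix (Fin n) (Fin n) ℝ) (x : Fin n → ℂ) (i : Fin n) :
    ((cmat A *ᵥ x) i).im = (A *ᵥ fun j => (x j).im) i := by
  simp [cmat, Matrix.mulVec, dotProduct, Complex.im_sum]

lemma norm_cmat_le {A : Matrix (Fin n) (Fin n) ℝ} {K : ℝ} (h : Fast.OpNorm.OpLe A K) : ‖cmat A‖ ≤ K := by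
  refine norm_le_of_csq h.1 fun x => ?_
  simp only [csq_re_im, cmat_mulVec_re, cmat_mulVec_im, mul_add]
  exact add_le_add (h.2 _) (h.2 _)

lemma opLe_of_norm_cmat {A : Matrix (Fin n) (Fin n) ℝ} {K : ℝ} (h : ‖cmat A‖ ≤ K) :
    Fast.OpNorm.OpLe A K := by
  refine ⟨(norm_nonneg _).trans h, fun w => ?_⟩
  have h1 := (csq_mulVec_le (cmat A) fun i => (w i : ℂ)).trans
    (mul_le_mul_of_nonneg_right (pow_le_pow_left₀ (norm_nonneg _) h 2) (csq_nonneg _))
  simp only [csq_re_im, cmat_mulVec_re, cmat_mulVec_im, Fast.OpNorm.nsq, Complex.ofReal_re, Complex.ofReal_im] at h1 ⊢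
  simpa [Matrix.mulVec, dotProduct] using h1

lemma cW_transpose {τ : ℝ} {V : Matrix (Fin n) (Fin n) ℝ} (hV : Vᵀ = V) : (cW τ V)ᵀ = cW τ V := by
  rw [cW, Matrix.transpose_sub, Matrix.transpose_smul, Matrix.transpose_one, cmat, ← Matrix.transpose_map, hV]

/-- The energy identity behind both bounds on `G`. -/
lemma energy {τ : ℝ} {V : Matrix (Fin n) (Fin n) ℝ} (hV : Vᵀ = V) {D : Fin n → ℝ} {x y p : Fin n → ℂ}
    (hy : ∀ j, y j = (D j : ℂ) * p j) (hx : x = p + cW τ V *ᵥ y) :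
    (∑ j, conj (y j) * x j).im = -τ * csq y ∧
      ∀ η, FormGe η V D → η * csq y ≤ (∑ j, conj (y j) * x j).re := by
  set a := fun j => (y j).re
  set b := fun j => (y j).im
  have hsw : dotProduct b (V *ᵥ a) = dotProduct a (V *ᵥ b) := by
    rw [dotProduct_comm, Matrix.dotProduct_mulVec, ← Matrix.mulVec_transpose, hV]
  have hre : ∀ j, (y j).re = D j * (p j).re := fun j => by rw [hy j]; simp
  have him : ∀ j, (y j).im = D j * (p j).im := fun j => by rw [hy j]; simp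
  have hxr : ∀ j, (x j).re = (p j).re + (V *ᵥ a) j + τ * b j := fun j => by
    rw [hx]; simp [cW, Matrix.sub_mulVec, Matrix.smul_mulVec, cmat_mulVec_re, a, b]; ring
  have hxi : ∀ j, (x j).im = (p j).im + (V *ᵥ b) j - τ * a j := fun j => by
    rw [hx]; simp [cW, Matrix.sub_mulVec, Matrix.smul_mulVec, cmat_mulVec_im, a, b]; ring
  have him' : ∀ j, (conj (y j) * x j).im =
      (a j * (V *ᵥ b) j - b j * (V *ᵥ a) j) + -τ * ((y j).re ^ 2 + (y j).im ^ 2) := fun j => by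
    rw [Complex.mul_im, Complex.conj_re, Complex.conj_im, hxr, hxi, hre, him]
    simp only [a, b, hre, him]
    ring
  have hre' : ∀ j, (conj (y j) * x j).re =
      (D j * (p j).re ^ 2 + a j * (V *ᵥ a) j) + (D j * (p j).im ^ 2 + b j * (V *ᵥ b) j) := fun j => by
    rw [Complex.mul_re, Complex.conj_re, Complex.conj_im, hxr, hxi, hre, him]
    simp only [a, b, hre, him]
    ring
  simp only [dotProduct] at hsw
  constructor
  · simp only [Complex.im_sum, him', csq_re_im, Fast.OpNorm.nsq, sum_add_distrib, sum_sub_distrib,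
      ← mul_sum]
    linarith
  · intro η hη
    have h1 := hη fun j => (p j).re
    have h2 := hη fun j => (p j).im
    simp only [← hre, ← him, dotProduct] at h1 h2
    simp only [Complex.re_sum, hre', csq_re_im, Fast.OpNorm.nsq, sum_add_distrib, mul_add]
    exact add_le_add h1 h2

lemma norm_inner_le (y x : Fin n → ℂ) : ‖∑ j, conj (y j) * x j‖ ≤ √(csq y) * √(csq x) := by
  refine (norm_sum_le _ _).trans ?_
  simp only [norm_mul, Complex.norm_conj]
  exact Real.sum_mul_le_sqrt_mul_sqrt univ _ _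

/-- `W`, `D` with an invertible `1 + D W` and `|G| ≤ R` -/
structure Res (W : Matrix (Fin n) (Fin n) ℂ) (D : Fin n → ℝ) (R : ℝ) : Prop where
  unit : IsUnit (1 + cdiag D * W).det
  symm : Wᵀ = W
  bd : ‖cG W D‖ ≤ R

lemma res_of {τ c : ℝ} {V : Matrix (Fin n) (Fin n) ℝ} (hV : Vᵀ = V) {D : Fin n → ℝ} (hc : 0 < c)
    (h : ∀ x y p : Fin n → ℂ, (∀ j, y j = (D j : ℂ) * p j) → x = p + cW τ V *ᵥ y →
      c * csq y ≤ ‖∑ j, conj (y j) * x j‖) : Res (cW τ V) D (1 / c) := by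
  set W := cW τ V
  have hu : IsUnit (1 + cdiag D * W).det := by
    rw [← Matrix.isUnit_iff_isUnit_det, ← Matrix.mulVec_injective_iff_isUnit]
    intro v w hvw
    set d := v - w
    have h0 : d + cdiag D *ᵥ (W *ᵥ d) = 0 := by
      rw [Matrix.mulVec_mulVec, ← Matrix.one_mulVec d, Matrix.mulVec_mulVec, Matrix.mul_one, ← Matrix.add_mulVec,
        Matrix.mulVec_sub]
      exact sub_eq_zero.2 hvw
    have hd := h 0 d (-(W *ᵥ d)) (fun j => by
      have := congrFun h0 j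
      simp only [cdiag, Pi.add_apply, Matrix.mulVec_diagonal, Pi.zero_apply] at this
      rw [Pi.neg_apply]; linear_combination this) (neg_add_cancel _).symm
    simp only [Pi.zero_apply, mul_zero, Finset.sum_const_zero, norm_zero] at hd
    exact sub_eq_zero.1 (eq_zero_of_csq (by nlinarith [csq_nonneg d]))
  refine ⟨hu, cW_transpose hV, norm_le_of_csq (by positivity) fun x => ?_⟩
  set y := cG W D *ᵥ x
  have e : cdiag D * W * cG W D = cdiag D - cG W D := by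
    have h1 : (1 + cdiag D * W) * cG W D = cdiag D := by
      rw [cG, ← Matrix.mul_assoc, Matrix.mul_nonsing_inv _ hu, Matrix.one_mul]
    rw [Matrix.add_mul, Matrix.one_mul] at h1
    exact eq_sub_of_add_eq' h1
  have hy : ∀ j, y j = (D j : ℂ) * (x - W *ᵥ y) j := fun j => by
    have : cdiag D *ᵥ (x - W *ᵥ y) = y := by
      rw [Matrix.mulVec_sub, Matrix.mulVec_mulVec, Matrix.mulVec_mulVec, e, Matrix.sub_mulVec, sub_sub_cancel]
    conv_lhs => rw [← this]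
    rw [cdiag, Matrix.mulVec_diagonal]
  have hb := (h x y (x - W *ᵥ y) hy (sub_add_cancel _ _).symm).trans (norm_inner_le y x)
  have hs := Real.mul_self_sqrt (csq_nonneg y)
  have hsx := Real.mul_self_sqrt (csq_nonneg x)
  rcases (Real.sqrt_nonneg (csq y)).eq_or_lt with h0 | h0
  · rw [← hs, ← h0, mul_zero]
    exact mul_nonneg (sq_nonneg _) (csq_nonneg x)
  · have h1 : c * √(csq y) ≤ √(csq x) := le_of_mul_le_mul_left (a := √(csq y))
      (by nlinarith) h0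
    rw [div_pow, one_pow, div_mul_eq_mul_div, one_mul, le_div_iff₀ (pow_pos hc 2)]
    have := mul_le_mul h1 h1 (by positivity) (Real.sqrt_nonneg _)
    nlinarith

/-- under the form condition `|G| ≤ 1/η`, for every `τ` -/
lemma res_of_form {τ η : ℝ} {V : Matrix (Fin n) (Fin n) ℝ} (hV : Vᵀ = V) {D : Fin n → ℝ} (hη : 0 < η)
    (h : FormGe η V D) : Res (cW τ V) D (1 / η) :=
  res_of hV hη fun _ _ _ hy hx => ((energy hV hy hx).2 η h).trans (Complex.re_le_norm _)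

/-- for `τ > 0` always `|G| ≤ 1/τ` -/
lemma res_of_tau {τ : ℝ} {V : Matrix (Fin n) (Fin n) ℝ} (hV : Vᵀ = V) (D : Fin n → ℝ) (hτ : 0 < τ) :
    Res (cW τ V) D (1 / τ) :=
  res_of hV hτ fun x y p hy hx => by
    refine le_trans (le_of_eq ?_) (Complex.abs_im_le_norm _)
    rw [(energy hV hy hx).1, abs_mul, abs_neg, abs_of_pos hτ, abs_of_nonneg (csq_nonneg y)]

namespace Res

variable {W W' : Matrix (Fin n) (Fin n) ℂ} {D D' : Fin n → ℝ} {R R' : ℝ}

lemma nonneg (h : Res W D R) : 0 ≤ R := (norm_nonneg _).trans h.bd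

lemma mul_G (h : Res W D R) : (1 + cdiag D * W) * cG W D = cdiag D := by
  rw [cG, ← Matrix.mul_assoc, Matrix.mul_nonsing_inv _ h.unit, Matrix.one_mul]

lemma left_eq (h : Res W D R) : cdiag D * W * cG W D = cdiag D - cG W D := by
  have h1 := h.mul_G
  rw [Matrix.add_mul, Matrix.one_mul] at h1
  exact eq_sub_of_add_eq' h1

lemma G_symm (h : Res W D R) : (cG W D)ᵀ = cG W D := by
  have hd : (cdiag D)ᵀ = cdiag D := Matrix.diagonal_transpose _
  have h1 : (cG W D)ᵀ * (1 + W * cdiag D) = cdiag D := by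
    have := congrArg Matrix.transpose h.mul_G
    rwa [Matrix.transpose_mul, Matrix.transpose_add, Matrix.transpose_one, Matrix.transpose_mul, hd,
      h.symm] at this
  have h2 : cG W D * (1 + W * cdiag D) = cdiag D := by
    rw [cG, Matrix.mul_assoc, show cdiag D * (1 + W * cdiag D) = (1 + cdiag D * W) * cdiag D by
      noncomm_ring, ← Matrix.mul_assoc, Matrix.nonsing_inv_mul _ h.unit, Matrix.one_mul]
  have hu : IsUnit (1 + W * cdiag D).det := by
    rw [show (1 + W * cdiag D) = (1 + cdiag D * W)ᵀ by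
      rw [Matrix.transpose_add, Matrix.transpose_one, Matrix.transpose_mul, hd, h.symm],
      Matrix.det_transpose]
    exact h.unit
  have h3 := congrArg (· * (1 + W * cdiag D)⁻¹) (h1.trans h2.symm)
  simpa [Matrix.mul_assoc, Matrix.mul_nonsing_inv _ hu] using h3

lemma right_eq (h : Res W D R) : cG W D * W * cdiag D = cdiag D - cG W D := by
  have hd : (cdiag D)ᵀ = cdiag D := Matrix.diagonal_transpose _
  have := congrArg Matrix.transpose h.left_eq
  rwa [Matrix.transpose_mul, Matrix.transpose_mul, hd, h.symm, h.G_symm, Matrix.transpose_sub, hd,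
    h.G_symm, ← Matrix.mul_assoc] at this

lemma mul_M (h : Res W D R) : (1 + cdiag D * W) * cM W D = 1 := by
  rw [cM, Matrix.mul_sub, Matrix.mul_one, ← Matrix.mul_assoc, h.mul_G]
  abel

lemma M_mul (h : Res W D R) : cM W D * (1 + cdiag D * W) = 1 :=
  mul_eq_one_comm.1 h.mul_M

lemma M_mul_D (h : Res W D R) : cM W D * cdiag D = cG W D := by
  rw [cM, Matrix.sub_mul, Matrix.one_mul, h.right_eq, sub_sub_cancel]

lemma M_transpose (h : Res W D R) : (cM W D)ᵀ = 1 - W * cG W D := by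
  rw [cM, Matrix.transpose_sub, Matrix.transpose_one, Matrix.transpose_mul, h.symm, h.G_symm]

lemma Mt_mul (h : Res W D R) : (cM W D)ᵀ * (1 + W * cdiag D) = 1 := by
  have := congrArg Matrix.transpose h.mul_M
  rwa [Matrix.transpose_mul, Matrix.transpose_add, Matrix.transpose_one, Matrix.transpose_mul,
    cdiag, Matrix.diagonal_transpose, h.symm, ← cdiag] at this

lemma H_eq : cH W D = -(W * cM W D) := by
  rw [cH, cM]; noncomm_ring

lemma H_eq' (h : Res W D R) : cH W D = -((cM W D)ᵀ * W) := by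
  rw [h.M_transpose, cH]; noncomm_ring

lemma H_symm (h : Res W D R) : (cH W D)ᵀ = cH W D := by
  rw [cH, Matrix.transpose_add, Matrix.transpose_neg, Matrix.transpose_mul, Matrix.transpose_mul, h.symm,
    h.G_symm, Matrix.mul_assoc]

lemma GW_eq (h : Res W D R) : cG W D * W = -(cdiag D * cH W D) := by
  rw [cH, Matrix.mul_add, Matrix.mul_neg, ← Matrix.mul_assoc, ← Matrix.mul_assoc, h.left_eq]
  noncomm_ring

/-- `G = D + D H D` -/
lemma G_eq (h : Res W D R) : cG W D = cdiag D + cdiag D * cH W D * cdiag D := by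
  rw [show cdiag D * cH W D = -(cG W D * W) by rw [h.GW_eq, neg_neg], Matrix.neg_mul, h.right_eq]
  abel

lemma G_sub (h : Res W D R) (h' : Res W' D R') : cG W' D - cG W D = cG W' D * (W - W') * cG W D := by
  calc cG W' D - cG W D
      = cM W' D * ((1 + cdiag D * W) * cG W D) - cM W' D * (1 + cdiag D * W') * cG W D := by
        rw [h.mul_G, h'.M_mul_D, h'.M_mul, Matrix.one_mul]
    _ = cM W' D * cdiag D * (W - W') * cG W D := by noncomm_ring
    _ = _ := by rw [h'.M_mul_D]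

lemma M_sub (h : Res W D R) (h' : Res W' D R') : cM W' D - cM W D = cG W' D * (W - W') * cM W D := by
  calc cM W' D - cM W D
      = cM W' D * ((1 + cdiag D * W) * cM W D) - cM W' D * (1 + cdiag D * W') * cM W D := by
        rw [h.mul_M, h'.M_mul, Matrix.mul_one, Matrix.one_mul]
    _ = cM W' D * cdiag D * (W - W') * cM W D := by noncomm_ring
    _ = _ := by rw [h'.M_mul_D]

/-- The difference identity for `H`. -/
lemma H_sub (h : Res W D R) (h' : Res W' D' R') :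
    cH W' D' - cH W D = (cM W D)ᵀ * (W - W') * cM W' D' + cH W D * (cdiag D' - cdiag D) * cH W' D' := by
  calc cH W' D' - cH W D
      = (cM W D)ᵀ * W * ((1 + cdiag D' * W') * cM W' D') -
          ((cM W D)ᵀ * (1 + W * cdiag D)) * W' * cM W' D' := by
        rw [h'.mul_M, h.Mt_mul, Matrix.one_mul, Matrix.mul_one, h.H_eq', H_eq]; abel
    _ = (cM W D)ᵀ * (W - W') * cM W' D' + (-((cM W D)ᵀ * W)) * (cdiag D' - cdiag D) * (-(W' * cM W' D')) := by
        noncomm_ring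
    _ = _ := by rw [← h.H_eq', ← H_eq]

lemma norm_M_le (h : Res W D R) : ‖cM W D‖ ≤ 1 + R * ‖W‖ := by
  refine (norm_sub_le _ _).trans (add_le_add ?_ ((norm_mul_le _ _).trans
    (mul_le_mul_of_nonneg_right h.bd (norm_nonneg _))))
  rw [← Matrix.diagonal_one, Matrix.l2_opNorm_diagonal]
  exact (pi_norm_le_iff_of_nonneg zero_le_one).2 fun _ => by simp

lemma norm_H_le (h : Res W D R) : ‖cH W D‖ ≤ ‖W‖ * (1 + R * ‖W‖) := by
  rw [H_eq, norm_neg]
  exact (norm_mul_le _ _).trans (mul_le_mul_of_nonneg_left h.norm_M_le (norm_nonneg _))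

/-- Lipschitz bound for `H` in Frobenius norm. -/
lemma H_sub_cfsq (h : Res W D R) (h' : Res W' D' R') :
    √(cfsq (cH W' D' - cH W D)) ≤ (1 + R * ‖W‖) * (1 + R' * ‖W'‖) * √(cfsq (W - W')) +
      ‖W‖ * (1 + R * ‖W‖) * (‖W'‖ * (1 + R' * ‖W'‖)) * √(∑ j, (D' j - D j) ^ 2) := by
  rw [h.H_sub h']
  refine (sqrt_cfsq_add _ _).trans (add_le_add ((sqrt_cfsq_sandwich _ _ _).trans ?_)
    ((sqrt_cfsq_sandwich _ _ _).trans ?_))
  · rw [norm_transpose]
    exact mul_le_mul_of_nonneg_right (mul_le_mul h.norm_M_le h'.norm_M_le (norm_nonneg _)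
      ((norm_nonneg _).trans h.norm_M_le)) (Real.sqrt_nonneg _)
  · have e : cfsq (cdiag D' - cdiag D) = ∑ j, (D' j - D j) ^ 2 := by
      refine sum_congr rfl fun i _ => ?_
      rw [sum_eq_single i (fun j _ hj => by simp [cdiag, Ne.symm hj])
        (by simp)]
      simp [cdiag, ← Complex.ofReal_sub]
    rw [e]
    exact mul_le_mul_of_nonneg_right (mul_le_mul h.norm_H_le h'.norm_H_le (norm_nonneg _)
      ((norm_nonneg _).trans h.norm_H_le)) (Real.sqrt_nonneg _)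

lemma H_sub_norm (h : Res W D R) (h' : Res W' D R') :
    ‖cH W' D - cH W D‖ ≤ (1 + R * ‖W‖) * (1 + R' * ‖W'‖) * ‖W - W'‖ := by
  rw [h.H_sub h', sub_self, Matrix.mul_zero, Matrix.zero_mul, add_zero]
  refine (norm_mul_le _ _).trans ((mul_le_mul_of_nonneg_right (c := (1 + R * ‖W‖) * ‖W - W'‖)
    ((norm_mul_le _ _).trans ?_) (norm_nonneg _)).trans ?_)
  · rw [norm_transpose]
    exact mul_le_mul_of_nonneg_right h.norm_M_le (norm_nonneg _)
  · calc (1 + R * ‖W‖) * ‖W - W'‖ * ‖cM W' D‖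
        ≤ (1 + R * ‖W‖) * ‖W - W'‖ * (1 + R' * ‖W'‖) := mul_le_mul_of_nonneg_left h'.norm_M_le
          (mul_nonneg ((norm_nonneg _).trans h.norm_M_le) (norm_nonneg _))
      _ = _ := by ring

end Res

/-! ### the disorder -/

/-- `b - uJ - iτ` -/
noncomputable def resW (τ β u θ : ℝ) (g : Edge n → ℝ) (D : Fin n → ℝ) : Matrix (Fin n) (Fin n) ℂ :=
  cW τ (resV β u θ g D)

/-- the regularised `H` -/
noncomputable def resHc (τ β u θ : ℝ) (g : Edge n → ℝ) (D : Fin n → ℝ) : Matrix (Fin n) (Fin n) ℂ :=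
  cH (resW τ β u θ g D) D

/-- the couplings of norm at most `Λ` -/
def Ball (β Λ : ℝ) : Set (Edge n → ℝ) := {g | ‖cmat (Matrix.of (cpl β g))‖ ≤ Λ}

lemma cplMat_symm (β : ℝ) (g : Edge n → ℝ) : (Matrix.of (cpl β g))ᵀ = Matrix.of (cpl β g) := by
  ext i j; simp [cpl, coupling_symm g j i]

lemma resV_symm (β u θ : ℝ) (g : Edge n → ℝ) (D : Fin n → ℝ) :
    (resV β u θ g D)ᵀ = resV β u θ g D := by
  rw [resV, Matrix.transpose_sub, Matrix.transpose_smul, Matrix.transpose_smul, Matrix.transpose_one, cplMat_symm]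

lemma res_tau {τ : ℝ} (hτ : 0 < τ) (β u θ : ℝ) (g : Edge n → ℝ) (D : Fin n → ℝ) :
    Res (resW τ β u θ g D) D (1 / τ) := res_of_tau (resV_symm β u θ g D) D hτ

lemma res_admissible {β η u θ : ℝ} {g : Edge n → ℝ} {D : Fin n → ℝ} (h : Admissible β η u θ g D)
    (hη : 0 < η) (τ : ℝ) : Res (resW τ β u θ g D) D (1 / η) :=
  res_of_form (resV_symm β u θ g D) hη h.2.2.2.2.2

lemma resW_eq (τ β u θ : ℝ) (g : Edge n → ℝ) (D : Fin n → ℝ) :
    resW τ β u θ g D = ((resShift β u θ D : ℂ) - (τ : ℂ) * Complex.I) • 1 - (u : ℂ) • cmat (Matrix.of (cpl β g)) := by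
  ext i j
  simp only [resW, cW, cmat, resV, Matrix.sub_apply, Matrix.smul_apply, Matrix.map_apply, Matrix.of_apply,
    Matrix.one_apply, smul_eq_mul]
  split_ifs <;> push_cast <;> ring

lemma frac_bound {θ x : ℝ} (hθ : |θ| ≤ 1 / 2) (h0 : 0 ≤ x) (h1 : x ≤ 1) :
    1 / 2 ≤ 1 + θ * x ∧ 0 ≤ x / (1 + θ * x) ∧ x / (1 + θ * x) ≤ 2 := by
  have := (abs_le.1 hθ).1
  have hd : 1 / 2 ≤ 1 + θ * x := by nlinarith
  exact ⟨hd, div_nonneg h0 (by linarith), (div_le_iff₀ (by linarith)).2 (by linarith)⟩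

lemma mean_le {f : Fin n → ℝ} {c : ℝ} (hc : 0 ≤ c) (h : ∀ j, |f j| ≤ c) : |(∑ j, f j) / n| ≤ c := by
  rw [abs_div, Nat.abs_cast]
  refine div_le_of_le_mul₀ (Nat.cast_nonneg n) hc ((abs_sum_le_sum_abs _ _).trans ?_)
  refine (sum_le_sum fun j _ => h j).trans_eq ?_
  simp [mul_comm]

lemma shift_le {β u θ : ℝ} {D : Fin n → ℝ} (hβ : β ^ 2 ≤ 1) (hu : |u| ≤ 2) (hθ : |θ| ≤ 1 / 2)
    (hD : ∀ j, 0 ≤ D j ∧ D j ≤ 1) : |resShift β u θ D| ≤ 9 := by
  have h1 : |(∑ j, D j / (1 + θ * D j)) / (n : ℝ)| ≤ 2 := mean_le zero_le_two fun j => by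
    have := frac_bound hθ (hD j).1 (hD j).2
    rw [abs_of_nonneg this.2.1]; exact this.2.2
  refine (abs_add_le _ _).trans ?_
  rw [abs_mul, abs_of_nonneg (by positivity : (0:ℝ) ≤ β ^ 2 * u ^ 2)]
  have h2 : β ^ 2 * u ^ 2 ≤ 4 := by nlinarith [sq_abs u, sq_nonneg u, sq_nonneg β, abs_nonneg u]
  nlinarith [abs_nonneg ((∑ j, D j / (1 + θ * D j)) / (n : ℝ)), mul_le_mul h2 h1 (abs_nonneg _) (by norm_num)]

lemma norm_one_le : ‖(1 : Matrix (Fin n) (Fin n) ℂ)‖ ≤ 1 := by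
  rw [← Matrix.diagonal_one, Matrix.l2_opNorm_diagonal]
  exact (pi_norm_le_iff_of_nonneg zero_le_one).2 fun _ => by simp

lemma norm_resW_le {τ β Λ u θ : ℝ} {g : Edge n → ℝ} {D : Fin n → ℝ} (hτ : |τ| ≤ 1) (hβ : β ^ 2 ≤ 1)
    (hu : |u| ≤ 2) (hθ : |θ| ≤ 1 / 2) (hD : ∀ j, 0 ≤ D j ∧ D j ≤ 1) (hg : g ∈ Ball β Λ) :
    ‖resW τ β u θ g D‖ ≤ 10 + 2 * Λ := by
  rw [resW_eq]
  refine (norm_sub_le _ _).trans (add_le_add ?_ ?_)
  · rw [norm_smul]
    refine (mul_le_of_le_one_right (norm_nonneg _) norm_one_le).trans ((norm_sub_le _ _).trans ?_)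
    rw [Complex.norm_real, norm_mul, Complex.norm_real, Complex.norm_I, mul_one, Real.norm_eq_abs, Real.norm_eq_abs]
    linarith [shift_le hβ hu hθ hD]
  · rw [norm_smul, Complex.norm_real, Real.norm_eq_abs]
    exact mul_le_mul hu hg (norm_nonneg _) zero_le_two

lemma cfsq_cpl (β : ℝ) (g w : Edge n → ℝ) :
    cfsq (cmat (Matrix.of (cpl β g)) - cmat (Matrix.of (cpl β w))) =
      β ^ 2 / n * (2 * ∑ e, (g e - w e) ^ 2) := by
  have h := quad_coupling (fun e => (g e - w e) ^ 2) fun _ : Fin n => (1 : ℝ)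
  simp only [mul_one, ← mul_sum] at h
  have e : ∀ i j, coupling g i j - coupling w i j = coupling (fun e => g e - w e) i j := fun i j => by
    unfold coupling; split_ifs <;> simp
  rw [← h]
  simp only [cfsq, cmat, Matrix.sub_apply, Matrix.map_apply, Matrix.of_apply, ← Complex.ofReal_sub,
    Complex.norm_real, Real.norm_eq_abs, sq_abs, cpl, ← mul_sub, e, mul_pow, div_pow,
    Real.sq_sqrt (Nat.cast_nonneg n), coupling_sq, mul_sum]

/-- `resHc` is Euclidean Lipschitz in the disorder on the ball, at rate `n^{-1/2}`. -/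
lemma resHc_lip {τ β Λ u θ : ℝ} {g w : Edge n → ℝ} {D : Fin n → ℝ} (hτ : 0 < τ) (hτ1 : τ ≤ 1)
    (hβ : β ^ 2 ≤ 1) (hu : |u| ≤ 2) (hθ : |θ| ≤ 1 / 2) (hD : ∀ j, 0 ≤ D j ∧ D j ≤ 1)
    (hg : g ∈ Ball β Λ) (hw : w ∈ Ball β Λ) :
    √(cfsq (resHc τ β u θ g D - resHc τ β u θ w D)) ≤
      3 * (1 + (10 + 2 * Λ) / τ) ^ 2 / √n * √(∑ e, (g e - w e) ^ 2) := by
  have hW : |τ| ≤ 1 := abs_le.2 ⟨by linarith, hτ1⟩
  set K := 1 + (10 + 2 * Λ) / τ
  have hK : ∀ x ∈ Ball (n := n) β Λ, 1 + 1 / τ * ‖resW τ β u θ x D‖ ≤ K := fun x hx => by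
    rw [one_div_mul_eq_div]
    exact add_le_add le_rfl (div_le_div_of_nonneg_right (norm_resW_le hW hβ hu hθ hD hx) hτ.le)
  refine ((res_tau hτ β u θ w D).H_sub_cfsq (res_tau hτ β u θ g D)).trans ?_
  simp only [sub_self, ne_eq, OfNat.ofNat_ne_zero, not_false_eq_true, zero_pow, sum_const_zero,
    Real.sqrt_zero, mul_zero, add_zero]
  have e : cfsq (resW τ β u θ w D - resW τ β u θ g D) = u ^ 2 * (β ^ 2 / n * (2 * ∑ e, (g e - w e) ^ 2)) := by
    rw [← cfsq_cpl, resW_eq, resW_eq, sub_sub_sub_cancel_left, ← smul_sub]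
    simp only [cfsq, Matrix.smul_apply, smul_eq_mul, norm_mul, mul_pow, Complex.norm_real,
      Real.norm_eq_abs, sq_abs, mul_sum]
  have h9 : u ^ 2 * (β ^ 2 * 2) ≤ 9 := by nlinarith [sq_abs u, abs_nonneg u, sq_nonneg β, sq_nonneg u]
  rw [e]
  calc _ ≤ K * K * √(9 / n * ∑ e, (g e - w e) ^ 2) := by
        refine mul_le_mul (mul_le_mul (hK w hw) (hK g hg) ?_ ((by positivity : (0:ℝ) ≤ 1 + 1 / τ *
          ‖resW τ β u θ w D‖).trans (hK w hw))) (Real.sqrt_le_sqrt ?_) (Real.sqrt_nonneg _)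
          (mul_self_nonneg K)
        · positivity
        · calc u ^ 2 * (β ^ 2 / n * (2 * ∑ e, (g e - w e) ^ 2))
              = u ^ 2 * (β ^ 2 * 2) / n * ∑ e, (g e - w e) ^ 2 := by ring
            _ ≤ 9 / n * ∑ e, (g e - w e) ^ 2 := mul_le_mul_of_nonneg_right
              (div_le_div_of_nonneg_right h9 (Nat.cast_nonneg n)) (sum_nonneg fun _ _ => sq_nonneg _)
    _ = 3 * K ^ 2 / √n * √(∑ e, (g e - w e) ^ 2) := by
        rw [Real.sqrt_mul (by positivity), Real.sqrt_div' _ (Nat.cast_nonneg n),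
          show √(9:ℝ) = 3 by rw [show (9:ℝ) = 3 ^ 2 by norm_num, Real.sqrt_sq (by norm_num)]]
        ring

/-- the regularised `H` at `τ = 0` is `resH` -/
lemma resHc_zero {β η u θ : ℝ} {g : Edge n → ℝ} {D : Fin n → ℝ} (h : Admissible β η u θ g D)
    (hη : 0 < η) : resHc 0 β u θ g D = cmat (resH β u θ g D) := by
  have hR := res_admissible h hη 0
  set V := resV β u θ g D
  have hW : resW 0 β u θ g D = cmat V := by simp [resW, cW, V]
  set A := 1 + Matrix.diagonal D * V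
  have hA : cmat A = 1 + cdiag D * cmat V := by
    have h1 : cmat (Matrix.diagonal D) = cdiag D := Matrix.diagonal_map Complex.ofReal_zero
    rw [← h1]
    exact (map_add (Complex.ofRealHom.mapMatrix) _ _).trans (congrArg₂ (· + ·) (map_one _) (map_mul _ _ _))
  have hu : IsUnit A.det := by
    have h1 := hR.unit
    rw [hW, ← hA] at h1
    refine isUnit_iff_ne_zero.2 fun h0 => h1.ne_zero ?_
    exact ((Complex.ofRealHom.map_det A).symm.trans (by rw [h0]; exact map_zero _))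
  have hM : cM (resW 0 β u θ g D) D = cmat A⁻¹ := by
    have h1 := hR.mul_M
    rw [hW, ← hA] at h1
    have h2 : cmat A * cmat A⁻¹ = 1 := by
      refine ((map_mul (Complex.ofRealHom.mapMatrix) A A⁻¹).symm.trans ?_)
      rw [Matrix.mul_nonsing_inv _ hu]; exact map_one _
    rw [hW, ← Matrix.inv_eq_right_inv h1, Matrix.inv_eq_right_inv h2]
  rw [resHc, Res.H_eq, hM, hW, resH]
  exact ((map_neg (Complex.ofRealHom.mapMatrix) _).trans (congrArg Neg.neg (map_mul _ _ _))).symm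

/-- On admissible triples `resH` is bounded and close to the regularisation. -/
lemma resH_approx {τ β η Λ u θ : ℝ} {g : Edge n → ℝ} {D : Fin n → ℝ} (h : Admissible β η u θ g D)
    (hη : 0 < η) (hβ : β ^ 2 ≤ 1) (hg : g ∈ Ball β Λ) (hτ : 0 ≤ τ) (hτ1 : τ ≤ 1) :
    ‖cmat (resH β u θ g D)‖ ≤ (10 + 2 * Λ) * (1 + (10 + 2 * Λ) / η) ∧
      ‖resHc τ β u θ g D - cmat (resH β u θ g D)‖ ≤ (1 + (10 + 2 * Λ) / η) ^ 2 * τ := by
  have hu : |u| ≤ 2 := abs_le.2 ⟨by linarith [h.1], h.2.1⟩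
  have hb : ∀ s, 0 ≤ s → s ≤ 1 → ‖resW s β u θ g D‖ ≤ 10 + 2 * Λ ∧
      1 + 1 / η * ‖resW s β u θ g D‖ ≤ 1 + (10 + 2 * Λ) / η := fun s h0 h1 => by
    have := norm_resW_le (τ := s) (abs_le.2 ⟨by linarith, h1⟩) hβ hu h.2.2.1 h.2.2.2.1 hg
    exact ⟨this, by rw [one_div_mul_eq_div]; exact add_le_add le_rfl (div_le_div_of_nonneg_right this hη.le)⟩
  have h0 := res_admissible h hη 0
  have hΛ : 0 ≤ 10 + 2 * Λ := (norm_nonneg _).trans (hb 0 le_rfl zero_le_one).1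
  rw [← resHc_zero h hη]
  refine ⟨h0.norm_H_le.trans (mul_le_mul (hb 0 le_rfl zero_le_one).1 (hb 0 le_rfl zero_le_one).2
    (by positivity) hΛ), (h0.H_sub_norm (res_admissible h hη τ)).trans ?_⟩
  rw [sq]
  refine mul_le_mul (mul_le_mul (hb 0 le_rfl zero_le_one).2 (hb τ hτ hτ1).2 (by positivity) (by positivity))
    ?_ (norm_nonneg _) (by positivity)
  rw [resW_eq, resW_eq, sub_sub_sub_cancel_right, ← sub_smul, norm_smul]
  refine (mul_le_of_le_one_right (norm_nonneg _) norm_one_le).trans (le_of_eq ?_)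
  simp [abs_of_nonneg hτ]

/-! ### the projection on the ball -/

lemma ball_convex (β Λ : ℝ) {g w : Edge n → ℝ} (hg : g ∈ Ball β Λ) (hw : w ∈ Ball β Λ) {a b : ℝ}
    (ha : 0 ≤ a) (hb : 0 ≤ b) (hab : a + b = 1) : a • g + b • w ∈ Ball β Λ := by
  have e : cmat (Matrix.of (cpl β (a • g + b • w))) =
      (a : ℂ) • cmat (Matrix.of (cpl β g)) + (b : ℂ) • cmat (Matrix.of (cpl β w)) := by
    ext i j
    have : coupling (a • g + b • w) i j = a * coupling g i j + b * coupling w i j := by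
      unfold coupling; split_ifs <;> simp
    simp [cmat, cpl, this]; ring
  show ‖_‖ ≤ Λ
  rw [e]
  refine (norm_add_le _ _).trans ?_
  rw [norm_smul, norm_smul, Complex.norm_real, Complex.norm_real, Real.norm_of_nonneg ha, Real.norm_of_nonneg hb]
  calc _ ≤ a * Λ + b * Λ := add_le_add (mul_le_mul_of_nonneg_left hg ha) (mul_le_mul_of_nonneg_left hw hb)
    _ = Λ := by rw [← add_mul, hab, one_mul]

lemma ball_closed (β Λ : ℝ) : IsClosed (Ball (n := n) β Λ) := by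
  refine isClosed_le (Continuous.norm ?_) continuous_const
  refine continuous_matrix fun i j => ?_
  simp only [cmat, Matrix.map_apply, Matrix.of_apply, cpl]
  unfold coupling
  split_ifs <;> fun_prop

/-- A Euclidean nonexpansive retraction on the ball. -/
theorem exists_proj (β : ℝ) {Λ : ℝ} (hΛ : 0 ≤ Λ) :
    ∃ P : (Edge n → ℝ) → (Edge n → ℝ), (∀ g, P g ∈ Ball β Λ) ∧ (∀ g ∈ Ball β Λ, P g = g) ∧
      (∀ g w, ∑ e, (P g e - P w e) ^ 2 ≤ ∑ e, (g e - w e) ^ 2) ∧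
      ∀ g, ∀ w ∈ Ball β Λ, ∑ e, (g e - P g e) * (w e - P g e) ≤ 0 := by
  set C : Set (EuclideanSpace ℝ (Edge n)) := {x | x.ofLp ∈ Ball (n := n) β Λ}
  have hne : C.Nonempty := ⟨0, by
    show ‖_‖ ≤ Λ
    rw [show cmat (Matrix.of (cpl β (0 : EuclideanSpace ℝ (Edge n)).ofLp)) = 0 by
      ext i j; simp [cmat, cpl, coupling]]
    simpa using hΛ⟩
  have hconv : Convex ℝ C := fun x hx y hy a b ha hb hab => by
    show (a • x + b • y).ofLp ∈ Ball (n := n) β Λ
    rw [WithLp.ofLp_add, WithLp.ofLp_smul, WithLp.ofLp_smul]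
    exact ball_convex β Λ hx hy ha hb hab
  have hcl : IsClosed C := (ball_closed β Λ).preimage (PiLp.continuous_ofLp 2 (fun _ : Edge n => ℝ))
  choose q hq hmin using fun x => exists_norm_eq_iInf_of_complete_convex hne hcl.isComplete hconv x
  have hinner : ∀ g : Edge n → ℝ, ∀ w ∈ Ball β Λ,
      ∑ e, (g e - (q (WithLp.toLp 2 g)).ofLp e) * (w e - (q (WithLp.toLp 2 g)).ofLp e) ≤ 0 := fun g w hw => by
    have := (norm_eq_iInf_iff_real_inner_le_zero hconv (hq _)).1 (hmin (WithLp.toLp 2 g)) (WithLp.toLp 2 w) hw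
    simpa [PiLp.inner_apply, mul_comm] using this
  refine ⟨fun g => (q (WithLp.toLp 2 g)).ofLp, fun g => hq _, fun g hg => ?_, fun g w => ?_, hinner⟩
  · have h := hinner g g hg
    simp only [← sq] at h
    funext e
    have h1 := (single_le_sum (f := fun e => (g e - (q (WithLp.toLp 2 g)).ofLp e) ^ 2)
      (fun _ _ => sq_nonneg _) (mem_univ e)).trans h
    exact (sub_eq_zero.1 (sq_eq_zero_iff.1 (le_antisymm h1 (sq_nonneg _)))).symm
  · set p := (q (WithLp.toLp 2 g)).ofLp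
    set r := (q (WithLp.toLp 2 w)).ofLp
    have h1 := hinner g r (hq _)
    have h2 := hinner w p (hq _)
    have h3 : 0 ≤ ∑ e, ((g e - w e) - (p e - r e)) ^ 2 := sum_nonneg fun _ _ => sq_nonneg _
    have e : ∑ e, (g e - w e) ^ 2 = ∑ e, (p e - r e) ^ 2 + ∑ e, ((g e - w e) - (p e - r e)) ^ 2
        - 2 * ∑ e, (g e - p e) * (r e - p e) - 2 * ∑ e, (w e - r e) * (p e - r e) := by
      simp only [mul_sum, ← sum_add_distrib, ← sum_sub_distrib]
      exact sum_congr rfl fun i _ => by ring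
    linarith

/-- The ball of radius `3` fails with exponentially small probability. -/
theorem ball_prob : ∃ c : ℝ, 0 < c ∧ ∀ n : ℕ, 0 < n → ∀ β : ℝ, |β| ≤ 1 →
    (disorder n).real {g | g ∉ Ball β 3} ≤ 2 * Real.exp (-(c * n)) := by
  obtain ⟨c, hc, h⟩ := opnorm_bound (ε := 1/16) (δ := 1/16) (by norm_num) (by norm_num) (by norm_num) (by norm_num)
  refine ⟨c, hc, fun n hn β hβ => (MeasureTheory.measureReal_mono fun g hg => ?_).trans (h n hn)⟩
  by_contra hcon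
  simp only [Set.mem_ofPred_eq, not_exists, not_lt] at hcon
  refine hg (norm_cmat_le (Fast.OpNorm.opLe_of_quad (by norm_num) (cplMat_symm β g) fun v => ?_))
  have h1 := hcon v
  have hn' : (0:ℝ) < √n := Real.sqrt_pos.2 (by exact_mod_cast hn)
  have e : v ⬝ᵥ (Matrix.of (cpl β g) *ᵥ v) = β / √n * ∑ i, ∑ j, coupling g i j * (v i * v j) := by
    simp only [dotProduct, Matrix.mulVec, Matrix.of_apply, cpl, mul_sum]
    exact sum_congr rfl fun i _ => sum_congr rfl fun j _ => by ring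
  rw [e, abs_mul, abs_div, abs_of_pos hn']
  refine (mul_le_mul_of_nonneg_left h1 (by positivity)).trans ?_
  rw [div_mul_eq_mul_div, div_le_iff₀ hn']
  calc |β| * ((2 + 5 * (1 / 16)) / (1 - 2 * (1 / 16)) * √n * ∑ i, v i ^ 2)
      ≤ 1 * (3 * √n * ∑ i, v i ^ 2) := mul_le_mul hβ (mul_le_mul_of_nonneg_right
        (mul_le_mul_of_nonneg_right (by norm_num) hn'.le) (sum_nonneg fun _ _ => sq_nonneg _))
        (by positivity) zero_le_one
    _ = 3 * Fast.OpNorm.nsq v * √n := by rw [Fast.OpNorm.nsq]; ring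

/-! ### the net -/

/-- A net inside any set of parameters `(u, θ, D)` in the box, of exponential size. -/
theorem exists_net (n : ℕ) {m : ℕ} (hm : 0 < m) (S : Set (ℝ × ℝ × (Fin n → ℝ)))
    (hS : ∀ p ∈ S, 0 ≤ p.1 ∧ p.1 ≤ 2 ∧ |p.2.1| ≤ 1 / 2 ∧ ∀ j, 0 ≤ p.2.2 j ∧ p.2.2 j ≤ 1) :
    ∃ N : Finset (ℝ × ℝ × (Fin n → ℝ)), ↑N ⊆ S ∧ N.card ≤ (2 * m + 1) ^ (n + 2) ∧
      ∀ p ∈ S, ∃ q ∈ N, |p.1 - q.1| ≤ 1 / m ∧ |p.2.1 - q.2.1| ≤ 1 / m ∧
        ∀ j, |p.2.2 j - q.2.2 j| ≤ 1 / m := by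
  classical
  have hm' : (0:ℝ) < m := by exact_mod_cast hm
  set Γ := (Fin (2 * m + 1) × Fin (2 * m + 1)) × (Fin n → Fin (2 * m + 1))
  set cell : ℝ → Fin (2 * m + 1) := fun x => ⟨min ⌊x * m⌋₊ (2 * m), by omega⟩
  set idx : ℝ × ℝ × (Fin n → ℝ) → Γ := fun p => ((cell p.1, cell (p.2.1 + 1 / 2)), fun j => cell (p.2.2 j))
  have hcell : ∀ x y : ℝ, 0 ≤ x → x ≤ 2 → 0 ≤ y → y ≤ 2 → cell x = cell y → |x - y| ≤ 1 / m := by
    intro x y hx hx2 hy hy2 he
    have hle : ∀ z : ℝ, z ≤ 2 → ⌊z * m⌋₊ ≤ 2 * m := fun z hz => Nat.floor_le_of_le (by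
      push_cast; exact mul_le_mul_of_nonneg_right hz hm'.le)
    have he' := congrArg Fin.val he
    simp only [cell, min_eq_left (hle x hx2), min_eq_left (hle y hy2)] at he'
    have h1 := Nat.floor_le (mul_nonneg hx hm'.le)
    have h2 := Nat.lt_floor_add_one (x * m)
    have h3 := Nat.floor_le (mul_nonneg hy hm'.le)
    have h4 := Nat.lt_floor_add_one (y * m)
    rw [he'] at h1 h2
    rw [le_div_iff₀ hm']
    rw [← abs_of_pos hm', ← abs_mul, abs_le, sub_mul]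
    constructor <;> linarith
  set occ := univ.filter fun γ : Γ => ∃ p ∈ S, idx p = γ
  set pick : Γ → ℝ × ℝ × (Fin n → ℝ) := fun γ => if h : ∃ p ∈ S, idx p = γ then h.choose else (0, 0, 0)
  refine ⟨occ.image pick, fun q hq => ?_, (card_image_le.trans (card_le_univ _)).trans_eq ?_,
    fun p hp => ⟨pick (idx p), mem_image_of_mem _ (mem_filter.2 ⟨mem_univ _, p, hp, rfl⟩), ?_⟩⟩
  · obtain ⟨γ, hγ, rfl⟩ := mem_image.1 hq
    have h := (mem_filter.1 hγ).2
    simp only [pick, dif_pos h]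
    exact h.choose_spec.1
  · simp only [Γ, Fintype.card_prod, Fintype.card_fin, Fintype.card_fun]
    ring
  · have hex : ∃ q ∈ S, idx q = idx p := ⟨p, hp, rfl⟩
    simp only [pick, dif_pos hex]
    obtain ⟨hq, he⟩ := hex.choose_spec
    simp only [idx] at he
    obtain ⟨he1, he2⟩ := Prod.ext_iff.1 he
    obtain ⟨he11, he12⟩ := Prod.ext_iff.1 he1
    obtain ⟨h0, h0', hθ, hD⟩ := hS p hp
    obtain ⟨k0, k0', kθ, kD⟩ := hS _ hq
    have hθ' := abs_le.1 hθ
    have kθ' := abs_le.1 kθ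
    refine ⟨hcell _ _ h0 h0' k0 k0' he11.symm, ?_, fun j => hcell _ _ (hD j).1 (by linarith [(hD j).2])
      (kD j).1 (by linarith [(kD j).2]) (congrFun he2 j).symm⟩
    have := hcell (p.2.1 + 1 / 2) _ (by linarith) (by linarith) (by linarith) (by linarith) he12.symm
    rwa [add_sub_add_right_eq_sub] at this

end Vale.Agent.P150.High.ResCalc
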