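import Vale.Agent.P150.High.AmpSE
import Vale.Agent.P150.High.AmpConcSpec
import Vale.Agent.P150.High.ResCalc

/-!
# P150, all `β < 1`: the iteration with a full GOE matrix

With `J = (β/√n) W + (β²/n)(11' - ξξ')`, diagonal included, the fields are exactly `histZ`; removing
the diagonal changes them by `o(√n)`.
-/

open MeasureTheory ProbabilityTheory Finset Matrix

namespace Vale.Agent.P150.High.Amp

open Vale.Agent.P150 Vale.Agent.P150.Fast

variable {n : ℕ}

/-- The strict upper triangle. -/
def edgeOf (W : Fin n → Fin n → ℝ) (e : Edge n) : ℝ := W e.1.1 e.1.2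

/-- Couplings with the diagonal kept. -/
noncomputable def fullCpl (β : ℝ) (W : Fin n → Fin n → ℝ) (ξ : Fin n → ℝ) (i j : Fin n) : ℝ :=
  β / Real.sqrt n * W i j + β ^ 2 / n * (1 - ξ i * ξ j)

/-- The fields with the diagonal kept. -/
noncomputable def fullAt (β shift s : ℝ) (W : Fin n → Fin n → ℝ) (z : Fin n → ℝ) (k : ℕ) : Fin n → ℝ :=
  ampZ β shift s (fullCpl β W (prodXi β shift z))
    (shiftMat shift (fullCpl β W (prodXi β shift z)) *ᵥ prodF β shift s z) (prodF β shift s z) k

/-- Projection on the span of the first `L` frame vectors. -/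
noncomputable def spanProj (e : ℕ → Fin n → ℝ) (L : ℕ) (v : Fin n → ℝ) : Fin n → ℝ :=
  ∑ m ∈ range L, dot v (e m) • e m

section frame

variable {e : ℕ → Fin n → ℝ} (h : IsFrame e)
include h

lemma spanProj_frame {L m : ℕ} (hm : m < L) : spanProj e L (e m) = e m := by
  rw [spanProj, Finset.sum_eq_single m (fun k _ hk => by rw [h.1 m k (Ne.symm hk), zero_smul])
    (fun hm' => absurd (mem_range.2 hm) hm'), h.unit_smul]

lemma spanProj_smul {L : ℕ} {v : Fin n → ℝ} (hv : spanProj e L v = v) (c : ℝ) :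
    spanProj e L (c • v) = c • v := by
  conv_rhs => rw [← hv]
  simp only [spanProj, Finset.smul_sum, dot_eq, smul_dotProduct, smul_eq_mul, mul_smul]

lemma spanProj_add {L : ℕ} {v w : Fin n → ℝ} (hv : spanProj e L v = v) (hw : spanProj e L w = w) :
    spanProj e L (v + w) = v + w := by
  conv_rhs => rw [← hv, ← hw]
  simp only [spanProj, ← Finset.sum_add_distrib, dot_eq, add_dotProduct, add_smul]

lemma spanProj_succ {L : ℕ} {v : Fin n → ℝ} (hv : spanProj e L v = v) : spanProj e (L + 1) v = v := by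
  have h0 : dot v (e L) = 0 := by
    rw [← hv]
    simp only [spanProj, dot_eq, sum_dotProduct, smul_dotProduct, smul_eq_mul]
    exact Finset.sum_eq_zero fun m hm => by
      have := h.1 m L (mem_range.1 hm).ne
      rw [dot_eq] at this; rw [this, mul_zero]
  unfold spanProj at hv ⊢
  rw [Finset.sum_range_succ, h0, zero_smul, add_zero, hv]

/-- A vector lies in the span of the frame up to its own step. -/
lemma spanProj_of_gsStep {l : ℕ} {x : Fin n → ℝ} (he : e l = gsStep e l x) :
    spanProj e (l + 1) x = x := by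
  set r := x - ∑ m ∈ range l, dot x (e m) • e m
  have hr : r = Real.sqrt (dot r r) • e l := by
    rw [he]
    show r = Real.sqrt (dot r r) • ((Real.sqrt (dot r r))⁻¹ • r)
    by_cases h0 : Real.sqrt (dot r r) = 0
    · have h2 : dot r r = 0 := le_antisymm (Real.sqrt_eq_zero'.1 h0) (Finset.sum_nonneg fun i _ => mul_self_nonneg (r i))
      rw [eq_zero_of_dot_self h2]; simp
    · rw [smul_smul, mul_inv_cancel₀ h0, one_smul]
  have hp : spanProj e l (spanProj e l x) = spanProj e l x := by
    unfold spanProj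
    refine Finset.sum_congr rfl fun m hm => ?_
    congr 1
    have hd : dot (∑ k ∈ range l, dot x (e k) • e k) (e m) = dot x (e m) * dot (e m) (e m) := by
      simp only [dot_eq, sum_dotProduct, smul_dotProduct, smul_eq_mul]
      exact Finset.sum_eq_single m (fun k _ hk => by
        have := h.1 k m hk
        rw [dot_eq] at this; rw [this, mul_zero]) fun hm' => absurd hm hm'
    rw [hd, mul_comm, show dot x (e m) = dot (e m) x from dotProduct_comm _ _, h.unit_mul]
  have hx : x = spanProj e l x + Real.sqrt (dot r r) • e l := by rw [← hr]; simp [r, spanProj]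
  conv_rhs => rw [hx]
  conv_lhs => rw [hx]
  exact spanProj_add h (spanProj_succ h hp) (spanProj_smul h (spanProj_frame h (Nat.lt_succ_self l)) _)

end frame

/-- With the diagonal kept the fields are read off the frame and the images. -/
theorem histZ_eq_fullAt (β shift s : ℝ) (W : Fin n → Fin n → ℝ) (z : Fin n → ℝ) (K : ℕ) :
    ∀ j ≤ K, histZ β shift s z (state (ampRule β shift s z) (matResp W) K).1
      (state (ampRule β shift s z) (matResp W) K).2 j = fullAt β shift s W z j := by
  have h := state_frame (ampRule β shift s z) (matResp W) K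
  have hG : ∀ m < K, (state (ampRule β shift s z) (matResp W) K).2 m =
      matResp W m (state (ampRule β shift s z) (matResp W) K).1
        ((state (ampRule β shift s z) (matResp W) K).1 m) := fun m hm => by
    rw [(state_stable _ _ hm).2, (state_stable _ _ hm).1]
    simp only [state, Function.update_self]
    rfl
  have hdir : ∀ l < K, (state (ampRule β shift s z) (matResp W) K).1 l =
      gsStep (state (ampRule β shift s z) (matResp W) K).1 l
        (ampRule β shift s z l (state (ampRule β shift s z) (matResp W) K).1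
          (state (ampRule β shift s z) (matResp W) K).2) := fun l hl =>
    state_dir _ _ hl (ampRule_congr _
      (fun m hm => by rw [(state_stable _ _ hm).1, (state_stable _ _ (hm.trans hl)).1])
      fun m hm => by rw [(state_stable _ _ hm).2, (state_stable _ _ (hm.trans hl)).2])
  generalize (state (ampRule β shift s z) (matResp W) K).1 = e at h hG hdir
  generalize (state (ampRule β shift s z) (matResp W) K).2 = G at hG hdir
  set f := prodF β shift s z
  set ξ := prodXi β shift z
  set J := fullCpl β W ξ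
  set P : ℕ → Fin n → ℝ := fun l i => f i + (1 - s) * Real.tanh (histZ β shift s z e G l i)
  have hspan : ∀ l < K, spanProj e (l + 1) (P l) = P l := by
    intro l
    induction l with
    | zero =>
      intro hl
      have := spanProj_of_gsStep h (hdir 0 hl)
      convert this using 2 <;> funext i <;> simp [P, ampRule, histZ, f]
    | succ l ih =>
      intro hl
      have e1 : P (l + 1) = P l + (1 - s) • ampRule β shift s z (l + 1) e G := by
        funext i; simp only [P, Pi.add_apply, Pi.smul_apply, smul_eq_mul, ampRule]; ring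
      rw [e1]
      exact spanProj_add h (spanProj_succ h (ih (by omega))) (spanProj_smul h (spanProj_of_gsStep h (hdir _ hl)) _)
  have hstep : ∀ l < K, ∀ i, histStep β shift e G ξ f (P l) (l + 1) i = (shiftMat shift J *ᵥ f) i
      + (1 - s) * ∑ j, J i j * Real.tanh (histZ β shift s z e G l j) := by
    intro l hl i
    have hW : ∑ m ∈ range (l + 1), dot (P l) (e m) * G m i = ∑ j, W i j * P l j := by
      conv_rhs => rw [← hspan l hl]
      simp only [spanProj, Finset.sum_apply, Pi.smul_apply, smul_eq_mul, Finset.mul_sum]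
      rw [Finset.sum_comm]
      refine Finset.sum_congr rfl fun m hm => ?_
      rw [hG m (by have := mem_range.1 hm; omega)]
      simp only [matResp, Finset.mul_sum]
      exact Finset.sum_congr rfl fun j _ => by ring
    have hJ : ∀ v : Fin n → ℝ, ∑ j, J i j * v j = β / Real.sqrt n * (∑ j, W i j * v j) + rankTwo β ξ v i := by
      intro v
      simp only [J, fullCpl, rankTwo, dot, Finset.mul_sum, Finset.sum_mul, Finset.sum_div,
        ← Finset.sum_sub_distrib, ← Finset.sum_add_distrib]
      exact Finset.sum_congr rfl fun j _ => by ring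
    have hsh : (shiftMat shift J *ᵥ f) i = ∑ j, J i j * f j + shift * f i := by
      simp only [shiftMat, add_mulVec, Pi.add_apply, smul_mulVec, one_mulVec, Pi.smul_apply, smul_eq_mul]
      rfl
    rw [histStep, hW, ← hJ, hsh]
    simp only [P, mul_add, Finset.sum_add_distrib, Finset.mul_sum]
    rw [show ∑ j, J i j * ((1 - s) * Real.tanh (histZ β shift s z e G l j)) =
      ∑ j, (1 - s) * (J i j * Real.tanh (histZ β shift s z e G l j)) from
        Finset.sum_congr rfl fun j _ => by ring]
    ring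
  intro j
  induction j using Nat.twoStepInduction with
  | zero => intro _; funext i; simp [histZ, fullAt, ampZ]
  | one =>
    intro hK; funext i
    have h0 := hstep 0 hK i
    simp only [zero_add, P, histZ] at h0
    show histZ β shift s z e G 1 i = ampZ β shift s J (shiftMat shift J *ᵥ f) f 1 i
    simp only [histZ, ampZ]
    rw [h0]
  | more l h1 h2 =>
    intro hK; funext i
    have h0 := hstep (l + 1) (by omega) i
    simp only [P] at h0
    show histZ β shift s z e G (l + 2) i = ampZ β shift s J (shiftMat shift J *ᵥ f) f (l + 2) i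
    have e1 : histZ β shift s z e G (l + 1) = ampZ β shift s J (shiftMat shift J *ᵥ f) f (l + 1) := h2 (by omega)
    have e2 : histZ β shift s z e G l = ampZ β shift s J (shiftMat shift J *ᵥ f) f l := h1 (by omega)
    rw [e1] at h0
    simp only [histZ, ampZ, e1, e2]
    rw [h0]

/-- `tiltCpl` is `fullCpl` without its diagonal. -/
lemma tiltCpl_edgeOf (β : ℝ) {W : Fin n → Fin n → ℝ} (hW : ∀ i j, W i j = W j i) (ξ : Fin n → ℝ) :
    Matrix.of (fullCpl β W ξ) = Matrix.of (tiltCpl β (edgeOf W) ξ)
      + Matrix.diagonal (fun i => fullCpl β W ξ i i) := by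
  ext i j
  simp only [Matrix.add_apply, Matrix.of_apply, fullCpl, tiltCpl, cpl, coupling, edgeOf, diagonal_apply]
  rcases lt_trichotomy i j with h | rfl | h
  · simp [h, h.ne]
  · simp
  · simp [h, h.ne', not_lt.2 h.le, hW i j]

/-- Removing the diagonal. -/
theorem fullAt_sub_ampAt {β shift : ℝ} (hβ : |β| ≤ 1) (hc : 4 ≤ shift) {Λ R : ℝ} (hΛ : 0 ≤ Λ) (hR : 0 ≤ R) (k : ℕ) :
    ∃ C : ℝ, 0 ≤ C ∧ ∀ (n : ℕ) (s : ℝ), s ∈ Set.Icc (0 : ℝ) 1 → ∀ (W : Fin n → Fin n → ℝ),
      (∀ i j, W i j = W j i) → ∀ (z : Fin n → ℝ) (η : ℝ), 0 ≤ η →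
      OpNorm.OpLe (Matrix.of (tiltCpl β (edgeOf W) (prodXi β shift z))) Λ →
      PartB.nrm (prodF β shift s z) ≤ R * Real.sqrt n →
      (∀ i, |fullCpl β W (prodXi β shift z) i i| ≤ η) →
      PartB.nrm (fullAt β shift s W z k - ampAt β shift s k (edgeOf W, z)) ≤ C * (η * Real.sqrt n) := by
  have key : ∀ {n : ℕ} {η : ℝ} {J J' : Fin n → Fin n → ℝ} {d : Fin n → ℝ}, 0 ≤ η →
      OpNorm.OpLe (Matrix.of J') Λ → Matrix.of J = Matrix.of J' + Matrix.diagonal d → (∀ i, |d i| ≤ η) →
      ∀ {f : Fin n → ℝ}, PartB.nrm f ≤ R * Real.sqrt n → ∀ {u : ℝ}, |u| ≤ 1 → ∀ {a a' : Fin n → ℝ},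
        PartB.nrm a ≤ Real.sqrt n →
        PartB.nrm ((shiftMat shift J *ᵥ f + u • (Matrix.of J *ᵥ a))
            - (shiftMat shift J' *ᵥ f + u • (Matrix.of J' *ᵥ a'))) ≤
          η * (R * Real.sqrt n) + η * Real.sqrt n + Λ * PartB.nrm (a - a') := by
    intro n η J J' d hη hJ hJJ hd f hf u hu a a' ha
    have e : (shiftMat shift J *ᵥ f + u • (Matrix.of J *ᵥ a))
        - (shiftMat shift J' *ᵥ f + u • (Matrix.of J' *ᵥ a')) =
        Matrix.diagonal d *ᵥ f + u • (Matrix.diagonal d *ᵥ a + Matrix.of J' *ᵥ (a - a')) := by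
      simp only [shiftMat, hJJ, add_mulVec, mulVec_sub, smul_add, smul_sub]; abel
    rw [e]
    have hD := OpNorm.opLe_diagonal hη hd
    refine (AmpLip.nrm_add _ _).trans ?_
    rw [AmpLip.nrm_smul, add_assoc]
    refine add_le_add ((AmpLip.nrm_mulVec hD _).trans (mul_le_mul_of_nonneg_left hf hη)) ?_
    refine (mul_le_of_le_one_left (AmpLip.nrm_nonneg _) hu).trans ((AmpLip.nrm_add _ _).trans
      (add_le_add ((AmpLip.nrm_mulVec hD _).trans (mul_le_mul_of_nonneg_left ha hη)) (AmpLip.nrm_mulVec hJ _)))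
  induction k using Nat.twoStepInduction with
  | zero =>
    refine ⟨0, le_rfl, fun n s _ W _ z η _ _ _ _ => le_of_eq ?_⟩
    have : fullAt β shift s W z 0 = ampAt β shift s 0 (edgeOf W, z) := by funext i; simp [fullAt, ampAt, ampZ]
    simp [this, PartB.nrm]
  | one =>
    refine ⟨R + 1, by positivity, fun n s hs W hW z η hη hJ hf hd => ?_⟩
    simp only [fullAt, ampAt, prodY]
    rw [AmpLip.ampZ_one, AmpLip.ampZ_one]
    have e0 : (fun i => Real.tanh (ampZ β shift s (fullCpl β W (prodXi β shift z))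
        (shiftMat shift (fullCpl β W (prodXi β shift z)) *ᵥ prodF β shift s z) (prodF β shift s z) 0 i)) =
        fun i => Real.tanh (ampZ β shift s (tiltCpl β (edgeOf W) (prodXi β shift z))
          (shiftMat shift (tiltCpl β (edgeOf W) (prodXi β shift z)) *ᵥ prodF β shift s z) (prodF β shift s z) 0 i) := by
      funext i; simp [ampZ]
    rw [e0, add_sub_add_right_eq_sub]
    refine (key hη hJ (tiltCpl_edgeOf β hW _) hd hf (AmpLip.coef_le hβ hs ⟨le_rfl, zero_le_one⟩).1
      (AmpLip.nrm_tanh _)).trans (le_of_eq ?_)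
    rw [sub_self, show PartB.nrm (0 : Fin n → ℝ) = 0 by simp [PartB.nrm]]
    ring
  | more l h1 h2 =>
    obtain ⟨C1, hC1, h1⟩ := h1
    obtain ⟨C2, hC2, h2⟩ := h2
    refine ⟨R + 1 + Λ * C2 + C1, by positivity, fun n s hs W hW z η hη hJ hf hd => ?_⟩
    simp only [fullAt, ampAt, prodY] at h1 h2 ⊢
    rw [AmpLip.ampZ_two, AmpLip.ampZ_two]
    obtain ⟨hu, -, hb⟩ := AmpLip.coef_le hβ hs (AmpLip.qSE_mem (gamSE β shift s (l + 1)))
    rw [add_sub_add_comm, ← smul_sub]
    refine (AmpLip.nrm_add _ _).trans ?_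
    rw [AmpLip.nrm_smul, add_mul]
    refine add_le_add ((key hη hJ (tiltCpl_edgeOf β hW _) hd hf hu (AmpLip.nrm_tanh _)).trans ?_)
      ((mul_le_of_le_one_left (AmpLip.nrm_nonneg _) hb).trans
        ((AmpLip.nrm_tanh_sub _ _).trans (h1 n s hs W hW z η hη hJ hf hd)))
    have h3 := mul_le_mul_of_nonneg_left ((AmpLip.nrm_tanh_sub _ _).trans (h2 n s hs W hW z η hη hJ hf hd)) hΛ
    refine (add_le_add le_rfl h3).trans (le_of_eq ?_)
    ring

/-- The tilted couplings are bounded once the plain ones are. -/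
lemma opLe_tilt {β shift : ℝ} (hβ : |β| ≤ 1) {g : Edge n → ℝ} (hg : g ∈ ResCalc.Ball β 3)
    {z : Fin n → ℝ} (hz : ∑ i, prodXi β shift z i ^ 2 ≤ n) :
    OpNorm.OpLe (Matrix.of (tiltCpl β g (prodXi β shift z))) 7 := by
  rcases Nat.eq_zero_or_pos n with rfl | hn
  · exact ⟨by norm_num, fun w => by simp [OpNorm.nsq]⟩
  set ξ := prodXi β shift z
  have hn' : (0 : ℝ) < n := Nat.cast_pos.2 hn
  have hb : β ^ 2 ≤ 1 := (sq_le_one_iff_abs_le_one β).2 hβ
  have h1 : OpNorm.OpLe (Matrix.of (cpl β g)) 3 := ResCalc.opLe_of_norm_cmat hg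
  have hone : OpNorm.OpLe (Matrix.of fun _ _ : Fin n => β ^ 2 / n) 1 := by
    have h := OpNorm.opLe_rankOne (fun _ : Fin n => β ^ 2 / n) (fun _ : Fin n => (1 : ℝ))
    simp only [mul_one] at h
    refine h.mono ?_
    simp only [OpNorm.nsq, Finset.sum_const, Finset.card_univ, Fintype.card_fin, nsmul_eq_mul, one_pow, mul_one]
    rw [← Real.sqrt_mul (by positivity), Real.sqrt_le_one]
    field_simp
    nlinarith [sq_nonneg β]
  have htwo : OpNorm.OpLe (Matrix.of fun i j => β ^ 2 / n * ξ i * ξ j) 1 := by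
    refine (OpNorm.opLe_rankOne (fun i : Fin n => β ^ 2 / n * ξ i) ξ).mono ?_
    have hs : OpNorm.nsq ξ ≤ n := hz
    have hs0 := OpNorm.nsq_nonneg ξ
    rw [show OpNorm.nsq (fun i : Fin n => β ^ 2 / n * ξ i) = (β ^ 2 / n) ^ 2 * OpNorm.nsq ξ from
      OpNorm.nsq_smul (β ^ 2 / n) ξ, Real.sqrt_mul (sq_nonneg _), Real.sqrt_sq (by positivity), mul_assoc,
      Real.mul_self_sqrt hs0]
    rw [div_mul_eq_mul_div, div_le_one hn']
    exact (mul_le_of_le_one_left hs0 hb).trans hs
  have hdia : OpNorm.OpLe (Matrix.diagonal fun i => β ^ 2 / n * (1 - ξ i * ξ i)) 2 := by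
    refine OpNorm.opLe_diagonal zero_le_two fun i => ?_
    have h2 : ξ i * ξ i ≤ n := by
      rw [← sq]; exact (Finset.single_le_sum (fun j _ => sq_nonneg (ξ j)) (mem_univ i)).trans hz
    have h3 : β ^ 2 / n ≤ 1 / n := div_le_div_of_nonneg_right hb hn'.le
    rw [abs_mul, abs_of_nonneg (by positivity : 0 ≤ β ^ 2 / n)]
    have h4 : |1 - ξ i * ξ i| ≤ 1 + n := abs_le.2 ⟨by linarith [mul_self_nonneg (ξ i)], by linarith [mul_self_nonneg (ξ i)]⟩
    refine (mul_le_mul h3 h4 (abs_nonneg _) (by positivity)).trans ?_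
    rw [div_mul_eq_mul_div, div_le_iff₀ hn']
    have : (1 : ℝ) ≤ n := Nat.one_le_cast.2 hn
    linarith
  have e : Matrix.of (tiltCpl β g ξ) = Matrix.of (cpl β g)
      + ((Matrix.of fun _ _ : Fin n => β ^ 2 / n) - (Matrix.of fun i j => β ^ 2 / n * ξ i * ξ j))
      - Matrix.diagonal fun i => β ^ 2 / n * (1 - ξ i * ξ i) := by
    ext i j
    rcases eq_or_ne i j with rfl | h
    · simp [tiltCpl]; ring
    · simp [tiltCpl, h]; ring
  rw [e]
  exact ((h1.add (hone.sub htwo)).sub hdia).mono (by norm_num)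

end Vale.Agent.P150.High.Amp
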