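import Vale.Agent.P150.High.GoeStep

/-!
# P150, all `β < 1`: the law of a GOE matrix given the images of an adapted frame
-/

open MeasureTheory ProbabilityTheory Finset Matrix

namespace Vale.Agent.P150.High.Amp

open Vale.Agent.P150

variable {n : ℕ}

/-- Mutually orthogonal, each unit or zero. -/
def IsFrame (e : ℕ → Fin n → ℝ) : Prop :=
  (∀ l m, l ≠ m → dot (e l) (e m) = 0) ∧ ∀ l, dot (e l) (e l) = 0 ∨ dot (e l) (e l) = 1

lemma eq_zero_of_dot_self {v : Fin n → ℝ} (h : dot v v = 0) : v = 0 := dotProduct_self_eq_zero.1 h

lemma IsFrame.unit_smul {e : ℕ → Fin n → ℝ} (h : IsFrame e) (l : ℕ) :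
    dot (e l) (e l) • e l = e l := by
  rcases h.2 l with h' | h'
  · rw [eq_zero_of_dot_self h', smul_zero]
  · rw [h', one_smul]

lemma IsFrame.unit_mul {e : ℕ → Fin n → ℝ} (h : IsFrame e) (l : ℕ) (v : Fin n → ℝ) :
    dot (e l) (e l) * dot (e l) v = dot (e l) v := by
  conv_rhs => rw [← h.unit_smul l]
  simp only [dot_eq, smul_dotProduct, smul_eq_mul]

lemma dot_gsStep {e : ℕ → Fin n → ℝ} (h : IsFrame e) {l m : ℕ} (hm : m < l) (x : Fin n → ℝ) :
    dot (gsStep e l x) (e m) = 0 := by
  have hs : ∑ k ∈ range l, dot x (e k) * dot (e k) (e m) = dot x (e m) := by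
    rw [Finset.sum_eq_single m (fun k _ hk => by rw [h.1 k m hk, mul_zero])
      (fun hm' => absurd (mem_range.2 hm) hm')]
    rcases h.2 m with h' | h'
    · rw [eq_zero_of_dot_self h']; simp [dot]
    · rw [h', mul_one]
  simp only [dot_eq] at hs
  simp [gsStep, dot_eq, sub_dotProduct, sum_dotProduct, smul_dotProduct, hs]

lemma dot_gsStep_self (e : ℕ → Fin n → ℝ) (l : ℕ) (x : Fin n → ℝ) :
    dot (gsStep e l x) (gsStep e l x) = 0 ∨ dot (gsStep e l x) (gsStep e l x) = 1 := by
  simp only [gsStep]
  generalize x - ∑ m ∈ range l, dot x (e m) • e m = r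
  simp only [dot_eq, smul_dotProduct, dotProduct_smul, smul_eq_mul]
  have h0 : 0 ≤ r ⬝ᵥ r := Finset.sum_nonneg fun i _ => mul_self_nonneg _
  rcases h0.eq_or_lt with h | h
  · left; rw [← h]; simp
  · right
    have := Real.sq_sqrt h.le
    have h2 : Real.sqrt (r ⬝ᵥ r) ≠ 0 := (Real.sqrt_pos.2 h).ne'
    field_simp
    linarith

variable (x : Rule n) (r : Resp n)

lemma state_zero_from (K l : ℕ) (hl : K ≤ l) :
    (state x r K).1 l = 0 ∧ (state x r K).2 l = 0 := by
  induction K with
  | zero => exact ⟨rfl, rfl⟩
  | succ K ih =>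
    obtain ⟨h1, h2⟩ := ih (by omega)
    simp only [state]
    exact ⟨by rw [Function.update_of_ne (by omega)]; exact h1,
      by rw [Function.update_of_ne (by omega)]; exact h2⟩

lemma state_frame : ∀ K, IsFrame (state x r K).1
  | 0 => ⟨fun l m _ => by simp [state, dot], fun l => Or.inl (by simp [state, dot])⟩
  | K + 1 => by
    have h := state_frame K
    have hz := fun l hl => (state_zero_from x r K l hl).1
    set e := (state x r K).1
    set e' := gsStep e K (x K e (state x r K).2)
    show IsFrame (Function.update e K e')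
    refine ⟨fun l m hlm => ?_, fun l => ?_⟩
    · by_cases hl : l = K
      · subst hl
        rw [Function.update_self, Function.update_of_ne (Ne.symm hlm)]
        rcases lt_or_ge m l with hm | hm
        · exact dot_gsStep h hm _
        · rw [hz m hm]; simp [dot]
      · rw [Function.update_of_ne hl]
        by_cases hm : m = K
        · subst hm
          rw [Function.update_self, dot_eq, dotProduct_comm, ← dot_eq]
          rcases lt_or_ge l m with hl' | hl'
          · exact dot_gsStep h hl' _
          · rw [hz l hl']; simp [dot]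
        · rw [Function.update_of_ne hm]; exact h.1 l m hlm
    · by_cases hl : l = K
      · subst hl; rw [Function.update_self]; exact dot_gsStep_self _ _ _
      · rw [Function.update_of_ne hl]; exact h.2 l

/-- The step at `l` does not change afterwards. -/
lemma state_stable {K l : ℕ} (hl : l < K) :
    (state x r K).1 l = (state x r (l + 1)).1 l ∧ (state x r K).2 l = (state x r (l + 1)).2 l := by
  induction K with
  | zero => omega
  | succ K ih =>
    rcases Nat.lt_succ_iff_lt_or_eq.1 hl with h | rfl
    · simp only [state, Function.update_of_ne h.ne]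
      exact ih h
    · exact ⟨rfl, rfl⟩

lemma state_congr {r' : Resp n} (K : ℕ) (h : ∀ m < K, r m = r' m) :
    state x r K = state x r' K := by
  induction K with
  | zero => rfl
  | succ K ih => simp only [state, ih fun m hm => h m (by omega), h K (by omega)]

/-- The fresh image only sees the earlier frame. -/
lemma freshResp_congr {η η' : ℕ → Fin n → ℝ} {e e' : ℕ → Fin n → ℝ} {l : ℕ} (v : Fin n → ℝ)
    (hη : ∀ m ≤ l, η m = η' m) (he : ∀ m < l, e m = e' m) :
    freshResp η l e v = freshResp η' l e' v := by
  simp only [freshResp, hη l le_rfl]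
  congr 1
  · congr 3
    exact Finset.sum_congr rfl fun m hm => by rw [he m (mem_range.1 hm)]
  · exact Finset.sum_congr rfl fun m hm => by rw [he m (mem_range.1 hm), hη m (mem_range.1 hm).le]

lemma state_image (η : ℕ → Fin n → ℝ) {K l : ℕ} (hl : l < K) :
    (state x (freshResp η) K).2 l =
      freshResp η l (state x (freshResp η) K).1 ((state x (freshResp η) K).1 l) := by
  rw [(state_stable x (freshResp η) hl).1, (state_stable x (freshResp η) hl).2]
  simp only [state, Function.update_self]
  refine freshResp_congr _ (fun _ _ => rfl) fun m hm => ?_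
  rw [(state_stable x (freshResp η) (hm.trans hl)).1]
  exact (state_stable x (freshResp η) hm).1

/-- Images of different frame vectors are consistent with a symmetric matrix. -/
lemma dot_image_symm (η : ℕ → Fin n → ℝ) {K a b : ℕ} (ha : a < K) (hb : b < K) :
    dot ((state x (freshResp η) K).1 a) ((state x (freshResp η) K).2 b) =
      dot ((state x (freshResp η) K).1 b) ((state x (freshResp η) K).2 a) := by
  have h := state_frame x (freshResp η) K
  rw [state_image x η ha, state_image x η hb]
  generalize (state x (freshResp η) K).1 = e at h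
  suffices hab : ∀ a b, a < b →
      dot (e a) (freshResp η b e (e b)) = dot (η a) (e b) * dot (e a) (e a) ∧
      dot (e b) (freshResp η a e (e a)) = dot (η a) (e b) * dot (e a) (e a) by
    rcases lt_trichotomy a b with hh | rfl | hh
    · rw [(hab a b hh).1, (hab a b hh).2]
    · rfl
    · rw [(hab b a hh).1, (hab b a hh).2]
  intro a b hlt
  constructor
  · have s1 : ∀ c : ℕ → ℝ, ∑ m ∈ range b, c m * dot (e a) (e m) = c a * dot (e a) (e a) := fun c =>
      Finset.sum_eq_single a (fun k _ hk => by rw [h.1 a k (Ne.symm hk), mul_zero])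
        fun hm' => absurd (mem_range.2 hlt) hm'
    simp only [freshResp, dot_eq, dotProduct_add, dotProduct_smul, dotProduct_sub, dotProduct_sum,
      smul_eq_mul]
    simp only [← dot_eq]
    rw [s1 fun m => dot (η b) (e m), s1 fun m => dot (η m) (e b), h.1 a b hlt.ne,
      show dot (η b) (e a) * dot (e a) (e a) = dot (e a) (η b) by
        rw [mul_comm, show dot (η b) (e a) = dot (e a) (η b) from dotProduct_comm _ _, h.unit_mul]]
    ring
  · have s0 : ∀ c : ℕ → ℝ, ∑ m ∈ range a, c m * dot (e b) (e m) = 0 := fun c =>
      Finset.sum_eq_zero fun k hk => by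
        have := mem_range.1 hk
        rw [h.1 b k (by omega), mul_zero]
    simp only [freshResp, dot_eq, dotProduct_add, dotProduct_smul, dotProduct_sub, dotProduct_sum,
      smul_eq_mul]
    simp only [← dot_eq]
    rw [s0 fun m => dot (η a) (e m), s0 fun m => dot (η m) (e a), h.1 b a hlt.ne',
      show dot (e b) (η a) = dot (η a) (e b) from dotProduct_comm _ _]
    ring

/-- `low + P W' P` as a matrix. -/
lemma repMat_eq (e G : ℕ → Fin n → ℝ) (K : ℕ) (W : Fin n → Fin n → ℝ) (i j : Fin n) :
    repMat e G K W i j =
      low e G K i j + (Matrix.of (proj e K) * Matrix.of W * Matrix.of (proj e K)) i j := by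
  simp only [repMat, Matrix.mul_apply, Matrix.of_apply, Finset.sum_mul]
  rw [Finset.sum_comm]

lemma proj_mulVec {e : ℕ → Fin n → ℝ} (h : IsFrame e) (K : ℕ) (v : Fin n → ℝ) :
    Matrix.of (proj e K) *ᵥ v = v - ∑ l ∈ range K, dot (e l) v • e l := by
  funext i
  simp only [mulVec, dotProduct, Matrix.of_apply, proj, sub_mul, Finset.sum_sub_distrib, ite_mul, one_mul,
    zero_mul, Finset.sum_ite_eq, mem_univ, if_true, Pi.sub_apply, Finset.sum_apply, Pi.smul_apply,
    smul_eq_mul, Finset.sum_mul, dot]
  rw [Finset.sum_comm]
  exact congrArg _ (Finset.sum_congr rfl fun l _ => Finset.sum_congr rfl fun k _ => by ring)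

lemma proj_mulVec_frame {e : ℕ → Fin n → ℝ} (h : IsFrame e) {K l : ℕ} :
    Matrix.of (proj e K) *ᵥ e l = if l < K then 0 else e l := by
  rw [proj_mulVec h]
  split_ifs with hl
  · rw [Finset.sum_eq_single l (fun k _ hk => by rw [h.1 k l hk, zero_smul])
      (fun hm' => absurd (mem_range.2 hl) hm'), h.unit_smul, sub_self]
  · rw [Finset.sum_eq_zero fun k hk => ?_, sub_zero]
    have := mem_range.1 hk
    rw [h.1 k l (by omega), zero_smul]

/-- On the representation the fresh images are the images under the matrix. -/
theorem repMat_mulVec (η : ℕ → Fin n → ℝ) (W : Fin n → Fin n → ℝ) {K l : ℕ} (hl : l < K) :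
    Matrix.of (repMat (state x (freshResp η) K).1 (state x (freshResp η) K).2 K W) *ᵥ
      (state x (freshResp η) K).1 l = (state x (freshResp η) K).2 l := by
  have h := state_frame x (freshResp η) K
  have hs : ∀ m < K, dot ((state x (freshResp η) K).2 m) ((state x (freshResp η) K).1 l) =
      dot ((state x (freshResp η) K).1 m) ((state x (freshResp η) K).2 l) := fun m hm => by
    rw [dot_image_symm x η hm hl]; exact dotProduct_comm _ _
  have hu : dot ((state x (freshResp η) K).1 l) ((state x (freshResp η) K).1 l) •
      (state x (freshResp η) K).2 l = (state x (freshResp η) K).2 l := by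
    rcases h.2 l with h' | h'
    · have h0 : freshResp η l (state x (freshResp η) K).1 ((state x (freshResp η) K).1 l) = 0 := by
        rw [eq_zero_of_dot_self h']; simp [freshResp, dot]
      rw [state_image x η hl, h0, smul_zero]
    · rw [h', one_smul]
  generalize (state x (freshResp η) K).1 = e at h hs hu
  generalize (state x (freshResp η) K).2 = G at hs hu
  have hsplit : Matrix.of (repMat e G K W) =
      Matrix.of (low e G K) + Matrix.of (proj e K) * Matrix.of W * Matrix.of (proj e K) := by
    ext i j; rw [Matrix.of_apply, repMat_eq]; rfl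
  rw [hsplit, add_mulVec, ← mulVec_mulVec, proj_mulVec_frame h, if_pos hl, mulVec_zero, add_zero]
  funext i
  have hlow : (Matrix.of (low e G K) *ᵥ e l) i =
      ∑ m ∈ range K, (G m i * dot (e m) (e l) + e m i * dot (G m) (e l))
        - ∑ p ∈ range K, ∑ m ∈ range K, dot (e p) (G m) * (e p i * dot (e m) (e l)) := by
    simp only [mulVec, dotProduct, Matrix.of_apply, low, sub_mul, Finset.sum_sub_distrib, Finset.sum_mul]
    congr 1
    · rw [Finset.sum_comm]
      refine Finset.sum_congr rfl fun m _ => ?_
      simp only [dot, Finset.mul_sum, ← Finset.sum_add_distrib]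
      exact Finset.sum_congr rfl fun j _ => by ring
    · rw [Finset.sum_comm]
      refine Finset.sum_congr rfl fun p _ => ?_
      rw [Finset.sum_comm]
      refine Finset.sum_congr rfl fun m _ => ?_
      rw [show dot (e m) (e l) = ∑ j, e m j * e l j from rfl, Finset.mul_sum, Finset.mul_sum]
      exact Finset.sum_congr rfl fun j _ => by ring
  have s1 : ∀ c : ℕ → ℝ, ∑ m ∈ range K, c m * dot (e m) (e l) = c l * dot (e l) (e l) := fun c =>
    Finset.sum_eq_single l (fun k _ hk => by rw [h.1 k l hk, mul_zero]) fun hm' => absurd (mem_range.2 hl) hm'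
  have hu' : dot (e l) (e l) * G l i = G l i := by
    have := congrFun hu i; simpa using this
  rw [hlow, Finset.sum_add_distrib, s1 fun m => G m i]
  simp only [← mul_assoc]
  rw [Finset.sum_congr rfl fun p _ => s1 fun m => dot (e p) (G m) * e p i, mul_comm (G l i), hu',
    add_sub_assoc, add_eq_left, ← Finset.sum_sub_distrib]
  refine Finset.sum_eq_zero fun m hm => ?_
  rw [hs m (mem_range.1 hm)]
  rcases h.2 l with h' | h'
  · have h0 : e l = 0 := eq_zero_of_dot_self h'
    have : dot (e m) (G l) = 0 := by
      rw [← hs m (mem_range.1 hm), h0]; simp [dot]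
    rw [this]; ring
  · rw [h']; ring

theorem stateStatement : StateStatement := by
  intro n K x η W' _
  simp only
  set S := state x (freshResp η) K
  suffices h : ∀ l ≤ K, state x (matResp (repMat S.1 S.2 K W')) l = state x (freshResp η) l from h K le_rfl
  intro l hl
  induction l with
  | zero => rfl
  | succ l ih =>
    simp only [state, ih (by omega)]
    set T := state x (freshResp η) l
    have h1 : gsStep T.1 l (x l T.1 T.2) = S.1 l := by
      rw [(state_stable x (freshResp η) (show l < K by omega)).1]
      simp only [state, Function.update_self, T]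
    have h2 : freshResp η l T.1 (gsStep T.1 l (x l T.1 T.2)) = S.2 l := by
      rw [(state_stable x (freshResp η) (show l < K by omega)).2]
      simp only [state, Function.update_self, T]
    have h3 : matResp (repMat S.1 S.2 K W') l T.1 (gsStep T.1 l (x l T.1 T.2)) = S.2 l := by
      rw [h1]; exact repMat_mulVec x η W' (show l < K by omega)
    rw [h2, h3]

/-- Adding one step to the representation is one step of conditioning on the block. -/
lemma repMat_succ (η : ℕ → Fin n → ℝ) (K : ℕ) (M : Fin n → Fin n → ℝ) :
    repMat (state x (freshResp η) K).1 (state x (freshResp η) K).2 K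
        (fixStep ((state x (freshResp η) (K + 1)).1 K) (η K) M) =
      repMat (state x (freshResp η) (K + 1)).1 (state x (freshResp η) (K + 1)).2 (K + 1) M := by
  have h := state_frame x (freshResp η) (K + 1)
  have hE : ∀ m < K, (state x (freshResp η) K).1 m = (state x (freshResp η) (K + 1)).1 m := fun m hm =>
    by rw [(state_stable x (freshResp η) hm).1, (state_stable x (freshResp η) (show m < K + 1 by omega)).1]
  have hG : ∀ m < K, (state x (freshResp η) K).2 m = (state x (freshResp η) (K + 1)).2 m := fun m hm =>
    by rw [(state_stable x (freshResp η) hm).2, (state_stable x (freshResp η) (show m < K + 1 by omega)).2]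
  have hlow : low (state x (freshResp η) K).1 (state x (freshResp η) K).2 K =
      low (state x (freshResp η) (K + 1)).1 (state x (freshResp η) (K + 1)).2 K := by
    funext i j
    simp only [low]
    congr 1
    · exact Finset.sum_congr rfl fun m hm => by rw [hE m (mem_range.1 hm), hG m (mem_range.1 hm)]
    · exact Finset.sum_congr rfl fun m hm => Finset.sum_congr rfl fun k hk => by
        rw [hE m (mem_range.1 hm), hG k (mem_range.1 hk), hE k (mem_range.1 hk)]
  have hproj : proj (state x (freshResp η) K).1 K = proj (state x (freshResp η) (K + 1)).1 K := by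
    funext i j
    simp only [proj]
    exact congrArg _ (Finset.sum_congr rfl fun m hm => by rw [hE m (mem_range.1 hm)])
  have hsym : ∀ m < K,
      dot ((state x (freshResp η) (K + 1)).1 m) ((state x (freshResp η) (K + 1)).2 K) •
          (state x (freshResp η) (K + 1)).1 m =
        dot (η m) ((state x (freshResp η) (K + 1)).1 K) • (state x (freshResp η) (K + 1)).1 m ∧
      dot ((state x (freshResp η) (K + 1)).1 K) ((state x (freshResp η) (K + 1)).2 m) =
        dot ((state x (freshResp η) (K + 1)).1 m) ((state x (freshResp η) (K + 1)).2 K) := by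
    intro m hm
    refine ⟨?_, dot_image_symm x η (show K < K + 1 by omega) (show m < K + 1 by omega)⟩
    rw [state_image x η (show K < K + 1 by omega)]
    generalize (state x (freshResp η) (K + 1)).1 = e at h
    have s1 : ∀ c : ℕ → ℝ, ∑ p ∈ range K, c p * dot (e m) (e p) = c m * dot (e m) (e m) := fun c =>
      Finset.sum_eq_single m (fun k _ hk => by rw [h.1 m k (Ne.symm hk), mul_zero])
        fun hm' => absurd (mem_range.2 hm) hm'
    simp only [freshResp, dot_eq, dotProduct_add, dotProduct_smul, dotProduct_sub, dotProduct_sum,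
      smul_eq_mul]
    simp only [← dot_eq]
    rw [s1 fun p => dot (η K) (e p), s1 fun p => dot (η p) (e K), h.1 m K hm.ne,
      show dot (η K) (e m) * dot (e m) (e m) = dot (e m) (η K) by
        rw [mul_comm, show dot (η K) (e m) = dot (e m) (η K) from dotProduct_comm _ _, h.unit_mul],
      sub_self, mul_zero, mul_zero, zero_add, zero_add, mul_smul, h.unit_smul]
  have hGK := state_image x η (show K < K + 1 by omega)
  funext i j
  rw [repMat_eq, repMat_eq, hlow, hproj]
  generalize (state x (freshResp η) (K + 1)).1 = e at h hsym hGK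
  generalize (state x (freshResp η) (K + 1)).2 = G at hsym hGK
  set P : Matrix (Fin n) (Fin n) ℝ := Matrix.of (proj e K)
  have hPt : Pᵀ = P := by
    ext a b; simp [P, proj, eq_comm, mul_comm]
  have hPe : P *ᵥ e K = e K := by rw [proj_mulVec_frame h, if_neg (lt_irrefl K)]
  have heP : e K ᵥ* P = e K := by rw [← mulVec_transpose, hPt, hPe]
  set G1 : Fin n → ℝ := dot (e K) (e K) • η K + ((Real.sqrt 2 - 1) * dot (η K) (e K)) • e K
  set R : Fin n → ℝ := ∑ m ∈ range K, dot (η m) (e K) • e m
  have hPG : P *ᵥ G1 = G K - R := by
    rw [mulVec_add, mulVec_smul, mulVec_smul, hPe, proj_mulVec h, hGK, freshResp,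
      show (∑ m ∈ range K, dot (η m) (e K) • e m) = R from rfl, add_sub_cancel_right]
    congr 3
    exact Finset.sum_congr rfl fun m _ => by rw [show dot (e m) (η K) = dot (η K) (e m) from dotProduct_comm _ _]
  have heG : dot (e K) G1 = dot (e K) (G K) := by
    have : dot (e K) R = 0 := by
      simp only [R, dot_eq, dotProduct_sum, dotProduct_smul, smul_eq_mul]
      exact Finset.sum_eq_zero fun m hm => by
        have := h.1 K m (mem_range.1 hm).ne'
        rw [dot_eq] at this; rw [this, mul_zero]
    calc dot (e K) G1 = dot (e K) (P *ᵥ G1) := by rw [dot_eq, dot_eq, dotProduct_mulVec, heP]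
      _ = _ := by rw [hPG, dot_eq, dotProduct_sub, ← dot_eq, ← dot_eq, this, sub_zero]
  set Q : Matrix (Fin n) (Fin n) ℝ := 1 - vecMulVec (e K) (e K)
  have hPQ : P * Q = Matrix.of (proj e (K + 1)) := by
    rw [Matrix.mul_sub, Matrix.mul_one, mul_vecMulVec, hPe]
    ext a b; simp [P, proj, Finset.sum_range_succ, vecMulVec_apply]; ring
  have hQP : Q * P = Matrix.of (proj e (K + 1)) := by
    rw [Matrix.sub_mul, Matrix.one_mul, vecMulVec_mul, heP]
    ext a b; simp [P, proj, Finset.sum_range_succ, vecMulVec_apply]; ring
  have hfix : Matrix.of (fixStep (e K) (η K) M) = vecMulVec G1 (e K) + vecMulVec (e K) G1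
      - dot (e K) G1 • vecMulVec (e K) (e K) + Q * Matrix.of M * Q := by
    ext a b; simp [fixStep, vecMulVec_apply, G1, Q]
  have hmain : P * Matrix.of (fixStep (e K) (η K) M) * P =
      vecMulVec (G K - R) (e K) + vecMulVec (e K) (G K - R)
        - dot (e K) (G K) • vecMulVec (e K) (e K)
        + Matrix.of (proj e (K + 1)) * Matrix.of M * Matrix.of (proj e (K + 1)) := by
    have h2 : P * (Q * Matrix.of M * Q) * P = (P * Q) * Matrix.of M * (Q * P) := by
      simp only [Matrix.mul_assoc]
    have hGP : G1 ᵥ* P = G K - R := by rw [← mulVec_transpose, hPt, hPG]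
    rw [hfix, Matrix.mul_add, Matrix.add_mul, h2, hPQ, hQP, Matrix.mul_sub, Matrix.mul_add,
      Matrix.sub_mul, Matrix.add_mul, Matrix.mul_smul, Matrix.smul_mul, mul_vecMulVec, mul_vecMulVec,
      vecMulVec_mul, vecMulVec_mul, hPG, hPe, heP, mul_vecMulVec, hPe, vecMulVec_mul, heP, hGP, heG]
  rw [hmain]
  simp only [Matrix.add_apply, Matrix.sub_apply, Matrix.smul_apply, vecMulVec_apply, smul_eq_mul,
    Pi.sub_apply, low, Finset.sum_range_succ, Finset.sum_add_distrib, add_mul]
  have hR : ∀ a, R a = ∑ m ∈ range K, dot (e m) (G K) * e m a := fun a => by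
    simp only [R, Finset.sum_apply, Pi.smul_apply, smul_eq_mul]
    exact Finset.sum_congr rfl fun m hm => by simpa using (congrFun (hsym m (mem_range.1 hm)).1 a).symm
  rw [hR, hR]
  have c1 : ∑ m ∈ range K, dot (e K) (G m) * (e K i * e m j) =
      e K i * ∑ m ∈ range K, dot (e m) (G K) * e m j := by
    rw [Finset.mul_sum]
    exact Finset.sum_congr rfl fun m hm => by rw [(hsym m (mem_range.1 hm)).2]; ring
  have c2 : ∑ m ∈ range K, dot (e m) (G K) * (e m i * e K j) =
      (∑ m ∈ range K, dot (e m) (G K) * e m i) * e K j := by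
    rw [Finset.sum_mul]
    exact Finset.sum_congr rfl fun m _ => by ring
  rw [c1, c2]
  ring

section law

variable {Θ : Type} [MeasurableSpace Θ]

lemma measurable_state {K : ℕ} (x : Θ → Rule n)
    (hx : ∀ l, Measurable fun p : Θ × (ℕ → Fin n → ℝ) × (ℕ → Fin n → ℝ) => x p.1 l p.2.1 p.2.2) :
    ∀ L, Measurable fun p : Θ × (Fin K → Fin n → ℝ) => state (x p.1) (freshResp (extZero p.2)) L
  | 0 => measurable_const
  | L + 1 => by
    have ih := measurable_state (K := K) x hx L
    have he : ∀ m, Measurable fun p : Θ × (Fin K → Fin n → ℝ) => (state (x p.1) (freshResp (extZero p.2)) L).1 m :=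
      fun m => (measurable_pi_apply m).comp ih.fst
    have hη : ∀ m, Measurable fun p : Θ × (Fin K → Fin n → ℝ) => extZero p.2 m := fun m => by
      unfold extZero
      split_ifs <;> fun_prop
    have hd : ∀ {f g : Θ × (Fin K → Fin n → ℝ) → Fin n → ℝ}, Measurable f → Measurable g →
        Measurable fun p => dot (f p) (g p) := by
      intro f g hf hg; unfold dot; fun_prop
    have hv : Measurable fun p : Θ × (Fin K → Fin n → ℝ) =>
        gsStep (state (x p.1) (freshResp (extZero p.2)) L).1 L
          (x p.1 L (state (x p.1) (freshResp (extZero p.2)) L).1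
            (state (x p.1) (freshResp (extZero p.2)) L).2) := by
      have hxx := (hx L).comp (measurable_fst.prodMk (ih.fst.prodMk ih.snd))
      have hr : Measurable fun p : Θ × (Fin K → Fin n → ℝ) =>
          x p.1 L (state (x p.1) (freshResp (extZero p.2)) L).1 (state (x p.1) (freshResp (extZero p.2)) L).2
            - ∑ m ∈ range L, dot (x p.1 L (state (x p.1) (freshResp (extZero p.2)) L).1
              (state (x p.1) (freshResp (extZero p.2)) L).2)
                ((state (x p.1) (freshResp (extZero p.2)) L).1 m) •
              (state (x p.1) (freshResp (extZero p.2)) L).1 m :=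
        hxx.sub (Finset.measurable_sum _ fun m _ => (hd hxx (he m)).smul (he m))
      exact ((hd hr hr).sqrt.inv).smul hr
    have hG : Measurable fun p : Θ × (Fin K → Fin n → ℝ) =>
        freshResp (extZero p.2) L (state (x p.1) (freshResp (extZero p.2)) L).1
          (gsStep (state (x p.1) (freshResp (extZero p.2)) L).1 L
            (x p.1 L (state (x p.1) (freshResp (extZero p.2)) L).1
              (state (x p.1) (freshResp (extZero p.2)) L).2)) := by
      unfold freshResp
      exact (((hd hv hv).smul ((hη L).sub (Finset.measurable_sum _ fun m _ => (hd (hη L) (he m)).smul (he m)))).add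
        (((hd (hη L) hv).const_mul _).smul hv)).add
        (Finset.measurable_sum _ fun m _ => (hd (hη m) hv).smul (he m))
    refine Measurable.prodMk (measurable_pi_lambda _ fun m => ?_) (measurable_pi_lambda _ fun m => ?_)
    · rcases eq_or_ne m L with rfl | hm
      · simpa [state] using hv
      · simpa [state, Function.update_of_ne hm] using he m
    · rcases eq_or_ne m L with rfl | hm
      · simpa [state] using hG
      · simp only [state, Function.update_of_ne hm]
        exact (measurable_pi_apply m).comp ih.snd

/-- The representation map. -/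
noncomputable def repMap (x : Θ → Rule n) (K : ℕ)
    (p : (Θ × (Fin K → Fin n → ℝ)) × (Fin n → Fin n → ℝ)) : Θ × (Fin n → Fin n → ℝ) :=
  (p.1.1, repMat (state (x p.1.1) (freshResp (extZero p.1.2)) K).1
    (state (x p.1.1) (freshResp (extZero p.1.2)) K).2 K p.2)

lemma measurable_repMap (x : Θ → Rule n)
    (hx : ∀ l, Measurable fun p : Θ × (ℕ → Fin n → ℝ) × (ℕ → Fin n → ℝ) => x p.1 l p.2.1 p.2.2)
    (K : ℕ) : Measurable (repMap x K) := by
  have hs : Measurable fun p : (Θ × (Fin K → Fin n → ℝ)) × (Fin n → Fin n → ℝ) =>
      state (x p.1.1) (freshResp (extZero p.1.2)) K :=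
    (measurable_state x hx K (K := K)).comp measurable_fst
  have he : ∀ m i, Measurable fun p : (Θ × (Fin K → Fin n → ℝ)) × (Fin n → Fin n → ℝ) =>
      (state (x p.1.1) (freshResp (extZero p.1.2)) K).1 m i := fun m i =>
    (measurable_pi_apply i).comp ((measurable_pi_apply m).comp hs.fst)
  have hG : ∀ m i, Measurable fun p : (Θ × (Fin K → Fin n → ℝ)) × (Fin n → Fin n → ℝ) =>
      (state (x p.1.1) (freshResp (extZero p.1.2)) K).2 m i := fun m i =>
    (measurable_pi_apply i).comp ((measurable_pi_apply m).comp hs.snd)
  refine Measurable.prodMk (by fun_prop) (measurable_pi_lambda _ fun i => measurable_pi_lambda _ fun j => ?_)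
  simp only [repMat, low, proj, dot]
  fun_prop

lemma measurePreserving_snoc (K : ℕ) :
    MeasurePreserving (fun p : (Fin K → Fin n → ℝ) × (Fin n → ℝ) =>
        (Fin.snoc p.1 p.2 : Fin (K + 1) → Fin n → ℝ))
      ((Measure.pi fun _ : Fin K => gauss (Fin n)).prod (gauss (Fin n)))
      (Measure.pi fun _ : Fin (K + 1) => gauss (Fin n)) := by
  have h := ((measurePreserving_piFinSuccAbove (fun _ : Fin (K + 1) => gauss (Fin n)) (Fin.last K)).symm).comp
    (Measure.measurePreserving_swap (μ := Measure.pi fun _ : Fin K => gauss (Fin n)) (ν := gauss (Fin n)))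
  convert h using 1
  funext p
  simp [Fin.snocEquiv]

/-- Moving the last vector into the family of fresh vectors. -/
lemma measurePreserving_shuffle (μ : Measure Θ) [IsProbabilityMeasure μ] (K : ℕ) :
    MeasurePreserving
      (fun p : (Θ × (Fin K → Fin n → ℝ)) × ((Fin n → ℝ) × (Fin n → Fin n → ℝ)) =>
        ((p.1.1, (Fin.snoc p.1.2 p.2.1 : Fin (K + 1) → Fin n → ℝ)), p.2.2))
      ((μ.prod (Measure.pi fun _ : Fin K => gauss (Fin n))).prod ((gauss (Fin n)).prod (goe n)))
      ((μ.prod (Measure.pi fun _ : Fin (K + 1) => gauss (Fin n))).prod (goe n)) := by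
  have h1 : MeasurePreserving (fun a : (Θ × (Fin K → Fin n → ℝ)) × (Fin n → ℝ) =>
      (a.1.1, (Fin.snoc a.1.2 a.2 : Fin (K + 1) → Fin n → ℝ)))
      ((μ.prod (Measure.pi fun _ : Fin K => gauss (Fin n))).prod (gauss (Fin n)))
      (μ.prod (Measure.pi fun _ : Fin (K + 1) => gauss (Fin n))) :=
    MeasurePreserving.comp ((MeasurePreserving.id μ).prod (measurePreserving_snoc K))
      (measurePreserving_prodAssoc μ (Measure.pi fun _ : Fin K => gauss (Fin n)) (gauss (Fin n)))
  have h2 := (measurePreserving_prodAssoc (μ.prod (Measure.pi fun _ : Fin K => gauss (Fin n)))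
    (gauss (Fin n)) (goe n)).symm MeasurableEquiv.prodAssoc
  exact MeasurePreserving.comp (h1.prod (MeasurePreserving.id (goe n))) h2

lemma measurePreserving_fiber {α β γ : Type} [MeasurableSpace α] [MeasurableSpace β] [MeasurableSpace γ]
    (μa : Measure α) [SFinite μa] (μb : Measure β) [SFinite μb] (μc : Measure γ) (F : α → β → γ)
    (hF : Measurable (Function.uncurry F)) (h : ∀ a, μb.map (F a) = μc) :
    MeasurePreserving (fun p : α × β => (p.1, F p.1 p.2)) (μa.prod μb) (μa.prod μc) :=
  (MeasurePreserving.id μa).skew_product hF (Filter.Eventually.of_forall h)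

attribute [local irreducible] fixStep in
/-- One conditioning step, along a measurable choice of the direction. -/
lemma measurePreserving_step {α : Type} [MeasurableSpace α] (μa : Measure α) [SFinite μa]
    {e : α → Fin n → ℝ} (he : Measurable e) (hunit : ∀ a, dot (e a) (e a) = 0 ∨ dot (e a) (e a) = 1) :
    MeasurePreserving (fun p : α × ((Fin n → ℝ) × (Fin n → Fin n → ℝ)) =>
        (p.1, fixStep (e p.1) p.2.1 p.2.2))
      (μa.prod ((gauss (Fin n)).prod (goe n))) (μa.prod (goe n)) := by
  have hgm : Measurable (Function.uncurry fun a (q : (Fin n → ℝ) × (Fin n → Fin n → ℝ)) =>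
      fixStep (e a) q.1 q.2) :=
    measurable_fixStep_joint.comp ((he.comp measurable_fst).prodMk measurable_snd)
  exact measurePreserving_fiber μa _ (goe n) (fun a (q : (Fin n → ℝ) × (Fin n → Fin n → ℝ)) => fixStep (e a) q.1 q.2) hgm
    fun a => fixStep_law (e a) (hunit a)

omit [MeasurableSpace Θ] in
/-- The step at the level of the representation map. -/
lemma repMap_succ (x : Θ → Rule n) (K : ℕ) (θ : Θ) (η : Fin K → Fin n → ℝ) (h : Fin n → ℝ)
    (M : Fin n → Fin n → ℝ) :
    repMap x K ((θ, η), fixStep (gsStep (state (x θ) (freshResp (extZero η)) K).1 K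
        (x θ K (state (x θ) (freshResp (extZero η)) K).1 (state (x θ) (freshResp (extZero η)) K).2)) h M) =
      repMap x (K + 1) ((θ, Fin.snoc η h), M) := by
  set η' := extZero (Fin.snoc η h : Fin (K + 1) → Fin n → ℝ) with hη'
  have hlt : ∀ m < K, extZero η m = η' m := fun m hm => by
    simp only [η', extZero, dif_pos hm, dif_pos (show m < K + 1 by omega)]
    exact (Fin.snoc_castSucc (α := fun _ => Fin n → ℝ) h η ⟨m, hm⟩).symm
  have hK : η' K = h := by
    simp only [η', extZero, dif_pos (Nat.lt_succ_self K)]
    exact Fin.snoc_last (α := fun _ => Fin n → ℝ) h η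
  have hst : state (x θ) (freshResp (extZero η)) K = state (x θ) (freshResp η') K :=
    state_congr _ _ _ fun m hm => funext fun e => funext fun v =>
      freshResp_congr _ (fun p hp => hlt p (lt_of_le_of_lt hp hm)) fun _ _ => rfl
  clear_value η'
  have he' : gsStep (state (x θ) (freshResp η') K).1 K
      (x θ K (state (x θ) (freshResp η') K).1 (state (x θ) (freshResp η') K).2) =
      (state (x θ) (freshResp η') (K + 1)).1 K := by
    simp only [state, Function.update_self]
  refine Prod.ext rfl ?_
  simp only [repMap, ← hη', hst]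
  rw [he', ← hK]
  exact repMat_succ (x θ) η' K M

theorem lawStatement : LawStatement := by
  intro n K Θ _ μ _ x hx
  show μ.prod (goe n) =
    ((μ.prod (Measure.pi fun _ : Fin K => gauss (Fin n))).prod (goe n)).map (repMap x K)
  induction K with
  | zero =>
    have e : repMap x 0 = Prod.map (Prod.fst : Θ × (Fin 0 → Fin n → ℝ) → Θ) (id : (Fin n → Fin n → ℝ) → _) := by
      funext p
      refine Prod.ext rfl ?_
      funext i j
      simp [repMap, repMat, low, proj]
    rw [e, ← Measure.map_prod_map _ _ measurable_fst measurable_id, Measure.map_fst_prod, measure_univ,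
      one_smul, Measure.map_id]
  | succ K ih =>
    have hem : Measurable fun a : Θ × (Fin K → Fin n → ℝ) =>
        gsStep (state (x a.1) (freshResp (extZero a.2)) K).1 K
          (x a.1 K (state (x a.1) (freshResp (extZero a.2)) K).1 (state (x a.1) (freshResp (extZero a.2)) K).2) := by
      have h := (measurable_pi_apply K).comp (measurable_state x hx (K + 1) (K := K)).fst
      convert h using 1
      funext a; simp [state]
    have hskew := measurePreserving_step (μ.prod (Measure.pi fun _ : Fin K => gauss (Fin n))) hem
      fun a => dot_gsStep_self _ _ _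
    have hch := measurePreserving_shuffle (n := n) μ K
    rw [ih, ← hskew.map_eq, ← hch.map_eq, Measure.map_map (measurable_repMap x hx K) hskew.measurable,
      Measure.map_map (measurable_repMap x hx (K + 1)) hch.measurable]
    congr 1
    funext p
    exact repMap_succ x K p.1.1 p.1.2 p.2.1 p.2.2

end law

end Vale.Agent.P150.High.Amp
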