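import Vale.Agent.P150.High.AmpSpec

/-!
# P150, all `β < 1`: conditioning for the AMP iteration (exports of `AmpLaw.lean` and `AmpSE.lean`)

For directions chosen adaptively from the history, the GOE matrix has the law of
`low e G + P W' P`, where `e` is the Gram-Schmidt frame, the images `G l = W e_l` are built from
independent standard vectors and `W'` is a fresh copy.  Along the AMP directions every vector of the
frame is, up to `o(√n)` in probability, an explicit function of the coordinatewise noises.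
-/

open MeasureTheory ProbabilityTheory Filter
open scoped Topology

namespace Vale.Agent.P150.High.Amp

open Vale.Agent.P150

variable {n : ℕ}

/-- Symmetrisation: `GOE` from independent standard entries. -/
noncomputable def sym (X : Fin n × Fin n → ℝ) (i j : Fin n) : ℝ :=
  (X (i, j) + X (j, i)) / Real.sqrt 2

/-- The law of a GOE matrix, off-diagonal variance one, diagonal variance two. -/
noncomputable def goe (n : ℕ) : Measure (Fin n → Fin n → ℝ) :=
  (gauss (Fin n × Fin n)).map sym

/-- One Gram-Schmidt step; zero if `x` is in the span. -/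
noncomputable def gsStep (e : ℕ → Fin n → ℝ) (l : ℕ) (x : Fin n → ℝ) : Fin n → ℝ :=
  let r := x - ∑ m ∈ Finset.range l, dot x (e m) • e m
  (Real.sqrt (dot r r))⁻¹ • r

/-- How the image of the new direction is obtained from the frame. -/
abbrev Resp (n : ℕ) := ℕ → (ℕ → Fin n → ℝ) → (Fin n → ℝ) → Fin n → ℝ

/-- The adapted directions, from the frame and the images so far. -/
abbrev Rule (n : ℕ) := ℕ → (ℕ → Fin n → ℝ) → (ℕ → Fin n → ℝ) → Fin n → ℝ

/-- Frame and images after `l` steps; both vanish from `l` on. -/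
noncomputable def state (x : Rule n) (r : Resp n) : ℕ → (ℕ → Fin n → ℝ) × (ℕ → Fin n → ℝ)
  | 0 => (0, 0)
  | l + 1 =>
    let e := (state x r l).1
    let G := (state x r l).2
    (Function.update e l (gsStep e l (x l e G)),
      Function.update G l (r l e (gsStep e l (x l e G))))

/-- Images under a given matrix. -/
def matResp (W : Fin n → Fin n → ℝ) : Resp n := fun _ _ v i => ∑ j, W i j * v j

/-- Images built from independent standard vectors `η l`. -/
noncomputable def freshResp (η : ℕ → Fin n → ℝ) : Resp n := fun l e v =>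
  dot v v • (η l - ∑ m ∈ Finset.range l, dot (η l) (e m) • e m)
    + ((Real.sqrt 2 - 1) * dot (η l) v) • v + ∑ m ∈ Finset.range l, dot (η m) v • e m

/-- The part of `W` fixed by the images of the frame. -/
noncomputable def low (e G : ℕ → Fin n → ℝ) (K : ℕ) (i j : Fin n) : ℝ :=
  (∑ l ∈ Finset.range K, (G l i * e l j + e l i * G l j))
    - ∑ l ∈ Finset.range K, ∑ m ∈ Finset.range K, dot (e l) (G m) * (e l i * e m j)

/-- The projection off the frame. -/
noncomputable def proj (e : ℕ → Fin n → ℝ) (K : ℕ) (i j : Fin n) : ℝ :=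
  (if i = j then 1 else 0) - ∑ l ∈ Finset.range K, e l i * e l j

/-- `low + P W' P`. -/
noncomputable def repMat (e G : ℕ → Fin n → ℝ) (K : ℕ) (W' : Fin n → Fin n → ℝ)
    (i j : Fin n) : ℝ :=
  low e G K i j + ∑ k, ∑ l, proj e K i k * W' k l * proj e K l j

/-- A finite family, zero outside. -/
def extZero {K : ℕ} (η : Fin K → Fin n → ℝ) (l : ℕ) : Fin n → ℝ :=
  if h : l < K then η ⟨l, h⟩ else 0

/-- `AmpLaw.lean`: the law of the matrix given the images of an adapted frame. -/
def LawStatement : Prop :=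
  ∀ (n K : ℕ) (Θ : Type) [MeasurableSpace Θ] (μ : Measure Θ) [IsProbabilityMeasure μ]
    (x : Θ → Rule n),
    (∀ l, Measurable fun p : Θ × (ℕ → Fin n → ℝ) × (ℕ → Fin n → ℝ) => x p.1 l p.2.1 p.2.2) →
    (μ.prod (goe n)) =
      ((μ.prod (Measure.pi fun _ : Fin K => gauss (Fin n))).prod (goe n)).map fun p =>
        let S := state (x p.1.1) (freshResp (extZero p.1.2)) K
        (p.1.1, repMat S.1 S.2 K p.2)

/-- `AmpLaw.lean`: on the representation the fresh images are the images under the matrix. -/
def StateStatement : Prop :=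
  ∀ (n K : ℕ) (x : Rule n) (η : ℕ → Fin n → ℝ) (W' : Fin n → Fin n → ℝ),
    (∀ i j, W' i j = W' j i) →
    let S := state x (freshResp η) K
    state x (matResp (repMat S.1 S.2 K W')) K = S

/-! ### The AMP directions -/

/-- `β² / n` times `11' - ξξ'`, applied to `p`. -/
noncomputable def rankTwo (β : ℝ) (ξ p : Fin n → ℝ) (i : Fin n) : ℝ :=
  β ^ 2 * ((∑ j, p j) / n) - β ^ 2 * (dot ξ p / n) * ξ i

/-- `(β/√n) W p + (β²/n)(11' - ξξ') p + shift f`, with `W p` read off the first `L` images. -/
noncomputable def histStep (β shift : ℝ) (e G : ℕ → Fin n → ℝ) (ξ f p : Fin n → ℝ) (L : ℕ)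
    (i : Fin n) : ℝ :=
  β / Real.sqrt n * (∑ m ∈ Finset.range L, dot p (e m) * G m i) + rankTwo β ξ p i + shift * f i

/-- The fields of the iteration, read off the history, with `f = s + √s ξ`. -/
noncomputable def histZ (β shift s : ℝ) (z : Fin n → ℝ) (e G : ℕ → Fin n → ℝ) :
    ℕ → Fin n → ℝ
  | 0 => fun i => prodF β shift s z i / plantVar β shift
  | 1 => fun i =>
      histStep β shift e G (prodXi β shift z) (prodF β shift s z)
          (fun j => prodF β shift s z j + (1 - s) * Real.tanh (prodF β shift s z j / plantVar β shift)) 1 i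
        + β ^ 2 * (1 - s) * (1 - qSE (gamSE β shift s 0)) * prodF β shift s z i
  | l + 2 => fun i =>
      histStep β shift e G (prodXi β shift z) (prodF β shift s z)
          (fun j => prodF β shift s z j + (1 - s) * Real.tanh (histZ β shift s z e G (l + 1) j)) (l + 2) i
        - β ^ 2 * (1 - s) ^ 2 * (1 - qSE (gamSE β shift s (l + 1))) *
          Real.tanh (histZ β shift s z e G l i)

/-- The directions `f + u a₀, a₁ - a₀, a₂ - a₁, …`. -/
noncomputable def ampRule (β shift s : ℝ) (z : Fin n → ℝ) : Rule n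
  | 0, _, _ => fun i => prodF β shift s z i
      + (1 - s) * Real.tanh (prodF β shift s z i / plantVar β shift)
  | l + 1, e, G => fun i => Real.tanh (histZ β shift s z e G (l + 1) i)
      - Real.tanh (histZ β shift s z e G l i)

/-- Coordinatewise noises: index `0` is `ξ/√v`, index `l+1` the fresh vector at step `l`. -/
noncomputable def noise (K n : ℕ) : Measure (Fin n → Fin (K + 1) → ℝ) :=
  Measure.pi fun _ => gauss (Fin (K + 1))

/-- The standard vector of `ξ`. -/
def noiseZ {K : ℕ} (ω : Fin n → Fin (K + 1) → ℝ) (i : Fin n) : ℝ := ω i 0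

/-- The fresh vectors. -/
def noiseEta {K : ℕ} (ω : Fin n → Fin (K + 1) → ℝ) (l : ℕ) (i : Fin n) : ℝ :=
  if h : l + 1 < K + 1 then ω i ⟨l + 1, h⟩ else 0

/-- A vector agrees up to `o(√n)` in probability with a function of the noise at each coordinate. -/
def VecLim (K : ℕ) (X : ∀ n, (Fin n → Fin (K + 1) → ℝ) → Fin n → ℝ)
    (φ : (Fin (K + 1) → ℝ) → ℝ) : Prop :=
  ∀ ε : ℝ, 0 < ε → Tendsto (fun n => (noise K n).real
    {ω | ε * n < ∑ i, (X n ω i - φ (ω i)) ^ 2}) atTop (𝓝 0)

/-- `γ₀, γ₁ - γ₀, γ₂ - γ₁, …`. -/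
noncomputable def gamInc (β shift s : ℝ) : ℕ → ℝ
  | 0 => gamSE β shift s 0
  | j + 1 => gamSE β shift s (j + 1) - gamSE β shift s j

/-- The `l`-th field as a function of the noise at one coordinate. -/
noncomputable def idealZ {K : ℕ} (β shift s : ℝ) (l : ℕ) (w : Fin (K + 1) → ℝ) : ℝ :=
  gamSE β shift s l
    + ∑ j : Fin (K + 1), if (j : ℕ) ≤ l then Real.sqrt (gamInc β shift s j) * w j else 0

/-- The ideal direction, not normalised. -/
noncomputable def idealDir {K : ℕ} (β shift s : ℝ) : ℕ → (Fin (K + 1) → ℝ) → ℝ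
  | 0, w => s + Real.sqrt s * (Real.sqrt (plantVar β shift) * w 0)
      + (1 - s) * Real.tanh (idealZ β shift s 0 w)
  | l + 1, w => Real.tanh (idealZ β shift s (l + 1) w) - Real.tanh (idealZ β shift s l w)

/-- The ideal frame vector, times `√n`. -/
noncomputable def idealE {K : ℕ} (β shift s : ℝ) (l : ℕ) (w : Fin (K + 1) → ℝ) : ℝ :=
  idealDir β shift s l w
    / Real.sqrt (∫ t : Fin (K + 1) → ℝ, idealDir β shift s l t ^ 2 ∂gauss (Fin (K + 1)))

/-- The ideal image: fresh noise plus the reaction on the earlier frame. -/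
noncomputable def idealG {K : ℕ} (β shift s : ℝ) (l : ℕ) (w : Fin (K + 1) → ℝ) : ℝ :=
  (if h : l + 1 < K + 1 then w ⟨l + 1, h⟩ else 0)
    + ∑ m ∈ Finset.range l,
        (∫ t : Fin (K + 1) → ℝ, (if h : m + 1 < K + 1 then t ⟨m + 1, h⟩ else 0) *
          idealE β shift s l t ∂gauss (Fin (K + 1))) * idealE β shift s m w

/-- Frame and images on the noise space after `K` steps. -/
noncomputable def ampState (β shift s : ℝ) (K n : ℕ) (ω : Fin n → Fin (K + 1) → ℝ) :
    (ℕ → Fin n → ℝ) × (ℕ → Fin n → ℝ) :=
  state (ampRule β shift s (noiseZ ω)) (freshResp (noiseEta ω)) K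

/-- `AmpSE.lean`: state evolution. The degenerate cases `β = 0`, `s ∈ {0, 1}` are handled apart. -/
def SEStatement : Prop :=
  ∀ β shift s : ℝ, 0 < β → β < 1 → 4 ≤ shift → 0 < s → s < 1 → ∀ K l : ℕ, l < K →
    VecLim K (fun n ω i => histZ β shift s (noiseZ ω) (ampState β shift s K n ω).1
      (ampState β shift s K n ω).2 l i) (idealZ β shift s l) ∧
    VecLim K (fun n ω i => histZ β shift s (noiseZ ω) (ampState β shift s K n ω).1
      (ampState β shift s K n ω).2 (l + 1) i) (idealZ β shift s (l + 1)) ∧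
    VecLim K (fun n ω i => Real.sqrt n * (ampState β shift s K n ω).1 l i) (idealE β shift s l) ∧
    VecLim K (fun n ω i => (ampState β shift s K n ω).2 l i) (idealG β shift s l)

end Vale.Agent.P150.High.Amp
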