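import Vale.Agent.P150.High.CovSpec
import Vale.Agent.P150.Gauss

/-!
# P150, all `β < 1`: the covariance bound gives the entropy contraction

Along the channel `y = t² B x + t g` the conditional entropy `R t` has derivative `-t` times the mean
square distance of the two posterior means; that distance is at most `2 A` times the conditional
entropy where the covariance is bounded around the field, and at most `8 shift n` elsewhere.
-/

open MeasureTheory Filter
open scoped Topology

namespace Vale.Agent.P150.High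

open Vale.Agent.P150 Ising

namespace Contract

section General

variable {S κ : Type*} [Fintype S] [Fintype κ] {p q : S → ℝ} {a : S → κ → ℝ}

omit [Fintype κ] in
lemma wavg_eq_sum (q E F : S → ℝ) :
    Channel.wavg q E F = ∑ x, q x * Real.exp (E x) / Channel.wsum q E 1 * F x := by
  rw [Channel.wavg, Channel.wsum, Finset.sum_div]
  exact Finset.sum_congr rfl fun x _ => (div_mul_eq_mul_div _ _ _).symm

/-- Bayes identity for a bounded measurable function. -/
lemma bayesM (q : S → ℝ) (a : S → κ → ℝ) (t : ℝ) {Φ : (κ → ℝ) → ℝ} (hΦ : Measurable Φ) {C : ℝ}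
    (hb : ∀ y, |Φ y| ≤ C) :
    ∑ x, q x * ∫ g, Φ (Channel.obs (a x) t g) ∂gauss κ =
      ∫ g, Channel.wsum q (Channel.en a t fun k => t * g k) 1 * Φ (fun k => t * g k) ∂gauss κ := by
  have key : ∀ x, ∫ g, Φ (Channel.obs (a x) t g) ∂gauss κ =
      ∫ g, Real.exp (Channel.en a t (fun k => t * g k) x) * Φ (fun k => t * g k) ∂gauss κ := by
    intro x
    have e : ∀ g : κ → ℝ, Channel.obs (a x) t g = fun k => t * (g + fun j => t * a x j) k := fun g => by
      funext k; simp only [Channel.obs, Pi.add_apply]; ring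
    simp only [e]
    rw [Channel.translate (fun j => t * a x j) fun z => Φ fun k => t * z k]
    refine integral_congr_ae (Eventually.of_forall fun g => ?_)
    simp only [Channel.en, dot, Channel.nsq, mul_pow, ← Finset.mul_sum]
    congr 3
    exact Finset.sum_congr rfl fun k _ => by ring
  simp only [key, ← integral_const_mul]
  rw [← integral_finsetSum]
  · refine integral_congr_ae (Eventually.of_forall fun g => ?_)
    simp only [Channel.wsum, Pi.one_apply, mul_one, Finset.sum_mul, mul_assoc]
  · intro x _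
    have hc : Continuous fun g : κ → ℝ => Channel.en a t (fun k => t * g k) x :=
      (Channel.continuous_en t x).comp (by fun_prop)
    have hm : Measurable fun g : κ → ℝ => Real.exp (Channel.en a t (fun k => t * g k) x) * Φ (fun k => t * g k) :=
      hc.rexp.measurable.mul (hΦ.comp (by fun_prop))
    refine (((integrable_exp_l1 (|t| * Channel.bnd a)).const_mul C).mono' hm.aestronglyMeasurable
      (Eventually.of_forall fun g => ?_)).const_mul _
    rw [Real.norm_eq_abs, abs_mul, Real.abs_exp, mul_comm C]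
    refine mul_le_mul (Real.exp_le_exp.2 ?_) (hb _) (abs_nonneg _) (Real.exp_pos _).le
    have h1 : dot (a x) (fun k => t * g k) = t * dot (a x) g := by
      simp only [dot, Finset.mul_sum]; exact Finset.sum_congr rfl fun k _ => by ring
    have h2 := mul_le_mul_of_nonneg_left (abs_dot_le (Channel.abs_le_bnd a x) g) (abs_nonneg t)
    rw [← abs_mul] at h2
    have h3 : 0 ≤ t ^ 2 * Channel.nsq (a x) / 2 :=
      div_nonneg (mul_nonneg (sq_nonneg t) (Finset.sum_nonneg fun _ _ => sq_nonneg _)) zero_le_two
    rw [Channel.en, h1]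
    linarith [le_abs_self (t * dot (a x) g)]

omit [Fintype κ] in
/-- A second derivative bound along an exponential tilt bounds the log moment generating function. -/
lemma log_mgf_le (hp : Channel.Wt p) (hp1 : ∑ x, p x = 1) (h : S → ℝ) {V : ℝ}
    (hV : ∀ s, 0 ≤ s → s ≤ 1 →
      Channel.wavg p (fun x => s * h x) (h * h) - Channel.wavg p (fun x => s * h x) h ^ 2 ≤ V) :
    Real.log (∑ x, p x * Real.exp (h x)) ≤ (∑ x, p x * h x) + V / 2 := by
  set G := fun s : ℝ => Real.log (Channel.wsum p (fun x => s * h x) 1)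
  set G1 := fun s : ℝ => Channel.wavg p (fun x => s * h x) h
  have hE : ∀ s x, HasDerivAt (fun u : ℝ => u * h x) (h x) s := fun s x => by
    simpa using (hasDerivAt_id' s).mul_const (h x)
  have d0 : ∀ s, HasDerivAt G (G1 s) s := fun s => hp.hasDerivAt_log (hE s)
  have d1 : ∀ s, HasDerivAt G1
      (Channel.wavg p (fun x => s * h x) (h * h) - G1 s * G1 s) s := fun s => hp.hasDerivAt_wavg (hE s) h
  have z1 : G1 0 = ∑ x, p x * h x := by simp [G1, Channel.wavg, Channel.wsum, hp1]
  have m1 : AntitoneOn (fun s => G1 s - V * s) (Set.Icc 0 1) := by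
    refine antitoneOn_of_hasDerivWithinAt_nonpos (convex_Icc 0 1)
      (fun s _ => ((d1 s).sub ((hasDerivAt_id' s).const_mul V)).continuousAt.continuousWithinAt)
      (fun s _ => ((d1 s).sub ((hasDerivAt_id' s).const_mul V)).hasDerivWithinAt) fun s hs => ?_
    rw [interior_Icc] at hs
    have := hV s hs.1.le hs.2.le
    simp only [G1]
    rw [sq] at this
    linarith
  have d2 : ∀ s, HasDerivAt (fun u => G u - G1 0 * u - V / 2 * u ^ 2) (G1 s - G1 0 - V * s) s := fun s => by
    refine (((d0 s).sub ((hasDerivAt_id' s).const_mul (G1 0))).sub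
      ((hasDerivAt_pow 2 s).const_mul (V / 2))).congr_deriv ?_
    simp; ring
  have m2 : AntitoneOn (fun u => G u - G1 0 * u - V / 2 * u ^ 2) (Set.Icc 0 1) := by
    refine antitoneOn_of_hasDerivWithinAt_nonpos (convex_Icc 0 1)
      (fun s _ => (d2 s).continuousAt.continuousWithinAt) (fun s _ => (d2 s).hasDerivWithinAt) fun s hs => ?_
    rw [interior_Icc] at hs
    have := m1 (Set.left_mem_Icc.2 zero_le_one) ⟨hs.1.le, hs.2.le⟩ hs.1.le
    simp only [mul_zero, sub_zero] at this
    linarith
  have h3 := m2 (Set.left_mem_Icc.2 zero_le_one) (Set.right_mem_Icc.2 zero_le_one) zero_le_one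
  have z0 : G 0 = 0 := by simp [G, Channel.wsum, hp1]
  have z2 : G 1 = Real.log (∑ x, p x * Real.exp (h x)) := by simp [G, Channel.wsum]
  simp only [z0, z2, z1] at h3
  linarith

omit [Fintype κ] in
lemma ent_nonneg [Nonempty S] {π f : S → ℝ} (hπ : ∀ x, 0 < π x) (hπ1 : ∑ x, π x = 1) (hf : ∀ x, 0 < f x) :
    0 ≤ ent π f := by
  have := dual_entropy hπ hf hπ1 fun _ => 0
  simpa [hπ1] using this

end General

variable {n : ℕ}

/-- The posterior of the channel is an Ising model. -/
lemma post_eq {J B : Fin n → Fin n → ℝ} {shift : ℝ}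
    (hB : ∀ i j, ∑ k, B k i * B k j = J i j + if i = j then shift else 0) (t : ℝ) (y : Fin n → ℝ) (x : Cfg n) :
    wt J 0 x * Real.exp (Channel.en (signalOf B) t y x) /
        Channel.wsum (wt J 0) (Channel.en (signalOf B) t y) 1 =
      wt (fun i j => (1 - t ^ 2) * J i j) (fieldOf B y) x := by
  have hn : ∀ z : Cfg n, ∑ k, signalOf B z k ^ 2 =
      (∑ i, ∑ j, J i j * (spin (z i) * spin (z j))) + shift * n := by
    intro z
    have e : ∀ i j, ∑ k, B k i * spin (z i) * (B k j * spin (z j)) =
        J i j * (spin (z i) * spin (z j)) + (if i = j then shift else 0) := by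
      intro i j
      have : ∑ k, B k i * spin (z i) * (B k j * spin (z j)) = (∑ k, B k i * B k j) * (spin (z i) * spin (z j)) := by
        rw [Finset.sum_mul]; exact Finset.sum_congr rfl fun k _ => by ring
      rw [this, hB, add_mul]
      by_cases hij : i = j
      · subst hij; simp [spin_mul_self]
      · simp [hij]
    simp only [signalOf, sq, Finset.sum_mul_sum]
    rw [Finset.sum_comm]
    have : ∀ i, ∑ k, ∑ j, B k i * spin (z i) * (B k j * spin (z j)) =
        (∑ j, J i j * (spin (z i) * spin (z j))) + shift := fun i => by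
      rw [Finset.sum_comm]; simp [e, Finset.sum_add_distrib]
    simp [this, Finset.sum_add_distrib, mul_comm shift]
  have hd : ∀ z : Cfg n, dot (signalOf B z) y = ∑ i, fieldOf B y i * spin (z i) := fun z => by
    simp only [dot, signalOf, fieldOf, Finset.sum_mul]
    rw [Finset.sum_comm]
    exact Finset.sum_congr rfl fun i _ => Finset.sum_congr rfl fun k _ => by ring
  have e : ∀ z, qE J 0 z + Channel.en (signalOf B) t y z =
      qE (fun i j => (1 - t ^ 2) * J i j) (fieldOf B y) z + (-(t ^ 2 * shift * n / 2)) := fun z => by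
    simp only [qE, Channel.en, Channel.nsq, hn, hd, Pi.zero_apply, zero_mul, Finset.sum_const_zero, add_zero,
      mul_assoc, ← Finset.mul_sum]
    ring
  have hZ : (∑ z : Cfg n, Real.exp (qE J 0 z)) ≠ 0 :=
    (Finset.sum_pos (fun _ _ => Real.exp_pos _) Finset.univ_nonempty).ne'
  have num : ∀ z, wt J 0 z * Real.exp (Channel.en (signalOf B) t y z) =
      Real.exp (qE (fun i j => (1 - t ^ 2) * J i j) (fieldOf B y) z) *
        (Real.exp (-(t ^ 2 * shift * n / 2)) / ∑ w : Cfg n, Real.exp (qE J 0 w)) := fun z => by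
    rw [wt, div_mul_eq_mul_div, ← Real.exp_add, e, Real.exp_add, mul_div_assoc]
  simp only [Channel.wsum, Pi.one_apply, mul_one, num]
  rw [← Finset.sum_mul, mul_div_mul_right _ _ (div_ne_zero (Real.exp_pos _).ne' hZ), wt]

/-- A tilted Ising law is an Ising law in the shifted field. -/
lemma tilt_eq (J : Fin n → Fin n → ℝ) (b u : Fin n → ℝ) (s : ℝ) (F : Cfg n → ℝ) :
    Channel.wavg (wt J b) (fun x => s * ∑ i, u i * spin (x i)) F = ∑ x, wt J (b + s • u) x * F x := by
  have e : ∀ x : Cfg n, qE J (b + s • u) x = qE J b x + s * ∑ i, u i * spin (x i) := fun x => by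
    simp only [qE, Pi.add_apply, Pi.smul_apply, smul_eq_mul, add_mul, Finset.sum_add_distrib, Finset.mul_sum, mul_assoc]
    ring
  have hZ : (∑ z : Cfg n, Real.exp (qE J b z)) ≠ 0 :=
    (Finset.sum_pos (fun _ _ => Real.exp_pos _) Finset.univ_nonempty).ne'
  have num : ∀ G : Cfg n → ℝ, Channel.wsum (wt J b) (fun x => s * ∑ i, u i * spin (x i)) G =
      (∑ x, Real.exp (qE J (b + s • u) x) * G x) / ∑ z : Cfg n, Real.exp (qE J b z) := fun G => by
    simp only [Channel.wsum, wt, e, Real.exp_add, Finset.sum_div]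
    exact Finset.sum_congr rfl fun x _ => by ring
  rw [Channel.wavg, num, num, div_div_div_cancel_right₀ hZ]
  simp only [wt, Pi.one_apply, mul_one, Finset.sum_div]
  exact Finset.sum_congr rfl fun x _ => (div_mul_eq_mul_div _ _ _).symm

lemma continuous_covAt (J : Fin n → Fin n → ℝ) (v : Fin n → ℝ) {X : Type*} [TopologicalSpace X]
    {c : X → ℝ} (hc : Continuous c) {b : X → Fin n → ℝ} (hb : Continuous b) :
    Continuous fun x => covAt (fun i j => c x * J i j) (b x) v := by
  have hw : ∀ z, Continuous fun x => wt (fun i j => c x * J i j) (b x) z := fun z => by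
    unfold wt
    refine Continuous.div ?_ ?_ fun x => (Finset.sum_pos (fun _ _ => Real.exp_pos _) Finset.univ_nonempty).ne'
    · unfold qE; fun_prop
    · unfold qE; fun_prop
  unfold covAt
  refine continuous_finsetSum _ fun z _ => ?_
  exact (hw z).mul ((continuous_const.sub (continuous_finsetSum _ fun y _ => (hw y).mul continuous_const)).pow 2)

lemma isClosed_covBall (L κ : ℝ) (J : Fin n → Fin n → ℝ) {X : Type*} [TopologicalSpace X]
    {c : X → ℝ} (hc : Continuous c) {b : X → Fin n → ℝ} (hb : Continuous b) :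
    IsClosed {x | CovBall L κ (fun i j => c x * J i j) (b x)} := by
  have e : {x | CovBall L κ (fun i j => c x * J i j) (b x)} = ⋂ w : Fin n → ℝ, ⋂ (_ : ∑ i, w i ^ 2 ≤ κ * n),
      ⋂ v : Fin n → ℝ, {x | covAt (fun i j => c x * J i j) (b x + w) v ≤ L * ∑ i, v i ^ 2} := by
    ext x; simp [CovBall]
  rw [e]
  exact isClosed_iInter fun w => isClosed_iInter fun _ => isClosed_iInter fun v =>
    isClosed_le (continuous_covAt J v hc (hb.add continuous_const)) continuous_const

/-- Square norm of the signal. -/
lemma signal_sq {B : Fin n → Fin n → ℝ} {shift : ℝ}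
    (hB : ∀ v : Fin n → ℝ, ∑ k, (∑ j, B k j * v j) ^ 2 ≤ 2 * shift * ∑ i, v i ^ 2) (x : Cfg n) :
    ∑ k, signalOf B x k ^ 2 ≤ 2 * shift * n := by
  refine (hB fun j => spin (x j)).trans_eq ?_
  simp [sq, spin_mul_self]

/-- The transport inequality at one observation. -/
lemma transport {J B : Fin n → Fin n → ℝ} {shift L κ A : ℝ} (hF : IsFactor J shift B)
    (hshift : 0 < shift) (hL : 0 < L) (hA1 : 2 * L * shift ≤ A) (hA2 : 16 * shift ^ 2 ≤ κ * A ^ 2)
    {J' : Fin n → Fin n → ℝ} {b : Fin n → ℝ} (hball : CovBall L κ J' b) {f : Cfg n → ℝ} (hf : ∀ x, 0 < f x)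
    (m' : Fin n → ℝ) (hm : ∀ k, (∑ x, wt J' b x * f x) * m' k = ∑ x, wt J' b x * (f x * signalOf B x k))
    (hdiff : ∑ k, (m' k - ∑ x, wt J' b x * signalOf B x k) ^ 2 ≤ 8 * shift * n) :
    (∑ x, wt J' b x * f x) * ∑ k, (m' k - ∑ x, wt J' b x * signalOf B x k) ^ 2 ≤ 2 * A * ent (wt J' b) f := by
  set π := wt J' b
  set r := ∑ x, π x * f x
  set m := fun k => ∑ x, π x * signalOf B x k
  set D := ∑ k, (m' k - m k) ^ 2 with hD
  have hA0 : 0 < A := lt_of_lt_of_le (by positivity) hA1
  have hr : 0 < r := Finset.sum_pos (fun x _ => mul_pos (wt_pos J' b x) (hf x)) Finset.univ_nonempty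
  set v := fun k => (m' k - m k) / A with hv
  set u := fieldOf B v with hu
  have hvD : ∑ k, v k ^ 2 = D / A ^ 2 := by
    simp only [hv, div_pow, ← Finset.sum_div, hD]
  have huD : ∑ i, u i ^ 2 ≤ 2 * shift * (D / A ^ 2) := by
    rw [← hvD]
    refine le_trans (le_of_eq ?_) (hF.2.2 v)
    exact Finset.sum_congr rfl fun i _ => by
      simp only [hu, fieldOf]
      congr 1
      exact Finset.sum_congr rfl fun k _ => by rw [hF.1 i k]
  have huκ : ∑ i, u i ^ 2 ≤ κ * n := by
    refine huD.trans ?_
    rw [← mul_div_assoc, div_le_iff₀ (by positivity)]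
    calc 2 * shift * D ≤ 2 * shift * (8 * shift * n) := by gcongr
      _ = 16 * shift ^ 2 * n := by ring
      _ ≤ κ * A ^ 2 * n := by gcongr
      _ = _ := by ring
  have hvar : ∀ s, 0 ≤ s → s ≤ 1 →
      Channel.wavg π (fun x => s * ∑ i, u i * spin (x i))
          ((fun x : Cfg n => ∑ i, u i * spin (x i)) * fun x => ∑ i, u i * spin (x i))
        - Channel.wavg π (fun x => s * ∑ i, u i * spin (x i)) (fun x => ∑ i, u i * spin (x i)) ^ 2
        ≤ L * ∑ i, u i ^ 2 := by
    intro s h0 h1
    rw [tilt_eq, tilt_eq]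
    refine le_trans (le_of_eq ?_) (hball (s • u) ?_ u)
    · unfold covAt
      set ω := wt J' (b + s • u)
      have hω : ∑ x, ω x = 1 := wt_sum _ _
      set h : Cfg n → ℝ := fun x => ∑ i, u i * spin (x i)
      set μ := ∑ y, ω y * h y
      have e : ∀ x, ω x * (h x - μ) ^ 2 = ω x * (h x * h x) - 2 * μ * (ω x * h x) + μ ^ 2 * ω x := fun x => by ring
      show (∑ x, ω x * (h x * h x)) - μ ^ 2 = ∑ x, ω x * (h x - μ) ^ 2
      simp only [e, Finset.sum_add_distrib, Finset.sum_sub_distrib, ← Finset.mul_sum, hω]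
      ring
    · refine le_trans ?_ huκ
      refine Finset.sum_le_sum fun i _ => ?_
      simp only [Pi.smul_apply, smul_eq_mul, mul_pow]
      exact mul_le_of_le_one_left (sq_nonneg _) (pow_le_one₀ h0 h1)
  have hmgf := log_mgf_le (p := π) ⟨fun x => (wt_pos J' b x).le, by rw [wt_sum]; norm_num⟩ (wt_sum J' b)
    (fun x => ∑ i, u i * spin (x i)) hvar
  have hux : ∀ x : Cfg n, ∑ i, u i * spin (x i) = ∑ k, v k * signalOf B x k := fun x => by
    simp only [hu, fieldOf, signalOf, Finset.sum_mul, Finset.mul_sum]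
    rw [Finset.sum_comm]
    exact Finset.sum_congr rfl fun k _ => Finset.sum_congr rfl fun i _ => by ring
  have hdual := dual_entropy (p := π) (wt_pos J' b) hf (wt_sum J' b) fun x => ∑ i, u i * spin (x i)
  have e1 : ∑ x, π x * (f x * ∑ i, u i * spin (x i)) = r * ∑ k, v k * m' k := by
    simp only [hux, Finset.mul_sum]
    rw [Finset.sum_comm]
    refine Finset.sum_congr rfl fun k _ => ?_
    calc ∑ x, π x * (f x * (v k * signalOf B x k)) = v k * ∑ x, π x * (f x * signalOf B x k) := by
          rw [Finset.mul_sum]; exact Finset.sum_congr rfl fun x _ => by ring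
      _ = v k * (r * m' k) := by rw [hm]
      _ = r * (v k * m' k) := by ring
  have e2 : ∑ x, π x * ∑ i, u i * spin (x i) = ∑ k, v k * m k := by
    simp only [hux, Finset.mul_sum, m]
    rw [Finset.sum_comm]
    exact Finset.sum_congr rfl fun k _ => Finset.sum_congr rfl fun x _ => by ring
  have e3 : ∑ k, v k * m' k - ∑ k, v k * m k = D / A := by
    rw [← Finset.sum_sub_distrib, hD, Finset.sum_div]
    exact Finset.sum_congr rfl fun k _ => by simp only [hv]; ring
  have h1 : r * (D / A) ≤ ent π f + r * (L * (2 * shift * (D / A ^ 2)) / 2) := by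
    have hlog : Real.log (∑ x, π x * Real.exp (∑ i, u i * spin (x i))) ≤
        (∑ k, v k * m k) + L * (2 * shift * (D / A ^ 2)) / 2 := by
      rw [← e2]
      refine hmgf.trans (add_le_add le_rfl ?_)
      gcongr
    have h2 := hdual.trans (add_le_add le_rfl (mul_le_mul_of_nonneg_left hlog hr.le))
    rw [e1] at h2
    rw [← e3, mul_sub]
    linarith
  have hD0 : 0 ≤ D := Finset.sum_nonneg fun k _ => sq_nonneg _
  have h2 : L * (2 * shift * (D / A ^ 2)) / 2 ≤ D / A / 2 := by
    rw [div_le_div_iff_of_pos_right two_pos, show L * (2 * shift * (D / A ^ 2)) = (2 * L * shift) * D / A / A by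
      field_simp, div_le_div_iff_of_pos_right hA0, div_le_iff₀ hA0]
    nlinarith
  have h3 : r * (D / A) ≤ ent π f + r * (D / A / 2) :=
    h1.trans (add_le_add le_rfl (mul_le_mul_of_nonneg_left h2 hr.le))
  have h4 : r * D = 2 * A * (r * (D / A) - r * (D / A / 2)) := by field_simp; ring
  rw [h4]
  exact mul_le_mul_of_nonneg_left (by linarith) (by positivity)

/-- Entropy contraction for one coupling matrix. -/
theorem contraction {J B : Fin n → Fin n → ℝ} {shift L κ A : ℝ} (hs : ∀ i j, J i j = J j i) (hd : ∀ i, J i i = 0)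
    (hF : IsFactor J shift B) (hshift : 0 < shift) (hL : 0 < L)
    (hA1 : 2 * L * shift ≤ A) (hA2 : 16 * shift ^ 2 ≤ κ * A ^ 2)
    {f : Cfg n → ℝ} {M : ℝ} (hf : ∀ x, 0 < f x ∧ f x ≤ M) (hmean : ∑ x, wt J 0 x * f x = 1) :
    ent (wt J 0) f ≤ Real.exp A * (∑ i, ∑ x, wt J 0 x * (f x * (Real.log (f x) - Real.log (qb 0 J i f x)))) +
      8 * shift * n * M * Real.exp A * ∫ t in (0 : ℝ)..1, ∑ x, wt J 0 x *
        ∫ z, {z | ¬ CovBall L κ (fun i j => (1 - t ^ 2) * J i j)
          (fieldOf B (Channel.obs (signalOf B x) t z))}.indicator (fun _ => (1 : ℝ)) z ∂gauss (Fin n) := by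
  classical
  set a := signalOf B with ha
  set q := wt J 0 with hq
  set p := fun x => q x * f x with hpdef
  have hqW : Channel.Wt q := ⟨fun x => (wt_pos J 0 x).le, by rw [wt_sum]; norm_num⟩
  have hpW : Channel.Wt p := ⟨fun x => (mul_pos (wt_pos J 0 x) (hf x).1).le, by rw [hmean]; norm_num⟩
  have hA0 : 0 < A := lt_of_lt_of_le (by positivity) hA1
  have hM : 0 ≤ M := le_trans (hf fun _ => true).1.le (hf fun _ => true).2
  -- quantities at one observation
  set Zq := fun t y => Channel.wsum q (Channel.en a t y) 1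
  set Zp := fun t y => Channel.wsum p (Channel.en a t y) 1
  set π := fun (t : ℝ) (y : Fin n → ℝ) => wt (fun i j => (1 - t ^ 2) * J i j) (fieldOf B y) with hπ
  have hpost : ∀ t y F, Channel.wsum q (Channel.en a t y) F = Zq t y * ∑ x, π t y x * F x := by
    intro t y F
    rw [Finset.mul_sum]
    refine Finset.sum_congr rfl fun x _ => ?_
    have h0 := post_eq hF.2.1 t y x
    rw [← ha, ← hq] at h0
    simp only [hπ, ← h0, Zq]
    have := (hqW.wsum_pos (Channel.en a t y)).ne'
    field_simp
  have hZpq : ∀ t y, Zp t y = Zq t y * ∑ x, π t y x * f x := fun t y => by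
    rw [← hpost]
    exact Finset.sum_congr rfl fun x _ => by simp only [hpdef, Pi.one_apply]; ring
  have hpmq : ∀ t y k, Channel.pm q a t y k = ∑ x, π t y x * a x k := fun t y k => by
    rw [Channel.pm, Channel.wavg, hpost, mul_div_cancel_left₀ _ (hqW.wsum_pos _).ne']
  have hpmp : ∀ t y k, (∑ x, π t y x * f x) * Channel.pm p a t y k = ∑ x, π t y x * (f x * a x k) := by
    intro t y k
    have e : Channel.wsum p (Channel.en a t y) (fun x => a x k) = Zq t y * ∑ x, π t y x * (f x * a x k) := by
      rw [← hpost]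
      exact Finset.sum_congr rfl fun x _ => by simp only [hpdef]; ring
    have h1 : Channel.wsum p (Channel.en a t y) 1 = Zq t y * ∑ x, π t y x * f x := hZpq t y
    have h2 : (∑ x, π t y x * f x) ≠ 0 :=
      (Finset.sum_pos (fun x _ => mul_pos (wt_pos _ _ x) (hf x).1) Finset.univ_nonempty).ne'
    have h3 : Zq t y ≠ 0 := (hqW.wsum_pos _).ne'
    rw [Channel.pm, Channel.wavg, e, h1]
    field_simp
  set Δ := fun t y => ∑ k, (Channel.pm p a t y k - Channel.pm q a t y k) ^ 2 with hΔ
  have hΔ8 : ∀ t y, Δ t y ≤ 8 * shift * n := by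
    intro t y
    have hsq : ∀ {w : Cfg n → ℝ}, Channel.Wt w → ∑ k, Channel.pm w a t y k ^ 2 ≤ 2 * shift * n := by
      intro w hw
      set E := Channel.en a t y
      have hW := hw.wsum_pos E
      have hjen : ∀ k, Channel.pm w a t y k ^ 2 ≤ Channel.wavg w E (fun x => a x k ^ 2) := by
        intro k
        rw [Channel.pm, Channel.wavg, Channel.wavg, div_pow, div_le_div_iff₀ (by positivity) hW, pow_two (Channel.wsum w E 1), ← mul_assoc]
        refine mul_le_mul_of_nonneg_right ?_ hW.le
        exact Finset.sum_sq_le_sum_mul_sum_of_sq_le_mul Finset.univ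
          (fun x _ => mul_nonneg (mul_nonneg (hw.nn x) (Real.exp_pos _).le) (sq_nonneg _))
          (fun x _ => by simpa using mul_nonneg (hw.nn x) (Real.exp_pos _).le)
          (fun x _ => le_of_eq (by simp; ring))
      refine (Finset.sum_le_sum fun k _ => hjen k).trans ?_
      simp only [wavg_eq_sum]
      rw [Finset.sum_comm]
      calc ∑ x, ∑ k, w x * Real.exp (E x) / Channel.wsum w E 1 * a x k ^ 2
          = ∑ x, w x * Real.exp (E x) / Channel.wsum w E 1 * ∑ k, a x k ^ 2 := by simp only [Finset.mul_sum]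
        _ ≤ ∑ x, w x * Real.exp (E x) / Channel.wsum w E 1 * (2 * shift * n) :=
            Finset.sum_le_sum fun x _ => mul_le_mul_of_nonneg_left (signal_sq hF.2.2 x)
              (div_nonneg (mul_nonneg (hw.nn x) (Real.exp_pos _).le) hW.le)
        _ = _ := by
            rw [← Finset.sum_mul, ← Finset.sum_div]
            simp only [Channel.wsum, Pi.one_apply, mul_one]
            rw [div_self, one_mul]
            simpa [Channel.wsum] using hW.ne'
    calc Δ t y ≤ ∑ k, (2 * Channel.pm p a t y k ^ 2 + 2 * Channel.pm q a t y k ^ 2) :=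
          Finset.sum_le_sum fun k _ => by nlinarith [sq_nonneg (Channel.pm p a t y k + Channel.pm q a t y k)]
      _ ≤ _ := by
          rw [Finset.sum_add_distrib, ← Finset.mul_sum, ← Finset.mul_sum]
          linarith [hsq hpW, hsq hqW]
  set ε := fun t y => Zq t y * ent (π t y) f with hε
  set bad := fun t => {y | ¬ CovBall L κ (fun i j => (1 - t ^ 2) * J i j) (fieldOf B y)} with hbad
  have hpoint : ∀ t y, Zp t y * Δ t y ≤
      2 * A * ε t y + 8 * shift * n * M * (Zq t y * (bad t).indicator (fun _ => (1 : ℝ)) y) := by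
    intro t y
    have hZq : 0 < Zq t y := hqW.wsum_pos _
    have hent : 0 ≤ ent (π t y) f := ent_nonneg (wt_pos _ _) (wt_sum _ _) fun x => (hf x).1
    by_cases hy : CovBall L κ (fun i j => (1 - t ^ 2) * J i j) (fieldOf B y)
    · rw [Set.indicator_of_notMem (by simpa [hbad] using hy), mul_zero, mul_zero, add_zero]
      have h := transport hF hshift hL hA1 hA2 hy (fun x => (hf x).1) (Channel.pm p a t y) (hpmp t y)
        (by have := hΔ8 t y; simp only [hΔ, hpmq] at this; exact this)
      have e : Δ t y = ∑ k, (Channel.pm p a t y k - ∑ x, π t y x * a x k) ^ 2 := by simp only [hΔ, hpmq]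
      rw [hZpq, e]
      simp only [hε]
      calc Zq t y * (∑ x, π t y x * f x) * _ = Zq t y * ((∑ x, π t y x * f x) *
            ∑ k, (Channel.pm p a t y k - ∑ x, π t y x * a x k) ^ 2) := mul_assoc _ _ _
        _ ≤ Zq t y * (2 * A * ent (π t y) f) := mul_le_mul_of_nonneg_left h hZq.le
        _ = _ := by ring
    · rw [Set.indicator_of_mem (show y ∈ bad t from hy), mul_one]
      have h1 : Zp t y ≤ M * Zq t y := by
        simp only [Zp, Zq, Channel.wsum, Finset.mul_sum]
        refine Finset.sum_le_sum fun x _ => ?_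
        simp only [hpdef, Pi.one_apply, mul_one]
        rw [mul_comm M, mul_assoc (q x), mul_assoc (q x), mul_comm (f x)]
        exact mul_le_mul_of_nonneg_left (mul_le_mul_of_nonneg_left (hf x).2 (Real.exp_pos _).le) (wt_pos J 0 x).le
      have h2 : Zp t y * Δ t y ≤ M * Zq t y * (8 * shift * n) :=
        mul_le_mul h1 (hΔ8 t y) (Finset.sum_nonneg fun k _ => sq_nonneg _) (mul_nonneg hM hZq.le)
      have h3 : 0 ≤ 2 * A * ε t y := by simp only [hε]; positivity
      linarith
  -- integrability
  have htg : ∀ t : ℝ, Continuous fun g : Fin n → ℝ => fun k => t * g k := fun t => by fun_prop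
  set BB := Channel.bnd a
  have hBB : 0 ≤ BB := Channel.bnd_nonneg a
  have hexpen : ∀ t x (g : Fin n → ℝ), Real.exp (Channel.en a t (fun k => t * g k) x) ≤ Real.exp (|t| * BB * l1 g) := by
    intro t x g
    refine Real.exp_le_exp.2 ?_
    have h1 : dot (a x) (fun k => t * g k) = t * dot (a x) g := by
      simp only [dot, Finset.mul_sum]; exact Finset.sum_congr rfl fun k _ => by ring
    have h2 := mul_le_mul_of_nonneg_left (abs_dot_le (Channel.abs_le_bnd a x) g) (abs_nonneg t)
    rw [← abs_mul] at h2
    have h3 : 0 ≤ t ^ 2 * Channel.nsq (a x) / 2 :=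
      div_nonneg (mul_nonneg (sq_nonneg t) (Finset.sum_nonneg fun _ _ => sq_nonneg _)) zero_le_two
    rw [Channel.en, h1]
    linarith [le_abs_self (t * dot (a x) g)]
  have hcsum : ∀ (t : ℝ) (w F : Cfg n → ℝ),
      Continuous fun g : Fin n → ℝ => Channel.wsum w (Channel.en a t fun k => t * g k) F := fun t w F => by
    unfold Channel.wsum
    refine continuous_finsetSum _ fun x _ => ?_
    exact ((continuous_const.mul ((Channel.continuous_en t x).comp (htg t)).rexp).mul continuous_const)
  have hisum : ∀ (t : ℝ) (w F : Cfg n → ℝ),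
      Integrable (fun g : Fin n → ℝ => Channel.wsum w (Channel.en a t fun k => t * g k) F) (gauss (Fin n)) := by
    intro t w F
    refine integrable_of_bound (hcsum t w F) (C := ∑ x, |w x * F x|) (M := |t| * BB) fun g => ?_
    rw [Channel.wsum, Finset.sum_mul]
    refine (Finset.abs_sum_le_sum_abs _ _).trans (Finset.sum_le_sum fun x _ => ?_)
    rw [mul_right_comm, abs_mul, Real.abs_exp]
    exact mul_le_mul_of_nonneg_left (hexpen t x g) (abs_nonneg _)
  set Lf := ∑ x, |Real.log (f x)|
  set Φ := fun t y => Channel.lz p a t y - Channel.lz q a t y with hΦ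
  have hΦc : ∀ t, Continuous (Φ t) := fun t => (hpW.continuous_lz t).sub (hqW.continuous_lz t)
  have hΦb : ∀ t y, |Φ t y| ≤ Lf := by
    intro t y
    have hlf : ∀ x, |Real.log (f x)| ≤ Lf := fun x =>
      Finset.single_le_sum (f := fun x => |Real.log (f x)|) (fun _ _ => abs_nonneg _) (Finset.mem_univ x)
    have hr : 0 < ∑ x, π t y x * f x :=
      Finset.sum_pos (fun x _ => mul_pos (wt_pos _ _ x) (hf x).1) Finset.univ_nonempty
    have e : Φ t y = Real.log (∑ x, π t y x * f x) := by
      show Real.log (Zp t y) - Real.log (Zq t y) = _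
      rw [hZpq, Real.log_mul (hqW.wsum_pos _).ne' hr.ne']
      ring
    rw [e, abs_le]
    constructor
    · rw [Real.le_log_iff_exp_le hr]
      calc Real.exp (-Lf) = ∑ x, π t y x * Real.exp (-Lf) := by rw [← Finset.sum_mul, hπ, wt_sum, one_mul]
        _ ≤ _ := Finset.sum_le_sum fun x _ => mul_le_mul_of_nonneg_left
            ((Real.le_log_iff_exp_le (hf x).1).1 (neg_le_of_abs_le (hlf x))) (wt_pos _ _ x).le
    · rw [Real.log_le_iff_le_exp hr]
      calc ∑ x, π t y x * f x ≤ ∑ x, π t y x * Real.exp Lf := Finset.sum_le_sum fun x _ =>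
            mul_le_mul_of_nonneg_left ((Real.log_le_iff_le_exp (hf x).1).1 ((le_abs_self _).trans (hlf x)))
              (wt_pos _ _ x).le
        _ = _ := by rw [← Finset.sum_mul, hπ, wt_sum, one_mul]
  have hLf : 0 ≤ Lf := Finset.sum_nonneg fun _ _ => abs_nonneg _
  have hiΦ : ∀ t, Integrable (fun g : Fin n → ℝ => Zp t (fun k => t * g k) * Φ t fun k => t * g k) (gauss (Fin n)) :=
    fun t => ((hisum t p 1).norm.mul_const Lf).mono' ((hcsum t p 1).mul ((hΦc t).comp (htg t))).aestronglyMeasurable
      (Eventually.of_forall fun g => by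
        rw [Real.norm_eq_abs, abs_mul, Real.norm_eq_abs]
        exact mul_le_mul_of_nonneg_left (hΦb _ _) (abs_nonneg _))
  set R := fun t => ∫ g : Fin n → ℝ, ε t (fun k => t * g k) ∂gauss (Fin n) with hR
  have hεe : ∀ t y, ε t y =
      Channel.wsum p (Channel.en a t y) (fun x => Real.log (f x)) - Zp t y * Φ t y := by
    intro t y
    have hr : 0 < ∑ x, π t y x * f x :=
      Finset.sum_pos (fun x _ => mul_pos (wt_pos _ _ x) (hf x).1) Finset.univ_nonempty
    have e1 : Channel.wsum p (Channel.en a t y) (fun x => Real.log (f x)) =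
        Zq t y * ∑ x, π t y x * (f x * Real.log (f x)) := by
      rw [← hpost]
      exact Finset.sum_congr rfl fun x _ => by simp only [hpdef]; ring
    have e2 : Φ t y = Real.log (∑ x, π t y x * f x) := by
      show Real.log (Zp t y) - Real.log (Zq t y) = _
      rw [hZpq, Real.log_mul (hqW.wsum_pos _).ne' hr.ne']
      ring
    simp only [hε, ent, e1, e2, hZpq]
    ring
  have hiε : ∀ t, Integrable (fun g : Fin n → ℝ => ε t fun k => t * g k) (gauss (Fin n)) := fun t => by
    simp only [hεe]; exact (hisum t p _).sub (hiΦ t)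
  have hRklc : ∀ t, R t = ent q f - Channel.klc p q a t := by
    intro t
    have h1 : Channel.klc p q a t = ∫ g, Zp t (fun k => t * g k) * Φ t (fun k => t * g k) ∂gauss (Fin n) :=
      Channel.bayes p a t (hΦc t) (C := Lf) (M := 0) fun g => by simpa using hΦb t _
    have h2 : ∫ g, Channel.wsum p (Channel.en a t fun k => t * g k) (fun x => Real.log (f x)) ∂gauss (Fin n)
        = ∑ x, p x * Real.log (f x) := by
      have := Channel.bayes (fun x => p x * Real.log (f x)) a t (Φ := fun _ => 1) continuous_const (C := 1) (M := 0)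
        fun g => by simp
      simp only [integral_const, probReal_univ, one_smul, mul_one] at this
      rw [this]
      exact integral_congr_ae (Eventually.of_forall fun g => Finset.sum_congr rfl fun x _ => by simp; ring)
    simp only [hR, hεe]
    rw [integral_sub (hisum t p _) (hiΦ t), h2, ← h1, ent, hmean, Real.log_one, mul_zero, sub_zero]
    congr 1
    exact Finset.sum_congr rfl fun x _ => by simp only [hpdef]; ring
  have hR0 : ∀ t, 0 ≤ R t := fun t => integral_nonneg fun g =>
    mul_nonneg (hqW.wsum_pos _).le (ent_nonneg (wt_pos _ _) (wt_sum _ _) fun x => (hf x).1)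
  -- the bad set
  have hfield : Continuous fun y : Fin n → ℝ => fieldOf B y := by unfold fieldOf; fun_prop
  have hbadm : ∀ t, MeasurableSet (bad t) := fun t =>
    (isClosed_covBall L κ J (continuous_const (y := 1 - t ^ 2)) hfield).measurableSet.compl
  set bt := fun t : ℝ => ∑ x, q x *
    ∫ z, {z | ¬ CovBall L κ (fun i j => (1 - t ^ 2) * J i j)
      (fieldOf B (Channel.obs (a x) t z))}.indicator (fun _ => (1 : ℝ)) z ∂gauss (Fin n) with hbt
  have hbt01 : ∀ t, 0 ≤ bt t ∧ bt t ≤ 1 := by
    intro t
    refine ⟨Finset.sum_nonneg fun x _ => mul_nonneg (wt_pos J 0 x).le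
      (integral_nonneg fun z => Set.indicator_nonneg (fun _ _ => zero_le_one) z), ?_⟩
    calc bt t ≤ ∑ x, q x * 1 := by
          refine Finset.sum_le_sum fun x _ => mul_le_mul_of_nonneg_left ?_ (wt_pos J 0 x).le
          refine (integral_mono_of_nonneg (Eventually.of_forall fun z => Set.indicator_nonneg (fun _ _ => zero_le_one) z)
            (integrable_const (1 : ℝ)) (Eventually.of_forall fun z =>
              Set.indicator_le_self' (fun _ _ => zero_le_one) z)).trans_eq (by simp)
      _ = 1 := by simp [hq, wt_sum]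
  have hbtm : Measurable bt := by
    refine Finset.measurable_sum _ fun x _ => Measurable.const_mul ?_ _
    have hobs : Continuous fun tz : ℝ × (Fin n → ℝ) => fieldOf B (Channel.obs (a x) tz.1 tz.2) := by
      unfold fieldOf Channel.obs; fun_prop
    have hset : MeasurableSet {tz : ℝ × (Fin n → ℝ) | ¬ CovBall L κ (fun i j => (1 - tz.1 ^ 2) * J i j)
        (fieldOf B (Channel.obs (a x) tz.1 tz.2))} :=
      (isClosed_covBall L κ J (c := fun tz : ℝ × (Fin n → ℝ) => 1 - tz.1 ^ 2) (by fun_prop) hobs).measurableSet.compl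
    have := ((stronglyMeasurable_const (b := (1 : ℝ))).indicator hset).integral_prod_right' (ν := gauss (Fin n))
    exact this.measurable
  have hbte : ∀ t, bt t = ∫ g, Zq t (fun k => t * g k) * (bad t).indicator (fun _ => (1 : ℝ)) (fun k => t * g k)
      ∂gauss (Fin n) := by
    intro t
    rw [← bayesM q a t ((measurable_const).indicator (hbadm t)) (C := 1) fun y => by
      by_cases h : y ∈ bad t <;> simp [h]]
    exact Finset.sum_congr rfl fun x _ => congrArg (q x * ·) (integral_congr_ae (Eventually.of_forall fun z => rfl))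
  have hibad : ∀ t, Integrable
      (fun g : Fin n → ℝ => Zq t (fun k => t * g k) * (bad t).indicator (fun _ => (1 : ℝ)) (fun k => t * g k))
      (gauss (Fin n)) := fun t =>
    (hisum t q 1).norm.mono' ((hcsum t q 1).measurable.mul
      ((measurable_const.indicator (hbadm t)).comp (htg t).measurable)).aestronglyMeasurable
      (Eventually.of_forall fun g => by
        rw [norm_mul]
        refine mul_le_of_le_one_right (norm_nonneg _) ?_
        by_cases h : (fun k => t * g k) ∈ bad t <;> simp [h])
  -- derivative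
  set Dv := fun t => ∫ g : Fin n → ℝ, Zp t (fun k => t * g k) * Δ t (fun k => t * g k) ∂gauss (Fin n) with hDv
  have hΔc : ∀ t, Continuous (Δ t) := fun t =>
    continuous_finsetSum _ fun k _ => ((hpW.continuous_pm t k).sub (hqW.continuous_pm t k)).pow 2
  have hiΔ : ∀ t, Integrable (fun g : Fin n → ℝ => Zp t (fun k => t * g k) * Δ t fun k => t * g k) (gauss (Fin n)) :=
    fun t => ((hisum t p 1).norm.mul_const (8 * shift * n)).mono'
      ((hcsum t p 1).mul ((hΔc t).comp (htg t))).aestronglyMeasurable
      (Eventually.of_forall fun g => by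
        rw [norm_mul, Real.norm_of_nonneg (show 0 ≤ Δ t _ from Finset.sum_nonneg fun k _ => sq_nonneg _)]
        exact mul_le_mul_of_nonneg_left (hΔ8 _ _) (norm_nonneg _))
  have hder : ∀ t, HasDerivAt R (-(t * Dv t)) t := by
    intro t
    rw [funext hRklc]
    refine ((Channel.klc_hasDerivAt hpW hqW t).const_sub (ent q f)).congr_deriv ?_
    congr 2
    exact Channel.bayes p a t (hΔc t) (C := 8 * shift * n) (M := 0) fun g => by
      simpa [abs_of_nonneg (show 0 ≤ Δ t (fun k => t * g k) from Finset.sum_nonneg fun k _ => sq_nonneg _)]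
        using hΔ8 t (fun k => t * g k)
  have hDle : ∀ t, Dv t ≤ 2 * A * R t + 8 * shift * n * M * bt t := by
    intro t
    rw [hbte, hR]
    simp only [hDv]
    rw [← integral_const_mul, ← integral_const_mul, ← integral_add ((hiε t).const_mul _) ((hibad t).const_mul _)]
    exact integral_mono (hiΔ t) (((hiε t).const_mul _).fun_add ((hibad t).const_mul _)) fun g => hpoint t _
  set C := 8 * shift * n * M * Real.exp A
  have hC : 0 ≤ C := by positivity
  have hφ : ∀ t, HasDerivAt (fun u => R u * Real.exp (A * u ^ 2))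
      (-(t * Dv t) * Real.exp (A * t ^ 2) + R t * (Real.exp (A * t ^ 2) * (A * (2 * t)))) t := fun t => by
    have he : HasDerivAt (fun u : ℝ => Real.exp (A * u ^ 2)) (Real.exp (A * t ^ 2) * (A * (2 * t))) t := by
      simpa using ((hasDerivAt_pow 2 t).const_mul A).exp
    exact (hder t).mul he
  have hgron : ∫ t in (0 : ℝ)..1, (-C * bt t) ≤
      R 1 * Real.exp (A * 1 ^ 2) - R 0 * Real.exp (A * 0 ^ 2) := by
    refine intervalIntegral.integral_le_sub_of_hasDeriv_right_of_le zero_le_one
      (fun t _ => (hφ t).continuousAt.continuousWithinAt) (fun t _ => (hφ t).hasDerivWithinAt) ?_ fun t ht => ?_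
    · exact (Measure.integrableOn_of_bounded (M := |C|) measure_Icc_lt_top.ne
        (hbtm.const_mul (-C)).aestronglyMeasurable (Eventually.of_forall fun t => by
          rw [Real.norm_eq_abs, abs_mul, abs_neg, abs_of_nonneg (hbt01 t).1]
          exact mul_le_of_le_one_right (abs_nonneg _) (hbt01 t).2))
    · have h1 := mul_le_mul_of_nonneg_left (hDle t) (mul_nonneg ht.1.le (Real.exp_pos (A * t ^ 2)).le)
      have h2 : t * Real.exp (A * t ^ 2) ≤ Real.exp A := by
        refine (mul_le_of_le_one_left (Real.exp_pos _).le ht.2.le).trans (Real.exp_le_exp.2 ?_)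
        exact mul_le_of_le_one_right hA0.le (pow_le_one₀ ht.1.le ht.2.le)
      have h3 := mul_le_mul_of_nonneg_right h2 (mul_nonneg (show 0 ≤ 8 * shift * n * M by positivity) (hbt01 t).1)
      simp only [C]
      linarith
  have hR1 : R 1 ≤ ∑ i, ∑ x, q x * (f x * (Real.log (f x) - Real.log (qb 0 J i f x))) := by
    set T := fun x => ∑ i, gap₁ (f x) (qb 0 J i f x)
    have hle : ∀ y, ε 1 y ≤ Channel.wsum q (Channel.en a 1 y) T := by
      intro y
      rw [hpost]
      simp only [hε]
      refine mul_le_mul_of_nonneg_left ?_ (hqW.wsum_pos _).le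
      have hz : π 1 y = wt (fun _ _ => (0 : ℝ)) (fieldOf B y) := by simp [hπ]
      rw [hz]
      refine (product_le _ (fun x => (hf x).1) (fun i => qb 0 J i f) (fun i => qb_pos 0 (fun x => (hf x).1) i)
        (fun i => qb_update 0 hd i f)).trans (le_of_eq ?_)
      rw [Finset.sum_comm]
      simp only [T, Finset.mul_sum]
    refine (integral_mono (hiε 1) (hisum 1 q T) fun g => hle _).trans (le_of_eq ?_)
    have := Channel.bayes (fun x => q x * T x) a 1 (Φ := fun _ => 1) continuous_const (C := 1) (M := 0)
      fun g => by simp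
    simp only [integral_const, probReal_univ, one_smul, mul_one] at this
    rw [show ∫ g, Channel.wsum q (Channel.en a 1 fun k => 1 * g k) T ∂gauss (Fin n) = ∑ x, q x * T x from by
      rw [this]
      exact integral_congr_ae (Eventually.of_forall fun g => Finset.sum_congr rfl fun x _ => by simp; ring)]
    simp only [T, Finset.mul_sum]
    rw [Finset.sum_comm]
    refine Finset.sum_congr rfl fun i _ => ?_
    have h := avg_qb_mul (0 : Fin n → ℝ) hs hd i (fun _ => 1) f (fun _ _ => rfl)
    simp only [one_mul, ← hq] at h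
    simp only [gap₁, mul_add, mul_sub, Finset.sum_add_distrib, Finset.sum_sub_distrib, h]
    ring
  have hR00 : R 0 = ent q f := by
    rw [hRklc, Channel.klc_zero (by simpa [hpdef] using hmean) (wt_sum J 0), sub_zero]
  rw [hR00, intervalIntegral.integral_const_mul] at hgron
  norm_num at hgron
  have h4 := mul_le_mul_of_nonneg_right hR1 (Real.exp_pos A).le
  simp only [hbt] at hgron
  linarith

end Contract

/-- The covariance bound gives the entropy contraction. -/
theorem contractStatement : ContractStatement := by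
  rintro β - - ⟨shift, L, κ, c, hshift, hL, hκ, hc, hlim⟩
  set A := max (2 * L * shift) (4 * shift / Real.sqrt κ)
  have hA1 : 2 * L * shift ≤ A := le_max_left _ _
  have hA2 : 16 * shift ^ 2 ≤ κ * A ^ 2 := by
    have h0 : 0 ≤ 4 * shift / Real.sqrt κ := by positivity
    have h : (4 * shift / Real.sqrt κ) ^ 2 ≤ A ^ 2 := pow_le_pow_left₀ h0 (le_max_right _ _) 2
    rw [div_pow, Real.sq_sqrt hκ.le, div_le_iff₀ hκ] at h
    linarith
  refine ⟨Real.exp A, c / 2, Real.exp_pos _, by linarith, ?_⟩
  refine squeeze_zero' (Eventually.of_forall fun n => measureReal_nonneg) ?_ hlim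
  have hev : ∀ᶠ n : ℕ in atTop, 8 * shift * Real.exp A * (n * Real.exp (-(c / 2 * n))) ≤ 1 := by
    have h := (Real.tendsto_pow_mul_exp_neg_atTop_nhds_zero 1).comp
      ((tendsto_natCast_atTop_atTop (R := ℝ)).const_mul_atTop (show (0 : ℝ) < c / 2 by linarith))
    have h2 := h.const_mul (8 * shift * Real.exp A / (c / 2))
    rw [mul_zero] at h2
    filter_upwards [h2.eventually (gt_mem_nhds zero_lt_one)] with n hn
    simp only [Function.comp_apply, pow_one] at hn
    refine le_trans (le_of_eq ?_) hn.le
    field_simp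
  filter_upwards [hev] with n hn
  refine measureReal_mono ?_
  rintro g ⟨f, M, hf, hmean, hlt⟩
  rintro ⟨B, hF, hbad⟩
  have hs : ∀ i j, cpl β g i j = cpl β g j i := fun i j => by simp only [cpl, coupling_symm g i j]
  have hd : ∀ i, cpl β g i i = 0 := fun i => by simp [cpl, coupling_self]
  have hM : 0 ≤ M := le_trans (hf fun _ => true).1.le (hf fun _ => true).2
  have h := Contract.contraction hs hd hF hshift hL hA1 hA2 hf (by simpa only [wt_cpl] using hmean)
  simp only [show wt (cpl β g) 0 = gibbs β g from funext (wt_cpl β g), ← heatBath_qb] at h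
  change ent _ f ≤ Real.exp A * siteEnt β g f + 8 * shift * n * M * Real.exp A * badPlanted β L κ g B at h
  have h1 : 8 * shift * n * M * Real.exp A * badPlanted β L κ g B ≤ M * Real.exp (-(c / 2 * n)) := by
    have h2 := mul_le_mul_of_nonneg_left hbad (show 0 ≤ 8 * shift * n * M * Real.exp A by positivity)
    have e : Real.exp (-(c * n)) = Real.exp (-(c / 2 * n)) * Real.exp (-(c / 2 * n)) := by
      rw [← Real.exp_add]; ring_nf
    have h3 := mul_le_mul_of_nonneg_left hn (mul_nonneg hM (Real.exp_pos (-(c / 2 * n))).le)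
    rw [e] at h2
    linarith
  linarith [show ent (gibbs β g) f ≤ Real.exp A * siteEnt β g f + 8 * shift * n * M * Real.exp A * badPlanted β L κ g B
    from h]

end Vale.Agent.P150.High
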