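import Vale.Agent.P150.High.GaugeCov
import Vale.Agent.P150.High.AmpLip
import Vale.Agent.P150.High.ResCalc
import Vale.Agent.P150.High.Contract

/-!
# P150, all `β < 1`: from the certificate to the covariance event

`covEvent_of`: the certificate under the product law, the change of variables, gauge invariance and
the deterministic induction give `CovEvent`.  The factor is the positive square root of `J + shift`.
-/

open MeasureTheory ProbabilityTheory Filter Matrix
open scoped Topology Matrix.Norms.L2Operator MatrixOrder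

namespace Vale.Agent.P150.High.CovGlue

open Vale.Agent.P150 Vale.Agent.P150.Fast GaugeCov

variable {n : ℕ}

/-- the spins of a configuration as signs -/
def sgn (x : Cfg n) (i : Fin n) : ℝ := spin (x i)

lemma isSign_sgn (x : Cfg n) : IsSign (sgn x) := fun i => spin_mul_self (x i)

lemma sgn_top : sgn (fun _ : Fin n => true) = fun _ => 1 := by funext i; simp [sgn, spin]

lemma plantCpl_symm (β : ℝ) (g : Edge n → ℝ) (i j : Fin n) :
    plantCpl β g i j = plantCpl β g j i := by
  simp only [plantCpl, cpl, coupling_symm g i j, eq_comm]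

lemma tiltCpl_symm (β : ℝ) (g : Edge n → ℝ) (ξ : Fin n → ℝ) (i j : Fin n) :
    tiltCpl β g ξ i j = tiltCpl β g ξ j i := by
  simp only [tiltCpl, cpl, coupling_symm g i j, eq_comm, mul_comm (ξ i)]

/-! ### the square root of `J + shift` -/

/-- square root of `J + shift` where it is positive -/
noncomputable def rootMat (shift : ℝ) (J : Fin n → Fin n → ℝ) : Matrix (Fin n) (Fin n) ℝ := by
  classical
  exact if (shiftMat shift J).PosSemidef then CFC.sqrt (shiftMat shift J) else 0

lemma shiftMat_herm (shift : ℝ) {J : Fin n → Fin n → ℝ} (hs : ∀ i j, J i j = J j i) :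
    (shiftMat shift J).IsHermitian := by
  refine Matrix.IsHermitian.ext fun i j => ?_
  simp only [shiftMat, Matrix.add_apply, Matrix.smul_apply, one_apply, of_apply, star_trivial, hs i j, eq_comm]

lemma shiftMat_coercive {shift Λ : ℝ} {J : Fin n → Fin n → ℝ} (hJ : OpNorm.OpLe (Matrix.of J) Λ)
    (v : Fin n → ℝ) : (shift - Λ) * OpNorm.nsq v ≤ v ⬝ᵥ (shiftMat shift J *ᵥ v) := by
  have := (abs_le.1 (hJ.quad v)).1
  rw [shiftMat, add_mulVec, dotProduct_add, smul_mulVec, one_mulVec, dotProduct_smul, smul_eq_mul,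
    ← OpNorm.nsq_eq_dot]
  nlinarith

lemma shiftMat_isUnit {shift Λ : ℝ} {J : Fin n → Fin n → ℝ} (hJ : OpNorm.OpLe (Matrix.of J) Λ)
    (hΛ : Λ < shift) : IsUnit (shiftMat shift J).det :=
  OpNorm.isUnit_det_of_coercive (sub_pos.2 hΛ) (shiftMat_coercive hJ)

lemma shiftMat_psd {shift Λ : ℝ} {J : Fin n → Fin n → ℝ} (hs : ∀ i j, J i j = J j i)
    (hJ : OpNorm.OpLe (Matrix.of J) Λ) (hΛ : Λ ≤ shift) : (shiftMat shift J).PosSemidef := by
  refine posSemidef_iff_dotProduct_mulVec.2 ⟨shiftMat_herm shift hs, fun v => ?_⟩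
  rw [star_trivial]
  exact le_trans (mul_nonneg (sub_nonneg.2 hΛ) (OpNorm.nsq_nonneg v)) (shiftMat_coercive hJ v)

lemma rootMat_spec {shift : ℝ} {J : Fin n → Fin n → ℝ} (hA : (shiftMat shift J).PosSemidef) :
    rootMat shift J * rootMat shift J = shiftMat shift J ∧ 0 ≤ rootMat shift J ∧
      (rootMat shift J)ᵀ = rootMat shift J := by
  have e : rootMat shift J = CFC.sqrt (shiftMat shift J) := by rw [rootMat, if_pos hA]
  have h0 : 0 ≤ CFC.sqrt (shiftMat shift J) := CFC.sqrt_nonneg _
  refine ⟨?_, e ▸ h0, ?_⟩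
  · rw [e]; exact CFC.sqrt_mul_sqrt_self _ hA.nonneg
  · rw [e, ← conjTranspose_eq_transpose_of_trivial]; exact h0.posSemidef.isHermitian.eq

lemma rootMat_factor {shift Λ : ℝ} {J : Fin n → Fin n → ℝ} (hs : ∀ i j, J i j = J j i)
    (hJ : OpNorm.OpLe (Matrix.of J) Λ) (hΛ : Λ ≤ shift) : IsFactor J shift (rootMat shift J) := by
  obtain ⟨hsq, -, ht⟩ := rootMat_spec (shiftMat_psd hs hJ hΛ)
  have hsym : ∀ i j, rootMat shift J i j = rootMat shift J j i := fun i j => by
    conv_lhs => rw [← ht, transpose_apply]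
  refine ⟨hsym, fun i j => ?_, fun v => ?_⟩
  · have : (rootMat shift J * rootMat shift J) i j = shiftMat shift J i j := by rw [hsq]
    rw [mul_apply] at this
    simp only [hsym _ i]
    rw [this]
    simp [shiftMat, one_apply]
  · have e : ∑ k, (∑ j, rootMat shift J k j * v j) ^ 2 = v ⬝ᵥ (shiftMat shift J *ᵥ v) := by
      rw [← hsq, ← mulVec_mulVec, dotProduct_mulVec, ← mulVec_transpose, ht]
      simp only [dotProduct, mulVec, sq]
    rw [e, shiftMat, add_mulVec, dotProduct_add, smul_mulVec, one_mulVec, dotProduct_smul,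
      smul_eq_mul, ← OpNorm.nsq_eq_dot]
    have := (abs_le.1 (hJ.quad v)).2
    have := mul_le_mul_of_nonneg_right hΛ (OpNorm.nsq_nonneg v)
    change _ ≤ 2 * shift * OpNorm.nsq v
    linarith

lemma shiftMat_conjS {σ : Fin n → ℝ} (hσ : IsSign σ) (shift : ℝ) (J : Fin n → Fin n → ℝ) :
    shiftMat shift (conjS σ (Matrix.of J)) = conjS σ (shiftMat shift J) :=
  shifted_sign shift (Matrix.of J) hσ

lemma opLe_conjS {σ : Fin n → ℝ} (hσ : IsSign σ) {J : Matrix (Fin n) (Fin n) ℝ} {Λ : ℝ}
    (h : OpNorm.OpLe J Λ) : OpNorm.OpLe (conjS σ J) Λ :=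
  OpNorm.opLe_iff_norm_le.2 ((norm_conjS_le hσ J).trans (OpNorm.opLe_iff_norm_le.1 h))

lemma rootMat_conjS {σ : Fin n → ℝ} (hσ : IsSign σ) {shift Λ : ℝ} {J : Fin n → Fin n → ℝ}
    (hs : ∀ i j, J i j = J j i) (hJ : OpNorm.OpLe (Matrix.of J) Λ) (hΛ : Λ ≤ shift) :
    rootMat shift (conjS σ (Matrix.of J)) = conjS σ (rootMat shift J) := by
  have hA' : (shiftMat shift (conjS σ (Matrix.of J))).PosSemidef :=
    shiftMat_psd (fun i j => by rw [conjS_apply, conjS_apply, of_apply, of_apply, hs i j]; ring)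
      (opLe_conjS hσ hJ) hΛ
  obtain ⟨hsq, h0, -⟩ := rootMat_spec (shiftMat_psd hs hJ hΛ)
  have e : rootMat shift (conjS σ (Matrix.of J)) = CFC.sqrt (shiftMat shift (conjS σ (Matrix.of J))) := by
    unfold rootMat; exact if_pos hA'
  refine e.trans ((congrArg CFC.sqrt (shiftMat_conjS hσ shift J)).trans ?_)
  refine CFC.sqrt_unique (by rw [← conjS_mul hσ, hsq]) ?_
  refine Matrix.PosSemidef.nonneg ?_
  have := h0.posSemidef.mul_mul_conjTranspose_same (diagonal σ)
  simpa [conjS] using this

lemma measurable_rootMat (shift : ℝ) (i j : Fin n) :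
    Measurable fun J : Fin n → Fin n → ℝ => rootMat shift J i j := by
  classical
  set S := {J : Fin n → Fin n → ℝ | (shiftMat shift J).PosSemidef}
  have hc : Continuous fun J : Fin n → Fin n → ℝ => shiftMat shift J := by
    refine continuous_matrix fun a b => ?_
    simp only [shiftMat, Matrix.add_apply, Matrix.smul_apply, of_apply]
    fun_prop
  have hS : MeasurableSet S := by
    refine IsClosed.measurableSet ?_
    have e : S = (⋂ a, ⋂ b, {J | shiftMat shift J b a = shiftMat shift J a b}) ∩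
        ⋂ v : Fin n → ℝ, {J | 0 ≤ v ⬝ᵥ (shiftMat shift J *ᵥ v)} := by
      ext J
      simp only [S, Set.mem_ofPred_eq, posSemidef_iff_dotProduct_mulVec, star_trivial,
        Set.mem_inter_iff, Set.mem_iInter, Matrix.IsHermitian.ext_iff]
    rw [e]
    refine (isClosed_iInter fun a => isClosed_iInter fun b =>
      isClosed_eq (hc.matrix_elem b a) (hc.matrix_elem a b)).inter (isClosed_iInter fun v =>
      isClosed_le continuous_const (continuous_const.dotProduct (hc.matrix_mulVec continuous_const)))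
  have hon : ContinuousOn (fun J => CFC.sqrt (shiftMat shift J) i j) S :=
    (continuous_id.matrix_elem i j).comp_continuousOn
      (CFC.continuousOn_sqrt.comp hc.continuousOn fun J hJ => Matrix.PosSemidef.nonneg hJ)
  have key := hon.measurable_piecewise (g := fun _ => (0 : ℝ)) continuous_const.continuousOn hS
  refine (congrArg Measurable (funext fun J => ?_)).mp key
  by_cases h : (shiftMat shift J).PosSemidef
  · rw [Set.piecewise_eq_of_mem _ _ _ (show J ∈ S from h), rootMat, if_pos h]
  · rw [Set.piecewise_eq_of_notMem _ _ _ (show J ∉ S from h), rootMat, if_neg h]; rfl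

/-- `ξ` as a function of the couplings and the channel noise -/
noncomputable def xiOf (shift : ℝ) (J : Fin n → Fin n → ℝ) (z : Fin n → ℝ) : Fin n → ℝ :=
  (shiftMat shift J)⁻¹ *ᵥ (rootMat shift J *ᵥ z)

lemma measurable_xiOf (shift : ℝ) :
    Measurable fun p : (Fin n → Fin n → ℝ) × (Fin n → ℝ) => xiOf shift p.1 p.2 := by
  have hc : Continuous fun J : Fin n → Fin n → ℝ => shiftMat shift J := by
    refine continuous_matrix fun a b => ?_
    simp only [shiftMat, Matrix.add_apply, Matrix.smul_apply, of_apply]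
    fun_prop
  have hinv : ∀ i j, Measurable fun J : Fin n → Fin n → ℝ => (shiftMat shift J)⁻¹ i j := by
    intro i j
    simp only [Matrix.inv_def, Matrix.smul_apply, smul_eq_mul, Ring.inverse_eq_inv']
    exact hc.matrix_det.measurable.inv.mul (hc.matrix_adjugate.matrix_elem i j).measurable
  refine measurable_pi_lambda _ fun i => ?_
  simp only [xiOf, mulVec, dotProduct]
  refine Finset.measurable_sum _ fun j _ => ((hinv i j).comp measurable_fst).mul ?_
  exact Finset.measurable_sum _ fun k _ =>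
    ((measurable_rootMat shift j k).comp measurable_fst).mul ((measurable_pi_apply k).comp measurable_snd)

lemma measurePreserving_sign {σ : Fin n → ℝ} (hσ : IsSign σ) :
    MeasurePreserving (fun z : Fin n → ℝ => σ * z) (gauss (Fin n)) (gauss (Fin n)) := by
  unfold gauss
  refine measurePreserving_pi _ _ (f := fun (i : Fin n) (t : ℝ) => σ i * t) fun i => ⟨by fun_prop, ?_⟩
  rw [gaussianReal_map_const_mul, mul_zero]
  congr 1
  apply NNReal.coe_injective
  push_cast
  linear_combination hσ i

/-! ### the bad set under the product law -/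

/-- bad pairs: large noise, or a missing certificate at a grid time -/
def badPairs (β shift η ε ρ ε₂ : ℝ) (k N : ℕ) :
    Set ((Fin n → Fin n → ℝ) × (Fin n → ℝ)) :=
  {p | (n : ℝ) < ∑ i, p.2 i ^ 2 ∨ ∃ a ≤ N, ¬ PartB.Cert β shift η ε ρ ε₂ ((a : ℝ) / N) (Matrix.of p.1)
      (shiftMat shift p.1 *ᵥ fun i => (a : ℝ) / N + Real.sqrt ((a : ℝ) / N) * p.2 i)
      (ampZ β shift ((a : ℝ) / N) p.1
        (shiftMat shift p.1 *ᵥ fun i => (a : ℝ) / N + Real.sqrt ((a : ℝ) / N) * p.2 i)
        (fun i => (a : ℝ) / N + Real.sqrt ((a : ℝ) / N) * p.2 i) k)}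

lemma plantVar_le {β shift : ℝ} (hc : 4 ≤ shift) : plantVar β shift ≤ 1 / 2 := by
  rw [plantVar, div_le_div_iff₀ (by linarith [Real.sqrt_nonneg (shift ^ 2 - 4 * β ^ 2)]) two_pos]
  linarith [Real.sqrt_nonneg (shift ^ 2 - 4 * β ^ 2)]

lemma noise_tail {β shift : ℝ} (hc : 4 ≤ shift) :
    (prodLaw n).real {p | (n : ℝ) < ∑ i, prodXi β shift p.2 i ^ 2} ≤ Real.exp (-((n : ℝ) / 8)) := by
  have : IsProbabilityMeasure (gauss (Fin n)) := by unfold gauss; infer_instance
  have hsub : {p : (Edge n → ℝ) × (Fin n → ℝ) | (n : ℝ) < ∑ i, prodXi β shift p.2 i ^ 2} ⊆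
      Set.univ ×ˢ {z | Real.exp ((n : ℝ) / 2) ≤ Real.exp (1 / 4 * ∑ i, z i ^ 2)} := by
    rintro ⟨g, z⟩ hp
    refine ⟨trivial, Real.exp_le_exp.2 ?_⟩
    have hv := (AmpLip.plantVar_pos (β := β) hc).le
    have e : ∑ i, prodXi β shift z i ^ 2 = plantVar β shift * ∑ i, z i ^ 2 := by
      rw [Finset.mul_sum]
      exact Finset.sum_congr rfl fun i _ => by rw [prodXi, mul_pow, Real.sq_sqrt hv]
    rw [Set.mem_ofPred_eq, e] at hp
    have := mul_le_mul_of_nonneg_right (plantVar_le (β := β) hc)
      (Finset.sum_nonneg fun i _ => sq_nonneg (z i) : (0 : ℝ) ≤ ∑ i, z i ^ 2)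
    linarith
  have : IsProbabilityMeasure (disorder n) := by unfold disorder; infer_instance
  unfold prodLaw
  refine (measureReal_mono hsub).trans ?_
  rw [measureReal_prod_prod, probReal_univ, one_mul]
  obtain ⟨hi, he⟩ := exp_sumsq (ι := Fin n) (show (1 / 4 : ℝ) < 1 / 2 by norm_num)
  have hm := mul_meas_ge_le_integral_of_nonneg (Eventually.of_forall fun z => (Real.exp_pos _).le) hi
    (Real.exp ((n : ℝ) / 2))
  rw [he, Fintype.card_fin] at hm
  rw [← le_div_iff₀' (Real.exp_pos _)] at hm
  refine hm.trans ?_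
  rw [div_le_iff₀ (Real.exp_pos _), ← Real.exp_add]
  have h1 : (Real.sqrt (1 - 2 * (1 / 4)))⁻¹ ≤ Real.exp (3 / 8) := by
    rw [← Real.sqrt_inv, Real.sqrt_le_iff]
    refine ⟨(Real.exp_pos _).le, ?_⟩
    rw [sq, ← Real.exp_add]
    linarith [Real.quadratic_le_exp_of_nonneg (show (0 : ℝ) ≤ 3 / 8 + 3 / 8 by norm_num)]
  refine (pow_le_pow_left₀ (by positivity) h1 n).trans ?_
  rw [← Real.exp_nat_mul]
  exact Real.exp_le_exp.2 (le_of_eq (by ring))

/-- a measurable superset of bad pairs of the same probability -/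
lemma exists_hull (β shift : ℝ) (hc : 4 ≤ shift) (hn : 0 < n)
    (E : Set ((Fin n → Fin n → ℝ) × (Fin n → ℝ))) :
    ∃ E', E ⊆ E' ∧ MeasurableSet E' ∧
      (prodLaw n).real {p | (tiltCpl β p.1 (prodXi β shift p.2), prodXi β shift p.2) ∈ E'} =
      (prodLaw n).real {p | (tiltCpl β p.1 (prodXi β shift p.2), prodXi β shift p.2) ∈ E} := by
  have hv := Real.sqrt_pos.2 (AmpLip.plantVar_pos (β := β) hc)
  by_cases hβ : β = 0
  · subst hβ
    set ψ : (Fin n → ℝ) → (Fin n → Fin n → ℝ) × (Fin n → ℝ) := fun z => (0, prodXi 0 shift z)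
    have e : ∀ p : (Edge n → ℝ) × (Fin n → ℝ),
        (tiltCpl 0 p.1 (prodXi 0 shift p.2), prodXi 0 shift p.2) = ψ p.2 := fun p => by
      refine Prod.ext (funext fun i => funext fun j => ?_) rfl
      simp [tiltCpl, cpl, ψ]
    have hψ : MeasurableEmbedding ψ := by
      refine Continuous.measurableEmbedding (continuous_const.prodMk (continuous_pi fun i =>
        continuous_const.mul (continuous_apply i))) fun a b h => funext fun i => ?_
      exact mul_left_cancel₀ hv.ne' (congrFun (congrArg Prod.snd h) i)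
    refine ⟨toMeasurable (Measure.map ψ (gauss (Fin n))) E, subset_toMeasurable _ _,
      measurableSet_toMeasurable _ _, ?_⟩
    simp only [e]
    have key : ∀ S : Set ((Fin n → Fin n → ℝ) × (Fin n → ℝ)),
        prodLaw n {p | ψ p.2 ∈ S} = Measure.map ψ (gauss (Fin n)) S := fun S => by
      have : IsProbabilityMeasure (gauss (Fin n)) := by unfold gauss; infer_instance
      have : IsProbabilityMeasure (disorder n) := by unfold disorder; infer_instance
      rw [hψ.map_apply, prodLaw, show {p : (Edge n → ℝ) × (Fin n → ℝ) | ψ p.2 ∈ S} =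
        Set.univ ×ˢ (ψ ⁻¹' S) by ext p; simp, Measure.prod_prod, measure_univ, one_mul]
    simp only [Measure.real, key, measure_toMeasurable]
  · set Φ := fun p : (Edge n → ℝ) × (Fin n → ℝ) =>
      (tiltCpl β p.1 (prodXi β shift p.2), prodXi β shift p.2)
    have hΦc : Continuous Φ := by
      refine Continuous.prodMk (continuous_pi fun i => continuous_pi fun j => ?_) (continuous_pi fun i =>
        continuous_const.mul ((continuous_apply i).comp continuous_snd))
      simp only [tiltCpl, prodXi, cpl, coupling]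
      split_ifs <;> fun_prop
    have hΦ : MeasurableEmbedding Φ := by
      refine Continuous.measurableEmbedding hΦc fun p q h => ?_
      have h2 : prodXi β shift p.2 = prodXi β shift q.2 := congrArg Prod.snd h
      refine Prod.ext (funext fun e => ?_)
        (funext fun i => mul_left_cancel₀ hv.ne' (congrFun h2 i))
      have h1 := congrFun (congrFun (congrArg Prod.fst h) e.1.1) e.1.2
      simp only [Φ, h2, tiltCpl, add_left_inj, cpl, coupling, dif_pos e.2, Prod.mk.eta,
        Subtype.coe_eta] at h1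
      exact mul_left_cancel₀ (div_ne_zero hβ (Real.sqrt_ne_zero'.2 (by exact_mod_cast hn))) h1
    refine ⟨toMeasurable (Measure.map Φ (prodLaw n)) E, subset_toMeasurable _ _,
      measurableSet_toMeasurable _ _, ?_⟩
    show (prodLaw n).real (Φ ⁻¹' _) = (prodLaw n).real (Φ ⁻¹' _)
    simp only [Measure.real, ← hΦ.map_apply, measure_toMeasurable]

/-- the planted probability of a set of pairs, in the gauge `σ = x` -/
noncomputable def planted (shift : ℝ) (E : Set ((Fin n → Fin n → ℝ) × (Fin n → ℝ)))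
    (J : Fin n → Fin n → ℝ) (x : Cfg n) : ℝ :=
  (gauss (Fin n)).real {z | ((fun i j => spin (x i) * J i j * spin (x j)),
    xiOf shift (fun i j => spin (x i) * J i j * spin (x j)) z) ∈ E}

lemma measurable_planted (shift : ℝ) {E : Set ((Fin n → Fin n → ℝ) × (Fin n → ℝ))}
    (hE : MeasurableSet E) (x : Cfg n) : Measurable fun J => planted shift E J x := by
  have : IsProbabilityMeasure (gauss (Fin n)) := by unfold gauss; infer_instance
  set S := {p : (Fin n → Fin n → ℝ) × (Fin n → ℝ) | (p.1, xiOf shift p.1 p.2) ∈ E}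
  have hS : MeasurableSet S :=
    (measurable_fst.prodMk (measurable_xiOf shift)) hE
  have h1 : Measurable fun J : Fin n → Fin n → ℝ => gauss (Fin n) (Prod.mk J ⁻¹' S) :=
    measurable_measure_prodMk_left hS
  exact (h1.ennreal_toReal).comp (by fun_prop :
    Measurable fun (J : Fin n → Fin n → ℝ) i j => spin (x i) * J i j * spin (x j))

lemma planted_mem (shift : ℝ) (E : Set ((Fin n → Fin n → ℝ) × (Fin n → ℝ)))
    (J : Fin n → Fin n → ℝ) (x : Cfg n) : 0 ≤ planted shift E J x ∧ planted shift E J x ≤ 1 := by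
  have : IsProbabilityMeasure (gauss (Fin n)) := by unfold gauss; infer_instance
  exact ⟨measureReal_nonneg, measureReal_le_one⟩

lemma planted_gauge (shift : ℝ) (E : Set ((Fin n → Fin n → ℝ) × (Fin n → ℝ)))
    (J : Fin n → Fin n → ℝ) (x : Cfg n) :
    planted shift E J x =
      planted shift E (fun i j => spin (x i) * J i j * spin (x j)) fun _ => true := by
  simp [planted, spin]

/-! ### the planted couplings -/

lemma plantCpl_opLe {β Λ : ℝ} (hn : 0 < n) {g : Edge n → ℝ}
    (hg : OpNorm.OpLe (Matrix.of (cpl β g)) Λ) :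
    OpNorm.OpLe (Matrix.of (plantCpl β g)) (Λ + β ^ 2) := by
  have e : Matrix.of (plantCpl β g) = Matrix.of (cpl β g) +
      Matrix.of fun i j : Fin n => if i = j then 0 else β ^ 2 / n := by
    ext i j; simp [plantCpl]
  rw [e]
  refine hg.add (OpNorm.opLe_of_symm_abs_sums (sq_nonneg β) ?_ fun i => ?_)
  · ext i j; simp [transpose_apply, eq_comm]
  · calc ∑ j, |Matrix.of (fun i j : Fin n => if i = j then 0 else β ^ 2 / n) i j|
        ≤ ∑ _j : Fin n, β ^ 2 / n := Finset.sum_le_sum fun j _ => by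
          simp only [of_apply]
          split_ifs
          · rw [abs_zero]; positivity
          · rw [abs_of_nonneg (by positivity)]
      _ = β ^ 2 := by
          rw [Finset.sum_const, Finset.card_univ, Fintype.card_fin, nsmul_eq_mul]
          field_simp

lemma ball_opLe {β : ℝ} {g : Edge n → ℝ} (hg : g ∈ ResCalc.Ball β 3) :
    OpNorm.OpLe (Matrix.of (cpl β g)) 3 := ResCalc.opLe_of_norm_cmat hg

/-- bounded in mean off the event where the change of variables fails -/
lemma planted_mean {β shift c₁ c : ℝ} (hβ : 0 ≤ β) (hβ1 : β < 1) (hc : 4 ≤ shift) (hn : 0 < n)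
    {E : Set ((Fin n → Fin n → ℝ) × (Fin n → ℝ))} (hE : MeasurableSet E)
    (hball : (disorder n).real {g | g ∉ ResCalc.Ball β 3} ≤ 2 * Real.exp (-(c * n)))
    (hpl : (disorder n).real {g | ∃ B, IsFactor (plantCpl β g) shift B ∧ Real.exp (-(c₁ * n)) <
        (gauss (Fin n)).real
          {z | (plantCpl β g, (shiftMat shift (plantCpl β g))⁻¹ *ᵥ fieldOf B z) ∈ E}}
      ≤ Real.exp (-(c₁ * n))) :
    ∫ g, planted shift E (plantCpl β g) (fun _ => true) ∂disorder n ≤
      2 * Real.exp (-(c₁ * n)) + 2 * Real.exp (-(c * n)) := by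
  have : IsProbabilityMeasure (disorder n) := by unfold disorder; infer_instance
  set F := fun g : Edge n → ℝ => planted shift E (plantCpl β g) fun _ => true
  have hF : Measurable F := (measurable_planted shift hE _).comp (by
    refine measurable_pi_lambda _ fun i => measurable_pi_lambda _ fun j => ?_
    simp only [plantCpl, cpl, coupling]
    split_ifs <;> fun_prop)
  have hm := planted_mem shift E
  have hi : Integrable F (disorder n) :=
    Integrable.of_bound hF.aestronglyMeasurable 1 (Eventually.of_forall fun g => by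
      rw [Real.norm_eq_abs, abs_of_nonneg (hm _ _).1]; exact (hm _ _).2)
  set T := {g | Real.exp (-(c₁ * n)) < F g}
  have hT : MeasurableSet T := measurableSet_lt measurable_const hF
  have hsub : T ⊆ {g | g ∉ ResCalc.Ball β 3} ∪ {g | ∃ B, IsFactor (plantCpl β g) shift B ∧
      Real.exp (-(c₁ * n)) < (gauss (Fin n)).real
        {z | (plantCpl β g, (shiftMat shift (plantCpl β g))⁻¹ *ᵥ fieldOf B z) ∈ E}} := by
    intro g hg
    by_cases hb : g ∈ ResCalc.Ball β 3
    · refine Or.inr ⟨rootMat shift (plantCpl β g), ?_, ?_⟩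
      · have hf := rootMat_factor (shift := shift) (plantCpl_symm β g)
          (plantCpl_opLe hn (ball_opLe hb)) (by nlinarith)
        exact hf
      · have hsym := (rootMat_factor (shift := shift) (plantCpl_symm β g)
          (plantCpl_opLe hn (ball_opLe hb)) (by nlinarith)).1
        refine lt_of_lt_of_eq hg ?_
        have e : ∀ z, fieldOf (rootMat shift (plantCpl β g)) z = rootMat shift (plantCpl β g) *ᵥ z :=
          fun z => funext fun i => by simp only [fieldOf, mulVec, dotProduct, hsym _ i]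
        simp only [F, planted, xiOf, e, spin, if_true, one_mul, mul_one]
    · exact Or.inl hb
  have h1 : ∫ g, F g ∂disorder n ≤ ∫ g, (Real.exp (-(c₁ * n)) + T.indicator (fun _ => (1 : ℝ)) g) ∂disorder n := by
    refine integral_mono hi ((integrable_const _).add ((integrable_const _).indicator hT)) fun g => ?_
    by_cases hg : g ∈ T
    · rw [Set.indicator_of_mem hg]; linarith [(hm (plantCpl β g) fun _ => true).2, Real.exp_pos (-(c₁ * n))]
    · rw [Set.indicator_of_notMem hg, add_zero]; exact not_lt.1 hg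
  rw [integral_add (integrable_const _) ((integrable_const _).indicator hT), integral_const,
    integral_indicator_const _ hT] at h1
  simp only [probReal_univ, smul_eq_mul, one_mul, mul_one] at h1
  have h2 : (disorder n).real T ≤ 2 * Real.exp (-(c * n)) + Real.exp (-(c₁ * n)) :=
    (measureReal_mono hsub).trans ((measureReal_union_le _ _).trans (add_le_add hball hpl))
  linarith

/-! ### assembly -/

lemma eventually_mul_exp (a : ℝ) {b c : ℝ} (h : c < b) :
    ∀ᶠ n : ℕ in atTop, a * Real.exp (-(b * n)) ≤ Real.exp (-(c * n)) := by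
  have : Tendsto (fun n : ℕ => a * Real.exp (-((b - c) * n))) atTop (𝓝 0) := by
    simpa using (Real.tendsto_exp_neg_atTop_nhds_zero.comp
      (tendsto_natCast_atTop_atTop.const_mul_atTop (sub_pos.2 h))).const_mul a
  filter_upwards [this.eventually_le_const zero_lt_one] with n hn
  rw [show -(b * (n : ℝ)) = -((b - c) * n) + -(c * n) by ring, Real.exp_add, ← mul_assoc]
  exact mul_le_of_le_one_left (Real.exp_pos _).le hn

/-- The certificates at the grid times, for good disorder. -/
lemma grid {β shift η ε ρ ε₂ c : ℝ} {k N : ℕ} (hc : 4 ≤ shift) (hN : 0 < N) (hn : 0 < n)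
    {g : Edge n → ℝ} (hg : OpNorm.OpLe (Matrix.of (cpl β g)) 3) (hcn : 0 < c)
    {E : Set ((Fin n → Fin n → ℝ) × (Fin n → ℝ))} (hE : MeasurableSet E)
    (hsub : badPairs β shift η ε ρ ε₂ k N ⊆ E)
    (hsum : ∑ x, gibbs β g x * planted shift E (cpl β g) x ≤ Real.exp (-(c * n))) {a : ℕ} (ha : a ≤ N) :
    ∃ S : Set (Fin n → ℝ), MeasurableSet S ∧
      PartB.chanProb (Matrix.of (cpl β g)) (rootMat shift (cpl β g)) shift ((a : ℝ) / N) Sᶜ ≤
        Real.exp (-(c * n)) ∧
      ∀ y ∈ S, PartB.Cert β shift η ε ρ ε₂ ((a : ℝ) / N) (Matrix.of (cpl β g)) y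
        (ampCand β shift ((a : ℝ) / N) (cpl β g) y k) := by
  have : IsProbabilityMeasure (gauss (Fin n)) := by unfold gauss; infer_instance
  set s := (a : ℝ) / N
  set J := cpl β g
  set B := rootMat shift J
  have hs0 : 0 ≤ s := by positivity
  have hs1 : s ≤ 1 := (div_le_one (by exact_mod_cast hN)).2 (by exact_mod_cast ha)
  have hJs : ∀ i j, J i j = J j i := fun i j => by simp only [J, cpl, coupling_symm g i j]
  have hwt : ∀ x, Ising.wt (Matrix.of J) 0 x = gibbs β g x := fun x => wt_cpl β g x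
  have hgp : ∀ x, 0 ≤ gibbs β g x := fun x => div_nonneg (Real.exp_pos _).le
    (Finset.sum_nonneg fun y _ => (Real.exp_pos _).le)
  set Jx := fun (x : Cfg n) => (fun i j => spin (x i) * J i j * spin (x j) : Fin n → Fin n → ℝ)
  have hJx : ∀ x, Matrix.of (Jx x) = conjS (sgn x) (Matrix.of J) := fun x => by
    ext i j; simp [conjS_apply, sgn, Jx]
  have hAx : ∀ x, shiftMat shift (Jx x) = conjS (sgn x) (shiftMat shift J) := fun x =>
    (congrArg (fun M => M + shift • (1 : Matrix (Fin n) (Fin n) ℝ)) (hJx x)).trans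
      (shiftMat_conjS (isSign_sgn x) shift J)
  have hBx : ∀ x, rootMat shift (Jx x) = conjS (sgn x) B := fun x => by
    rw [← rootMat_conjS (isSign_sgn x) hJs hg (by linarith), ← hJx x]; rfl
  have hux : ∀ x, IsUnit (shiftMat shift (Jx x)).det := fun x =>
    shiftMat_isUnit (Λ := 3) (hJx x ▸ opLe_conjS (isSign_sgn x) hg) (by linarith)
  -- soundness: outside the bad pairs the certificate holds
  have sound : ∀ (x : Cfg n) (ξ y : Fin n → ℝ),
      sgn x * y = shiftMat shift (Jx x) *ᵥ (fun i => s + Real.sqrt s * ξ i) →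
      (Jx x, ξ) ∉ E → PartB.Cert β shift η ε ρ ε₂ s (Matrix.of J) y (ampCand β shift s J y k) := by
    intro x ξ y hy hξ
    have hb : ¬ ((n : ℝ) < ∑ i, ξ i ^ 2) ∧ PartB.Cert β shift η ε ρ ε₂ s (Matrix.of (Jx x))
        (shiftMat shift (Jx x) *ᵥ fun i => s + Real.sqrt s * ξ i)
        (ampZ β shift s (Jx x) (shiftMat shift (Jx x) *ᵥ fun i => s + Real.sqrt s * ξ i)
          (fun i => s + Real.sqrt s * ξ i) k) := by
      have : (Jx x, ξ) ∉ badPairs β shift η ε ρ ε₂ k N := fun h => hξ (hsub h)
      simp only [badPairs, Set.mem_ofPred_eq, not_or, not_exists, not_and, not_not] at this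
      exact ⟨this.1, this.2 a ha⟩
    set f := fun i => s + Real.sqrt s * ξ i
    have hf : (shiftMat shift (Jx x))⁻¹ *ᵥ (sgn x * y) = f := by
      rw [hy, mulVec_mulVec, nonsing_inv_mul _ (hux x), one_mulVec]
    have hclip : clipBall f = f := by
      funext i
      have h1 : ∑ j, f j ^ 2 ≤ (2 * Real.sqrt n) ^ 2 := by
        have h2 : ∀ j, f j ^ 2 ≤ 2 + 2 * ξ j ^ 2 := fun j => by
          have := Real.sq_sqrt hs0
          nlinarith [sq_nonneg (s - Real.sqrt s * ξ j), sq_nonneg (ξ j),
            mul_nonneg (sub_nonneg.2 hs1) (sq_nonneg (ξ j))]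
        calc ∑ j, f j ^ 2 ≤ ∑ j, (2 + 2 * ξ j ^ 2) := Finset.sum_le_sum fun j _ => h2 j
          _ = 2 * n + 2 * ∑ j, ξ j ^ 2 := by
            simp [Finset.sum_add_distrib, Finset.mul_sum, mul_comm]
          _ ≤ _ := by rw [mul_pow, Real.sq_sqrt (Nat.cast_nonneg n)]; linarith [not_lt.1 hb.1]
      simp only [clipBall]
      rcases (Real.sqrt_nonneg (∑ j, f j ^ 2)).eq_or_lt with h | h
      · have hz : f i ^ 2 ≤ 0 := (Finset.single_le_sum (fun j _ => sq_nonneg (f j)) (Finset.mem_univ i)).trans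
          ((Real.sqrt_eq_zero' ).1 h.symm)
        have : f i = 0 := by nlinarith [sq_nonneg (f i)]
        rw [this, zero_mul]
      · rw [min_eq_left, mul_one]
        rw [one_le_div h, ← Real.sqrt_sq (show 0 ≤ 2 * Real.sqrt n by positivity)]
        exact Real.sqrt_le_sqrt h1
    have hcand : sgn x * ampCand β shift s J y k =
        ampZ β shift s (Jx x) (shiftMat shift (Jx x) *ᵥ f) f k := by
      rw [← hy]
      refine (ampCand_sign β shift s (Matrix.of J) y (isSign_sgn x) k).symm.trans ?_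
      refine (congrArg (fun M => ampCand β shift s M (sgn x * y) k) (hJx x).symm).trans ?_
      show ampZ β shift s (Jx x) (sgn x * y) (clipBall ((shiftMat shift (Jx x))⁻¹ *ᵥ (sgn x * y))) k = _
      rw [hf, hclip]
    have h3 := hb.2
    rw [← hcand, ← hy, hJx x] at h3
    have h4 := cert_sign β s shift _ _ _ (isSign_sgn x) h3
    rwa [conjS_conjS (isSign_sgn x), mul_sign_sign (isSign_sgn x), mul_sign_sign (isSign_sgn x)] at h4
  -- the channel in each gauge
  have hchan : ∀ (x : Cfg n) (z : Fin n → ℝ), sgn x * PartB.obsAt (Matrix.of J) B shift s x z =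
      shiftMat shift (Jx x) *ᵥ fun i => s + Real.sqrt s * xiOf shift (Jx x) (sgn x * z) i := by
    intro x z
    have e1 : (fun i => s + Real.sqrt s * xiOf shift (Jx x) (sgn x * z) i) =
        s • (fun _ => (1 : ℝ)) + Real.sqrt s • xiOf shift (Jx x) (sgn x * z) := by
      funext i; simp
    have e2 : (fun _ : Fin n => (1 : ℝ)) = sgn x * PartB.svec x := by
      funext i; simp [sgn, PartB.svec, spin_mul_self]
    rw [e1, mulVec_add, mulVec_smul, mulVec_smul, xiOf, mulVec_mulVec (rootMat shift (Jx x) *ᵥ _),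
      mul_nonsing_inv _ (hux x), one_mulVec, hBx x, conjS_mulVec (isSign_sgn x), hAx x, e2,
      conjS_mulVec (isSign_sgn x)]
    funext i
    simp only [PartB.obsAt, shiftMat, Pi.add_apply, Pi.mul_apply, Pi.smul_apply, smul_eq_mul, smul_mulVec,
      Matrix.add_mulVec, B, J]
    ring
  rcases hs0.eq_or_lt with h0 | hpos
  · refine ⟨{0}, measurableSet_singleton 0, ?_, fun y hy => ?_⟩
    · refine le_of_eq_of_le ?_ (Real.exp_pos _).le
      refine Finset.sum_eq_zero fun x _ => mul_eq_zero_of_right _ ?_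
      rw [show {z | PartB.obsAt (Matrix.of J) B shift s x z ∈ ({0} : Set (Fin n → ℝ))ᶜ} = ∅ from ?_]
      · exact measureReal_empty
      · ext z; simp [PartB.obsAt, ← h0]
    · have hy0 : y = 0 := hy
      subst hy0
      have hlt : Real.exp (-(c * (n : ℝ))) < 1 := Real.exp_lt_one_iff.2 (by
        have : (0 : ℝ) < n := by exact_mod_cast hn
        nlinarith)
      obtain ⟨x, hx⟩ : ∃ x, planted shift E J x < 1 := by
        by_contra hh
        push Not at hh
        have h1 : ∑ x, gibbs β g x * 1 ≤ ∑ x, gibbs β g x * planted shift E J x :=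
          Finset.sum_le_sum fun x _ => mul_le_mul_of_nonneg_left (hh x) (hgp x)
        simp only [mul_one, gibbs_sum] at h1
        linarith
      obtain ⟨z, hz⟩ : ∃ z, (Jx x, xiOf shift (Jx x) z) ∉ E := by
        by_contra hh
        push Not at hh
        rw [planted, Set.eq_univ_of_forall (s := {z | _ ∈ E}) hh, probReal_univ] at hx
        exact lt_irrefl _ hx
      refine sound x _ 0 ?_ hz
      have : (fun i => s + Real.sqrt s * xiOf shift (Jx x) z i) = 0 := by funext i; simp [← h0]
      rw [this, mulVec_zero, mul_zero]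
  · have hq : Real.sqrt s ≠ 0 := (Real.sqrt_pos.2 hpos).ne'
    set ξf := fun (x : Cfg n) (y : Fin n → ℝ) =>
      ((Real.sqrt s)⁻¹ • ((shiftMat shift (Jx x))⁻¹ *ᵥ (sgn x * y) - s • fun _ => (1 : ℝ)) : Fin n → ℝ)
    have hξc : ∀ x, Continuous (ξf x) := fun x => by
      simp only [ξf]
      have h1 : Continuous fun y : Fin n → ℝ => (shiftMat shift (Jx x))⁻¹ *ᵥ (sgn x * y) :=
        continuous_const.matrix_mulVec (continuous_const.mul continuous_id)
      have h2 : Continuous fun _ : Fin n → ℝ => s • (fun _ : Fin n => (1 : ℝ)) := continuous_const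
      exact (h1.sub h2).const_smul (Real.sqrt s)⁻¹
    set T := fun x => {y : Fin n → ℝ | (Jx x, ξf x y) ∈ E}
    have hT : ∀ x, MeasurableSet (T x) := fun x =>
      (measurable_const.prodMk (hξc x).measurable) hE
    refine ⟨(⋂ x, T x)ᶜ, (MeasurableSet.iInter hT).compl, ?_, fun y hy => ?_⟩
    · rw [compl_compl]
      refine le_trans (Finset.sum_le_sum fun x _ => ?_) hsum
      rw [hwt]
      refine mul_le_mul_of_nonneg_left ?_ (hgp x)
      refine (measureReal_mono fun z (hz : PartB.obsAt (Matrix.of J) B shift s x z ∈ ⋂ x, T x) =>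
        Set.mem_iInter.1 hz x).trans (le_of_eq ?_)
      have e : ∀ z, ξf x (PartB.obsAt (Matrix.of J) B shift s x z) = xiOf shift (Jx x) (sgn x * z) := by
        intro z
        simp only [ξf, hchan x z, mulVec_mulVec, nonsing_inv_mul _ (hux x), one_mulVec]
        funext i
        simp only [Pi.smul_apply, Pi.sub_apply, smul_eq_mul]
        field_simp
        ring
      set U := {z | (Jx x, xiOf shift (Jx x) z) ∈ E}
      have hU : MeasurableSet U :=
        (measurable_const.prodMk ((measurable_xiOf shift).comp (measurable_const.prodMk measurable_id))) hE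
      have eset : {z | PartB.obsAt (Matrix.of J) B shift s x z ∈ T x} = (fun z => sgn x * z) ⁻¹' U := by
        ext z
        show (Jx x, ξf x (PartB.obsAt (Matrix.of J) B shift s x z)) ∈ E ↔ _
        rw [e]; rfl
      show (gauss (Fin n)).real {z | PartB.obsAt (Matrix.of J) B shift s x z ∈ T x} = _
      rw [eset]
      exact congrArg ENNReal.toReal
        ((measurePreserving_sign (isSign_sgn x)).measure_preimage hU.nullMeasurableSet)
    · obtain ⟨x, hx⟩ : ∃ x, y ∉ T x := by simpa using hy
      refine sound x (ξf x y) y ?_ hx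
      have : (fun i => s + Real.sqrt s * ξf x y i) = (shiftMat shift (Jx x))⁻¹ *ᵥ (sgn x * y) := by
        funext i
        simp only [ξf, Pi.smul_apply, Pi.sub_apply, smul_eq_mul]
        field_simp
        ring
      rw [this, mulVec_mulVec, mul_nonsing_inv _ (hux x), one_mulVec]

/-- A bound on the covariance off a small set gives the planted bound of `CovEvent`. -/
lemma badPlanted_le {β shift L κ c : ℝ} {g : Edge n → ℝ} {B : Matrix (Fin n) (Fin n) ℝ}
    (hBs : ∀ i j, B i j = B j i)
    (hB : ∀ i j, ∑ k, B k i * B k j = cpl β g i j + if i = j then shift else 0) (hκ : 0 ≤ κ)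
    (hW : ∀ s ∈ Set.Icc (0 : ℝ) 1, ∃ W : Set (Fin n → ℝ), MeasurableSet W ∧
      PartB.chanProb (Matrix.of (cpl β g)) B shift s Wᶜ ≤ Real.exp (-(c * n)) ∧
      ∀ y ∈ W, ∀ v : Fin n → ℝ, PartB.nrm v ≤ κ * Real.sqrt n →
        ‖PartB.cov (Matrix.of (cpl β g)) s (y + v)‖ ≤ L) :
    badPlanted β L (κ ^ 2) g B ≤ Real.exp (-(c * n)) := by
  have : IsProbabilityMeasure (gauss (Fin n)) := by unfold gauss; infer_instance
  have hgp : ∀ x, 0 ≤ gibbs β g x := fun x => div_nonneg (Real.exp_pos _).le
    (Finset.sum_nonneg fun y _ => (Real.exp_pos _).le)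
  have hwt : ∀ x, Ising.wt (Matrix.of (cpl β g)) 0 x = gibbs β g x := fun x => wt_cpl β g x
  unfold badPlanted
  refine (le_abs_self _).trans ?_
  rw [← Real.norm_eq_abs]
  refine (intervalIntegral.norm_integral_le_of_norm_le_const (C := Real.exp (-(c * n))) fun t ht => ?_).trans_eq
    (by simp)
  rw [Set.uIoc_of_le zero_le_one] at ht
  set s := t ^ 2
  have hs : s ∈ Set.Icc (0 : ℝ) 1 := ⟨sq_nonneg t, pow_le_one₀ ht.1.le ht.2⟩
  obtain ⟨W, hWm, hWp, hWc⟩ := hW s hs
  have hobs : ∀ x z, fieldOf B (Channel.obs (signalOf B x) t z) =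
      PartB.obsAt (Matrix.of (cpl β g)) B shift s x z := by
    intro x z
    funext i
    have hA : ∑ k, B k i * signalOf B x k =
        ((Matrix.of (cpl β g) + shift • (1 : Matrix (Fin n) (Fin n) ℝ)) *ᵥ PartB.svec x) i := by
      simp only [signalOf, Finset.mul_sum, mulVec, dotProduct, PartB.svec]
      rw [Finset.sum_comm]
      refine Finset.sum_congr rfl fun j _ => ?_
      simp only [← mul_assoc, ← Finset.sum_mul, hB i j]
      simp [one_apply]
    simp only [fieldOf, Channel.obs, mul_add, Finset.sum_add_distrib, PartB.obsAt, Pi.add_apply,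
      Pi.smul_apply, smul_eq_mul, s, Real.sqrt_sq ht.1.le]
    congr 1
    · rw [← hA, Finset.mul_sum]; exact Finset.sum_congr rfl fun k _ => by ring
    · simp only [mulVec, dotProduct, Finset.mul_sum]
      exact Finset.sum_congr rfl fun k _ => by rw [hBs k i]; ring
  have hball : ∀ y ∈ W, CovBall L (κ ^ 2) (fun i j => (1 - t ^ 2) * cpl β g i j) y := by
    intro y hy w hw v
    have h1 : PartB.nrm w ≤ κ * Real.sqrt n := by
      rw [← Real.sqrt_sq hκ, ← Real.sqrt_mul (sq_nonneg κ)]
      exact Real.sqrt_le_sqrt hw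
    have h2 := (OpNorm.opLe_iff_norm_le.2 (hWc y hy w h1)).quad v
    refine le_trans (le_of_eq ?_) ((le_abs_self _).trans h2)
    set J' := (fun i j => (1 - t ^ 2) * cpl β g i j : Fin n → Fin n → ℝ)
    have hJ' : ((1 - s) • Matrix.of (cpl β g) : Matrix (Fin n) (Fin n) ℝ) = Matrix.of J' := by
      ext i j; simp [J', s]
    simp only [PartB.cov, PartB.mean, hJ', mulVec, dotProduct, of_apply]
    set p := Ising.wt (Matrix.of J') (y + w)
    show covAt J' (y + w) v = _
    have hp1 : ∑ x, p x = 1 := Ising.wt_sum _ _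
    set S := fun x : Cfg n => ∑ i, v i * spin (x i)
    have eA : covAt J' (y + w) v = ∑ x, p x * S x ^ 2 - (∑ x, p x * S x) ^ 2 := by
      show ∑ x, p x * (S x - ∑ z, p z * S z) ^ 2 = _
      have : ∀ x, p x * (S x - ∑ z, p z * S z) ^ 2 = p x * S x ^ 2 -
          2 * (∑ z, p z * S z) * (p x * S x) + (∑ z, p z * S z) ^ 2 * p x := fun x => by ring
      simp only [this, Finset.sum_add_distrib, Finset.sum_sub_distrib, ← Finset.mul_sum, hp1]
      ring
    rw [eA]
    have e1 : ∑ x, p x * S x = ∑ i, v i * ∑ x, p x * spin (x i) := by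
      simp only [S, Finset.mul_sum]; rw [Finset.sum_comm]
      exact Finset.sum_congr rfl fun i _ => Finset.sum_congr rfl fun x _ => by ring
    have e2 : ∑ x, p x * S x ^ 2 = ∑ i, ∑ j, v i * (v j * ∑ x, p x * (spin (x i) * spin (x j))) := by
      simp only [S, sq, Finset.mul_sum, Finset.sum_mul]
      rw [Finset.sum_comm]
      refine Finset.sum_congr rfl fun i _ => ?_
      rw [Finset.sum_comm]
      exact Finset.sum_congr rfl fun j _ => Finset.sum_congr rfl fun x _ => by ring
    rw [e1, e2, sq, Finset.sum_mul_sum, ← Finset.sum_sub_distrib]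
    refine Finset.sum_congr rfl fun i _ => ?_
    rw [← Finset.sum_sub_distrib]
    conv_rhs => rw [Finset.mul_sum]
    exact Finset.sum_congr rfl fun j _ => by simp only [Ising.avg, p]; ring
  have hm : ∀ x, |∫ z, {z | ¬ CovBall L (κ ^ 2) (fun i j => (1 - t ^ 2) * cpl β g i j)
      (fieldOf B (Channel.obs (signalOf B x) t z))}.indicator (fun _ => (1 : ℝ)) z ∂gauss (Fin n)| ≤
      (gauss (Fin n)).real {z | PartB.obsAt (Matrix.of (cpl β g)) B shift s x z ∈ Wᶜ} := by
    intro x
    simp only [hobs]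
    have hcb : MeasurableSet {z | ¬ CovBall L (κ ^ 2) (fun i j => (1 - t ^ 2) * cpl β g i j)
        (PartB.obsAt (Matrix.of (cpl β g)) B shift s x z)} := by
      have := (Contract.isClosed_covBall L (κ ^ 2) (cpl β g) (c := fun _ : Fin n → ℝ => 1 - t ^ 2) continuous_const
        (b := fun z => PartB.obsAt (Matrix.of (cpl β g)) B shift s x z)
        (by unfold PartB.obsAt; fun_prop)).measurableSet.compl
      exact this
    rw [integral_indicator_const _ hcb, smul_eq_mul, mul_one, abs_of_nonneg measureReal_nonneg]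
    exact measureReal_mono fun z hz hzW => hz (hball _ hzW)
  rw [Real.norm_eq_abs]
  refine (Finset.abs_sum_le_sum_abs _ _).trans (le_trans (Finset.sum_le_sum fun x _ => ?_) hWp)
  rw [abs_mul, abs_of_nonneg (hgp x), hwt]
  exact mul_le_mul_of_nonneg_left (hm x) (hgp x)

/-- The covariance event from the certificate, the change of variables and the induction. -/
theorem covEvent_of (hcert : CertStatement) (hplant : PlantedStatement) (hgauge : GaugeStatement)
    (hind : PartB.CovInduction) (hq : AmpLip.QLip) {β : ℝ} (hβ : 0 ≤ β) (hβ1 : β < 1) :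
    CovEvent β := by
  have hb1 : |β| ≤ 1 := abs_le.2 ⟨by linarith, hβ1.le⟩
  obtain ⟨η, shift, hη, hη1, hc, hC⟩ := hcert β hβ hβ1
  obtain ⟨ε₀, hε₀, hI⟩ := hind β shift (3 + shift) η hβ hβ1 (by linarith) (by linarith) hη hη1
  obtain ⟨ρ, hρ, k, c, hc0, hk⟩ := hC ε₀ hε₀
  obtain ⟨Lk, hLk, hcand⟩ := AmpLip.candLip (β := β) hq hb1 hc 3 (by linarith) k
  set c' := min c (1 / 8)
  have hc' : 0 < c' := lt_min hc0 (by norm_num)
  obtain ⟨c₁, hc₁, hP⟩ := hplant β shift (c' / 2) hβ hβ1 hc (half_pos hc')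
  obtain ⟨cb, hcb, hball⟩ := ResCalc.ball_prob
  set c₂ := min c₁ cb
  have hc₂ : 0 < c₂ := lt_min hc₁ hcb
  obtain ⟨cg, hcg, hG⟩ := hgauge β (c₂ / 2) hβ hβ1 (half_pos hc₂)
  obtain ⟨ε₂, hε₂, N, hN, L, κ, cW, hL, hκ, hcW, n₀, hInd⟩ :=
    hI ε₀ hε₀ le_rfl ρ Lk cg hρ hLk hcg
  refine ⟨shift, L, κ ^ 2, cW, by linarith, hL, pow_pos hκ 2, hcW, ?_⟩
  have hcert' : ∀ᶠ n : ℕ in atTop, ∀ a : Fin (N + 1), (prodLaw n).real
      {p | ¬ PartB.Cert β shift η ε₀ ρ ε₂ ((a : ℕ) / (N : ℝ))
          (Matrix.of (tiltCpl β p.1 (prodXi β shift p.2))) (prodY β shift ((a : ℕ) / (N : ℝ)) p.1 p.2)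
          (ampZ β shift ((a : ℕ) / (N : ℝ)) (tiltCpl β p.1 (prodXi β shift p.2))
            (prodY β shift ((a : ℕ) / (N : ℝ)) p.1 p.2) (prodF β shift ((a : ℕ) / (N : ℝ)) p.2) k)}
        ≤ Real.exp (-(c * n)) :=
    eventually_all.2 fun a => hk ε₂ hε₂ _ ⟨by positivity,
      (div_le_one (by exact_mod_cast hN)).2 (by exact_mod_cast Nat.lt_succ_iff.1 a.2)⟩
  rw [Metric.tendsto_atTop]
  intro δ hδ
  have hev : ∀ᶠ n : ℕ in atTop, (disorder n).real
      {g | ¬ ∃ B, IsFactor (cpl β g) shift B ∧ badPlanted β L (κ ^ 2) g B ≤ Real.exp (-(cW * n))}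
      ≤ δ / 2 := by
    filter_upwards [hcert', hP, hG (δ / 4) (by positivity), eventually_ge_atTop n₀,
      eventually_gt_atTop 0, eventually_mul_exp (N + 2) (show c' / 2 < c' by linarith),
      eventually_mul_exp 4 (show c₂ / 2 < c₂ by linarith),
      (tendsto_order.1 (show Tendsto (fun n : ℕ => 2 * Real.exp (-(cb * n))) atTop (𝓝 0) by
        simpa using (Real.tendsto_exp_neg_atTop_nhds_zero.comp
          (tendsto_natCast_atTop_atTop.const_mul_atTop hcb)).const_mul 2)).2 (δ / 4) (by positivity)]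
      with n hCn hPn hGn hn₀ hn hexp hexp2 hsmall
    have : IsProbabilityMeasure (disorder n) := by unfold disorder; infer_instance
    have : IsProbabilityMeasure (gauss (Fin n)) := by unfold gauss; infer_instance
    have : IsProbabilityMeasure (prodLaw n) := by unfold prodLaw; infer_instance
    obtain ⟨E, hsub, hE, hEeq⟩ := exists_hull β shift hc hn (badPairs β shift η ε₀ ρ ε₂ k N)
    have hEp : (prodLaw n).real {p | (tiltCpl β p.1 (prodXi β shift p.2), prodXi β shift p.2) ∈ E}
        ≤ Real.exp (-(c' / 2 * n)) := by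
      rw [hEeq]
      refine le_trans ?_ hexp
      refine (measureReal_mono (s₂ := {p | (n : ℝ) < ∑ i, prodXi β shift p.2 i ^ 2} ∪
        ⋃ a : Fin (N + 1), {p | ¬ PartB.Cert β shift η ε₀ ρ ε₂ ((a : ℕ) / (N : ℝ))
          (Matrix.of (tiltCpl β p.1 (prodXi β shift p.2))) (prodY β shift ((a : ℕ) / (N : ℝ)) p.1 p.2)
          (ampZ β shift ((a : ℕ) / (N : ℝ)) (tiltCpl β p.1 (prodXi β shift p.2))
            (prodY β shift ((a : ℕ) / (N : ℝ)) p.1 p.2) (prodF β shift ((a : ℕ) / (N : ℝ)) p.2) k)})
        ?_).trans ((measureReal_union_le _ _).trans ?_)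
      · rintro p (h | ⟨a, ha, h⟩)
        · exact Or.inl h
        · exact Or.inr (Set.mem_iUnion.2 ⟨⟨a, Nat.lt_succ_of_le ha⟩, h⟩)
      · have h1 : Real.exp (-((n : ℝ) / 8)) ≤ Real.exp (-(c' * n)) := Real.exp_le_exp.2 (by
          have := mul_le_mul_of_nonneg_right (min_le_right c (1 / 8)) (Nat.cast_nonneg (α := ℝ) n)
          linarith)
        have h2 : Real.exp (-(c * (n : ℝ))) ≤ Real.exp (-(c' * n)) := Real.exp_le_exp.2 (by
          have := mul_le_mul_of_nonneg_right (min_le_left c (1 / 8)) (Nat.cast_nonneg (α := ℝ) n)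
          linarith)
        refine (add_le_add ((noise_tail hc).trans h1) ((measureReal_iUnion_fintype_le _).trans
          (Finset.sum_le_sum fun a _ => (hCn a).trans h2))).trans (le_of_eq ?_)
        rw [Finset.sum_const, Finset.card_univ, Fintype.card_fin, nsmul_eq_mul]
        push_cast
        ring
    have hint : ∫ g, planted shift E (plantCpl β g) (fun _ => true) ∂disorder n ≤
        Real.exp (-(c₂ / 2 * n)) := by
      refine (planted_mean hβ hβ1 hc hn hE (hball n hn β hb1) (hPn E hE hEp)).trans (le_trans ?_ hexp2)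
      have h1 : Real.exp (-(c₁ * (n : ℝ))) ≤ Real.exp (-(c₂ * n)) := Real.exp_le_exp.2 (by
        have := mul_le_mul_of_nonneg_right (min_le_left c₁ cb) (Nat.cast_nonneg (α := ℝ) n)
        linarith)
      have h2 : Real.exp (-(cb * (n : ℝ))) ≤ Real.exp (-(c₂ * n)) := Real.exp_le_exp.2 (by
        have := mul_le_mul_of_nonneg_right (min_le_right c₁ cb) (Nat.cast_nonneg (α := ℝ) n)
        linarith)
      linarith
    have hbad := hGn (planted shift E) (measurable_planted shift hE) (planted_mem shift E)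
      (planted_gauge shift E) hint
    refine (measureReal_mono (s₂ := {g | g ∉ ResCalc.Ball β 3} ∪
      {g | Real.exp (-(cg * n)) < ∑ x, gibbs β g x * planted shift E (cpl β g) x}) fun g hg => ?_).trans
      ((measureReal_union_le _ _).trans ((add_le_add ((hball n hn β hb1).trans hsmall.le) hbad).trans
        (by linarith)))
    by_contra hcon
    simp only [Set.mem_union, Set.mem_ofPred_eq, not_or, not_not, not_lt] at hcon
    refine hg ?_
    have hop := ball_opLe hcon.1
    have hJs : ∀ i j, cpl β g i j = cpl β g j i := fun i j => by simp only [cpl, coupling_symm g i j]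
    obtain ⟨hBs, hB, hB2⟩ := rootMat_factor (shift := shift) hJs hop (by linarith)
    refine ⟨rootMat shift (cpl β g), ⟨hBs, hB, hB2⟩, ?_⟩
    refine badPlanted_le hBs hB hκ.le ?_
    refine hInd n hn₀ (Matrix.of (cpl β g)) (rootMat shift (cpl β g))
      (fun s y => ampCand β shift s (cpl β g) y k) (fun i j => hJs i j)
      (fun i => by simp [cpl, coupling_self]) ?_ ?_ (hcand n (cpl β g) hop) fun a ha =>
        grid hc hN hn hop hcg hE hsub hcon.2 ha
    · rw [abs_of_pos (show (0 : ℝ) < shift by linarith)]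
      linarith [OpNorm.opLe_iff_norm_le.1 hop]
    · obtain ⟨hsq, -, ht⟩ := rootMat_spec (shiftMat_psd hJs hop (show (3 : ℝ) ≤ shift by linarith))
      rw [ht]; exact hsq
  obtain ⟨n₁, hn₁⟩ := eventually_atTop.1 hev
  refine ⟨n₁, fun n hn => ?_⟩
  rw [Real.dist_eq, sub_zero, abs_of_nonneg measureReal_nonneg]
  linarith [hn₁ n hn]

end Vale.Agent.P150.High.CovGlue
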