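import Vale.Agent.P150.High.AmpTransfer
import Vale.Agent.P150.High.CovGlue

/-!
# P150, all `β < 1`: limits in probability of the AMP fields under the product law
-/

open MeasureTheory ProbabilityTheory Filter Finset Matrix
open scoped Topology

namespace Vale.Agent.P150.High.Amp

open Vale.Agent.P150 Vale.Agent.P150.Fast

variable {n K : ℕ} {β shift s : ℝ}

instance instProdLawProb (n : ℕ) : IsProbabilityMeasure (prodLaw n) := by
  have : IsProbabilityMeasure (disorder n) := by unfold disorder; infer_instance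
  unfold prodLaw; infer_instance

/-- `√(δ² + δ)` for the increment `δ` after step `k`. -/
noncomputable def gapLim (β shift s : ℝ) (k : ℕ) : ℝ :=
  Real.sqrt (gamInc β shift s (k + 1) ^ 2 + gamInc β shift s (k + 1))

/-- `|x' - x| / √n`. -/
noncomputable def gapOf (a b : Fin n → ℝ) : ℝ := PartB.nrm (a - b) / Real.sqrt n

/-- `|tanh a|² / n`. -/
noncomputable def ovOf (a : Fin n → ℝ) : ℝ := (∑ i, Real.tanh (a i) ^ 2) / n

lemma gapOf_eq (a b : Fin n → ℝ) : gapOf a b = Real.sqrt ((∑ i, (a i - b i) ^ 2) / n) := by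
  rw [gapOf, Real.sqrt_div' _ (Nat.cast_nonneg n)]; rfl

lemma continuous_gapOf : Continuous fun p : (Fin n → ℝ) × (Fin n → ℝ) => gapOf p.1 p.2 := by
  simp only [gapOf, PartB.nrm, Pi.sub_apply]; fun_prop

lemma continuous_ovOf : Continuous (ovOf (n := n)) := by
  have ht := PA.continuous_tanh'
  unfold ovOf; fun_prop

lemma gapOf_perturb (a b a' b' : Fin n → ℝ) :
    gapOf a b ≤ gapOf a' b' + (PartB.nrm (a' - a) + PartB.nrm (b' - b)) / Real.sqrt n := by
  rw [gapOf, gapOf, ← add_div]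
  refine div_le_div_of_nonneg_right ?_ (Real.sqrt_nonneg _)
  have e : a - b = (a' - b') + ((-1 : ℝ) • (a' - a) + (b' - b)) := by
    funext i; simp; ring
  rw [e]
  refine (AmpLip.nrm_add _ _).trans (add_le_add le_rfl ((AmpLip.nrm_add _ _).trans (add_le_add (le_of_eq ?_) le_rfl)))
  rw [AmpLip.nrm_smul, abs_neg, abs_one, one_mul]

lemma ovOf_perturb (a b : Fin n → ℝ) : |ovOf a - ovOf b| ≤ 2 * (PartB.nrm (a - b) / Real.sqrt n) := by
  rcases Nat.eq_zero_or_pos n with rfl | hn
  · simp [ovOf]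
  have hn' : (0 : ℝ) < n := Nat.cast_pos.2 hn
  rw [ovOf, ovOf, ← sub_div, ← Finset.sum_sub_distrib, abs_div, abs_of_pos hn', div_le_iff₀ hn']
  have e : 2 * (PartB.nrm (a - b) / Real.sqrt n) * n = 2 * Real.sqrt n * PartB.nrm (a - b) := by
    have := Real.mul_self_sqrt hn'.le
    have h0 : Real.sqrt n ≠ 0 := (Real.sqrt_pos.2 hn').ne'
    field_simp
    linear_combination (-PartB.nrm (a - b)) * this
  rw [e]
  set w : Fin n → ℝ := fun i => Real.tanh (a i) - Real.tanh (b i)
  set w' : Fin n → ℝ := fun i => Real.tanh (a i) + Real.tanh (b i)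
  have h1 : |∑ i, (Real.tanh (a i) ^ 2 - Real.tanh (b i) ^ 2)| ≤ PartB.nrm w' * PartB.nrm w := by
    rw [show ∑ i, (Real.tanh (a i) ^ 2 - Real.tanh (b i) ^ 2) = ∑ i, w' i * w i from
      Finset.sum_congr rfl fun i _ => by simp only [w, w']; ring]
    exact OpNorm.abs_dot_le w' w
  have h2 : PartB.nrm w' ≤ 2 * Real.sqrt n := AmpLip.nrm_le_const zero_le_two fun i =>
    (abs_add_le _ _).trans (by linarith [Real.abs_tanh_lt_one (a i), Real.abs_tanh_lt_one (b i)])
  exact h1.trans (mul_le_mul h2 (AmpLip.nrm_tanh_sub a b) (AmpLip.nrm_nonneg _) (by positivity))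

/-! ### the generic times -/

lemma tendP_gap (hβ0 : 0 < β) (hβ1 : β < 1) (hc : 4 ≤ shift) (hs0 : 0 < s) (hs1 : s < 1) (k : ℕ) :
    TendP (k + 1) (fun n ω => gapOf
      (fun i => histZ β shift s (noiseZ ω) (ampState β shift s (k + 1) n ω).1 (ampState β shift s (k + 1) n ω).2 (k + 1) i)
      (fun i => histZ β shift s (noiseZ ω) (ampState β shift s (k + 1) n ω).1 (ampState β shift s (k + 1) n ω).2 k i))
      (gapLim β shift s k) := by
  obtain ⟨h0, h1, -, -⟩ := seStatement β shift s hβ0 hβ1 hc hs0 hs1 (k + 1) k (Nat.lt_succ_self k)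
  have hd := h1.add (h0.const_mul (nice_idealZ k) (-1))
  have nd : Nice fun w : Fin (k + 1 + 1) → ℝ => idealZ β shift s (k + 1) w + -1 * idealZ β shift s k w :=
    (nice_idealZ _).add ((nice_idealZ k).const_mul _)
  have h2 := (hd.dot hd nd nd).comp (F := Real.sqrt) Real.continuous_sqrt.continuousAt
  have hb' : |β| ≤ 1 := (abs_of_pos hβ0).le.trans hβ1.le
  have hg := gamInc_nonneg hb' hc ⟨hs0.le, hs1.le⟩ (k + 1)
  have hint : ∫ w : Fin (k + 1 + 1) → ℝ, (idealZ β shift s (k + 1) w + -1 * idealZ β shift s k w) *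
      (idealZ β shift s (k + 1) w + -1 * idealZ β shift s k w) ∂gauss (Fin (k + 1 + 1)) =
      gamInc β shift s (k + 1) ^ 2 + gamInc β shift s (k + 1) := by
    set j : Fin (k + 1 + 1) := ⟨k + 1, by omega⟩
    have e : ∀ w : Fin (k + 1 + 1) → ℝ, idealZ β shift s (k + 1) w + -1 * idealZ β shift s k w =
        gamInc β shift s (k + 1) + Real.sqrt (gamInc β shift s (k + 1)) * w j := by
      intro w
      have : ∀ i : Fin (k + 1 + 1), zCoef β shift s (k + 1) (k + 1) i * w i - zCoef β shift s (k + 1) k i * w i =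
          if i = j then Real.sqrt (gamInc β shift s (k + 1)) * w j else 0 := fun i => by
        simp only [zCoef, Fin.ext_iff, j]
        split_ifs with a b c <;> first | (exfalso; omega) | simp
        all_goals (subst_vars; first | rfl | (congr 2 <;> first | exact Fin.ext (by assumption) | simp_all))
      simp only [idealZ_eq, dot, gamInc]
      rw [show ∀ a b c d : ℝ, a + b + -1 * (c + d) = (a - c) + (b - d) from fun a b c d => by ring,
        ← Finset.sum_sub_distrib, Finset.sum_congr rfl fun i _ => this i, Finset.sum_ite_eq' univ j, if_pos (mem_univ j)]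
      simp only [gamInc]
    have e2 : ∀ w : Fin (k + 1 + 1) → ℝ,
        (gamInc β shift s (k + 1) + Real.sqrt (gamInc β shift s (k + 1)) * w j) *
          (gamInc β shift s (k + 1) + Real.sqrt (gamInc β shift s (k + 1)) * w j) =
        (gamInc β shift s (k + 1) ^ 2 + (2 * gamInc β shift s (k + 1) * Real.sqrt (gamInc β shift s (k + 1))) * w j)
          + gamInc β shift s (k + 1) * (w j * w j) := fun w => by
      linear_combination (w j ^ 2) * Real.sq_sqrt hg
    have i1 := ((Nice.coord j).const_mul (2 * gamInc β shift s (k + 1) * Real.sqrt (gamInc β shift s (k + 1)))).integrable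
    rw [integral_congr_ae (Eventually.of_forall fun w => show _ = _ by rw [e w, e2 w]),
      integral_add ((integrable_const _).fun_add i1) (((Nice.coord j).mul (Nice.coord j)).const_mul _).integrable,
      integral_add (integrable_const _) i1, integral_const_mul, integral_const_mul, int_coord_mul]
    have h00 : ∫ w : Fin (k + 1 + 1) → ℝ, w j ∂gauss (Fin (k + 1 + 1)) = 0 := by
      simpa [co, j] using int_co (K := k + 1) (k + 1)
    simp [h00]
  rw [hint] at h2
  refine h2.congr fun n _ ω => ?_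
  rw [gapOf_eq]
  congr 2
  exact Finset.sum_congr rfl fun i _ => by ring

lemma tendP_ov (hβ0 : 0 < β) (hβ1 : β < 1) (hc : 4 ≤ shift) (hs0 : 0 < s) (hs1 : s < 1) (k : ℕ) :
    TendP (k + 1) (fun n ω => ovOf
      (fun i => histZ β shift s (noiseZ ω) (ampState β shift s (k + 1) n ω).1 (ampState β shift s (k + 1) n ω).2 k i))
      (qSE (gamSE β shift s k)) := by
  obtain ⟨h0, -, -, -⟩ := seStatement β shift s hβ0 hβ1 hc hs0 hs1 (k + 1) k (Nat.lt_succ_self k)
  have h := h0.tanh.dot h0.tanh (nice_tanhZ k) (nice_tanhZ k)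
  rw [int_tanh_mul ((abs_of_pos hβ0).le.trans hβ1.le) hc ⟨hs0.le, hs1.le⟩ le_rfl (Nat.le_succ k)] at h
  refine h.congr fun n _ ω => ?_
  simp [ovOf, sq]

/-- The diagonal and the operator norms are harmless. -/
def Good (β shift η : ℝ) (p : (Fin n → ℝ) × (Fin n → Fin n → ℝ)) : Prop :=
  edgeOf p.2 ∈ ResCalc.Ball β 3 ∧ ∑ i, prodXi β shift p.1 i ^ 2 ≤ n ∧ (∀ i j, p.2 i j = p.2 j i) ∧
    ∀ i, |fullCpl β p.2 (prodXi β shift p.1) i i| ≤ η

lemma coord_tail {ι : Type*} [Fintype ι] (k : ι) {a : ℝ} (ha : 0 ≤ a) :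
    (gauss ι).real {z | a ≤ |z k|} ≤ 2 * Real.exp (-(a ^ 2 / 4)) := by
  obtain ⟨hi, he⟩ := integral_exp_mul_sq (show (1 / 4 : ℝ) < 1 / 2 by norm_num)
  have hm := mul_meas_ge_le_integral_of_nonneg (Eventually.of_forall fun z => (Real.exp_pos _).le) hi
    (Real.exp (a ^ 2 / 4))
  rw [he] at hm
  have hs : (Real.sqrt (1 - 2 * (1 / 4)))⁻¹ ≤ 2 := by
    rw [← Real.sqrt_inv, Real.sqrt_le_iff]; norm_num
  have hsub : {t : ℝ | a ≤ |t|} ⊆ {t | Real.exp (a ^ 2 / 4) ≤ Real.exp (1 / 4 * t ^ 2)} := fun t ht => by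
    refine Real.exp_le_exp.2 ?_
    have := pow_le_pow_left₀ ha (show a ≤ |t| from ht) 2
    rw [sq_abs] at this
    linarith
  have he' : (gauss ι).real {z | a ≤ |z k|} = (gaussianReal 0 1).real {t | a ≤ |t|} := by
    have h := measurePreserving_eval (fun _ : ι => gaussianReal 0 1) k
    rw [← h.map_eq, map_measureReal_apply h.measurable (measurableSet_le measurable_const measurable_abs)]
    rfl
  rw [he', Real.exp_neg, ← div_eq_mul_inv, le_div_iff₀ (Real.exp_pos _), mul_comm]
  exact (mul_le_mul_of_nonneg_left (measureReal_mono hsub) (Real.exp_pos _).le).trans (hm.trans hs)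

lemma not_good_subset (hβ : |β| ≤ 1) (hc : 4 ≤ shift) {η : ℝ} (hη : 0 < η) (hn' : (0 : ℝ) < n)
    (hnb : 4 / η < (n : ℝ)) :
    {p : (Fin n → ℝ) × (Fin n → Fin n → ℝ) | ¬ Good β shift η p} ⊆
      lawPoint ⁻¹' {q | q.1 ∉ ResCalc.Ball β 3} ∪
        lawPoint ⁻¹' {q | (n : ℝ) < ∑ i, prodXi β shift q.2 i ^ 2} ∪
        ((⋃ i, {p | η / 2 * Real.sqrt n ≤ |p.2 i i|}) ∪ ⋃ i, {p | Real.sqrt (η * n / 4) ≤ |p.1 i|}) ∪
        {p | ¬ ∀ i j, p.2 i j = p.2 j i} := by
  intro p hp
  by_contra hcon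
  simp only [Set.mem_union, not_or, Set.mem_preimage, Set.mem_iUnion, Set.mem_ofPred_eq,
    not_exists, not_le, not_lt, not_not, lawPoint] at hcon
  obtain ⟨⟨⟨h1, h2⟩, ⟨h3, h4⟩⟩, h5⟩ := hcon
  refine hp ⟨h1, h2, h5, fun i => ?_⟩
  have hb : β ^ 2 ≤ 1 := (sq_le_one_iff_abs_le_one β).2 hβ
  refine (abs_add_le _ _).trans ?_
  have t1 : |β / Real.sqrt n * p.2 i i| ≤ η / 2 := by
    rw [abs_mul, abs_div, abs_of_nonneg (Real.sqrt_nonneg _), div_mul_eq_mul_div,
      div_le_iff₀ (Real.sqrt_pos.2 hn')]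
    exact (mul_le_of_le_one_left (abs_nonneg _) hβ).trans (h3 i).le
  have t2 : |β ^ 2 / n * (1 - prodXi β shift p.1 i * prodXi β shift p.1 i)| ≤ η / 2 := by
    have hz : p.1 i ^ 2 ≤ η * n / 4 := by
      rw [← sq_abs, ← Real.sq_sqrt (show 0 ≤ η * n / 4 by positivity)]
      exact pow_le_pow_left₀ (abs_nonneg _) (h4 i).le 2
    have hv := plantVar_le (β := β) hc
    have hv0 := (plantVar_pos (β := β) hc).le
    have hξ : prodXi β shift p.1 i * prodXi β shift p.1 i ≤ η * n / 8 := by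
      rw [prodXi, mul_mul_mul_comm, Real.mul_self_sqrt hv0, ← sq]
      exact (mul_le_mul hv hz (sq_nonneg _) (by norm_num)).trans (le_of_eq (by ring))
    rw [abs_mul, abs_of_nonneg (by positivity : 0 ≤ β ^ 2 / (n : ℝ))]
    have h4' : |1 - prodXi β shift p.1 i * prodXi β shift p.1 i| ≤ 1 + η * n / 8 :=
      abs_le.2 ⟨by linarith, by linarith [mul_self_nonneg (prodXi β shift p.1 i), mul_nonneg hη.le hn'.le]⟩
    refine (mul_le_mul (div_le_div_of_nonneg_right hb hn'.le) h4' (abs_nonneg _) (by positivity)).trans ?_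
    rw [div_mul_eq_mul_div, one_mul, div_le_iff₀ hn']
    rw [div_lt_iff₀ hη] at hnb
    linarith
  linarith

lemma diag_tail {η : ℝ} (hη : 0 < η) (hn' : (0 : ℝ) < n) :
    ((gauss (Fin n)).prod (goe n)).real (⋃ i, {p | η / 2 * Real.sqrt n ≤ |p.2 i i|}) ≤
      n * (2 * Real.exp (-((η ^ 2 / 32) * n))) := by
  refine (measureReal_iUnion_fintype_le _).trans ?_
  refine (Finset.sum_le_card_nsmul _ _ (2 * Real.exp (-((η ^ 2 / 32) * n))) fun i _ => ?_).trans
    (le_of_eq (by simp [mul_comm]))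
  have hm : MeasurableSet {W : Fin n → Fin n → ℝ | η / 2 * Real.sqrt n ≤ |W i i|} :=
    measurableSet_le measurable_const (by fun_prop)
  rw [show {p : (Fin n → ℝ) × (Fin n → Fin n → ℝ) | η / 2 * Real.sqrt n ≤ |p.2 i i|} =
    Set.univ ×ˢ {W : Fin n → Fin n → ℝ | η / 2 * Real.sqrt n ≤ |W i i|} by ext p; simp,
    measureReal_prod_prod, probReal_univ, one_mul, goe, map_measureReal_apply measurable_sym hm]
  have hs2 : Real.sqrt 2 ≠ 0 := by positivity
  have e : sym ⁻¹' {W : Fin n → Fin n → ℝ | η / 2 * Real.sqrt n ≤ |W i i|} =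
      {X | η / 2 * Real.sqrt n / Real.sqrt 2 ≤ |X (i, i)|} := by
    ext X
    have : sym X i i = Real.sqrt 2 * X (i, i) := by
      have := Real.mul_self_sqrt (show (0 : ℝ) ≤ 2 by norm_num)
      simp only [sym]; field_simp; linear_combination (-X (i, i)) * this
    simp only [Set.mem_preimage, Set.mem_ofPred_eq, this, abs_mul, abs_of_nonneg (Real.sqrt_nonneg 2)]
    rw [div_le_iff₀ (by positivity), mul_comm |X (i, i)|]
  rw [e]
  refine (coord_tail (i, i) (by positivity)).trans (le_of_eq ?_)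
  rw [div_pow, mul_pow, Real.sq_sqrt zero_le_two, Real.sq_sqrt hn'.le]
  congr 2; ring

lemma field_tail {η : ℝ} (hη : 0 < η) (hn' : (0 : ℝ) < n) :
    ((gauss (Fin n)).prod (goe n)).real (⋃ i, {p | Real.sqrt (η * n / 4) ≤ |p.1 i|}) ≤
      n * (2 * Real.exp (-((η / 16) * n))) := by
  refine (measureReal_iUnion_fintype_le _).trans ?_
  refine (Finset.sum_le_card_nsmul _ _ (2 * Real.exp (-((η / 16) * n))) fun i _ => ?_).trans
    (le_of_eq (by simp [mul_comm]))
  rw [show {p : (Fin n → ℝ) × (Fin n → Fin n → ℝ) | Real.sqrt (η * n / 4) ≤ |p.1 i|} =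
    {z : Fin n → ℝ | Real.sqrt (η * n / 4) ≤ |z i|} ×ˢ Set.univ by ext p; simp,
    measureReal_prod_prod, probReal_univ, mul_one]
  refine (coord_tail i (Real.sqrt_nonneg _)).trans (le_of_eq ?_)
  rw [Real.sq_sqrt (by positivity)]; congr 2; ring

lemma tendsto_exp_neg {a : ℝ} (ha : 0 < a) : Tendsto (fun n : ℕ => Real.exp (-(a * n))) atTop (𝓝 0) :=
  Real.tendsto_exp_neg_atTop_nhds_zero.comp (tendsto_natCast_atTop_atTop.const_mul_atTop ha)

lemma tendsto_mul_exp_neg {a : ℝ} (ha : 0 < a) :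
    Tendsto (fun n : ℕ => (n : ℝ) * (2 * Real.exp (-(a * n)))) atTop (𝓝 0) := by
  have h := ((Real.tendsto_pow_mul_exp_neg_atTop_nhds_zero 1).comp
    (tendsto_natCast_atTop_atTop.const_mul_atTop ha)).const_mul (2 / a)
  rw [mul_zero] at h
  refine h.congr fun n => ?_
  simp only [Function.comp, pow_one]
  field_simp

lemma ball_tail {c : ℝ} (hball : ∀ n : ℕ, 0 < n → ∀ β : ℝ, |β| ≤ 1 →
      (disorder n).real {g | g ∉ ResCalc.Ball β 3} ≤ 2 * Real.exp (-(c * n)))
    (hn : 0 < n) (hβ : |β| ≤ 1) :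
    ((gauss (Fin n)).prod (goe n)).real (lawPoint ⁻¹' {q | q.1 ∉ ResCalc.Ball β 3}) ≤
      2 * Real.exp (-(c * n)) := by
  have : IsProbabilityMeasure (disorder n) := by unfold disorder; infer_instance
  have hm : MeasurableSet {q : (Edge n → ℝ) × (Fin n → ℝ) | q.1 ∉ ResCalc.Ball β 3} :=
    measurable_fst (ResCalc.ball_closed β 3).measurableSet.compl
  rw [← map_measureReal_apply (measurePreserving_lawPoint n).measurable hm,
    (measurePreserving_lawPoint n).map_eq,
    show {q : (Edge n → ℝ) × (Fin n → ℝ) | q.1 ∉ ResCalc.Ball β 3} =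
      {g | g ∉ ResCalc.Ball β 3} ×ˢ Set.univ by ext q; simp]
  unfold prodLaw
  rw [measureReal_prod_prod, probReal_univ, mul_one]
  exact hball n hn β hβ

lemma xi_tail (hc : 4 ≤ shift) :
    ((gauss (Fin n)).prod (goe n)).real
      (lawPoint ⁻¹' {q | (n : ℝ) < ∑ i, prodXi β shift q.2 i ^ 2}) ≤ Real.exp (-((n : ℝ) / 8)) := by
  have hm : MeasurableSet {q : (Edge n → ℝ) × (Fin n → ℝ) | (n : ℝ) < ∑ i, prodXi β shift q.2 i ^ 2} :=
    measurableSet_lt measurable_const (by unfold prodXi; fun_prop)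
  rw [← map_measureReal_apply (measurePreserving_lawPoint n).measurable hm,
    (measurePreserving_lawPoint n).map_eq]
  exact CovGlue.noise_tail hc

lemma not_good_le {c η : ℝ} (hball : ∀ n : ℕ, 0 < n → ∀ β : ℝ, |β| ≤ 1 →
      (disorder n).real {g | g ∉ ResCalc.Ball β 3} ≤ 2 * Real.exp (-(c * n)))
    (hβ : |β| ≤ 1) (hc : 4 ≤ shift) (hη : 0 < η) (hnb : 4 / η < (n : ℝ)) :
    ((gauss (Fin n)).prod (goe n)).real {p | ¬ Good β shift η p} ≤
      2 * Real.exp (-(c * n)) + Real.exp (-((n : ℝ) / 8))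
      + ((n : ℝ) * (2 * Real.exp (-((η ^ 2 / 32) * n))) + (n : ℝ) * (2 * Real.exp (-((η / 16) * n)))) := by
  have hn' : (0 : ℝ) < n := (div_pos (by norm_num : (0:ℝ) < 4) hη).trans hnb
  have m5 : ((gauss (Fin n)).prod (goe n)).real {p | ¬ ∀ i j, p.2 i j = p.2 j i} = 0 := by
    have h := (Measure.quasiMeasurePreserving_snd (μ := gauss (Fin n)) (ν := goe n)).ae (goe_symm n)
    rw [ae_iff] at h
    rw [measureReal_def, h, ENNReal.toReal_zero]
  refine (measureReal_mono (not_good_subset hβ hc hη hn' hnb)).trans ((measureReal_union_le _ _).trans ?_)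
  rw [m5, add_zero]
  exact (measureReal_union_le _ _).trans (add_le_add
    ((measureReal_union_le _ _).trans (add_le_add (ball_tail hball (Nat.cast_pos.1 hn') hβ) (xi_tail hc)))
    ((measureReal_union_le _ _).trans (add_le_add (diag_tail hη hn') (field_tail hη hn'))))

lemma prob_not_good (hβ : |β| ≤ 1) (hc : 4 ≤ shift) {η : ℝ} (hη : 0 < η) :
    Tendsto (fun n => ((gauss (Fin n)).prod (goe n)).real {p | ¬ Good β shift η p}) atTop (𝓝 0) := by
  obtain ⟨c, hc0, hball⟩ := ResCalc.ball_prob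
  have h8 : Tendsto (fun n : ℕ => Real.exp (-((n : ℝ) / 8))) atTop (𝓝 0) :=
    (tendsto_exp_neg (show (0 : ℝ) < 1 / 8 by norm_num)).congr fun n => by congr 2; ring
  have hlim := (((tendsto_exp_neg hc0).const_mul 2).add h8).add
    ((tendsto_mul_exp_neg (show 0 < η ^ 2 / 32 by positivity)).add
      (tendsto_mul_exp_neg (show 0 < η / 16 by positivity)))
  rw [mul_zero, add_zero, add_zero] at hlim
  refine squeeze_zero' (Eventually.of_forall fun n => measureReal_nonneg) ?_ hlim
  filter_upwards [eventually_gt_atTop ⌈4 / η⌉₊] with n hnη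
  exact not_good_le hball hβ hc hη ((Nat.le_ceil _).trans_lt (Nat.cast_lt.2 hnη))

lemma nrm_prodF_le (hs : s ∈ Set.Icc (0 : ℝ) 1) {z : Fin n → ℝ}
    (hz : ∑ i, prodXi β shift z i ^ 2 ≤ n) : PartB.nrm (prodF β shift s z) ≤ 2 * Real.sqrt n := by
  have e : prodF β shift s z = (fun _ => s) + Real.sqrt s • prodXi β shift z := by funext i; simp [prodF]
  rw [e]
  refine (AmpLip.nrm_add _ _).trans ?_
  rw [AmpLip.nrm_smul, abs_of_nonneg (Real.sqrt_nonneg s), two_mul]
  refine add_le_add ((AmpLip.nrm_le_const zero_le_one fun _ => by rw [abs_of_nonneg hs.1]; exact hs.2).trans_eq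
    (one_mul _)) ((mul_le_of_le_one_left (AmpLip.nrm_nonneg _) (Real.sqrt_le_one.2 hs.2)).trans ?_)
  exact Real.sqrt_le_sqrt hz

lemma good_perturb (hβ : |β| ≤ 1) (hc : 4 ≤ shift) (k : ℕ) :
    ∃ C : ℝ, 0 ≤ C ∧ ∀ (n : ℕ) (s : ℝ), s ∈ Set.Icc (0 : ℝ) 1 → ∀ (η : ℝ), 0 ≤ η →
      ∀ p : (Fin n → ℝ) × (Fin n → Fin n → ℝ), Good β shift η p →
        PartB.nrm (fullAt β shift s p.2 p.1 k - ampAt β shift s k (lawPoint p)) / Real.sqrt n ≤ C * η := by
  obtain ⟨C, hC, h⟩ := fullAt_sub_ampAt hβ hc (show (0 : ℝ) ≤ 7 by norm_num) (show (0 : ℝ) ≤ 2 by norm_num) k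
  refine ⟨C, hC, fun n s hs η hη p ⟨h1, h2, h3, h4⟩ => ?_⟩
  rcases Nat.eq_zero_or_pos n with rfl | hn
  · simp [mul_nonneg hC hη]
  rw [div_le_iff₀ (Real.sqrt_pos.2 (Nat.cast_pos.2 hn)), mul_assoc]
  exact h n s hs p.2 h3 p.1 η hη (opLe_tilt hβ h1 h2) (nrm_prodF_le hs h2) h4

/-- Transfer of the limits to the product law. -/
lemma generic_gap (hβ0 : 0 < β) (hβ1 : β < 1) (hc : 4 ≤ shift) (hs0 : 0 < s) (hs1 : s < 1) (k : ℕ) {τ : ℝ}
    (hτ : 0 < τ) :
    Tendsto (fun n => (prodLaw n).real {p | gapLim β shift s k + τ < fieldGap β shift s k p}) atTop (𝓝 0) := by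
  have hb : |β| ≤ 1 := (abs_of_pos hβ0).le.trans hβ1.le
  obtain ⟨C1, hC1, h1⟩ := good_perturb hb hc (k + 1)
  obtain ⟨C0, hC0, h0⟩ := good_perturb hb hc k
  set η := τ / (2 * (C1 + C0 + 1))
  have hη : 0 < η := by positivity
  have hCη : (C1 + C0) * η ≤ τ / 2 := by
    calc (C1 + C0) * η ≤ (C1 + C0 + 1) * η := by linarith
      _ = τ / 2 := by simp only [η]; field_simp
  refine squeeze_zero' (Eventually.of_forall fun n => measureReal_nonneg) (Eventually.of_forall fun n => ?_)
    (by simpa using (tendP_gap hβ0 hβ1 hc hs0 hs1 k (τ / 2) (half_pos hτ)).add (prob_not_good (β := β) hb hc hη))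
  set A : Set (ℕ → Fin n → ℝ) := {F | gapLim β shift s k + τ / 2 < gapOf (F (k + 1)) (F k)}
  have hA : MeasurableSet {p : (Fin n → ℝ) × (Fin n → Fin n → ℝ) |
      (fun j => if j ≤ k + 1 then fullAt β shift s p.2 p.1 j else 0) ∈ A} := by
    simp only [A, Set.mem_ofPred_eq, le_refl, Nat.le_succ, if_true]
    exact measurableSet_lt measurable_const
      (continuous_gapOf.comp ((continuous_fullAt β shift s (k + 1)).prodMk (continuous_fullAt β shift s k))).measurable
  have hS : MeasurableSet {p : (Edge n → ℝ) × (Fin n → ℝ) | gapLim β shift s k + τ < fieldGap β shift s k p} :=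
    measurableSet_lt measurable_const
      (continuous_gapOf.comp ((continuous_ampAt β shift s (k + 1)).prodMk (continuous_ampAt β shift s k))).measurable
  rw [← (measurePreserving_lawPoint n).map_eq, map_measureReal_apply (measurePreserving_lawPoint n).measurable hS]
  refine (measureReal_mono (s₂ := {p | (fun j => if j ≤ k + 1 then fullAt β shift s p.2 p.1 j else 0) ∈ A} ∪
    {p | ¬ Good β shift η p}) ?_).trans ((measureReal_union_le _ _).trans (add_le_add
      ((fullAt_le_noise β shift s n (k + 1) A hA).trans (measureReal_mono ?_)) le_rfl))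
  · intro p hp
    by_cases hg : Good β shift η p
    · refine Or.inl ?_
      simp only [A, Set.mem_preimage, Set.mem_ofPred_eq, le_refl, Nat.le_succ, if_true] at hp ⊢
      have e := gapOf_perturb (ampAt β shift s (k + 1) (lawPoint p)) (ampAt β shift s k (lawPoint p))
        (fullAt β shift s p.2 p.1 (k + 1)) (fullAt β shift s p.2 p.1 k)
      rw [add_div] at e
      have := h1 n s ⟨hs0.le, hs1.le⟩ η hη.le p hg
      have := h0 n s ⟨hs0.le, hs1.le⟩ η hη.le p hg
      change gapLim β shift s k + τ < gapOf _ _ at hp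
      linarith
    · exact Or.inr hg
  · intro ω hω
    simp only [A, Set.mem_ofPred_eq, le_refl, Nat.le_succ, if_true] at hω ⊢
    exact lt_of_lt_of_le (by linarith) (le_abs_self _)

lemma generic_ov (hβ0 : 0 < β) (hβ1 : β < 1) (hc : 4 ≤ shift) (hs0 : 0 < s) (hs1 : s < 1) (k : ℕ) {τ : ℝ}
    (hτ : 0 < τ) :
    Tendsto (fun n => (prodLaw n).real {p | τ < |overlapAt β shift s k p - qSE (gamSE β shift s k)|})
      atTop (𝓝 0) := by
  have hb : |β| ≤ 1 := (abs_of_pos hβ0).le.trans hβ1.le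
  obtain ⟨C0, hC0, h0⟩ := good_perturb hb hc k
  set η := τ / (4 * (C0 + 1))
  have hη : 0 < η := by positivity
  have hCη : 2 * (C0 * η) ≤ τ / 2 := by
    calc 2 * (C0 * η) ≤ 2 * ((C0 + 1) * η) := by linarith
      _ = τ / 2 := by simp only [η]; field_simp; ring
  refine squeeze_zero' (Eventually.of_forall fun n => measureReal_nonneg) (Eventually.of_forall fun n => ?_)
    (by simpa using (tendP_ov hβ0 hβ1 hc hs0 hs1 k (τ / 2) (half_pos hτ)).add (prob_not_good (β := β) hb hc hη))
  set A : Set (ℕ → Fin n → ℝ) := {F | τ / 2 < |ovOf (F k) - qSE (gamSE β shift s k)|}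
  have hA : MeasurableSet {p : (Fin n → ℝ) × (Fin n → Fin n → ℝ) |
      (fun j => if j ≤ k + 1 then fullAt β shift s p.2 p.1 j else 0) ∈ A} := by
    simp only [A, Set.mem_ofPred_eq, Nat.le_succ, if_true]
    exact measurableSet_lt measurable_const
      ((continuous_ovOf.comp (continuous_fullAt β shift s k)).sub continuous_const).abs.measurable
  have hS : MeasurableSet {p : (Edge n → ℝ) × (Fin n → ℝ) | τ < |overlapAt β shift s k p - qSE (gamSE β shift s k)|} :=
    measurableSet_lt measurable_const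
      ((continuous_ovOf.comp (continuous_ampAt β shift s k)).sub continuous_const).abs.measurable
  rw [← (measurePreserving_lawPoint n).map_eq, map_measureReal_apply (measurePreserving_lawPoint n).measurable hS]
  refine (measureReal_mono (s₂ := {p | (fun j => if j ≤ k + 1 then fullAt β shift s p.2 p.1 j else 0) ∈ A} ∪
    {p | ¬ Good β shift η p}) ?_).trans ((measureReal_union_le _ _).trans (add_le_add
      ((fullAt_le_noise β shift s n (k + 1) A hA).trans (measureReal_mono ?_)) le_rfl))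
  · intro p hp
    by_cases hg : Good β shift η p
    · refine Or.inl ?_
      simp only [A, Set.mem_preimage, Set.mem_ofPred_eq, Nat.le_succ, if_true] at hp ⊢
      have e := ovOf_perturb (fullAt β shift s p.2 p.1 k) (ampAt β shift s k (lawPoint p))
      have := h0 n s ⟨hs0.le, hs1.le⟩ η hη.le p hg
      change τ < |ovOf (ampAt β shift s k (lawPoint p)) - _| at hp
      have t := abs_sub_le (ovOf (ampAt β shift s k (lawPoint p))) (ovOf (fullAt β shift s p.2 p.1 k))
        (qSE (gamSE β shift s k))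
      rw [abs_sub_comm] at e
      linarith
    · exact Or.inr hg
  · intro ω hω
    simp only [A, Set.mem_ofPred_eq, Nat.le_succ, if_true] at hω ⊢
    exact hω

/-! ### the degenerate cases -/

lemma gamSE_zero_time (l : ℕ) : gamSE β shift 0 l = 0 := by
  induction l with
  | zero => simp [gamSE]
  | succ l ih => simp [gamSE, ih, qSE_zero]

lemma ampAt_zero_time (p : (Edge n → ℝ) × (Fin n → ℝ)) (k : ℕ) : ampAt β shift 0 k p = 0 := by
  have hf : prodF β shift 0 p.2 = 0 := by funext i; simp [prodF]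
  have hy : prodY β shift 0 p.1 p.2 = 0 := by rw [prodY, hf, mulVec_zero]
  unfold ampAt
  rw [hf, hy]
  induction k using Nat.twoStepInduction with
  | zero => funext i; simp [ampZ]
  | one => funext i; simp [ampZ]
  | more l h1 h2 => funext i; simp only [ampZ, h1, h2]; simp

lemma gamSE_beta_zero (hc : 4 ≤ shift) : ∀ l, gamSE 0 shift s l = gamSE 0 shift s 0
  | 0 => rfl
  | l + 1 => by
    have h := inv_plantVar (β := 0) (shift := shift) (by simp) hc
    simp only [gamSE]
    linear_combination (-s) * h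

lemma ampAt_beta_zero (hc : 4 ≤ shift) (p : (Edge n → ℝ) × (Fin n → ℝ)) (k : ℕ) :
    ampAt 0 shift s k p = fun i => prodF 0 shift s p.2 i / plantVar 0 shift := by
  have hJ : tiltCpl 0 p.1 (prodXi 0 shift p.2) = 0 := by
    funext i j; simp [tiltCpl, cpl]
  have hv := inv_plantVar (β := 0) (shift := shift) (by simp) hc
  have hy : prodY 0 shift s p.1 p.2 = fun i => prodF 0 shift s p.2 i / plantVar 0 shift := by
    rw [prodY, hJ]
    funext i
    simp only [shiftMat, add_mulVec, smul_mulVec, one_mulVec, Pi.add_apply, Pi.smul_apply, smul_eq_mul]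
    simp only [mulVec, dotProduct, Matrix.of_apply, Pi.zero_apply, zero_mul, Finset.sum_const_zero, zero_add]
    linear_combination (-prodF 0 shift s p.2 i) * hv
  unfold ampAt
  rw [hJ, hy]
  rcases k with _ | _ | k <;> funext i <;> simp [ampZ]

lemma ampAt_one_time {β shift : ℝ} (p : (Edge n → ℝ) × (Fin n → ℝ)) (k : ℕ) :
    ampAt β shift 1 (k + 1) p = prodY β shift 1 p.1 p.2 := by
  unfold ampAt
  cases k <;> funext i <;> simp [ampZ]

lemma beta_zero_ov (hc : 4 ≤ shift) (hs : s ∈ Set.Icc (0 : ℝ) 1) (k : ℕ) {τ : ℝ} (hτ : 0 < τ) :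
    Tendsto (fun n => (prodLaw n).real {p | τ < |overlapAt 0 shift s k p - qSE (gamSE 0 shift s k)|})
      atTop (𝓝 0) := by
  have h0 : VecLim 0 (fun n ω i => prodF 0 shift s (noiseZ ω) i / plantVar 0 shift) (idealZ 0 shift s 0) :=
    (VecLim.exact' (K := 0) fun w => idealF 0 shift s w / plantVar 0 shift).congr
      (fun _ _ _ _ => rfl) (idealZ_zero hc)
  have h := h0.tanh.dot h0.tanh (nice_tanhZ 0) (nice_tanhZ 0)
  rw [int_tanh_mul (by simp) hc hs le_rfl le_rfl] at h
  refine (h τ hτ).congr fun n => ?_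
  set T : Set (Fin n → ℝ) := {z | τ < |ovOf (fun i => prodF 0 shift s z i / plantVar 0 shift) - qSE (gamSE 0 shift s 0)|}
  have hT : MeasurableSet T := measurableSet_lt measurable_const
    ((continuous_ovOf.comp (continuous_pi fun i => ((continuous_apply i).comp (continuous_prodF 0 shift s)).div_const _)).sub
      continuous_const).abs.measurable
  have : IsProbabilityMeasure (disorder n) := by unfold disorder; infer_instance
  have e1 : {p : (Edge n → ℝ) × (Fin n → ℝ) | τ < |overlapAt 0 shift s k p - qSE (gamSE 0 shift s k)|} =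
      Set.univ ×ˢ T := by
    ext p
    simp only [Set.mem_ofPred_eq, Set.mem_prod, Set.mem_univ, true_and, T, overlapAt, ampAt_beta_zero hc,
      gamSE_beta_zero hc k]
    rfl
  have e2 : (noise 0 n).real {ω | τ < |(∑ i, Real.tanh (prodF 0 shift s (noiseZ ω) i / plantVar 0 shift) *
      Real.tanh (prodF 0 shift s (noiseZ ω) i / plantVar 0 shift)) / (n : ℝ) - qSE (gamSE 0 shift s 0)|} =
      (gauss (Fin n)).real T := by
    have hmp : MeasurePreserving (fun ω : Fin n → Fin (0 + 1) → ℝ => noiseZ ω) (noise 0 n) (gauss (Fin n)) :=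
      measurePreserving_fst.comp (measurePreserving_noiseSplit 0 n)
    rw [← hmp.map_eq, map_measureReal_apply hmp.measurable hT]
    congr 1
    ext ω
    simp [T, ovOf, sq]
  rw [e2, e1]
  unfold prodLaw
  rw [measureReal_prod_prod, probReal_univ, one_mul]

/-- At `s = 1` the overlap follows from continuity in the time. -/
lemma one_time_ov (hβ0 : 0 < β) (hβ1 : β < 1) (hc : 4 ≤ shift) (k : ℕ) {τ : ℝ} (hτ : 0 < τ) :
    Tendsto (fun n => (prodLaw n).real {p | τ < |overlapAt β shift 1 (k + 1) p - qSE (gamSE β shift 1 (k + 1))|})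
      atTop (𝓝 0) := by
  have hb : |β| ≤ 1 := (abs_of_pos hβ0).le.trans hβ1.le
  have hb2 : β ^ 2 ≤ 1 := (sq_le_one_iff_abs_le_one β).2 hb
  set C : ℝ := 9 + 2 * (7 + shift)
  have hC : 0 < C := by simp only [C]; linarith
  set d := min (1 / 2) (τ / (3 * (2 * C + shift + 2)))
  have hd : 0 < d := lt_min (by norm_num) (div_pos hτ (by linarith))
  have hd1 : d ≤ 1 / 2 := min_le_left _ _
  set t := 1 - d
  have ht0 : 0 < t := by simp only [t]; linarith
  have ht1 : t < 1 := by simp only [t]; linarith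
  have hdτ : (2 * C + shift + 2) * d ≤ τ / 3 := by
    calc (2 * C + shift + 2) * d ≤ (2 * C + shift + 2) * (τ / (3 * (2 * C + shift + 2))) :=
          mul_le_mul_of_nonneg_left (min_le_right _ _) (by linarith)
      _ = τ / 3 := by
          have : 2 * C + shift + 2 ≠ 0 := by linarith
          field_simp
  -- the deterministic limit moves little
  have hq : |qSE (gamSE β shift t 1) - qSE (gamSE β shift 1 (k + 1))| ≤ (shift + 2) * d := by
    refine (qLip _ _ (gamSE_nonneg hc ⟨ht0.le, ht1.le⟩ 1) (gamSE_nonneg hc ⟨zero_le_one, le_rfl⟩ _)).trans ?_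
    rw [show gamSE β shift t 1 = shift * t + β ^ 2 * (1 - (1 - t) ^ 2) + β ^ 2 * (1 - t) ^ 2 * qSE (gamSE β shift t 0) from rfl,
      show gamSE β shift 1 (k + 1) = shift * 1 + β ^ 2 * (1 - (1 - 1) ^ 2)
        + β ^ 2 * (1 - 1) ^ 2 * qSE (gamSE β shift 1 k) from rfl]
    simp only [t]
    have h1 := qSE_nonneg (gamSE β shift (1 - d) 0)
    have h2 := qSE_le_one (gamSE β shift (1 - d) 0)
    have h3 : d ^ 2 ≤ d := by nlinarith
    have h4 : β ^ 2 * d ^ 2 ≤ d := (mul_le_of_le_one_left (sq_nonneg d) hb2).trans h3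
    have h5 : β ^ 2 * d ^ 2 * qSE (gamSE β shift (1 - d) 0) ≤ d := (mul_le_of_le_one_right (by positivity) h2).trans h4
    have h6 : 0 ≤ β ^ 2 * d ^ 2 * qSE (gamSE β shift (1 - d) 0) := by positivity
    have h7 : 0 ≤ β ^ 2 * d ^ 2 := by positivity
    have h8 : 0 ≤ shift * d := mul_nonneg (by linarith) hd.le
    simp only [sub_sub_cancel, sub_self, mul_zero, ne_eq, OfNat.ofNat_ne_zero, not_false_eq_true, zero_pow, sub_zero,
      zero_mul, add_zero] at *
    rw [abs_le]
    constructor <;> nlinarith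
  obtain ⟨c, hc0, hball⟩ := ResCalc.ball_prob
  have hbad : Tendsto (fun n : ℕ => 2 * Real.exp (-(c * n)) + Real.exp (-((n : ℝ) / 8))) atTop (𝓝 0) := by
    have e1 : ∀ a : ℝ, 0 < a → Tendsto (fun n : ℕ => Real.exp (-(a * n))) atTop (𝓝 0) := fun a ha =>
      Real.tendsto_exp_neg_atTop_nhds_zero.comp (tendsto_natCast_atTop_atTop.const_mul_atTop ha)
    simpa [one_div, div_eq_inv_mul] using ((e1 c hc0).const_mul 2).add (e1 (1 / 8) (by norm_num))
  refine squeeze_zero' (Eventually.of_forall fun n => measureReal_nonneg) ?_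
    (by simpa using (generic_ov hβ0 hβ1 hc ht0 ht1 1 (show 0 < τ / 3 by linarith)).add hbad)
  filter_upwards [eventually_gt_atTop 0] with n hn
  have : IsProbabilityMeasure (disorder n) := by unfold disorder; infer_instance
  refine (measureReal_mono (s₂ := {p | τ / 3 < |overlapAt β shift t 1 p - qSE (gamSE β shift t 1)|} ∪
    ({g | g ∉ ResCalc.Ball β 3} ×ˢ Set.univ ∪ {p | (n : ℝ) < ∑ i, prodXi β shift p.2 i ^ 2})) ?_).trans
    ((measureReal_union_le _ _).trans (add_le_add le_rfl ((measureReal_union_le _ _).trans (add_le_add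
      (by
        unfold prodLaw
        rw [measureReal_prod_prod, probReal_univ, mul_one]
        exact hball n hn β hb) (CovGlue.noise_tail hc)))))
  intro p hp
  by_contra hcon
  simp only [Set.mem_union, Set.mem_prod, Set.mem_univ, and_true, Set.mem_ofPred_eq, not_or, not_lt, not_not] at hcon hp
  obtain ⟨h1, h2, h3⟩ := hcon
  have hJ := opLe_tilt (shift := shift) hb h2 h3
  have hn' : (0 : ℝ) < Real.sqrt n := Real.sqrt_pos.2 (Nat.cast_pos.2 hn)
  have hdiff : PartB.nrm (ampAt β shift t 1 p - ampAt β shift 1 (k + 1) p) ≤ C * d * Real.sqrt n := by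
    rw [ampAt_one_time]
    unfold ampAt
    rw [AmpLip.ampZ_one, prodY, prodY]
    set J := tiltCpl β p.1 (prodXi β shift p.2)
    set f := prodF β shift t p.2
    set f1 := prodF β shift 1 p.2
    set a : Fin n → ℝ := fun i => Real.tanh (ampZ β shift t J (shiftMat shift J *ᵥ f) f 0 i)
    have e : shiftMat shift J *ᵥ f + (1 - t) • (Matrix.of J *ᵥ a)
        + (β ^ 2 * (1 - t) * (1 - qSE (gamSE β shift t 0))) • f - shiftMat shift J *ᵥ f1 =
        shiftMat shift J *ᵥ (f - f1) + ((1 - t) • (Matrix.of J *ᵥ a)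
        + (β ^ 2 * (1 - t) * (1 - qSE (gamSE β shift t 0))) • f) := by
      rw [mulVec_sub]; abel
    rw [e]
    have hA : OpNorm.OpLe (shiftMat shift J) (7 + |shift| * 1) := hJ.add (OpNorm.opLe_one.smul shift)
    rw [abs_of_pos (by linarith : (0 : ℝ) < shift), mul_one] at hA
    have hff : PartB.nrm (f - f1) ≤ 2 * d * Real.sqrt n := by
      have : f - f1 = (t - 1) • (fun _ => (1 : ℝ)) + (Real.sqrt t - 1) • prodXi β shift p.2 := by
        funext i; simp [f, f1, prodF]; ring
      rw [this]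
      refine (AmpLip.nrm_add _ _).trans ?_
      rw [AmpLip.nrm_smul, AmpLip.nrm_smul, two_mul, add_mul]
      have ht' : |t - 1| ≤ d := by simp [t, abs_of_pos hd]
      have hst : |Real.sqrt t - 1| ≤ d := by
        have h1 : Real.sqrt t ≤ 1 := Real.sqrt_le_one.2 ht1.le
        have h2 : t ≤ Real.sqrt t := by
          have := Real.mul_self_sqrt ht0.le
          nlinarith [Real.sqrt_nonneg t]
        rw [abs_sub_comm, abs_of_nonneg (by linarith)]
        simp only [t] at h2 ⊢; linarith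
      refine add_le_add (mul_le_mul ht' ?_ (AmpLip.nrm_nonneg _) hd.le)
        (mul_le_mul hst ?_ (AmpLip.nrm_nonneg _) hd.le)
      · exact (AmpLip.nrm_le_const zero_le_one fun _ => by simp).trans_eq (one_mul _)
      · exact Real.sqrt_le_sqrt h3
    have ha : PartB.nrm a ≤ Real.sqrt n := AmpLip.nrm_tanh _
    have hf := nrm_prodF_le (β := β) (shift := shift) (s := t) ⟨ht0.le, ht1.le⟩ h3
    obtain ⟨-, hcb, -⟩ := AmpLip.coef_le hb (s := t) ⟨ht0.le, ht1.le⟩ (AmpLip.qSE_mem (gamSE β shift t 0))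
    have hcb' : |β ^ 2 * (1 - t) * (1 - qSE (gamSE β shift t 0))| ≤ d := by
      have h1 := qSE_nonneg (gamSE β shift t 0)
      have h2 := qSE_le_one (gamSE β shift t 0)
      simp only [t, sub_sub_cancel] at h1 h2 ⊢
      rw [abs_of_nonneg (mul_nonneg (mul_nonneg (sq_nonneg β) hd.le) (by linarith))]
      exact (mul_le_of_le_one_right (mul_nonneg (sq_nonneg β) hd.le) (by linarith)).trans
        (mul_le_of_le_one_left hd.le hb2)
    refine (AmpLip.nrm_add _ _).trans ?_
    refine (add_le_add ((AmpLip.nrm_mulVec hA _).trans (mul_le_mul_of_nonneg_left hff (by linarith)))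
      ((AmpLip.nrm_add _ _).trans (add_le_add
        (show PartB.nrm ((1 - t) • (Matrix.of J *ᵥ a)) ≤ d * (7 * Real.sqrt n) by
          rw [AmpLip.nrm_smul, show |1 - t| = d by simp [t, abs_of_pos hd]]
          exact mul_le_mul_of_nonneg_left ((AmpLip.nrm_mulVec hJ _).trans (mul_le_mul_of_nonneg_left ha hJ.1)) hd.le)
        (show PartB.nrm ((β ^ 2 * (1 - t) * (1 - qSE (gamSE β shift t 0))) • f) ≤ d * (2 * Real.sqrt n) by
          rw [AmpLip.nrm_smul]; exact mul_le_mul hcb' hf (AmpLip.nrm_nonneg _) hd.le)))).trans (le_of_eq ?_)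
    simp only [C]; ring
  have hov := ovOf_perturb (ampAt β shift t 1 p) (ampAt β shift 1 (k + 1) p)
  have h4 : PartB.nrm (ampAt β shift t 1 p - ampAt β shift 1 (k + 1) p) / Real.sqrt n ≤ C * d := by
    rw [div_le_iff₀ hn']; exact hdiff
  have e1 : overlapAt β shift t 1 p = ovOf (ampAt β shift t 1 p) := rfl
  have e2 : overlapAt β shift 1 (k + 1) p = ovOf (ampAt β shift 1 (k + 1) p) := rfl
  rw [e1] at h1
  rw [e2] at hp
  have t1 := abs_sub_le (ovOf (ampAt β shift 1 (k + 1) p)) (ovOf (ampAt β shift t 1 p)) (qSE (gamSE β shift 1 (k + 1)))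
  have t2 := abs_sub_le (ovOf (ampAt β shift t 1 p)) (qSE (gamSE β shift t 1)) (qSE (gamSE β shift 1 (k + 1)))
  rw [abs_sub_comm (ovOf (ampAt β shift t 1 p))] at hov
  nlinarith

/-- The limits at every time in the interval, for `k ≥ 1`. -/
theorem limits (hβ0 : 0 ≤ β) (hβ1 : β < 1) (hc : 4 ≤ shift) (hs : s ∈ Set.Icc (0 : ℝ) 1) (k : ℕ) {τ : ℝ}
    (hτ : 0 < τ) :
    Tendsto (fun n => (prodLaw n).real {p | gapLim β shift s (k + 1) + τ < fieldGap β shift s (k + 1) p})
        atTop (𝓝 0) ∧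
      Tendsto (fun n => (prodLaw n).real {p | τ < |overlapAt β shift s (k + 1) p - qSE (gamSE β shift s (k + 1))|})
        atTop (𝓝 0) := by
  have hgap : (∀ n, ∀ p : (Edge n → ℝ) × (Fin n → ℝ),
      ampAt β shift s (k + 1 + 1) p = ampAt β shift s (k + 1) p) →
      Tendsto (fun n => (prodLaw n).real {p | gapLim β shift s (k + 1) + τ < fieldGap β shift s (k + 1) p})
        atTop (𝓝 0) := fun h => by
    refine tendsto_const_nhds.congr fun n => ?_
    rw [show {p : (Edge n → ℝ) × (Fin n → ℝ) | gapLim β shift s (k + 1) + τ < fieldGap β shift s (k + 1) p} = ∅ from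
      Set.eq_empty_iff_forall_notMem.2 fun p hp => ?_, measureReal_empty]
    simp only [Set.mem_ofPred_eq, fieldGap, h n p, sub_self, PartB.nrm] at hp
    simp at hp
    linarith [Real.sqrt_nonneg (gamInc β shift s (k + 1 + 1) ^ 2 + gamInc β shift s (k + 1 + 1)),
      show gapLim β shift s (k + 1) = Real.sqrt (gamInc β shift s (k + 1 + 1) ^ 2 + gamInc β shift s (k + 1 + 1)) from rfl]
  rcases hβ0.eq_or_lt with rfl | hβ
  · exact ⟨hgap fun n p => by rw [ampAt_beta_zero hc, ampAt_beta_zero hc], beta_zero_ov hc hs (k + 1) hτ⟩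
  rcases hs.1.eq_or_lt with rfl | hs0
  · refine ⟨hgap fun n p => by rw [ampAt_zero_time, ampAt_zero_time], ?_⟩
    refine tendsto_const_nhds.congr fun n => ?_
    rw [show {p : (Edge n → ℝ) × (Fin n → ℝ) | τ < |overlapAt β shift 0 (k + 1) p - qSE (gamSE β shift 0 (k + 1))|} = ∅ from
      Set.eq_empty_iff_forall_notMem.2 fun p hp => ?_, measureReal_empty]
    simp [overlapAt, ampAt_zero_time, gamSE_zero_time, qSE_zero] at hp
    linarith
  rcases hs.2.eq_or_lt with rfl | hs1
  · exact ⟨hgap fun n p => by rw [ampAt_one_time, ampAt_one_time], one_time_ov hβ hβ1 hc k hτ⟩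
  exact ⟨generic_gap hβ hβ1 hc hs0 hs1 (k + 1) hτ, generic_ov hβ hβ1 hc hs0 hs1 (k + 1) hτ⟩

end Vale.Agent.P150.High.Amp
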