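import Vale.Agent.P150.High.AmpLawSpec
import Vale.Agent.P150.High.AmpLip

/-!
# P150, all `β < 1`: vectors equal to coordinatewise functions of i.i.d. noise up to `o(√n)`
-/

open MeasureTheory ProbabilityTheory Filter Finset
open scoped Topology

namespace Vale.Agent.P150.High.Amp

open Vale.Agent.P150

instance instNoiseProb (K n : ℕ) : IsProbabilityMeasure (noise K n) := by unfold noise; infer_instance

/-- Continuous, of at most exponential growth. -/
def Nice {ι : Type*} [Fintype ι] (φ : (ι → ℝ) → ℝ) : Prop :=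
  Continuous φ ∧ ∃ C M : ℝ, 0 ≤ C ∧ 0 ≤ M ∧ ∀ w, |φ w| ≤ C * Real.exp (M * l1 w)

namespace Nice

variable {ι : Type*} [Fintype ι] {φ ψ : (ι → ℝ) → ℝ}

lemma const (c : ℝ) : Nice (fun _ : ι → ℝ => c) :=
  ⟨continuous_const, |c|, 0, abs_nonneg c, le_rfl, fun w => by simp⟩

lemma coord (j : ι) : Nice (fun w : ι → ℝ => w j) :=
  ⟨continuous_apply j, 1, 1, zero_le_one, zero_le_one, fun w => by
    rw [one_mul, one_mul]
    linarith [abs_le_l1 w j, Real.add_one_le_exp (l1 w)]⟩

lemma add (hφ : Nice φ) (hψ : Nice ψ) : Nice (fun w => φ w + ψ w) := by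
  obtain ⟨h1, C, M, hC, hM, hb⟩ := hφ
  obtain ⟨h2, C', M', hC', hM', hb'⟩ := hψ
  refine ⟨h1.add h2, C + C', max M M', add_nonneg hC hC', hM.trans (le_max_left _ _), fun w => ?_⟩
  refine (abs_add_le _ _).trans ?_
  rw [add_mul]
  exact add_le_add
    ((hb w).trans (mul_le_mul_of_nonneg_left (Real.exp_le_exp.2
      (mul_le_mul_of_nonneg_right (le_max_left _ _) (l1_nonneg w))) hC))
    ((hb' w).trans (mul_le_mul_of_nonneg_left (Real.exp_le_exp.2
      (mul_le_mul_of_nonneg_right (le_max_right _ _) (l1_nonneg w))) hC'))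

lemma mul (hφ : Nice φ) (hψ : Nice ψ) : Nice (fun w => φ w * ψ w) := by
  obtain ⟨h1, C, M, hC, hM, hb⟩ := hφ
  obtain ⟨h2, C', M', hC', hM', hb'⟩ := hψ
  refine ⟨h1.mul h2, C * C', M + M', mul_nonneg hC hC', add_nonneg hM hM', fun w => ?_⟩
  rw [abs_mul, add_mul, Real.exp_add]
  calc |φ w| * |ψ w| ≤ (C * Real.exp (M * l1 w)) * (C' * Real.exp (M' * l1 w)) :=
        mul_le_mul (hb w) (hb' w) (abs_nonneg _) (mul_nonneg hC (Real.exp_pos _).le)
    _ = _ := by ring

lemma const_mul (hφ : Nice φ) (c : ℝ) : Nice (fun w => c * φ w) := (Nice.const c).mul hφ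

lemma sum {κ : Type*} (t : Finset κ) {Φ : κ → (ι → ℝ) → ℝ} (h : ∀ k ∈ t, Nice (Φ k)) :
    Nice (fun w => ∑ k ∈ t, Φ k w) := by
  classical
  induction t using Finset.induction_on with
  | empty => simpa using Nice.const (0 : ℝ)
  | insert a t ha ih =>
    simp only [Finset.sum_insert ha]
    exact (h a (Finset.mem_insert_self a t)).add (ih fun k hk => h k (Finset.mem_insert_of_mem hk))

lemma comp {F : ℝ → ℝ} (hF : Continuous F) {C : ℝ} (hb : ∀ x, |F x| ≤ C) (hφ : Nice φ) :
    Nice (fun w => F (φ w)) :=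
  ⟨hF.comp hφ.1, C, 0, (abs_nonneg _).trans (hb 0), le_rfl, fun w => by simpa using hb (φ w)⟩

lemma integrable (hφ : Nice φ) : Integrable φ (gauss ι) := by
  obtain ⟨h1, C, M, _, _, hb⟩ := hφ
  exact integrable_of_bound h1 hb

lemma memLp (hφ : Nice φ) : MemLp φ 2 (gauss ι) :=
  (memLp_two_iff_integrable_sq hφ.1.aestronglyMeasurable).2 (by simpa only [sq] using (hφ.mul hφ).integrable)

end Nice

variable {K : ℕ}

/-- Convergence in probability to a constant. -/
def TendP (K : ℕ) (X : ∀ n, (Fin n → Fin (K + 1) → ℝ) → ℝ) (c : ℝ) : Prop :=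
  ∀ ε : ℝ, 0 < ε → Tendsto (fun n => (noise K n).real {ω | ε < |X n ω - c|}) atTop (𝓝 0)

namespace TendP

variable {X Y : ∀ n, (Fin n → Fin (K + 1) → ℝ) → ℝ} {a b : ℝ}

lemma const (c : ℝ) : TendP K (fun _ _ => c) c := fun ε hε => by
  simp [not_lt.2 hε.le]

lemma congr (h : TendP K X a) (he : ∀ n, 0 < n → ∀ ω, X n ω = Y n ω) : TendP K Y a := fun ε hε =>
  (h ε hε).congr' (by
    filter_upwards [eventually_gt_atTop 0] with n hn
    simp only [he n hn])

/-- Continuous maps of two variables. -/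
lemma comp₂ (hX : TendP K X a) (hY : TendP K Y b) {F : ℝ → ℝ → ℝ}
    (hF : ContinuousAt (Function.uncurry F) (a, b)) : TendP K (fun n ω => F (X n ω) (Y n ω)) (F a b) := by
  intro ε hε
  obtain ⟨δ, hδ, h⟩ := Metric.continuousAt_iff.1 hF ε hε
  refine squeeze_zero' (Eventually.of_forall fun n => measureReal_nonneg) (Eventually.of_forall fun n => ?_)
    (by simpa using (hX (δ / 2) (half_pos hδ)).add (hY (δ / 2) (half_pos hδ)))
  refine (measureReal_mono (fun ω hω => ?_)).trans (measureReal_union_le _ _)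
  by_contra hcon
  simp only [Set.mem_union, Set.mem_ofPred_eq, not_or, not_lt] at hcon
  have := h (x := (X n ω, Y n ω)) (by
    rw [Prod.dist_eq, max_lt_iff]
    simp only [Real.dist_eq]
    exact ⟨by linarith [hcon.1], by linarith [hcon.2]⟩)
  simp only [Function.uncurry, Real.dist_eq] at this
  simp only [Set.mem_ofPred_eq] at hω
  linarith

lemma comp (hX : TendP K X a) {F : ℝ → ℝ} (hF : ContinuousAt F a) :
    TendP K (fun n ω => F (X n ω)) (F a) :=
  hX.comp₂ (const 0) (F := fun x _ => F x)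
    (ContinuousAt.comp (f := Prod.fst) (g := F) (x := (a, (0 : ℝ))) hF continuousAt_fst)

lemma add (hX : TendP K X a) (hY : TendP K Y b) : TendP K (fun n ω => X n ω + Y n ω) (a + b) :=
  hX.comp₂ hY (F := fun x y => x + y) (by unfold Function.uncurry; fun_prop)

lemma mul (hX : TendP K X a) (hY : TendP K Y b) : TendP K (fun n ω => X n ω * Y n ω) (a * b) :=
  hX.comp₂ hY (F := fun x y => x * y) (by unfold Function.uncurry; fun_prop)

lemma const_mul (hX : TendP K X a) (c : ℝ) : TendP K (fun n ω => c * X n ω) (c * a) := (const c).mul hX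

lemma sum {κ : Type*} (t : Finset κ) {Φ : κ → ∀ n, (Fin n → Fin (K + 1) → ℝ) → ℝ} {c : κ → ℝ}
    (h : ∀ k ∈ t, TendP K (Φ k) (c k)) :
    TendP K (fun n ω => ∑ k ∈ t, Φ k n ω) (∑ k ∈ t, c k) := by
  classical
  induction t using Finset.induction_on with
  | empty => simpa using const (K := K) 0
  | insert a t ha ih =>
    simp only [Finset.sum_insert ha]
    exact (h a (Finset.mem_insert_self a t)).add (ih fun k hk => h k (Finset.mem_insert_of_mem hk))

lemma squeeze (hY : TendP K Y 0) (h : ∀ n, 0 < n → ∀ ω, |X n ω - a| ≤ Y n ω) : TendP K X a := fun ε hε => by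
  refine squeeze_zero' (Eventually.of_forall fun n => measureReal_nonneg) ?_ (hY ε hε)
  filter_upwards [eventually_gt_atTop 0] with n hn
  refine measureReal_mono fun ω hω => ?_
  simp only [Set.mem_ofPred_eq, sub_zero] at hω ⊢
  exact hω.trans_le ((h n hn ω).trans (le_abs_self _))

end TendP

/-- The weak law of large numbers. -/
theorem lln {φ : (Fin (K + 1) → ℝ) → ℝ} (hφ : Nice φ) :
    TendP K (fun n ω => (∑ i, φ (ω i)) / n) (∫ w, φ w ∂gauss (Fin (K + 1))) := by
  intro ε hε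
  set m := ∫ w, φ w ∂gauss (Fin (K + 1))
  set V := variance φ (gauss (Fin (K + 1)))
  refine squeeze_zero' (Eventually.of_forall fun n => measureReal_nonneg) ?_
    (tendsto_const_nhds.div_atTop ((tendsto_natCast_atTop_atTop (R := ℝ)).const_mul_atTop (pow_pos hε 2))
      : Tendsto (fun n : ℕ => V / (ε ^ 2 * n)) atTop (𝓝 0))
  filter_upwards [eventually_gt_atTop 0] with n hn
  have hn' : (0 : ℝ) < n := Nat.cast_pos.2 hn
  set S : (Fin n → Fin (K + 1) → ℝ) → ℝ := ∑ i, fun ω => φ (ω i)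
  have hS : MemLp S 2 (noise K n) :=
    memLp_finsetSum' _ fun i _ => hφ.memLp.comp_measurePreserving (measurePreserving_eval _ i)
  have hE : ∫ ω, S ω ∂noise K n = n * m := by
    simp only [S, Finset.sum_apply]
    rw [integral_finsetSum _ fun i _ => ?_]
    · have : ∀ i, ∫ ω : Fin n → Fin (K + 1) → ℝ, φ (ω i) ∂noise K n = m := fun i => by
        have h := (measurePreserving_eval (fun _ : Fin n => gauss (Fin (K + 1))) i)
        rw [show m = ∫ w, φ w ∂gauss (Fin (K + 1)) from rfl, ← h.map_eq,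
          integral_map h.measurable.aemeasurable hφ.1.aestronglyMeasurable]
        rfl
      simp [this]
    · exact (measurePreserving_eval (fun _ : Fin n => gauss (Fin (K + 1))) i).integrable_comp_of_integrable hφ.integrable
  have hV : variance S (noise K n) = n * V := by
    show variance (∑ i, fun ω => φ (ω i)) (Measure.pi fun _ : Fin n => gauss (Fin (K + 1))) = _
    rw [variance_sum_pi (X := fun _ => φ) fun _ => hφ.memLp]
    simp [V]
  have h := meas_ge_le_variance_div_sq hS (mul_pos hε hn')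
  rw [hE, hV] at h
  have h2 : (noise K n).real {ω | ε * n ≤ |S ω - n * m|} ≤ n * V / (ε * n) ^ 2 := by
    rw [measureReal_def]
    exact (ENNReal.toReal_mono ENNReal.ofReal_ne_top h).trans
      (le_of_eq (ENNReal.toReal_ofReal (div_nonneg (mul_nonneg hn'.le (variance_nonneg _ _)) (sq_nonneg _))))
  refine (measureReal_mono fun ω hω => ?_).trans (h2.trans (le_of_eq (by field_simp)))
  simp only [Set.mem_ofPred_eq, S, Finset.sum_apply] at hω ⊢
  rw [show (∑ i, φ (ω i)) / (n : ℝ) - m = ((∑ i, φ (ω i)) - n * m) / n by field_simp,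
    abs_div, abs_of_pos hn', lt_div_iff₀ hn'] at hω
  exact hω.le

namespace VecLim

variable {X Y : ∀ n, (Fin n → Fin (K + 1) → ℝ) → Fin n → ℝ} {φ ψ : (Fin (K + 1) → ℝ) → ℝ}

lemma tendP (h : VecLim K X φ) : TendP K (fun n ω => (∑ i, (X n ω i - φ (ω i)) ^ 2) / n) 0 := fun ε hε => by
  refine (h ε hε).congr' ?_
  filter_upwards [eventually_gt_atTop 0] with n hn
  have hn' : (0 : ℝ) < n := Nat.cast_pos.2 hn
  congr 1
  ext ω
  simp only [Set.mem_ofPred_eq, sub_zero]
  rw [abs_of_nonneg (div_nonneg (Finset.sum_nonneg fun _ _ => sq_nonneg _) hn'.le), lt_div_iff₀ hn']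

lemma of_tendP (h : TendP K (fun n ω => (∑ i, (X n ω i - φ (ω i)) ^ 2) / n) 0) : VecLim K X φ := fun ε hε => by
  refine (h ε hε).congr' ?_
  filter_upwards [eventually_gt_atTop 0] with n hn
  have hn' : (0 : ℝ) < n := Nat.cast_pos.2 hn
  congr 1
  ext ω
  simp only [Set.mem_ofPred_eq, sub_zero]
  rw [abs_of_nonneg (div_nonneg (Finset.sum_nonneg fun _ _ => sq_nonneg _) hn'.le), lt_div_iff₀ hn']

lemma congr (h : VecLim K X φ) (hX : ∀ n, 0 < n → ∀ ω i, X n ω i = Y n ω i) (hφ : ∀ w, φ w = ψ w) :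
    VecLim K Y ψ := by
  obtain rfl : φ = ψ := funext hφ
  exact of_tendP (h.tendP.congr fun n hn ω => by simp only [hX n hn ω])

lemma exact' (φ : (Fin (K + 1) → ℝ) → ℝ) : VecLim K (fun _ ω i => φ (ω i)) φ :=
  of_tendP ((TendP.const 0).congr fun n _ ω => by simp)

lemma add (hX : VecLim K X φ) (hY : VecLim K Y ψ) :
    VecLim K (fun n ω i => X n ω i + Y n ω i) (fun w => φ w + ψ w) := by
  refine of_tendP (TendP.squeeze (by simpa using (hX.tendP.const_mul 2).add (hY.tendP.const_mul 2)) fun n _ ω => ?_)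
  rw [sub_zero, abs_of_nonneg (div_nonneg (Finset.sum_nonneg fun _ _ => sq_nonneg _) (Nat.cast_nonneg n)),
    ← mul_div_assoc, ← mul_div_assoc, ← add_div, Finset.mul_sum, Finset.mul_sum, ← Finset.sum_add_distrib]
  refine div_le_div_of_nonneg_right (Finset.sum_le_sum fun i _ => ?_) (Nat.cast_nonneg n)
  nlinarith [sq_nonneg ((X n ω i - φ (ω i)) - (Y n ω i - ψ (ω i)))]

/-- Scaling by a scalar with a deterministic limit. -/
lemma smul {c : ∀ n, (Fin n → Fin (K + 1) → ℝ) → ℝ} {a : ℝ} (hc : TendP K c a) (hφ : Nice φ)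
    (hX : VecLim K X φ) : VecLim K (fun n ω i => c n ω * X n ω i) (fun w => a * φ w) := by
  have h := (((hc.mul hc).mul hX.tendP).const_mul 2).add
    ((((hc.add (TendP.const (-a))).mul (hc.add (TendP.const (-a)))).mul (lln (hφ.mul hφ))).const_mul 2)
  refine of_tendP (TendP.squeeze (by simpa using h) fun n _ ω => ?_)
  rw [sub_zero, abs_of_nonneg (div_nonneg (Finset.sum_nonneg fun _ _ => sq_nonneg _) (Nat.cast_nonneg n))]
  simp only [← mul_div_assoc, ← add_div, Finset.mul_sum, ← Finset.sum_add_distrib]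
  refine div_le_div_of_nonneg_right (Finset.sum_le_sum fun i _ => ?_) (Nat.cast_nonneg n)
  nlinarith [sq_nonneg (c n ω * (X n ω i - φ (ω i)) - (c n ω - a) * φ (ω i))]

lemma const_mul (hX : VecLim K X φ) (hφ : Nice φ) (a : ℝ) :
    VecLim K (fun n ω i => a * X n ω i) (fun w => a * φ w) := hX.smul (TendP.const a) hφ

lemma sum {κ : Type*} (t : Finset κ) {X : κ → ∀ n, (Fin n → Fin (K + 1) → ℝ) → Fin n → ℝ}
    {Φ : κ → (Fin (K + 1) → ℝ) → ℝ} (h : ∀ k ∈ t, VecLim K (X k) (Φ k)) :
    VecLim K (fun n ω i => ∑ k ∈ t, X k n ω i) (fun w => ∑ k ∈ t, Φ k w) := by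
  classical
  induction t using Finset.induction_on with
  | empty => simpa using exact' (K := K) (fun _ => 0)
  | insert a t ha ih =>
    simp only [Finset.sum_insert ha]
    exact (h a (Finset.mem_insert_self a t)).add (ih fun k hk => h k (Finset.mem_insert_of_mem hk))

lemma lipComp (hX : VecLim K X φ) {F : ℝ → ℝ} (hF : ∀ x y, |F x - F y| ≤ |x - y|) :
    VecLim K (fun n ω i => F (X n ω i)) (fun w => F (φ w)) := by
  refine of_tendP (TendP.squeeze hX.tendP fun n _ ω => ?_)
  rw [sub_zero, abs_of_nonneg (div_nonneg (Finset.sum_nonneg fun _ _ => sq_nonneg _) (Nat.cast_nonneg n))]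
  exact div_le_div_of_nonneg_right (Finset.sum_le_sum fun i _ => sq_le_sq.2 (hF _ _)) (Nat.cast_nonneg n)

lemma tanh (hX : VecLim K X φ) : VecLim K (fun n ω i => Real.tanh (X n ω i)) (fun w => Real.tanh (φ w)) :=
  hX.lipComp AmpLip.tanh_lip

/-- Averaged inner products converge. -/
lemma dot (hX : VecLim K X φ) (hY : VecLim K Y ψ) (hφ : Nice φ) (hψ : Nice ψ) :
    TendP K (fun n ω => (∑ i, X n ω i * Y n ω i) / n) (∫ w, φ w * ψ w ∂gauss (Fin (K + 1))) := by
  have hsq : ∀ {D : ∀ n, (Fin n → Fin (K + 1) → ℝ) → ℝ} {a : ℝ}, TendP K D a →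
      TendP K (fun n ω => Real.sqrt (D n ω)) (Real.sqrt a) := fun hD => hD.comp Real.continuous_sqrt.continuousAt
  have herr := ((hsq hX.tendP).mul (hsq (lln (hψ.mul hψ)))).add
    (((hsq hY.tendP).mul (hsq (lln (hφ.mul hφ)))).add ((hsq hX.tendP).mul (hsq hY.tendP)))
  have hmain := lln (hφ.mul hψ)
  have h2 : TendP K (fun n ω => (∑ i, X n ω i * Y n ω i) / n - (∑ i, φ (ω i) * ψ (ω i)) / n) 0 := by
    rw [Real.sqrt_zero, zero_mul, zero_mul, zero_mul, add_zero, add_zero] at herr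
    refine TendP.squeeze herr fun n _ ω => ?_
    have hn : (0 : ℝ) ≤ n := Nat.cast_nonneg n
    have cs : ∀ p q : Fin n → ℝ,
        |(∑ i, p i * q i) / n| ≤ Real.sqrt ((∑ i, p i ^ 2) / n) * Real.sqrt ((∑ i, q i ^ 2) / n) := by
      intro p q
      rw [Real.sqrt_div' _ hn, Real.sqrt_div' _ hn, div_mul_div_comm, Real.mul_self_sqrt hn, abs_div,
        abs_of_nonneg hn, ← Real.sqrt_mul (Finset.sum_nonneg fun _ _ => sq_nonneg _)]
      exact div_le_div_of_nonneg_right (Real.abs_le_sqrt (Finset.sum_mul_sq_le_sq_mul_sq _ _ _)) hn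
    rw [sub_zero, ← sub_div, ← Finset.sum_sub_distrib]
    have e : ∀ i, X n ω i * Y n ω i - φ (ω i) * ψ (ω i) =
        (X n ω i - φ (ω i)) * ψ (ω i) + ((Y n ω i - ψ (ω i)) * φ (ω i)
          + (X n ω i - φ (ω i)) * (Y n ω i - ψ (ω i))) := fun i => by ring
    simp only [e, Finset.sum_add_distrib, add_div, ← sq]
    refine (abs_add_le _ _).trans (add_le_add (cs _ _) ((abs_add_le _ _).trans (add_le_add (cs _ _) (cs _ _))))
  simpa using h2.add hmain

lemma mean (hX : VecLim K X φ) (hφ : Nice φ) :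
    TendP K (fun n ω => (∑ i, X n ω i) / n) (∫ w, φ w ∂gauss (Fin (K + 1))) := by
  have h := hX.dot (exact' (K := K) fun _ => 1) hφ (Nice.const 1)
  simpa using h

end VecLim

end Vale.Agent.P150.High.Amp
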