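import Vale.Agent.P150.High.SEScalar
import Vale.Agent.P150.High.VecLim

/-!
# P150, all `β < 1`: state evolution of the AMP iteration on the representation
-/

open MeasureTheory ProbabilityTheory Filter Finset
open scoped Topology

namespace Vale.Agent.P150.High.Amp

open Vale.Agent.P150

variable {K : ℕ} {β shift s : ℝ}

/-- The `j`-th coordinate, zero outside. -/
def co {K : ℕ} (j : ℕ) (w : Fin (K + 1) → ℝ) : ℝ := if h : j < K + 1 then w ⟨j, h⟩ else 0

lemma co_eq {j : ℕ} (h : j ≤ K) (w : Fin (K + 1) → ℝ) : co j w = w ⟨j, by omega⟩ := by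
  rw [co, dif_pos]

lemma nice_co (j : ℕ) : Nice (co (K := K) j) := by
  unfold co
  split_ifs
  exacts [Nice.coord _, Nice.const 0]

lemma nice_idealZ (l : ℕ) : Nice (idealZ (K := K) β shift s l) :=
  (Nice.const _).add (Nice.sum _ fun j _ => by
    split_ifs
    exacts [(Nice.coord j).const_mul _, Nice.const 0])

lemma nice_tanhZ (l : ℕ) : Nice fun w : Fin (K + 1) → ℝ => Real.tanh (idealZ β shift s l w) :=
  (nice_idealZ l).comp PA.continuous_tanh' PA.abs_tanh_le_one'

/-- The ideal `f`. -/
noncomputable def idealF {K : ℕ} (β shift s : ℝ) (w : Fin (K + 1) → ℝ) : ℝ :=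
  s + Real.sqrt s * (Real.sqrt (plantVar β shift) * w 0)

lemma nice_idealF : Nice (idealF (K := K) β shift s) :=
  (Nice.const s).add (((Nice.coord 0).const_mul _).const_mul _)

lemma nice_idealDir : ∀ l, Nice (idealDir (K := K) β shift s l)
  | 0 => nice_idealF.add ((nice_tanhZ 0).const_mul (1 - s))
  | l + 1 => by
    have h := (nice_tanhZ (K := K) (β := β) (shift := shift) (s := s) (l + 1)).add
      ((nice_tanhZ (K := K) (β := β) (shift := shift) (s := s) l).const_mul (-1))
    refine ⟨?_, ?_⟩
    · convert h.1 using 1; funext w; simp [idealDir, sub_eq_add_neg]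
    · obtain ⟨C, M, hC, hM, hb⟩ := h.2
      exact ⟨C, M, hC, hM, fun w => by simpa [idealDir, sub_eq_add_neg] using hb w⟩

lemma nice_idealE (l : ℕ) : Nice (idealE (K := K) β shift s l) := by
  have h := (nice_idealDir (K := K) (β := β) (shift := shift) (s := s) l).const_mul
    (Real.sqrt (∫ t : Fin (K + 1) → ℝ, idealDir β shift s l t ^ 2 ∂gauss (Fin (K + 1))))⁻¹
  have e : (idealE (K := K) β shift s l) = fun w =>
      (Real.sqrt (∫ t : Fin (K + 1) → ℝ, idealDir β shift s l t ^ 2 ∂gauss (Fin (K + 1))))⁻¹ *
        idealDir β shift s l w := funext fun w => by simp [idealE, div_eq_inv_mul]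
  rw [e]; exact h

lemma nice_idealG (l : ℕ) : Nice (idealG (K := K) β shift s l) :=
  (nice_co (l + 1)).add (Nice.sum _ fun m _ => (nice_idealE m).const_mul _)

/-- `E[D_l²]`. -/
noncomputable def dirVar (K : ℕ) (β shift s : ℝ) (l : ℕ) : ℝ :=
  ∫ t : Fin (K + 1) → ℝ, idealDir β shift s l t ^ 2 ∂gauss (Fin (K + 1))

/-- `1` for the first direction, `u` afterwards. -/
def up (s : ℝ) : ℕ → ℝ
  | 0 => 1
  | _ + 1 => 1 - s

lemma int_co (j : ℕ) : ∫ w : Fin (K + 1) → ℝ, co j w ∂gauss (Fin (K + 1)) = 0 := by
  unfold co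
  split_ifs with h
  · have := integral_dot (ι := Fin (K + 1)) (φ := id) continuous_id (Pi.single ⟨j, h⟩ 1)
    simp [dot, Pi.single_apply, integral_const_mul] at this ⊢
    exact this
  · simp

lemma int_coord_mul (i j : Fin (K + 1)) :
    ∫ w : Fin (K + 1) → ℝ, w i * w j ∂gauss (Fin (K + 1)) = if i = j then 1 else 0 := by
  rw [gauss_ibp i (C := 1) (M := 1) (φ := fun w => w j) (φ' := fun _ => if i = j then 1 else 0) zero_le_one
    (continuous_apply j) continuous_const
    (fun w => by rw [one_mul, one_mul]; linarith [abs_le_l1 w j, Real.add_one_le_exp (l1 w)])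
    (fun w => by
      rw [one_mul, one_mul]
      split_ifs
      · rw [abs_one]; exact Real.one_le_exp (l1_nonneg w)
      · rw [abs_zero]; exact (Real.exp_pos _).le)
    (fun w t => ?_)]
  · simp
  · split_ifs with h
    · subst h; simp only [Function.update_self]; exact hasDerivAt_id t
    · simpa [Function.update_of_ne (Ne.symm h)] using hasDerivAt_const t (w j)

section scalar
variable (hβ : |β| ≤ 1) (hc : 4 ≤ shift) (hs : s ∈ Set.Icc (0 : ℝ) 1)

lemma zCoef_apply {l : ℕ} (j : Fin (K + 1)) (hj : (j : ℕ) ≤ l) :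
    zCoef β shift s K l j = Real.sqrt (gamInc β shift s j) := if_pos hj

include hβ hc hs

lemma zCoef_zero (l : ℕ) :
    Real.sqrt s * (Real.sqrt (plantVar β shift) * zCoef β shift s K l 0) = s := by
  have hv := plantVar_pos (β := β) hc
  rw [zCoef_apply 0 (by simp)]
  simp only [Fin.val_zero, gamInc, gamSE]
  rw [Real.sqrt_div' _ hv.le, mul_div_cancel₀ _ (Real.sqrt_pos.2 hv).ne', Real.mul_self_sqrt hs.1]

lemma int_idealF_mul_tanh {l : ℕ} (hl : l ≤ K) :
    ∫ w : Fin (K + 1) → ℝ, idealF β shift s w * Real.tanh (idealZ β shift s l w) ∂gauss (Fin (K + 1)) = s := by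
  have i1 := ((nice_tanhZ (K := K) (β := β) (shift := shift) (s := s) l).const_mul s).integrable
  have i2 := ((((Nice.coord (ι := Fin (K + 1)) 0).mul (nice_tanhZ (β := β) (shift := shift) (s := s) l)).const_mul
    (Real.sqrt (plantVar β shift))).const_mul (Real.sqrt s)).integrable
  have e : ∀ w : Fin (K + 1) → ℝ, idealF β shift s w * Real.tanh (idealZ β shift s l w) =
      s * Real.tanh (idealZ β shift s l w) + Real.sqrt s * (Real.sqrt (plantVar β shift) *
        (w 0 * Real.tanh (idealZ β shift s l w))) := fun w => by simp only [idealF]; ring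
  simp only [e]
  rw [integral_add i1 i2, integral_const_mul, integral_const_mul, integral_const_mul,
    int_tanh hβ hc hs hl, int_coord_tanh hβ hc hs hl]
  linear_combination (1 - qSE (gamSE β shift s l)) * zCoef_zero (K := K) hβ hc hs l

lemma int_idealF_sq :
    ∫ w : Fin (K + 1) → ℝ, idealF β shift s w ^ 2 ∂gauss (Fin (K + 1)) = s ^ 2 + s * plantVar β shift := by
  have hv := plantVar_pos (β := β) hc
  have e : ∀ w : Fin (K + 1) → ℝ, idealF β shift s w ^ 2 =
      (s ^ 2 + (2 * s * Real.sqrt s * Real.sqrt (plantVar β shift)) * w 0)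
        + (s * plantVar β shift) * (w 0 * w 0) := fun w => by
    simp only [idealF]
    linear_combination (w 0 ^ 2 * Real.sqrt (plantVar β shift) ^ 2) * Real.sq_sqrt hs.1
      + (w 0 ^ 2 * s) * Real.sq_sqrt hv.le
  have i0 : Integrable (fun _ : Fin (K + 1) → ℝ => s ^ 2) (gauss (Fin (K + 1))) := integrable_const _
  have i1 := ((Nice.coord (ι := Fin (K + 1)) 0).const_mul
    (2 * s * Real.sqrt s * Real.sqrt (plantVar β shift))).integrable
  have i2 := (((Nice.coord (ι := Fin (K + 1)) 0).mul (Nice.coord 0)).const_mul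
    (s * plantVar β shift)).integrable
  simp only [e]
  rw [integral_add (i0.fun_add i1) i2, integral_add i0 i1, integral_const_mul, integral_const_mul,
    int_coord_mul]
  have h0 : ∫ w : Fin (K + 1) → ℝ, w 0 ∂gauss (Fin (K + 1)) = 0 := by
    simpa [co] using int_co (K := K) 0
  simp [h0]

lemma int_dir_tanh {a m : ℕ} (ha : a + 1 ≤ K) (hm : m ≤ K) :
    ∫ w : Fin (K + 1) → ℝ, idealDir β shift s (a + 1) w * Real.tanh (idealZ β shift s m w)
        ∂gauss (Fin (K + 1)) =
      qSE (gamSE β shift s (min (a + 1) m)) - qSE (gamSE β shift s (min a m)) := by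
  have key : ∀ a, a ≤ K → ∫ w : Fin (K + 1) → ℝ, Real.tanh (idealZ β shift s a w) * Real.tanh (idealZ β shift s m w)
      ∂gauss (Fin (K + 1)) = qSE (gamSE β shift s (min a m)) := fun a ha => by
    rcases le_total a m with h | h
    · rw [min_eq_left h]; exact int_tanh_mul hβ hc hs h hm
    · rw [min_eq_right h]; simp only [mul_comm (Real.tanh (idealZ β shift s a _))]
      exact int_tanh_mul hβ hc hs h ha
  simp only [idealDir, sub_mul]
  rw [integral_sub ((nice_tanhZ _).mul (nice_tanhZ m)).integrable ((nice_tanhZ _).mul (nice_tanhZ m)).integrable,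
    key _ ha, key _ (by omega)]

lemma int_dir_zero_tanh {m : ℕ} (hm : m ≤ K) :
    ∫ w : Fin (K + 1) → ℝ, idealDir β shift s 0 w * Real.tanh (idealZ β shift s m w) ∂gauss (Fin (K + 1)) =
      s + (1 - s) * qSE (gamSE β shift s 0) := by
  have e : ∀ w : Fin (K + 1) → ℝ, idealDir β shift s 0 w * Real.tanh (idealZ β shift s m w) =
      idealF β shift s w * Real.tanh (idealZ β shift s m w) +
        (1 - s) * (Real.tanh (idealZ β shift s 0 w) * Real.tanh (idealZ β shift s m w)) := fun w => by
    simp only [idealDir, idealF]; ring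
  simp only [e]
  rw [integral_add (nice_idealF.mul (nice_tanhZ m)).integrable
      (((nice_tanhZ 0).mul (nice_tanhZ m)).const_mul _).integrable, integral_const_mul,
    int_idealF_mul_tanh hβ hc hs hm, int_tanh_mul hβ hc hs (Nat.zero_le m) hm]

lemma int_dir_mul_lt {a b : ℕ} (hab : a < b) (hb : b ≤ K) :
    ∫ w : Fin (K + 1) → ℝ, idealDir β shift s a w * idealDir β shift s b w ∂gauss (Fin (K + 1)) = 0 := by
  obtain ⟨b, rfl⟩ : ∃ c, b = c + 1 := ⟨b - 1, by omega⟩
  have i : ∀ m, Integrable (fun w : Fin (K + 1) → ℝ => idealDir β shift s a w * Real.tanh (idealZ β shift s m w))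
      (gauss (Fin (K + 1))) := fun m => ((nice_idealDir a).mul (nice_tanhZ m)).integrable
  rw [show (fun w : Fin (K + 1) → ℝ => idealDir β shift s a w * idealDir β shift s (b + 1) w) = fun w =>
      idealDir β shift s a w * Real.tanh (idealZ β shift s (b + 1) w)
        - idealDir β shift s a w * Real.tanh (idealZ β shift s b w) from
    funext fun w => by simp [idealDir, mul_sub], integral_sub (i _) (i _)]
  rcases a with _ | a
  · rw [int_dir_zero_tanh hβ hc hs hb, int_dir_zero_tanh hβ hc hs (by omega), sub_self]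
  · rw [int_dir_tanh hβ hc hs (by omega) hb, int_dir_tanh hβ hc hs (by omega) (by omega)]
    rw [min_eq_left (show a + 1 ≤ b + 1 by omega), min_eq_left (show a ≤ b + 1 by omega),
      min_eq_left (show a + 1 ≤ b by omega), min_eq_left (show a ≤ b by omega), sub_self]

/-- `β² up² E D² = γ(l+1) - γ l`. -/
lemma dirVar_eq {l : ℕ} (hl : l ≤ K) :
    β ^ 2 * up s l ^ 2 * dirVar K β shift s l = gamInc β shift s (l + 1) := by
  rcases l with _ | l
  · have e : ∀ w : Fin (K + 1) → ℝ, idealDir β shift s 0 w ^ 2 =
        (idealF β shift s w ^ 2 + 2 * (1 - s) * (idealF β shift s w * Real.tanh (idealZ β shift s 0 w)))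
          + (1 - s) ^ 2 * (Real.tanh (idealZ β shift s 0 w) * Real.tanh (idealZ β shift s 0 w)) := fun w => by
      simp only [idealDir, idealF]; ring
    have i1 : Integrable (fun w : Fin (K + 1) → ℝ => idealF β shift s w ^ 2) (gauss (Fin (K + 1))) := by
      simpa only [sq] using (nice_idealF.mul nice_idealF).integrable
    have i2 := ((nice_idealF (K := K) (β := β) (shift := shift) (s := s)).mul
      (nice_tanhZ (β := β) (shift := shift) (s := s) 0)).const_mul (2 * (1 - s))
    simp only [dirVar, e, up, gamInc]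
    rw [integral_add (i1.fun_add i2.integrable) (((nice_tanhZ 0).mul (nice_tanhZ 0)).const_mul _).integrable,
      integral_add i1 i2.integrable, integral_const_mul, integral_const_mul,
      int_idealF_sq hβ hc hs, int_idealF_mul_tanh hβ hc hs (Nat.zero_le K),
      int_tanh_mul hβ hc hs le_rfl (Nat.zero_le K), gamSE_one_sub hβ hc]
    ring
  · have i : ∀ m, Integrable (fun w : Fin (K + 1) → ℝ =>
        idealDir β shift s (l + 1) w * Real.tanh (idealZ β shift s m w)) (gauss (Fin (K + 1))) :=
      fun m => ((nice_idealDir (l + 1)).mul (nice_tanhZ m)).integrable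
    have hV : dirVar K β shift s (l + 1) = qSE (gamSE β shift s (l + 1)) - qSE (gamSE β shift s l) := by
      rw [dirVar, show (fun w : Fin (K + 1) → ℝ => idealDir β shift s (l + 1) w ^ 2) = fun w =>
          idealDir β shift s (l + 1) w * Real.tanh (idealZ β shift s (l + 1) w)
            - idealDir β shift s (l + 1) w * Real.tanh (idealZ β shift s l w) from
        funext fun w => by simp [idealDir, sq, mul_sub], integral_sub (i _) (i _),
        int_dir_tanh hβ hc hs hl hl, int_dir_tanh hβ hc hs hl (by omega)]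
      rw [min_eq_left (le_refl (l + 1)), min_eq_left (Nat.le_succ l), min_eq_right (Nat.le_succ l), min_self,
        sub_self, sub_zero]
    rw [hV, up]; simp only [gamInc]; rw [gamSE_succ_sub]

/-- `E[w_(p+1) D_m]`. -/
lemma int_co_dir {p m : ℕ} (hp : p + 1 ≤ K) (hm : m ≤ K) :
    ∫ w : Fin (K + 1) → ℝ, co (p + 1) w * idealDir β shift s m w ∂gauss (Fin (K + 1)) =
      Real.sqrt (gamInc β shift s (p + 1)) *
        ((if p + 1 ≤ m then 1 - qSE (gamSE β shift s m) else 0)
          - if p + 2 ≤ m then 1 - qSE (gamSE β shift s (m - 1)) else 0) := by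
  set j : Fin (K + 1) := ⟨p + 1, by omega⟩ with hj
  have hz : ∀ l, l ≤ K → ∫ w : Fin (K + 1) → ℝ, co (p + 1) w * Real.tanh (idealZ β shift s l w)
      ∂gauss (Fin (K + 1)) = Real.sqrt (gamInc β shift s (p + 1)) *
        (if p + 1 ≤ l then 1 - qSE (gamSE β shift s l) else 0) := fun l hl => by
    simp only [co_eq hp]
    rw [int_coord_tanh hβ hc hs hl, zCoef]
    split_ifs <;> simp
  rcases m with _ | m
  · have hi : ∫ w : Fin (K + 1) → ℝ, co (p + 1) w * idealF β shift s w ∂gauss (Fin (K + 1)) = 0 := by
      have e : ∀ w : Fin (K + 1) → ℝ, co (p + 1) w * idealF β shift s w = s * co (p + 1) w +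
          Real.sqrt s * (Real.sqrt (plantVar β shift) * (w j * w 0)) := fun w => by
        rw [co_eq hp]; simp only [idealF]; ring
      simp only [e]
      rw [integral_add ((nice_co _).const_mul s).integrable
          ((((Nice.coord j).mul (Nice.coord 0)).const_mul _).const_mul _).integrable,
        integral_const_mul, integral_const_mul, integral_const_mul, int_co, int_coord_mul,
        if_neg (by simp [hj, Fin.ext_iff])]
      ring
    have e : ∀ w : Fin (K + 1) → ℝ, co (p + 1) w * idealDir β shift s 0 w =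
        co (p + 1) w * idealF β shift s w + (1 - s) * (co (p + 1) w * Real.tanh (idealZ β shift s 0 w)) :=
      fun w => by simp only [idealDir, idealF]; ring
    simp only [e]
    rw [integral_add ((nice_co _).mul nice_idealF).integrable
        (((nice_co _).mul (nice_tanhZ 0)).const_mul _).integrable, hi, integral_const_mul, hz 0 hm]
    simp
  · simp only [idealDir, mul_sub]
    rw [integral_sub ((nice_co _).mul (nice_tanhZ _)).integrable ((nice_co _).mul (nice_tanhZ _)).integrable,
      hz _ hm, hz _ (by omega)]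
    simp only [Nat.add_sub_cancel, show p + 2 ≤ m + 1 ↔ p + 1 ≤ m by omega]

end scalar

/-- `F_l = f + u tanh Z_l` as a sum of directions. -/
lemma sum_dir (l : ℕ) (w : Fin (K + 1) → ℝ) :
    ∑ m ∈ range (l + 1), up s m * idealDir β shift s m w =
      idealF β shift s w + (1 - s) * Real.tanh (idealZ β shift s l w) := by
  induction l with
  | zero => simp [up, idealDir, idealF]
  | succ l ih => rw [Finset.sum_range_succ, ih]; simp only [up, idealDir]; ring

section evolution

variable (hβ0 : 0 < β) (hβ1 : β < 1) (hc : 4 ≤ shift) (hs0 : 0 < s) (hs1 : s < 1)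
include hβ0 hβ1 hc hs0 hs1

lemma dirVar_pos {l : ℕ} (hl : l ≤ K) : 0 < dirVar K β shift s l := by
  have h := dirVar_eq (K := K) ((abs_of_pos hβ0).le.trans hβ1.le) hc ⟨hs0.le, hs1.le⟩ hl
  have hi : 0 < gamInc β shift s (l + 1) := sub_pos.2 (gamSE_strict hβ0 hβ1 hc hs0 hs1 l)
  rw [← h] at hi
  exact pos_of_mul_pos_right hi (by positivity)

lemma sqrt_gamInc {l : ℕ} (hl : l ≤ K) :
    Real.sqrt (gamInc β shift s (l + 1)) = β * up s l * Real.sqrt (dirVar K β shift s l) := by
  rw [← dirVar_eq (K := K) ((abs_of_pos hβ0).le.trans hβ1.le) hc ⟨hs0.le, hs1.le⟩ hl, ← mul_pow,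
    Real.sqrt_mul (sq_nonneg _), Real.sqrt_sq]
  rcases l with _ | l <;> simp only [up] <;> nlinarith

lemma up_dir_eq {l : ℕ} (hl : l ≤ K) (w : Fin (K + 1) → ℝ) :
    up s l * Real.sqrt (dirVar K β shift s l) * idealE β shift s l w = up s l * idealDir β shift s l w := by
  have h : Real.sqrt (dirVar K β shift s l) ≠ 0 := (Real.sqrt_pos.2 (dirVar_pos hβ0 hβ1 hc hs0 hs1 hl)).ne'
  rw [idealE, ← dirVar]
  field_simp

lemma int_idealE_mul {a b : ℕ} (ha : a ≤ K) (hb : b ≤ K) :
    ∫ w : Fin (K + 1) → ℝ, idealE β shift s a w * idealE β shift s b w ∂gauss (Fin (K + 1)) =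
      if a = b then 1 else 0 := by
  have e : ∀ w : Fin (K + 1) → ℝ, idealE β shift s a w * idealE β shift s b w =
      (1 / (Real.sqrt (dirVar K β shift s a) * Real.sqrt (dirVar K β shift s b))) *
        (idealDir β shift s a w * idealDir β shift s b w) := fun w => by
    simp only [idealE, dirVar]; ring
  have hb' : |β| ≤ 1 := (abs_of_pos hβ0).le.trans hβ1.le
  simp only [e]
  rw [integral_const_mul]
  rcases lt_trichotomy a b with h | rfl | h
  · rw [int_dir_mul_lt hb' hc ⟨hs0.le, hs1.le⟩ h hb, mul_zero, if_neg h.ne]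
  · have hV := dirVar_pos hβ0 hβ1 hc hs0 hs1 ha
    rw [if_pos rfl, Real.mul_self_sqrt hV.le]
    simp only [← sq]
    rw [← dirVar, one_div, inv_mul_cancel₀ hV.ne']
  · simp only [mul_comm (idealDir β shift s a _)]
    rw [int_dir_mul_lt hb' hc ⟨hs0.le, hs1.le⟩ h ha, mul_zero, if_neg h.ne']

/-- The limit of the overlaps `⟨f_l, e_m⟩`. -/
lemma int_step_mul_E {l m : ℕ} (hl : l ≤ K) (hm : m ≤ l) :
    ∫ w : Fin (K + 1) → ℝ, (idealF β shift s w + (1 - s) * Real.tanh (idealZ β shift s l w)) *
        idealE β shift s m w ∂gauss (Fin (K + 1)) = up s m * Real.sqrt (dirVar K β shift s m) := by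
  simp only [← sum_dir, Finset.sum_mul]
  rw [integral_finsetSum _ fun j _ => (((nice_idealDir j).const_mul _).mul (nice_idealE m)).integrable,
    Finset.sum_eq_single m (fun j hj hjm => ?_) (fun h => absurd (mem_range.2 (by omega)) h)]
  · have e : ∀ w : Fin (K + 1) → ℝ, up s m * idealDir β shift s m w * idealE β shift s m w =
        up s m * Real.sqrt (dirVar K β shift s m) * (idealE β shift s m w * idealE β shift s m w) := fun w => by
      rw [← up_dir_eq hβ0 hβ1 hc hs0 hs1 (hm.trans hl)]; ring
    simp only [e]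
    rw [integral_const_mul, int_idealE_mul hβ0 hβ1 hc hs0 hs1 (hm.trans hl) (hm.trans hl), if_pos rfl, mul_one]
  · have hj' : j ≤ K := by have := mem_range.1 hj; omega
    have e : ∀ w : Fin (K + 1) → ℝ, up s j * idealDir β shift s j w * idealE β shift s m w =
        up s j * Real.sqrt (dirVar K β shift s j) * (idealE β shift s j w * idealE β shift s m w) := fun w => by
      rw [← up_dir_eq hβ0 hβ1 hc hs0 hs1 hj']; ring
    simp only [e]
    rw [integral_const_mul, int_idealE_mul hβ0 hβ1 hc hs0 hs1 hj' (hm.trans hl), if_neg hjm, mul_zero]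

/-- Noise plus reaction: the reaction telescopes. -/
lemma sum_idealG {l : ℕ} (hl : l + 1 ≤ K) (w : Fin (K + 1) → ℝ) :
    ∑ m ∈ range (l + 1), β * (up s m * Real.sqrt (dirVar K β shift s m)) * idealG β shift s m w =
      (∑ m ∈ range (l + 1), Real.sqrt (gamInc β shift s (m + 1)) * co (m + 1) w)
        + β ^ 2 * (1 - s) * (1 - qSE (gamSE β shift s l)) * ∑ p ∈ range l, up s p * idealDir β shift s p w := by
  have hb' : |β| ≤ 1 := (abs_of_pos hβ0).le.trans hβ1.le
  induction l with
  | zero =>
    have h := sqrt_gamInc (K := K) hβ0 hβ1 hc hs0 hs1 (Nat.zero_le K)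
    simp only [zero_add, Finset.sum_range_one, Finset.range_zero, Finset.sum_empty, mul_zero, add_zero]
    simp only [idealG, Finset.range_zero, Finset.sum_empty, add_zero]
    rw [h, co]; ring
  | succ l ih =>
    rw [Finset.sum_range_succ, ih (by omega)]
    have hm : l + 1 ≤ K := by omega
    have hG : β * (up s (l + 1) * Real.sqrt (dirVar K β shift s (l + 1))) * idealG β shift s (l + 1) w =
        Real.sqrt (gamInc β shift s (l + 1 + 1)) * co (l + 1 + 1) w
          + β ^ 2 * (1 - s) * ∑ p ∈ range (l + 1), ((1 - qSE (gamSE β shift s (l + 1)))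
              - if p + 1 ≤ l then 1 - qSE (gamSE β shift s l) else 0) * (up s p * idealDir β shift s p w) := by
      rw [idealG, mul_add, sqrt_gamInc (K := K) hβ0 hβ1 hc hs0 hs1 hm, Finset.mul_sum, Finset.mul_sum]
      congr 1
      · rw [co]; ring
      refine Finset.sum_congr rfl fun p hp => ?_
      have hp' : p ≤ l := Nat.lt_succ_iff.1 (mem_range.1 hp)
      have hi : ∫ t : Fin (K + 1) → ℝ, (if h : p + 1 < K + 1 then t ⟨p + 1, h⟩ else 0) *
          idealE β shift s (l + 1) t ∂gauss (Fin (K + 1)) =
          (Real.sqrt (dirVar K β shift s (l + 1)))⁻¹ * (Real.sqrt (gamInc β shift s (p + 1)) *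
            ((1 - qSE (gamSE β shift s (l + 1))) - if p + 1 ≤ l then 1 - qSE (gamSE β shift s l) else 0)) := by
        have e : ∀ t : Fin (K + 1) → ℝ, (if h : p + 1 < K + 1 then t ⟨p + 1, h⟩ else 0) * idealE β shift s (l + 1) t =
            (Real.sqrt (dirVar K β shift s (l + 1)))⁻¹ * (co (p + 1) t * idealDir β shift s (l + 1) t) := fun t => by
          simp only [idealE, dirVar, co]; ring
        simp only [e]
        rw [integral_const_mul, int_co_dir hb' hc ⟨hs0.le, hs1.le⟩ (by omega) hm, if_pos (by omega)]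
        simp only [Nat.add_sub_cancel, show p + 2 ≤ l + 1 ↔ p + 1 ≤ l by omega]
      rw [hi, sqrt_gamInc (K := K) hβ0 hβ1 hc hs0 hs1 (show p ≤ K by omega)]
      have hV : Real.sqrt (dirVar K β shift s (l + 1)) ≠ 0 :=
        (Real.sqrt_pos.2 (dirVar_pos hβ0 hβ1 hc hs0 hs1 hm)).ne'
      have hVp : Real.sqrt (dirVar K β shift s p) ≠ 0 :=
        (Real.sqrt_pos.2 (dirVar_pos hβ0 hβ1 hc hs0 hs1 (show p ≤ K by omega))).ne'
      rw [show idealE β shift s p w = idealDir β shift s p w / Real.sqrt (dirVar K β shift s p) from rfl]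
      simp only [up]
      field_simp
    have hsplit : ∀ (A B : ℝ) (Xp : ℕ → ℝ),
        ∑ p ∈ range (l + 1), (A - if p + 1 ≤ l then B else 0) * Xp p =
          A * (∑ p ∈ range (l + 1), Xp p) - B * ∑ p ∈ range l, Xp p := by
      intro A B Xp
      simp only [Finset.sum_range_succ _ l, if_neg (show ¬ l + 1 ≤ l by omega), sub_zero, mul_add]
      rw [Finset.sum_congr rfl fun p hp => by rw [if_pos (Nat.succ_le_of_lt (mem_range.1 hp))], ← Finset.mul_sum]
      ring
    rw [hG, hsplit, Finset.sum_range_succ _ (l + 1)]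
    ring

/-- The limit of one step is the next field. -/
lemma ideal_step {l : ℕ} (hl : l + 1 ≤ K) (w : Fin (K + 1) → ℝ) :
    (∑ m ∈ range (l + 1), β * (up s m * Real.sqrt (dirVar K β shift s m)) * idealG β shift s m w)
      + (β ^ 2 * (s + (1 - s) * qSE (gamSE β shift s l))
        - β ^ 2 * (Real.sqrt s * (plantVar β shift + (1 - s) * (1 - qSE (gamSE β shift s l))))
          * (Real.sqrt (plantVar β shift) * w 0))
      + shift * idealF β shift s w
      + β ^ 2 * (1 - s) * (1 - qSE (gamSE β shift s l)) *
          (idealF β shift s w - ∑ p ∈ range l, up s p * idealDir β shift s p w) =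
      idealZ β shift s (l + 1) w := by
  have hb' : |β| ≤ 1 := (abs_of_pos hβ0).le.trans hβ1.le
  have hv := plantVar_pos (β := β) hc
  rw [sum_idealG hβ0 hβ1 hc hs0 hs1 hl]
  have hZ : idealZ β shift s (l + 1) w = gamSE β shift s (l + 1) + (Real.sqrt (gamInc β shift s 0) * w 0
      + ∑ m ∈ range (l + 1), Real.sqrt (gamInc β shift s (m + 1)) * co (m + 1) w) := by
    rw [idealZ]
    congr 1
    have h := sum_le_eq_range (K := K) hl (fun j => Real.sqrt (gamInc β shift s j) * co j w)
    rw [Finset.sum_range_succ' _ (l + 1)] at h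
    rw [add_comm (Real.sqrt (gamInc β shift s 0) * w 0)]
    refine Eq.trans (Finset.sum_congr rfl fun j _ => ?_) (h.trans ?_)
    · split_ifs
      · rw [co, dif_pos j.isLt]
      · rfl
    · congr 2
  rw [hZ]
  have hz0 : Real.sqrt (gamInc β shift s 0) = Real.sqrt s / Real.sqrt (plantVar β shift) := by
    simp only [gamInc, gamSE]; exact Real.sqrt_div' _ hv.le
  have hγ : gamSE β shift s (l + 1) = shift * s + β ^ 2 * (1 - (1 - s) ^ 2)
      + β ^ 2 * (1 - s) ^ 2 * qSE (gamSE β shift s l) := rfl
  rw [hz0, hγ, idealF]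
  have hk := Real.sq_sqrt hv.le
  have hkne : Real.sqrt (plantVar β shift) ≠ 0 := (Real.sqrt_pos.2 hv).ne'
  have hrel := plantVar_eq hb' hc
  generalize plantVar β shift = v at hk hkne hrel
  generalize Real.sqrt v = k at hk hkne
  subst hk
  field_simp
  linear_combination (-Real.sqrt s * w 0) * hrel

end evolution

/-- The first field is `f / v`. -/
lemma idealZ_zero (hc : 4 ≤ shift) (w : Fin (K + 1) → ℝ) :
    idealF β shift s w / plantVar β shift = idealZ β shift s 0 w := by
  rw [idealZ_eq, show dot (zCoef β shift s K 0) w = Real.sqrt (gamInc β shift s 0) * w 0 by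
    rw [dot, Finset.sum_eq_single (0 : Fin (K + 1)) (fun j _ hj => by
        rw [zCoef, if_neg (by intro h; exact hj (Fin.ext (by simpa using h))), zero_mul]) (by simp),
      zCoef_apply (l := 0) 0 (show ((0 : Fin (K + 1)) : ℕ) ≤ 0 by simp)]
    rfl]
  have hv := plantVar_pos (β := β) hc
  simp only [gamInc, gamSE, idealF]
  rw [Real.sqrt_div' _ hv.le]
  have hk := Real.sq_sqrt hv.le
  have hkne : Real.sqrt (plantVar β shift) ≠ 0 := (Real.sqrt_pos.2 hv).ne'
  field_simp
  linear_combination (Real.sqrt s * w 0) * hk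

/-! ### The iteration -/

variable {n : ℕ}

lemma histStep_congr {e e' G G' : ℕ → Fin n → ℝ} {L : ℕ} (he : ∀ m < L, e m = e' m)
    (hG : ∀ m < L, G m = G' m) (ξ f p : Fin n → ℝ) :
    histStep β shift e G ξ f p L = histStep β shift e' G' ξ f p L := by
  funext i
  simp only [histStep]
  congr 3
  exact Finset.sum_congr rfl fun m hm => by rw [he m (mem_range.1 hm), hG m (mem_range.1 hm)]

lemma histZ_congr {e e' G G' : ℕ → Fin n → ℝ} (z : Fin n → ℝ) {j : ℕ} :
    (∀ m < j, e m = e' m) → (∀ m < j, G m = G' m) →
    histZ β shift s z e G j = histZ β shift s z e' G' j := by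
  induction j using Nat.twoStepInduction with
  | zero => intro _ _; funext i; simp [histZ]
  | one =>
    intro he hG; funext i; simp only [histZ]; rw [histStep_congr he hG]
  | more l h1 h2 =>
    intro he hG
    funext i
    simp only [histZ]
    rw [histStep_congr he hG, h1 (fun m hm => he m (by omega)) (fun m hm => hG m (by omega)),
      h2 (fun m hm => he m (by omega)) (fun m hm => hG m (by omega))]

lemma state_dir (x : Rule n) (r : Resp n) {K l : ℕ} (hl : l < K)
    (hx : x l (state x r l).1 (state x r l).2 = x l (state x r K).1 (state x r K).2) :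
    (state x r K).1 l = gsStep (state x r K).1 l (x l (state x r K).1 (state x r K).2) := by
  rw [← hx, (state_stable x r hl).1]
  simp only [state, Function.update_self, gsStep]
  have he : ∀ m ∈ range l, (state x r l).1 m = (state x r K).1 m := fun m hm => by
    rw [(state_stable x r (mem_range.1 hm)).1, (state_stable x r ((mem_range.1 hm).trans hl)).1]
  have : ∑ m ∈ range l, dot (x l (state x r l).1 (state x r l).2) ((state x r l).1 m) • (state x r l).1 m =
      ∑ m ∈ range l, dot (x l (state x r l).1 (state x r l).2) ((state x r K).1 m) • (state x r K).1 m :=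
    Finset.sum_congr rfl fun m hm => by rw [he m hm]
  rw [this]

lemma ampRule_congr {e e' G G' : ℕ → Fin n → ℝ} (z : Fin n → ℝ) : ∀ {l : ℕ},
    (∀ m < l, e m = e' m) → (∀ m < l, G m = G' m) → ampRule β shift s z l e G = ampRule β shift s z l e' G'
  | 0, _, _ => rfl
  | l + 1, he, hG => by
    funext i
    simp only [ampRule]
    rw [histZ_congr z he hG, histZ_congr z (fun m hm => he m (by omega)) (fun m hm => hG m (by omega))]

lemma ampState_dir {ω : Fin n → Fin (K + 1) → ℝ} {l : ℕ} (hl : l < K) :
    (ampState β shift s K n ω).1 l = gsStep (ampState β shift s K n ω).1 l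
      (ampRule β shift s (noiseZ ω) l (ampState β shift s K n ω).1 (ampState β shift s K n ω).2) := by
  refine state_dir _ _ hl (ampRule_congr _ (fun m hm => ?_) fun m hm => ?_)
  · rw [(state_stable _ _ hm).1, (state_stable _ _ (hm.trans hl)).1]
  · rw [(state_stable _ _ hm).2, (state_stable _ _ (hm.trans hl)).2]

/-- `√n e`. -/
noncomputable def eBar (β shift s : ℝ) (K l n : ℕ) (ω : Fin n → Fin (K + 1) → ℝ) (i : Fin n) : ℝ :=
  Real.sqrt n * (ampState β shift s K n ω).1 l i

lemma eBar_avg (l : ℕ) (v : Fin n → ℝ) (ω : Fin n → Fin (K + 1) → ℝ) (i : Fin n) :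
    (∑ j, v j * eBar β shift s K l n ω j) / n * eBar β shift s K l n ω i =
      dot v ((ampState β shift s K n ω).1 l) * (ampState β shift s K n ω).1 l i := by
  have hn : (0 : ℝ) < n := Nat.cast_pos.2 (Nat.pos_of_ne_zero fun h => by subst h; exact i.elim0)
  simp only [eBar, dot, mul_left_comm (v _) (Real.sqrt n), ← Finset.mul_sum]
  have := Real.mul_self_sqrt hn.le
  field_simp
  linear_combination ((∑ j, v j * (ampState β shift s K n ω).1 l j) * (ampState β shift s K n ω).1 l i) * this

theorem seStatement : SEStatement := by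
  intro β shift s hβ0 hβ1 hc hs0 hs1 K
  have hb' : |β| ≤ 1 := (abs_of_pos hβ0).le.trans hβ1.le
  have hs : s ∈ Set.Icc (0 : ℝ) 1 := ⟨hs0.le, hs1.le⟩
  set Z : ℕ → ∀ n, (Fin n → Fin (K + 1) → ℝ) → Fin n → ℝ := fun l n ω i =>
    histZ β shift s (noiseZ ω) (ampState β shift s K n ω).1 (ampState β shift s K n ω).2 l i with hZdef
  set G : ℕ → ∀ n, (Fin n → Fin (K + 1) → ℝ) → Fin n → ℝ := fun l n ω i =>
    (ampState β shift s K n ω).2 l i with hGdef
  have hXi : VecLim K (fun n ω i => prodXi β shift (noiseZ ω) i) (fun w => Real.sqrt (plantVar β shift) * w 0) :=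
    VecLim.exact' (K := K) fun w => Real.sqrt (plantVar β shift) * w 0
  have hF : VecLim K (fun n ω i => prodF β shift s (noiseZ ω) i) (idealF β shift s) :=
    VecLim.exact' (K := K) (idealF β shift s)
  have hH : ∀ m, VecLim K (fun n ω i => noiseEta ω m i) (co (m + 1)) := fun m => VecLim.exact' (K := K) (co (m + 1))
  have hZ0 : VecLim K (Z 0) (idealZ β shift s 0) :=
    (VecLim.exact' (K := K) fun w => idealF β shift s w / plantVar β shift).congr
      (fun n _ ω i => by simp only [hZdef, histZ]; rfl) (idealZ_zero hc)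
  -- one step
  have step : ∀ l, l < K → (∀ j ≤ l, VecLim K (Z j) (idealZ β shift s j)) →
      (∀ m < l, VecLim K (eBar β shift s K m) (idealE β shift s m)) →
      (∀ m < l, VecLim K (G m) (idealG β shift s m)) →
      VecLim K (eBar β shift s K l) (idealE β shift s l) ∧ VecLim K (G l) (idealG β shift s l) ∧
        VecLim K (Z (l + 1)) (idealZ β shift s (l + 1)) := by
    intro l hl hZ hE hG
    set X : ∀ n, (Fin n → Fin (K + 1) → ℝ) → Fin n → ℝ := fun n ω i =>
      ampRule β shift s (noiseZ ω) l (ampState β shift s K n ω).1 (ampState β shift s K n ω).2 i with hXdef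
    have hX : VecLim K X (idealDir β shift s l) := by
      rcases l with _ | l
      · exact (hF.add ((hZ 0 le_rfl).tanh.const_mul (nice_tanhZ 0) (1 - s))).congr
          (fun n _ ω i => by simp only [hXdef, hZdef, ampRule, histZ]) fun w => by simp only [idealDir, idealF]
      · exact ((hZ (l + 1) le_rfl).tanh.add ((hZ l (Nat.le_succ l)).tanh.const_mul (nice_tanhZ l) (-1))).congr
          (fun n _ ω i => by simp only [hXdef, hZdef, ampRule]; ring) fun w => by simp only [idealDir]; ring
    -- the residual of Gram-Schmidt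
    have hR : VecLim K (fun n ω i => X n ω i +
        ∑ m ∈ range l, (-1 * ((∑ j, X n ω j * eBar β shift s K m n ω j) / n)) * eBar β shift s K m n ω i)
        (idealDir β shift s l) := by
      have h := hX.add (VecLim.sum (range l) fun m hm =>
        (hE m (mem_range.1 hm)).smul
          (((hX.dot (hE m (mem_range.1 hm)) (nice_idealDir l) (nice_idealE m))).const_mul (-1)) (nice_idealE m))
      refine h.congr (fun _ _ _ _ => rfl) fun w => ?_
      rw [Finset.sum_eq_zero fun m hm => ?_, add_zero]
      have hm' := mem_range.1 hm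
      have : ∫ t : Fin (K + 1) → ℝ, idealDir β shift s l t * idealE β shift s m t ∂gauss (Fin (K + 1)) = 0 := by
        have e : ∀ t : Fin (K + 1) → ℝ, idealDir β shift s l t * idealE β shift s m t =
            (Real.sqrt (dirVar K β shift s m))⁻¹ * (idealDir β shift s m t * idealDir β shift s l t) := fun t => by
          simp only [idealE, dirVar]; ring
        simp only [e]
        rw [integral_const_mul, int_dir_mul_lt hb' hc hs hm' hl.le, mul_zero]
      rw [this]; ring
    have hEl : VecLim K (eBar β shift s K l) (idealE β shift s l) := by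
      have hn2 := hR.dot hR (nice_idealDir l) (nice_idealDir l)
      simp only [← sq] at hn2
      have hV := dirVar_pos (K := K) hβ0 hβ1 hc hs0 hs1 hl.le
      have hinv := hn2.comp (F := fun x => (Real.sqrt x)⁻¹)
        (Real.continuous_sqrt.continuousAt.inv₀ (Real.sqrt_pos.2 hV).ne')
      refine (hR.smul hinv (nice_idealDir l)).congr (fun n hn ω i => ?_) fun w => ?_
      · have hn' : (0 : ℝ) < n := Nat.cast_pos.2 hn
        have hres : ∀ i, X n ω i + ∑ m ∈ range l,
            (-1 * ((∑ j, X n ω j * eBar β shift s K m n ω j) / n)) * eBar β shift s K m n ω i =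
            (X n ω - ∑ m ∈ range l, dot (X n ω) ((ampState β shift s K n ω).1 m) •
              (ampState β shift s K n ω).1 m) i := fun i => by
          simp only [neg_mul, one_mul, Finset.sum_neg_distrib, eBar_avg, Pi.sub_apply, Finset.sum_apply,
            Pi.smul_apply, smul_eq_mul, ← sub_eq_add_neg]
        simp only [hres]
        simp only [eBar]
        rw [ampState_dir hl]
        simp only [gsStep, Pi.smul_apply, smul_eq_mul, dot]
        rw [show ampRule β shift s (noiseZ ω) l (ampState β shift s K n ω).1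
          (ampState β shift s K n ω).2 = X n ω from rfl]
        rw [Real.sqrt_div' _ hn'.le, inv_div]
        simp only [← sq]
        ring
      · simp only [idealE, sq, div_eq_inv_mul]
    have hEall : ∀ m ≤ l, VecLim K (eBar β shift s K m) (idealE β shift s m) := fun m hm => by
      rcases hm.eq_or_lt with rfl | h
      exacts [hEl, hE m h]
    have hGl : VecLim K (G l) (idealG β shift s l) := by
      have hη := hH l
      have d1 := hEl.dot hEl (nice_idealE l) (nice_idealE l)
      rw [int_idealE_mul hβ0 hβ1 hc hs0 hs1 hl.le hl.le, if_pos rfl] at d1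
      have hzero : ∀ m ≤ l, ∫ t : Fin (K + 1) → ℝ, co (l + 1) t * idealE β shift s m t ∂gauss (Fin (K + 1)) = 0 := by
        intro m hm
        have e : ∀ t : Fin (K + 1) → ℝ, co (l + 1) t * idealE β shift s m t =
            (Real.sqrt (dirVar K β shift s m))⁻¹ * (co (l + 1) t * idealDir β shift s m t) := fun t => by
          simp only [idealE, dirVar]; ring
        simp only [e]
        rw [integral_const_mul, int_co_dir hb' hc hs hl (hm.trans hl.le), if_neg (by omega), if_neg (by omega)]
        simp
      have hsum := VecLim.sum (range l) fun m hm =>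
        (hE m (mem_range.1 hm)).smul
          ((hη.dot (hE m (mem_range.1 hm)) (nice_co _) (nice_idealE m)).const_mul (-1)) (nice_idealE m)
      have hperp := hη.add hsum
      have hp1 := hperp.smul d1 ((nice_co _).add (Nice.sum _ fun m _ => (nice_idealE m).const_mul _))
      have hp2 := hEl.smul ((hη.dot hEl (nice_co _) (nice_idealE l)).const_mul (Real.sqrt 2 - 1)) (nice_idealE l)
      have hp3 := VecLim.sum (range l) fun m hm =>
        (hE m (mem_range.1 hm)).smul ((hH m).dot hEl (nice_co _) (nice_idealE l)) (nice_idealE m)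
      refine ((hp1.add hp2).add hp3).congr (fun n hn ω i => ?_) fun w => ?_
      · have hn' : (0 : ℝ) < n := Nat.cast_pos.2 hn
        have hss : (∑ j, eBar β shift s K l n ω j * eBar β shift s K l n ω j) / (n : ℝ) =
            dot ((ampState β shift s K n ω).1 l) ((ampState β shift s K n ω).1 l) := by
          simp only [eBar, dot, mul_mul_mul_comm (Real.sqrt n), Real.mul_self_sqrt hn'.le, ← Finset.mul_sum]
          field_simp
        have hmix : ∀ m, (∑ j, noiseEta ω m j * eBar β shift s K l n ω j) / n * eBar β shift s K m n ω i =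
            dot (noiseEta ω m) ((ampState β shift s K n ω).1 l) * (ampState β shift s K n ω).1 m i := fun m => by
          simp only [eBar, dot, mul_left_comm (noiseEta ω m _) (Real.sqrt n), ← Finset.mul_sum]
          have := Real.mul_self_sqrt hn'.le
          field_simp
          linear_combination ((∑ j, noiseEta ω m j * (ampState β shift s K n ω).1 l j) *
            (ampState β shift s K n ω).1 m i) * this
        simp only [hGdef, hss, hmix, neg_mul, one_mul, Finset.sum_neg_distrib, eBar_avg,
          mul_assoc (Real.sqrt 2 - 1)]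
        rw [show (ampState β shift s K n ω).2 l = freshResp (noiseEta ω) l (ampState β shift s K n ω).1
          ((ampState β shift s K n ω).1 l) from state_image _ _ hl]
        simp only [freshResp, Pi.add_apply, Pi.smul_apply, Pi.sub_apply, Finset.sum_apply, smul_eq_mul]
        ring
      · rw [hzero l le_rfl, Finset.sum_eq_zero (fun m hm => by rw [hzero m (mem_range.1 hm).le]; ring)]
        simp only [idealG, co]
        ring
    have hGall : ∀ m ≤ l, VecLim K (G m) (idealG β shift s m) := fun m hm => by
      rcases hm.eq_or_lt with rfl | h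
      exacts [hGl, hG m h]
    refine ⟨hEl, hGl, ?_⟩
    -- the next field
    have hP : VecLim K (fun n ω i => prodF β shift s (noiseZ ω) i + (1 - s) * Real.tanh (Z l n ω i))
        (fun w => idealF β shift s w + (1 - s) * Real.tanh (idealZ β shift s l w)) :=
      hF.add ((hZ l le_rfl).tanh.const_mul (nice_tanhZ l) (1 - s))
    have nP : Nice fun w : Fin (K + 1) → ℝ => idealF β shift s w + (1 - s) * Real.tanh (idealZ β shift s l w) :=
      nice_idealF.add ((nice_tanhZ l).const_mul _)
    have hW := VecLim.sum (range (l + 1)) fun m hm =>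
      (hGall m (Nat.lt_succ_iff.1 (mem_range.1 hm))).smul
        ((hP.dot (hEall m (Nat.lt_succ_iff.1 (mem_range.1 hm))) nP (nice_idealE m)).const_mul β) (nice_idealG m)
    have hmean : ∫ w : Fin (K + 1) → ℝ, (idealF β shift s w + (1 - s) * Real.tanh (idealZ β shift s l w))
        ∂gauss (Fin (K + 1)) = s + (1 - s) * qSE (gamSE β shift s l) := by
      rw [integral_add nice_idealF.integrable ((nice_tanhZ l).const_mul _).integrable, integral_const_mul,
        int_tanh hb' hc hs hl.le]
      congr 1
      simp only [idealF]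
      rw [integral_add (integrable_const _) (((Nice.coord 0).const_mul _).const_mul _).integrable,
        integral_const_mul, integral_const_mul]
      have h0 : ∫ w : Fin (K + 1) → ℝ, w 0 ∂gauss (Fin (K + 1)) = 0 := by simpa [co] using int_co (K := K) 0
      simp [h0]
    have hxi : ∫ w : Fin (K + 1) → ℝ, Real.sqrt (plantVar β shift) * w 0 *
        (idealF β shift s w + (1 - s) * Real.tanh (idealZ β shift s l w)) ∂gauss (Fin (K + 1)) =
        Real.sqrt s * (plantVar β shift + (1 - s) * (1 - qSE (gamSE β shift s l))) := by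
      set k := Real.sqrt (plantVar β shift) with hk
      have e : ∀ w : Fin (K + 1) → ℝ, k * w 0 * (idealF β shift s w + (1 - s) * Real.tanh (idealZ β shift s l w)) =
          ((k * s) * w 0 + (Real.sqrt s * (k * k)) * (w 0 * w 0))
            + (k * (1 - s)) * (w 0 * Real.tanh (idealZ β shift s l w)) := fun w => by
        simp only [idealF, ← hk]; ring
      simp only [e]
      have i1 := ((Nice.coord (ι := Fin (K + 1)) 0).const_mul (k * s)).integrable
      have i2 := (((Nice.coord (ι := Fin (K + 1)) 0).mul (Nice.coord 0)).const_mul (Real.sqrt s * (k * k))).integrable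
      rw [integral_add (i1.fun_add i2) (((Nice.coord 0).mul (nice_tanhZ l)).const_mul _).integrable,
        integral_add i1 i2, integral_const_mul, integral_const_mul, integral_const_mul, int_coord_mul,
        int_coord_tanh hb' hc hs hl.le, zCoef_apply 0 (Nat.zero_le l)]
      have h0 : ∫ w : Fin (K + 1) → ℝ, w 0 ∂gauss (Fin (K + 1)) = 0 := by simpa [co] using int_co (K := K) 0
      have hv := plantVar_pos (β := β) hc
      have hz : k * Real.sqrt (gamInc β shift s ((0 : Fin (K + 1)) : ℕ)) = Real.sqrt s := by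
        simp only [Fin.val_zero, gamInc, gamSE, hk]
        rw [Real.sqrt_div' _ hv.le, mul_div_cancel₀ _ (Real.sqrt_pos.2 hv).ne']
      rw [h0, show k * k = plantVar β shift from Real.mul_self_sqrt hv.le, if_pos rfl]
      linear_combination ((1 - s) * (1 - qSE (gamSE β shift s l))) * hz
    have hone : VecLim K (fun n _ _ => (1 : ℝ)) (fun _ => 1) := VecLim.exact' (K := K) fun _ => 1
    have hr1 := hone.smul ((hP.mean nP).const_mul (β ^ 2)) (Nice.const 1)
    have hr2 := hXi.smul ((hXi.dot hP ((Nice.coord 0).const_mul _) nP).const_mul (-β ^ 2)) ((Nice.coord 0).const_mul _)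
    rw [hmean] at hr1
    rw [hxi] at hr2
    have hsh := hF.const_mul nice_idealF shift
    have hall := ((hW.add (hr1.add hr2)).add hsh)
    have hOns : VecLim K (fun n ω i => Z (l + 1) n ω i -
          histStep β shift (ampState β shift s K n ω).1 (ampState β shift s K n ω).2 (prodXi β shift (noiseZ ω))
            (prodF β shift s (noiseZ ω)) (fun j => prodF β shift s (noiseZ ω) j + (1 - s) * Real.tanh (Z l n ω j))
            (l + 1) i)
        (fun w => β ^ 2 * (1 - s) * (1 - qSE (gamSE β shift s l)) *
          (idealF β shift s w - ∑ p ∈ range l, up s p * idealDir β shift s p w)) := by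
      rcases l with _ | l
      · exact (hF.const_mul nice_idealF (β ^ 2 * (1 - s) * (1 - qSE (gamSE β shift s 0)))).congr
          (fun n _ ω i => by simp only [hZdef, histZ, zero_add]; ring) fun w => by simp
      · exact ((hZ l (Nat.le_succ l)).tanh.const_mul (nice_tanhZ l)
          (-(β ^ 2 * (1 - s) ^ 2 * (1 - qSE (gamSE β shift s (l + 1)))))).congr
          (fun n _ ω i => by simp only [hZdef, histZ]; ring) fun w => by rw [sum_dir]; ring
    refine (hall.add hOns).congr (fun n hn ω i => ?_) fun w => ?_
    · have hn' : (0 : ℝ) < n := Nat.cast_pos.2 hn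
      have hs' : ∑ m ∈ range (l + 1), β * ((∑ j, (prodF β shift s (noiseZ ω) j + (1 - s) * Real.tanh (Z l n ω j))
            * eBar β shift s K m n ω j) / n) * G m n ω i =
          β / Real.sqrt n * ∑ m ∈ range (l + 1),
            dot (fun j => prodF β shift s (noiseZ ω) j + (1 - s) * Real.tanh (Z l n ω j))
              ((ampState β shift s K n ω).1 m) * (ampState β shift s K n ω).2 m i := by
        rw [Finset.mul_sum]
        refine Finset.sum_congr rfl fun m _ => ?_
        simp only [hGdef, eBar, dot, mul_left_comm _ (Real.sqrt n), ← Finset.mul_sum]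
        have hsq := Real.mul_self_sqrt hn'.le
        have : Real.sqrt n ≠ 0 := (Real.sqrt_pos.2 hn').ne'
        field_simp
        linear_combination ((∑ j, (prodF β shift s (noiseZ ω) j + (1 - s) * Real.tanh (Z l n ω j)) *
          (ampState β shift s K n ω).1 m j) * (ampState β shift s K n ω).2 m i) * hsq
      simp only [hs']
      simp only [histStep, rankTwo, dot]
      ring
    · rw [← ideal_step hβ0 hβ1 hc hs0 hs1 hl w,
        Finset.sum_congr rfl fun m hm => by
          rw [int_step_mul_E hβ0 hβ1 hc hs0 hs1 hl.le (Nat.lt_succ_iff.1 (mem_range.1 hm))]]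
      ring
  have all : ∀ l ≤ K, (∀ j ≤ l, VecLim K (Z j) (idealZ β shift s j)) ∧
      (∀ m < l, VecLim K (eBar β shift s K m) (idealE β shift s m)) ∧
      (∀ m < l, VecLim K (G m) (idealG β shift s m)) := by
    intro l
    induction l with
    | zero =>
      refine fun _ => ⟨fun j hj => ?_, fun m hm => absurd hm (Nat.not_lt_zero m), fun m hm => absurd hm (Nat.not_lt_zero m)⟩
      rw [Nat.le_zero.1 hj]; exact hZ0
    | succ l ih =>
      intro hl
      obtain ⟨hZ, hE, hG⟩ := ih (by omega)
      obtain ⟨h1, h2, h3⟩ := step l (by omega) hZ hE hG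
      refine ⟨fun j hj => ?_, fun m hm => ?_, fun m hm => ?_⟩
      · rcases hj.eq_or_lt with rfl | h
        exacts [h3, hZ j (by omega)]
      · rcases (Nat.lt_succ_iff.1 hm).eq_or_lt with rfl | h
        exacts [h1, hE m h]
      · rcases (Nat.lt_succ_iff.1 hm).eq_or_lt with rfl | h
        exacts [h2, hG m h]
  intro l hl
  obtain ⟨hZ, hE, hG⟩ := all (l + 1) hl
  exact ⟨hZ l (Nat.le_succ l), hZ (l + 1) le_rfl, hE l (Nat.lt_succ_self l), hG l (Nat.lt_succ_self l)⟩

end Vale.Agent.P150.High.Amp
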