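import Vale.Agent.P150.Defs
import Vale.Agent.P150.Mixing

/-!
# P150, all `β < 1`: global facts on the resolvents, uniform in the profile

For a profile `D ∈ [0,1]ⁿ` and `θ`, with `a = β² u²` and `b = θ + a mean (D/(1+θD))`, put
`V = b - u J` and `H = -V (1 + D V)⁻¹`; then `D + D H D` is the inverse of `1/D + V`.  The
prediction is `H_jj ≈ -θ/(1+θ D_j)` and `(H ∘ H)_jk ≈ a w_j w_k / (n (1 - a Γ₂))` off the diagonal.
All statements hold for every profile at once, under the plain disorder; the mean-square ones at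
superexponential rate on the event `|cpl β g| ≤ 3`.
-/

open MeasureTheory Filter Matrix
open scoped Topology

namespace Vale.Agent.P150.High

open Vale.Agent.P150

variable {n : ℕ}

/-- `w_j = 1/(1+θ D_j)²`. -/
noncomputable def resWeight (θ : ℝ) (D : Fin n → ℝ) (j : Fin n) : ℝ := 1 / (1 + θ * D j) ^ 2

/-- `Γ₂ = mean D² w`. -/
noncomputable def gamTwo (θ : ℝ) (D : Fin n → ℝ) : ℝ := (∑ j, D j ^ 2 * resWeight θ D j) / n

/-- The diagonal shift `b`. -/
noncomputable def resShift (β u θ : ℝ) (D : Fin n → ℝ) : ℝ :=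
  θ + β ^ 2 * u ^ 2 * ((∑ j, D j / (1 + θ * D j)) / n)

/-- `V = b - u J`. -/
noncomputable def resV (β u θ : ℝ) (g : Edge n → ℝ) (D : Fin n → ℝ) : Matrix (Fin n) (Fin n) ℝ :=
  resShift β u θ D • (1 : Matrix (Fin n) (Fin n) ℝ) - u • Matrix.of (cpl β g)

/-- `H = -V (1 + D V)⁻¹`. -/
noncomputable def resH (β u θ : ℝ) (g : Edge n → ℝ) (D : Fin n → ℝ) : Matrix (Fin n) (Fin n) ℝ :=
  -(resV β u θ g D * (1 + Matrix.diagonal D * resV β u θ g D)⁻¹)

/-- The predicted diagonal of `H`. -/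
noncomputable def resPhi (θ : ℝ) (D : Fin n → ℝ) (j : Fin n) : ℝ := -θ / (1 + θ * D j)

/-- An admissible triple: a profile in the cube, a positive inverse, a stable fixed point. -/
def Admissible (β η u θ : ℝ) (g : Edge n → ℝ) (D : Fin n → ℝ) : Prop :=
  0 ≤ u ∧ u ≤ 2 ∧ |θ| ≤ 1 / 2 ∧ (∀ j, 0 ≤ D j ∧ D j ≤ 1) ∧
    β ^ 2 * u ^ 2 * gamTwo θ D ≤ 1 - η ∧
    ∀ v : Fin n → ℝ, η * ∑ j, (D j * v j) ^ 2 ≤
      ∑ j, D j * v j ^ 2 + dotProduct (fun j => D j * v j) (resV β u θ g D *ᵥ fun j => D j * v j)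

/-- The bilinear form of `M` is at most `L`. -/
def OpLe (M : Matrix (Fin n) (Fin n) ℝ) (L : ℝ) : Prop :=
  ∀ v w : Fin n → ℝ,
    |dotProduct v (M *ᵥ w)| ≤ L * Real.sqrt (dotProduct v v) * Real.sqrt (dotProduct w w)

/-- `DiagMean.lean`: the diagonal prediction in mean square, for all profiles at once. -/
def DiagMeanStatement : Prop :=
  ∀ β η ε C : ℝ, 0 ≤ β → β < 1 → 0 < η → 0 < ε → ∀ᶠ n : ℕ in atTop,
    (disorder n).real {g | OpLe (Matrix.of (cpl β g)) 3 ∧ ∃ u θ D, Admissible β η u θ g D ∧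
      ε * n < ∑ j, (resH β u θ g D j j - resPhi θ D j) ^ 2} ≤ Real.exp (-(C * n))

/-- `FourMean.lean`: fourth powers off the diagonal, for all profiles at once. -/
def FourMeanStatement : Prop :=
  ∀ β η ε C : ℝ, 0 ≤ β → β < 1 → 0 < η → 0 < ε → ∀ᶠ n : ℕ in atTop,
    (disorder n).real {g | OpLe (Matrix.of (cpl β g)) 3 ∧ ∃ u θ D, Admissible β η u θ g D ∧
      ε * n < ∑ j, ∑ k, if j = k then 0 else resH β u θ g D j k ^ 4} ≤ Real.exp (-(C * n))

/-- `SchurOp.lean`: the Schur square off the diagonal in operator norm, given small entries. -/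
def SchurOpStatement : Prop :=
  ∀ β η ε : ℝ, 0 ≤ β → β < 1 → 0 < η → 0 < ε → ∃ δ c : ℝ, 0 < δ ∧ 0 < c ∧ ∀ᶠ n : ℕ in atTop,
    (disorder n).real {g | ∃ u θ D, Admissible β η u θ g D ∧
      (∀ j k, j ≠ k → |resH β u θ g D j k| ≤ δ) ∧
      ¬ OpLe (Matrix.of fun j k => if j = k then 0 else resH β u θ g D j k ^ 2 -
          β ^ 2 * u ^ 2 / (1 - β ^ 2 * u ^ 2 * gamTwo θ D) * resWeight θ D j * resWeight θ D k / n) ε}
      ≤ Real.exp (-(c * n))

end Vale.Agent.P150.High
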