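import Vale.Agent.P150.High.PlantedSpec
import Vale.Agent.P150.High.ResolventSpec

/-!
# P150, all `β < 1`: AMP centre, residual, spectral margin, maxima over the ball

With `f = A⁻¹ y` the iteration starts at `f/v` and stays on the Nishimori line:
`γ₀ = s/v`, `γ' = shift s + β² (1-(1-s)²) + β² (1-s)² q(γ)`, and the `l`-th field is a Gaussian
process in `l` with mean `γ_l` and independent increments of variance `γ_{l+1} - γ_l`.
-/

open MeasureTheory ProbabilityTheory Filter Matrix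
open scoped Topology

namespace Vale.Agent.P150.High

open Vale.Agent.P150

variable {n : ℕ}

/-- `q(γ) = E tanh²(γ + √γ G)`. -/
noncomputable def qSE (γ : ℝ) : ℝ := ∫ t, Real.tanh (γ + Real.sqrt γ * t) ^ 2 ∂gaussianReal 0 1

/-- State evolution. -/
noncomputable def gamSE (β shift s : ℝ) : ℕ → ℝ
  | 0 => s / plantVar β shift
  | l + 1 => shift * s + β ^ 2 * (1 - (1 - s) ^ 2) + β ^ 2 * (1 - s) ^ 2 * qSE (gamSE β shift s l)

/-- The AMP fields, from `y` and `f = A⁻¹ y`. -/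
noncomputable def ampZ (β shift s : ℝ) (J : Fin n → Fin n → ℝ) (y f : Fin n → ℝ) :
    ℕ → Fin n → ℝ
  | 0 => fun i => f i / plantVar β shift
  | 1 => fun i => y i + (1 - s) * (∑ j, J i j * Real.tanh (f j / plantVar β shift))
      + β ^ 2 * (1 - s) * (1 - qSE (gamSE β shift s 0)) * f i
  | l + 2 => fun i => y i + (1 - s) * (∑ j, J i j * Real.tanh (ampZ β shift s J y f (l + 1) j))
      - β ^ 2 * (1 - s) ^ 2 * (1 - qSE (gamSE β shift s (l + 1))) *
        Real.tanh (ampZ β shift s J y f l i)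

/-- The centre after `k` steps. -/
noncomputable def ampMag (β shift s : ℝ) (J : Fin n → Fin n → ℝ) (y f : Fin n → ℝ) (k : ℕ)
    (i : Fin n) : ℝ :=
  Real.tanh (ampZ β shift s J y f k i)

/-- The radial projection onto the ball of radius `2√n`. -/
noncomputable def clipBall (f : Fin n → ℝ) (i : Fin n) : ℝ :=
  f i * min 1 (2 * Real.sqrt n / Real.sqrt (∑ j, f j ^ 2))

/-- The candidate as a function of the field alone; clipping makes it Lipschitz in `s`. -/
noncomputable def ampCand (β shift s : ℝ) (J : Fin n → Fin n → ℝ) (y : Fin n → ℝ) (k : ℕ) :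
    Fin n → ℝ :=
  ampZ β shift s J y (clipBall ((shiftMat shift J)⁻¹ *ᵥ y)) k

/-- `f = s + √s ξ`. -/
noncomputable def prodF (β shift s : ℝ) (z : Fin n → ℝ) (i : Fin n) : ℝ :=
  s + Real.sqrt s * prodXi β shift z i

/-- `y = A f` under the product law. -/
noncomputable def prodY (β shift s : ℝ) (g : Edge n → ℝ) (z : Fin n → ℝ) : Fin n → ℝ :=
  shiftMat shift (tiltCpl β g (prodXi β shift z)) *ᵥ prodF β shift s z

/-- The AMP centre under the product law. -/
noncomputable def prodCentre (β shift s : ℝ) (g : Edge n → ℝ) (z : Fin n → ℝ) (k : ℕ) :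
    Fin n → ℝ :=
  ampMag β shift s (tiltCpl β g (prodXi β shift z)) (prodY β shift s g z) (prodF β shift s z) k

/-- `m` is in the cube and within `√(ρ n)` of `a`. -/
def InBall (ρ : ℝ) (a m : Fin n → ℝ) : Prop :=
  (∀ i, |m i| ≤ 1) ∧ ∑ i, (m i - a i) ^ 2 ≤ ρ * n

/-- `1 - m²`. -/
def profileOf (m : Fin n → ℝ) (i : Fin n) : ℝ := 1 - m i ^ 2

/-- `1/D + β²u²(1-q) - u J - 2β²u² m m'/n ≥ η` for `u = 1 - s`, read on vectors `D w`. -/
def Margin (β η s : ℝ) (J : Fin n → Fin n → ℝ) (m : Fin n → ℝ) : Prop :=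
  ∀ w : Fin n → ℝ,
    η * ∑ j, (profileOf m j * w j) ^ 2 ≤
      ∑ j, profileOf m j * w j ^ 2
        + β ^ 2 * (1 - s) ^ 2 * (1 - (∑ j, m j ^ 2) / n) * ∑ j, (profileOf m j * w j) ^ 2
        - (1 - s) * ∑ j, ∑ k, profileOf m j * w j * J j k * (profileOf m k * w k)
        - 2 * β ^ 2 * (1 - s) ^ 2 / n * (∑ j, m j * (profileOf m j * w j)) ^ 2

/-- `Amp.lean`: the centre nearly solves the TAP equation. -/
def ResidualStatement : Prop :=
  ∀ β shift ε : ℝ, 0 ≤ β → β < 1 → 4 ≤ shift → 0 < ε → ∃ k₀ : ℕ, ∀ k ≥ k₀, ∃ c : ℝ, 0 < c ∧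
    ∀ s ∈ Set.Icc (0 : ℝ) 1, ∀ᶠ n : ℕ in atTop,
      (prodLaw n).real {p |
        ε * n < ∑ i, (ampZ β shift s (tiltCpl β p.1 (prodXi β shift p.2)) (prodY β shift s p.1 p.2)
              (prodF β shift s p.2) k i
            + β ^ 2 * (1 - s) ^ 2 * (1 - (∑ j, prodCentre β shift s p.1 p.2 k j ^ 2) / n) *
              prodCentre β shift s p.1 p.2 k i
            - (1 - s) * (∑ j, tiltCpl β p.1 (prodXi β shift p.2) i j *
              prodCentre β shift s p.1 p.2 k j)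
            - prodY β shift s p.1 p.2 i) ^ 2 ∨
        ε < |(∑ j, prodCentre β shift s p.1 p.2 k j ^ 2) / n - qSE (gamSE β shift s k)|}
      ≤ Real.exp (-(c * n))

/-- `MinEig.lean`: positive definiteness on a ball around the centre. The margin is free of the shift. -/
def MarginStatement : Prop :=
  ∀ β : ℝ, 0 ≤ β → β < 1 → ∃ η : ℝ, 0 < η ∧ ∀ shift : ℝ, 4 ≤ shift →
    ∃ ρ : ℝ, 0 < ρ ∧ ∃ k₀ : ℕ, ∀ k ≥ k₀, ∃ c : ℝ, 0 < c ∧
      ∀ s ∈ Set.Icc (0 : ℝ) 1, ∀ᶠ n : ℕ in atTop,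
        (prodLaw n).real {p | ∃ m, InBall ρ (prodCentre β shift s p.1 p.2 k) m ∧
          ¬ Margin β η s (tiltCpl β p.1 (prodXi β shift p.2)) m} ≤ Real.exp (-(c * n))

/-- `BallMax.lean`: entrywise facts on the resolvents of the pure part whose profile is in the ball
around the centre at time `s`; `u` and `θ` are free, for the finite differences. -/
def BallMaxStatement : Prop :=
  ∀ β shift η ε : ℝ, 0 ≤ β → β < 1 → 4 ≤ shift → 0 < η → 0 < ε → ∃ ρ : ℝ, 0 < ρ ∧
    ∀ k : ℕ, ∃ c : ℝ, 0 < c ∧ ∀ s ∈ Set.Icc (0 : ℝ) 1, ∀ᶠ n : ℕ in atTop,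
      (prodLaw n).real {p | (∃ i, ε * Real.sqrt n < |prodXi β shift p.2 i|) ∨
        ∃ u θ m, InBall ρ (prodCentre β shift s p.1 p.2 k) m ∧
          Admissible β η u θ p.1 (profileOf m) ∧
          ((∃ i, ε < |resH β u θ p.1 (profileOf m) i i - resPhi θ (profileOf m) i|) ∨
           (∃ i j, i ≠ j ∧ ε < |resH β u θ p.1 (profileOf m) i j|) ∨
           ∃ v : Fin n → ℝ, (v = (fun _ => 1) ∨ v = m ∨ v = prodXi β shift p.2) ∧
             ∃ i, ε * Real.sqrt n <
               |(resH β u θ p.1 (profileOf m) *ᵥ fun j => profileOf m j * v j) i|)}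
      ≤ Real.exp (-(c * n))

end Vale.Agent.P150.High
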