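import Vale.Agent.P150.High.AmpExact

/-!
# P150, all `β < 1`: the product law through the representation
-/

open MeasureTheory ProbabilityTheory Filter Finset
open scoped Topology

namespace Vale.Agent.P150.High.Amp

open Vale.Agent.P150 Vale.Agent.P150.Fast

variable {n K : ℕ} {β shift s : ℝ}

lemma charFun_noise (c : Fin n → Fin (K + 1) → ℝ) :
    ∫ ω, Complex.exp ((∑ i, dot (c i) (ω i) : ℝ) * Complex.I) ∂noise K n =
      Complex.exp (-((∑ i, ∑ j, c i j ^ 2 : ℝ) : ℂ) / 2) := by
  rw [noise]
  push_cast
  simp only [Finset.sum_mul, Complex.exp_sum]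
  rw [integral_fintype_prod_eq_prod (fun i (w : Fin (K + 1) → ℝ) => Complex.exp ((dot (c i) w : ℝ) * Complex.I)),
    ← Finset.sum_neg_distrib, Finset.sum_div, Complex.exp_sum]
  refine Finset.prod_congr rfl fun i _ => ?_
  rw [charFun_dot]
  push_cast
  rfl

lemma charFun_pi_gauss (q : Fin K → Fin n → ℝ) :
    ∫ η : Fin K → Fin n → ℝ, Complex.exp ((∑ l, dot (q l) (η l) : ℝ) * Complex.I)
        ∂Measure.pi (fun _ : Fin K => gauss (Fin n)) =
      Complex.exp (-((∑ l, ∑ i, q l i ^ 2 : ℝ) : ℂ) / 2) := by
  push_cast
  simp only [Finset.sum_mul, Complex.exp_sum]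
  rw [integral_fintype_prod_eq_prod (fun l (w : Fin n → ℝ) => Complex.exp ((dot (q l) w : ℝ) * Complex.I)),
    ← Finset.sum_neg_distrib, Finset.sum_div, Complex.exp_sum]
  refine Finset.prod_congr rfl fun l _ => ?_
  rw [charFun_dot]
  push_cast
  rfl

/-- The noise is `ξ/√v` and the fresh vectors, independent and standard. -/
lemma measurePreserving_noiseSplit (K n : ℕ) :
    MeasurePreserving (fun ω : Fin n → Fin (K + 1) → ℝ => (noiseZ ω, fun (l : Fin K) i => ω i l.succ))
      (noise K n) ((gauss (Fin n)).prod (Measure.pi fun _ : Fin K => gauss (Fin n))) := by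
  have hm : Measurable fun ω : Fin n → Fin (K + 1) → ℝ => (noiseZ ω, fun (l : Fin K) i => ω i l.succ) := by
    unfold noiseZ; fun_prop
  have : IsFiniteMeasure ((noise K n).map fun ω => (noiseZ ω, fun (l : Fin K) i => ω i l.succ)) :=
    Measure.isFiniteMeasure_map _ _
  refine ⟨hm, Measure.ext_of_charFunDual (funext fun L => ?_)⟩
  set p : Fin n → ℝ := fun i => L (Pi.single i 1, 0)
  set q : Fin K → Fin n → ℝ := fun l i => L (0, Pi.single l (Pi.single i 1))
  have hL : ∀ (z : Fin n → ℝ) (η : Fin K → Fin n → ℝ), L (z, η) = dot p z + ∑ l, dot (q l) (η l) := by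
    intro z η
    have : (z, η) = (∑ i, z i • ((Pi.single i (1 : ℝ) : Fin n → ℝ), (0 : Fin K → Fin n → ℝ))) +
        ∑ l, ∑ i, η l i • ((0 : Fin n → ℝ), (Pi.single l (Pi.single i (1 : ℝ)) : Fin K → Fin n → ℝ)) := by
      refine Prod.ext (funext fun a => ?_) (funext fun a => funext fun b => ?_) <;>
        simp [Prod.fst_sum, Prod.snd_sum, Finset.sum_apply, Pi.single_apply, ite_apply]
    rw [this, map_add, map_sum, map_sum]
    simp only [map_sum, map_smul, smul_eq_mul, dot, p, q, mul_comm]
  rw [charFunDual_apply, charFunDual_apply, integral_map hm.aemeasurable (by fun_prop)]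
  have e1 : ∀ ω : Fin n → Fin (K + 1) → ℝ, L (noiseZ ω, fun (l : Fin K) i => ω i l.succ) =
      ∑ i, dot (Fin.cons (p i) fun l => q l i : Fin (K + 1) → ℝ) (ω i) := fun ω => by
    rw [hL]
    simp only [dot, Fin.sum_univ_succ, Fin.cons_zero, Fin.cons_succ, Finset.sum_add_distrib, noiseZ]
    rw [Finset.sum_comm (f := fun l i => q l i * ω i (Fin.succ l))]
  simp only [e1, hL, Complex.ofReal_add, add_mul, Complex.exp_add]
  rw [charFun_noise, integral_prod_mul (fun z : Fin n → ℝ => Complex.exp ((dot p z : ℝ) * Complex.I))
    (fun η : Fin K → Fin n → ℝ => Complex.exp ((∑ l, dot (q l) (η l) : ℝ) * Complex.I)),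
    charFun_dot, charFun_pi_gauss, ← Complex.exp_add]
  congr 1
  simp only [Fin.sum_univ_succ, Fin.cons_zero, Fin.cons_succ, Finset.sum_add_distrib]
  rw [Finset.sum_comm (f := fun i l => q l i ^ 2)]
  push_cast
  ring

lemma measurable_edgeOf : Measurable (edgeOf (n := n)) := by unfold edgeOf; fun_prop

/-- The triangle of a GOE matrix is the disorder. -/
lemma measurePreserving_edgeOf (n : ℕ) : MeasurePreserving edgeOf (goe n) (disorder n) := by
  refine ⟨measurable_edgeOf, ?_⟩
  rw [disorder_eq_gauss, goe, Measure.map_map measurable_edgeOf measurable_sym]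
  have : IsFiniteMeasure ((gauss (Fin n × Fin n)).map (edgeOf ∘ sym)) := Measure.isFiniteMeasure_map _ _
  refine Measure.ext_of_charFunDual (funext fun L => ?_)
  set c : Edge n → ℝ := fun e => L (Pi.single e 1)
  have hL : ∀ h : Edge n → ℝ, L h = dot c h := fun h => by
    have : h = ∑ e, h e • (Pi.single e (1 : ℝ) : Edge n → ℝ) := by
      funext a; simp [Finset.sum_apply, Pi.single_apply]
    conv_lhs => rw [this]
    simp only [map_sum, map_smul, smul_eq_mul, dot, c, mul_comm]
  rw [charFunDual_apply, charFunDual_apply,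
    integral_map (measurable_edgeOf.comp measurable_sym).aemeasurable (by fun_prop)]
  have e1 : ∀ X, L ((edgeOf ∘ sym) X) =
      dot (fun q : Fin n × Fin n => coupling c q.1 q.2 / Real.sqrt 2) X := fun X => by
    rw [hL]
    simp only [dot, Fintype.sum_prod_type, Function.comp, edgeOf, sym, mul_div_assoc', div_mul_eq_mul_div,
      ← Finset.sum_div, mul_add, Finset.sum_add_distrib, coupling_eq, add_mul]
    rw [Finset.sum_comm (f := fun a b => upper c b a * X (a, b)), ← sum_edge_eq c fun a b => X (a, b),
      ← sum_edge_eq c fun a b => X (b, a)]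
  have hv : ∑ q : Fin n × Fin n, (coupling c q.1 q.2 / Real.sqrt 2) ^ 2 = ∑ e, c e ^ 2 := by
    have h := quad_coupling (fun e => c e ^ 2) (fun _ => (1 : ℝ))
    simp only [mul_one, ← coupling_sq, ← Finset.mul_sum] at h
    simp only [Fintype.sum_prod_type, div_pow, Real.sq_sqrt zero_le_two, ← Finset.sum_div, h]
    ring
  simp only [e1, hL]
  rw [charFun_dot, charFun_dot, hv]

/-- The point of the product law under a matrix. -/
def lawPoint (p : (Fin n → ℝ) × (Fin n → Fin n → ℝ)) : (Edge n → ℝ) × (Fin n → ℝ) := (edgeOf p.2, p.1)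

lemma measurePreserving_lawPoint (n : ℕ) :
    MeasurePreserving lawPoint ((gauss (Fin n)).prod (goe n)) (prodLaw n) := by
  have h1 : MeasurePreserving (Prod.map id edgeOf) ((gauss (Fin n)).prod (goe n))
      ((gauss (Fin n)).prod (disorder n)) := (MeasurePreserving.id _).prod (measurePreserving_edgeOf n)
  have : IsProbabilityMeasure (disorder n) := by unfold disorder; infer_instance
  exact (Measure.measurePreserving_swap (μ := gauss (Fin n)) (ν := disorder n)).comp h1

lemma goe_symm (n : ℕ) : ∀ᵐ W ∂goe n, ∀ i j, W i j = W j i :=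
  ae_map_iff measurable_sym.aemeasurable
      (by simp only [Set.setOf_forall]; exact MeasurableSet.iInter fun i => MeasurableSet.iInter fun j =>
        measurableSet_eq_fun (by fun_prop) (by fun_prop)) |>.2
    (Eventually.of_forall fun X i j => by simp [sym, add_comm])

/-- Continuity of the fields in the data. -/
lemma continuous_ampZ {α : Type*} [TopologicalSpace α] (β shift s : ℝ) {J : α → Fin n → Fin n → ℝ}
    {y f : α → Fin n → ℝ} (hJ : Continuous J) (hy : Continuous y) (hf : Continuous f) (k : ℕ) :
    Continuous fun a => ampZ β shift s (J a) (y a) (f a) k := by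
  have ht := PA.continuous_tanh'
  induction k using Nat.twoStepInduction with
  | zero => simp only [ampZ]; fun_prop
  | one => simp only [ampZ]; fun_prop
  | more l h1 h2 => simp only [ampZ] at *; fun_prop

lemma continuous_prodXi (β shift : ℝ) : Continuous fun z : Fin n → ℝ => prodXi β shift z :=
  continuous_pi fun i => continuous_const.mul (continuous_apply i)

lemma continuous_prodF (β shift s : ℝ) : Continuous fun z : Fin n → ℝ => prodF β shift s z :=
  continuous_pi fun i => continuous_const.add
    (continuous_const.mul ((continuous_apply i).comp (continuous_prodXi β shift)))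

lemma continuous_fullAt (β shift s : ℝ) (k : ℕ) :
    Continuous fun p : (Fin n → ℝ) × (Fin n → Fin n → ℝ) => fullAt β shift s p.2 p.1 k := by
  have hξ := (continuous_prodXi (n := n) β shift).comp (continuous_fst (Y := Fin n → Fin n → ℝ))
  have hJ : Continuous fun p : (Fin n → ℝ) × (Fin n → Fin n → ℝ) => fullCpl β p.2 (prodXi β shift p.1) := by
    refine continuous_pi fun i => continuous_pi fun j => ?_
    simp only [fullCpl]
    have hi : ∀ a, Continuous fun p : (Fin n → ℝ) × (Fin n → Fin n → ℝ) => prodXi β shift p.1 a := fun a =>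
      (continuous_apply a).comp hξ
    fun_prop
  have hf := (continuous_prodF (n := n) β shift s).comp (continuous_fst (Y := Fin n → Fin n → ℝ))
  refine continuous_ampZ β shift s hJ ?_ hf k
  exact Continuous.matrix_mulVec (hJ.add continuous_const) hf

lemma continuous_ampAt (β shift s : ℝ) (k : ℕ) :
    Continuous fun p : (Edge n → ℝ) × (Fin n → ℝ) => ampAt β shift s k p := by
  have hc : ∀ i j : Fin n, Continuous fun g : Edge n → ℝ => cpl β g i j := fun i j => by
    simp only [cpl]; unfold coupling; split_ifs <;> fun_prop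
  have hJ : Continuous fun p : (Edge n → ℝ) × (Fin n → ℝ) => tiltCpl β p.1 (prodXi β shift p.2) := by
    refine continuous_pi fun i => continuous_pi fun j => ?_
    simp only [tiltCpl, prodXi]
    exact ((hc i j).comp continuous_fst).add (by split_ifs <;> fun_prop)
  refine continuous_ampZ β shift s hJ ?_ ?_ k
  · exact Continuous.matrix_mulVec (hJ.add continuous_const) ((continuous_prodF β shift s).comp continuous_snd)
  · exact (continuous_prodF β shift s).comp continuous_snd

lemma measurable_histStep {α : Type*} [MeasurableSpace α] (β shift : ℝ) {e G : α → ℕ → Fin n → ℝ}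
    {ξ f p : α → Fin n → ℝ} (he : Measurable e) (hG : Measurable G) (hξ : Measurable ξ) (hf : Measurable f)
    (hp : Measurable p) (L : ℕ) (i : Fin n) :
    Measurable fun a => histStep β shift (e a) (G a) (ξ a) (f a) (p a) L i := by
  simp only [histStep, rankTwo, dot]
  fun_prop

lemma measurable_histZ (β shift s : ℝ) (j : ℕ) :
    Measurable fun p : (Fin n → ℝ) × (ℕ → Fin n → ℝ) × (ℕ → Fin n → ℝ) =>
      histZ β shift s p.1 p.2.1 p.2.2 j := by
  have hξ : Measurable fun p : (Fin n → ℝ) × (ℕ → Fin n → ℝ) × (ℕ → Fin n → ℝ) => prodXi β shift p.1 := by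
    exact (continuous_prodXi β shift).measurable.comp measurable_fst
  have hf : Measurable fun p : (Fin n → ℝ) × (ℕ → Fin n → ℝ) × (ℕ → Fin n → ℝ) => prodF β shift s p.1 := by
    exact (continuous_prodF β shift s).measurable.comp measurable_fst
  have ht := PA.continuous_tanh'.measurable
  induction j using Nat.twoStepInduction with
  | zero => simp only [histZ]; fun_prop
  | one =>
    refine measurable_pi_lambda _ fun i => ?_
    simp only [histZ]
    exact (measurable_histStep β shift measurable_snd.fst measurable_snd.snd hξ hf (by fun_prop) _ i).add (by fun_prop)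
  | more l h1 h2 =>
    refine measurable_pi_lambda _ fun i => ?_
    simp only [histZ]
    exact (measurable_histStep β shift measurable_snd.fst measurable_snd.snd hξ hf (by fun_prop) _ i).sub (by fun_prop)

lemma measurable_ampRule (β shift s : ℝ) (l : ℕ) :
    Measurable fun p : (Fin n → ℝ) × (ℕ → Fin n → ℝ) × (ℕ → Fin n → ℝ) =>
      ampRule β shift s p.1 l p.2.1 p.2.2 := by
  have ht := PA.continuous_tanh'.measurable
  cases l with
  | zero =>
    refine measurable_pi_lambda _ fun i => ?_
    simp only [ampRule, prodF, prodXi]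
    fun_prop
  | succ l =>
    have h1 := measurable_histZ (n := n) β shift s (l + 1)
    have h2 := measurable_histZ (n := n) β shift s l
    refine measurable_pi_lambda _ fun i => ?_
    simp only [ampRule]
    fun_prop

/-- An event of the full fields up to `K` has at most the probability of its image on the noise space. -/
theorem fullAt_le_noise (β shift s : ℝ) (n K : ℕ) (A : Set (ℕ → Fin n → ℝ))
    (hA : MeasurableSet {p : (Fin n → ℝ) × (Fin n → Fin n → ℝ) |
      (fun j => if j ≤ K then fullAt β shift s p.2 p.1 j else 0) ∈ A}) :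
    ((gauss (Fin n)).prod (goe n)).real {p | (fun j => if j ≤ K then fullAt β shift s p.2 p.1 j else 0) ∈ A} ≤
      (noise K n).real {ω | (fun j => if j ≤ K then
        histZ β shift s (noiseZ ω) (ampState β shift s K n ω).1 (ampState β shift s K n ω).2 j else 0) ∈ A} := by
  have hx := fun l => measurable_ampRule (n := n) β shift s l
  have hlaw : (gauss (Fin n)).prod (goe n) =
      (((gauss (Fin n)).prod (Measure.pi fun _ : Fin K => gauss (Fin n))).prod (goe n)).map
        (repMap (fun z => ampRule β shift s z) K) :=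
    lawStatement n K (Fin n → ℝ) (gauss (Fin n)) (fun z => ampRule β shift s z) hx
  have hm := measurable_repMap (fun z => ampRule β shift s z) hx K
  have hsp := (measurePreserving_noiseSplit K n).prod (MeasurePreserving.id (goe n))
  rw [hlaw, ← hsp.map_eq, Measure.map_map hm hsp.measurable, map_measureReal_apply (hm.comp hsp.measurable) hA]
  have hzero : ((noise K n).prod (goe n)).real {p | ¬ ∀ i j, p.2 i j = p.2 j i} = 0 := by
    have h := (Measure.quasiMeasurePreserving_snd (μ := noise K n) (ν := goe n)).ae (goe_symm n)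
    rw [ae_iff] at h
    rw [measureReal_def, h, ENNReal.toReal_zero]
  refine (measureReal_mono (s₂ := ({ω | (fun j => if j ≤ K then
      histZ β shift s (noiseZ ω) (ampState β shift s K n ω).1 (ampState β shift s K n ω).2 j else 0) ∈ A} ×ˢ Set.univ) ∪
      {p : (Fin n → Fin (K + 1) → ℝ) × (Fin n → Fin n → ℝ) | ¬ ∀ i j, p.2 i j = p.2 j i}) ?_).trans
    ((measureReal_union_le _ _).trans (le_of_eq (by rw [measureReal_prod_prod, probReal_univ, mul_one, hzero, add_zero])))
  rintro ⟨ω, W'⟩ hp
  by_cases hsym : ∀ i j, W' i j = W' j i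
  · refine Or.inl ⟨?_, trivial⟩
    have hη : extZero (fun (l : Fin K) i => ω i l.succ) = noiseEta ω := by
      funext l i
      simp only [extZero, noiseEta]
      by_cases h : l < K
      · rw [dif_pos h, dif_pos (by omega)]; rfl
      · rw [dif_neg h, dif_neg (by omega)]; rfl
    simp only [Set.mem_preimage, Function.comp, Prod.map, id, Set.mem_ofPred_eq, repMap, hη] at hp ⊢
    convert hp using 1
    funext j
    split_ifs with hj
    · rw [← histZ_eq_fullAt β shift s _ (noiseZ ω) K j hj]
      have h := stateStatement n K (ampRule β shift s (noiseZ ω)) (noiseEta ω) W' hsym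
      simp only at h
      rw [h]
      rfl
    · rfl
  · exact Or.inr hsym

end Vale.Agent.P150.High.Amp
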