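import Vale.Agent.P150.High.Defs
import Vale.Agent.P150.LowerLog

/-!
# P150, all `β < 1`: logarithmic mixing from the two halves

After the burn-in the part of the density above `exp (κ n)` has small mass; the rest stays bounded
along the flow, so its entropy decays exponentially fast.
-/

open MeasureTheory Filter
open scoped Topology

namespace Vale.Agent.P150.High

open Vale.Agent.P150 Ising

variable {n : ℕ} (β : ℝ) (g : Edge n → ℝ)

lemma flow_const (c t : ℝ) : flow β g (fun _ => c) t = fun _ => c := by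
  have e : (fun _ : Cfg n => c) = c • fun _ : Cfg n => (1 : ℝ) := by funext x; simp
  rw [e, flow, map_smul]
  exact congrArg (c • ·) (flow_one β g t)

lemma mean_eq_ip (f : Cfg n → ℝ) : ∑ x, gibbs β g x * f x = ip β g (fun _ => 1) f := by
  simp [ip]

lemma flow_mean' (f : Cfg n → ℝ) (t : ℝ) :
    ∑ x, gibbs β g x * flow β g f t x = ∑ x, gibbs β g x * f x := by
  rw [mean_eq_ip, mean_eq_ip, flow_mean]

/-- The flow contracts in mean absolute value. -/
lemma flow_l1 (f h : Cfg n → ℝ) {t : ℝ} (ht : 0 ≤ t) :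
    ∑ x, gibbs β g x * |flow β g f t x - flow β g h t x| ≤ ∑ x, gibbs β g x * |f x - h x| := by
  have e : flow β g f t - flow β g h t = flow β g (f - h) t := by simp [flow, map_sub]
  have en : flow β g (-(fun y => |f y - h y|)) t = -flow β g (fun y => |f y - h y|) t := by
    simp [flow, map_neg]
  rw [← flow_mean' β g (fun x => |f x - h x|) t]
  refine Finset.sum_le_sum fun x _ => mul_le_mul_of_nonneg_left ?_ (gibbs_pos β g x).le
  rw [show flow β g f t x - flow β g h t x = flow β g (f - h) t x from congrFun e x, abs_le]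
  have h1 := flow_mono (β := β) (g := g) (f := f - h) (h := fun y => |f y - h y|) (fun y => le_abs_self _) ht x
  have h2 := flow_mono (β := β) (g := g) (f := -(fun y => |f y - h y|)) (h := f - h)
    (fun y => by simpa using neg_abs_le (f y - h y)) ht x
  rw [en] at h2
  exact ⟨h2, h1⟩

/-- Entropy decays along the flow while the contraction holds. -/
lemma entropy_decay_warm {K e : ℝ} (hK : 0 < K) {f : Cfg n → ℝ} (hf : ∀ x, 0 < f x)
    (hmean : ∑ x, gibbs β g x * f x = 1)
    (hwc : ∀ s, 0 ≤ s → ent (gibbs β g) (flow β g f s) ≤ K * siteEnt β g (flow β g f s) + e)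
    {t : ℝ} (ht : 0 ≤ t) (he : 0 ≤ e) :
    ent (gibbs β g) (flow β g f t) ≤ Real.exp (-(t / K)) * ent (gibbs β g) f + e := by
  set F := flow β g f
  have hFm : ∀ s, ∑ x, gibbs β g x * F s x = 1 := fun s => (flow_mean' β g f s).trans hmean
  set φ := fun s => ∑ x, gibbs β g x * (F s x * Real.log (F s x)) with hφ
  set φ' := fun s => ∑ x, gibbs β g x * (generator β g (F s) x * (Real.log (F s x) + 1)) with hφ'
  have hd : ∀ s, 0 ≤ s → HasDerivAt φ (φ' s) s := fun s hs => by
    have hF := hasDerivAt_pi.1 (hasDerivAt_flow β g f s)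
    refine (HasDerivAt.fun_sum fun x _ =>
      ((hF x).mul ((hF x).log (flow_pos β g hf hs x).ne')).const_mul (gibbs β g x)).congr_deriv ?_
    refine Finset.sum_congr rfl fun x _ => ?_
    have := (flow_pos β g hf hs x).ne'
    simp only [F]; field_simp
  have hent : ∀ s, ent (gibbs β g) (F s) = φ s := fun s => by simp [ent, hFm, hφ]
  have hle : ∀ s, 0 ≤ s → φ' s ≤ -((φ s - e) / K) := fun s hs => by
    have hpos : ∀ x, 0 < F s x := fun x => flow_pos β g hf hs x
    have h4 : φ' s ≤ -siteEnt β g (F s) := by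
      have h2 : ∑ x, gibbs β g x * generator β g (F s) x = 0 := by
        have h := ip_selfAdjoint β g (fun _ => (1:ℝ)) (F s)
        rw [generator_const] at h
        simpa [ip] using h
      have h3 : φ' s = ∑ x, gibbs β g x * (F s x * generator β g (fun y => Real.log (F s y)) x) := by
        rw [generator_selfAdjoint β g (F s)]
        simp only [hφ', mul_add, mul_one, Finset.sum_add_distrib, h2, add_zero]
        exact Finset.sum_congr rfl fun x _ => by ring
      rw [h3, siteEnt, Finset.sum_comm, ← Finset.sum_neg_distrib]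
      refine Finset.sum_le_sum fun x _ => ?_
      rw [generator_apply, ← Finset.mul_sum, ← Finset.mul_sum, ← mul_neg, ← mul_neg,
        ← Finset.sum_neg_distrib]
      refine mul_le_mul_of_nonneg_left (mul_le_mul_of_nonneg_left (Finset.sum_le_sum fun i _ => ?_)
        (hpos x).le) (gibbs_pos β g x).le
      have := log_qb_le β g i hpos x
      rw [← heatBath_qb, ← heatBath_qb] at this
      linarith
    have h5 := hwc s hs
    rw [hent] at h5
    rw [le_neg, div_le_iff₀ hK]
    have := mul_le_mul_of_nonneg_left h4 hK.le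
    linarith
  have hg : ∀ s, 0 ≤ s → HasDerivAt (fun u => (φ u - e) * Real.exp (u / K))
      (φ' s * Real.exp (s / K) + (φ s - e) * (Real.exp (s / K) * (1 / K))) s := fun s hs =>
    ((hd s hs).sub_const e).mul ((hasDerivAt_id s).div_const K).exp
  have hanti : AntitoneOn (fun u => (φ u - e) * Real.exp (u / K)) (Set.Ici 0) := by
    refine antitoneOn_of_hasDerivWithinAt_nonpos (convex_Ici 0)
      (fun s hs => (hg s hs).continuousAt.continuousWithinAt)
      (fun s hs => (hg s (interior_subset (s := Set.Ici (0:ℝ)) hs)).hasDerivWithinAt) fun s hs => ?_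
    have := mul_le_mul_of_nonneg_right (hle s (interior_subset (s := Set.Ici (0:ℝ)) hs))
      (Real.exp_pos (s / K)).le
    linarith [this, show (φ s - e) * (Real.exp (s / K) * (1 / K)) =
      (φ s - e) / K * Real.exp (s / K) by ring]
  have h := hanti Set.self_mem_Ici (Set.mem_Ici.2 ht) ht
  simp only [zero_div, Real.exp_zero, mul_one] at h
  rw [hent, show f = F 0 from (flow_zero β g f).symm, hent, Real.exp_neg, inv_mul_eq_div]
  rw [← le_div_iff₀ (Real.exp_pos _), sub_div] at h
  have := div_nonneg he (Real.exp_pos (t / K)).le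
  linarith

lemma startDensity_mean (T : ℝ) (x : Cfg n) :
    ∑ y, gibbs β g y * startDensity β g T x y = 1 := by
  rw [startDensity, flow_mean']
  simp [Pi.single_apply, (gibbs_pos β g x).ne']

lemma startDensity_nonneg {T : ℝ} (hT : 0 ≤ T) (x y : Cfg n) : 0 ≤ startDensity β g T x y := by
  have h := flow_mono (β := β) (g := g) (f := fun _ => (0:ℝ)) (h := Pi.single x (gibbs β g x)⁻¹)
    (fun z => by
      rw [Pi.single_apply]
      split <;> simp [(gibbs_pos β g x).le]) hT y
  rwa [flow_const] at h

lemma kernel_eq_density (t : ℝ) (x y : Cfg n) :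
    kernel β g t x y = gibbs β g y * startDensity β g t x y := by
  have e : startDensity β g t x y = (gibbs β g x)⁻¹ * kernel β g t y x := by
    have : (Pi.single x (gibbs β g x)⁻¹ : Cfg n → ℝ) = (gibbs β g x)⁻¹ • (Pi.single x (1:ℝ)) := by
      funext z; simp [Pi.single_apply]
    rw [startDensity, this, flow, map_smul]
    rfl
  rw [e, mul_left_comm, ← kernel_symm, ← mul_assoc, inv_mul_cancel₀ (gibbs_pos β g x).ne', one_mul]

lemma flow_startDensity (T s : ℝ) (x : Cfg n) :
    flow β g (startDensity β g T x) s = startDensity β g (T + s) x := by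
  rw [startDensity, startDensity, add_comm T s, flow_add]

/-- The mass of the part of a density above `exp A`. -/
lemma tail_mass {f : Cfg n → ℝ} (hf : ∀ x, 0 ≤ f x) (hmean : ∑ x, gibbs β g x * f x = 1)
    {A : ℝ} (hA : 0 < A) :
    ∑ x, gibbs β g x * (f x - min (f x) (Real.exp A)) ≤ (ent (gibbs β g) f + 1) / A := by
  rw [le_div_iff₀ hA, ent, hmean, Real.log_one, mul_zero, sub_zero, ← gibbs_sum β g,
    ← Finset.sum_add_distrib, Finset.sum_mul]
  refine Finset.sum_le_sum fun x _ => ?_
  rw [mul_assoc, ← mul_add_one]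
  refine mul_le_mul_of_nonneg_left ?_ (gibbs_pos β g x).le
  have hlow : -1 ≤ f x * Real.log (f x) := by
    rcases (hf x).lt_or_eq with h | h
    · have h1 := Real.log_le_sub_one_of_pos (inv_pos.2 h)
      rw [Real.log_inv] at h1
      have h2 := mul_le_mul_of_nonneg_left h1 h.le
      rw [mul_sub, mul_inv_cancel₀ h.ne'] at h2
      linarith [hf x]
    · simp [← h]
  rcases le_total (f x) (Real.exp A) with h | h
  · rw [min_eq_left h, sub_self, zero_mul]; linarith
  · rw [min_eq_right h]
    have h0 : 0 < f x := (Real.exp_pos A).trans_le h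
    have h1 : A ≤ Real.log (f x) := (Real.le_log_iff_exp_le h0).2 h
    have h2 := mul_le_mul_of_nonneg_left h1 h0.le
    have h3 := mul_nonneg (Real.exp_pos A).le hA.le
    linarith

/-- Mixing at time `T + s` for one disorder. -/
lemma mixed_of {K c ε κ T s : ℝ} (hK : 0 < K) (hκ : 0 < κ) (hT : 0 ≤ T) (hs : 0 ≤ s)
    (hn : 0 < n)
    (hwc : ∀ (f : Cfg n → ℝ) (B : ℝ), (∀ x, 0 < f x ∧ f x ≤ B) → ∑ x, gibbs β g x * f x = 1 →
      ent (gibbs β g) f ≤ K * siteEnt β g f + B * Real.exp (-(c * n)))
    (hbi : ∀ x, ent (gibbs β g) (startDensity β g T x) ≤ ε * n)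
    (h1 : (ε * n + 1) / (κ * n) ≤ 1 / 32)
    (h2 : Real.exp (-(s / K)) * (κ * n + 2) + 3 * Real.exp (κ * n) * Real.exp (-(c * n)) ≤ 1 / 64) :
    MixedAt β g (T + s) := by
  intro x
  have hn' : (0:ℝ) < n := by exact_mod_cast hn
  set f := startDensity β g T x
  set E := Real.exp (κ * n)
  have hE : 1 ≤ E := Real.one_le_exp (by positivity)
  have hf0 : ∀ y, 0 ≤ f y := startDensity_nonneg β g hT x
  have hfm : ∑ y, gibbs β g y * f y = 1 := startDensity_mean β g T x
  set δ := ∑ y, gibbs β g y * (f y - min (f y) E) with hδ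
  have hδ0 : 0 ≤ δ := Finset.sum_nonneg fun y _ =>
    mul_nonneg (gibbs_pos β g y).le (sub_nonneg.2 (min_le_left _ _))
  have hδ1 : δ ≤ 1 / 32 :=
    ((tail_mass β g hf0 hfm (by positivity)).trans (div_le_div_of_nonneg_right
      (by linarith [hbi x]) (by positivity))).trans h1
  set a : ℝ := 1 / (1 + 1 / 32)
  set F : Cfg n → ℝ := fun y => (min (f y) E + δ + 1 / 32) * a
  have hFpos : ∀ y, 0 < F y := fun y =>
    mul_pos (by linarith [le_min (hf0 y) (zero_le_one.trans hE)]) (by norm_num [a])
  have hFle : ∀ y, F y ≤ 3 * E := fun y => by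
    have h3 : min (f y) E + δ + 1 / 32 ≤ 3 * E := by linarith [min_le_right (f y) E]
    exact (mul_le_of_le_one_right (by linarith [le_min (hf0 y) (zero_le_one.trans hE)])
      (by norm_num [a])).trans h3
  have hsum : ∑ y, gibbs β g y * min (f y) E = 1 - δ := by
    simp only [hδ, mul_sub, Finset.sum_sub_distrib, hfm]; ring
  have hFm : ∑ y, gibbs β g y * F y = 1 := by
    simp only [F, ← mul_assoc, ← Finset.sum_mul, mul_add, Finset.sum_add_distrib, hsum, gibbs_sum,
      one_mul, a]
    field_simp; ring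
  have hl1 : ∑ y, gibbs β g y * |f y - F y| ≤ 1 / 8 := by
    refine (Finset.sum_le_sum fun y _ => mul_le_mul_of_nonneg_left (?_ : |f y - F y| ≤
      (f y - min (f y) E) + δ + 1 / 32 + (1 / 32) * f y) (gibbs_pos β g y).le).trans ?_
    · have hm := le_min (hf0 y) (zero_le_one.trans hE)
      have hm' := min_le_left (f y) E
      have hF : F y = (min (f y) E + δ + 1 / 32) * (32 / 33) := by
        simp only [F, a]; norm_num
      rw [abs_le, hF]; constructor <;> linarith
    · simp only [mul_add, mul_left_comm (gibbs β g _) (1 / 32 : ℝ), Finset.sum_add_distrib,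
        ← Finset.sum_mul, ← Finset.mul_sum, gibbs_sum, hfm, ← hδ]
      linarith
  have hFt : ∀ r, 0 ≤ r → ∀ y, 0 < flow β g F r y ∧ flow β g F r y ≤ 3 * E := fun r hr y => by
    refine ⟨flow_pos β g hFpos hr y, ?_⟩
    have h := flow_mono (β := β) (g := g) (f := F) (h := fun _ => 3 * E) hFle hr y
    rwa [flow_const] at h
  have hdec := entropy_decay_warm β g hK hFpos hFm (e := 3 * E * Real.exp (-(c * n)))
    (fun r hr => hwc _ _ (hFt r hr) ((flow_mean' β g F r).trans hFm)) hs (by positivity)
  have hent : ent (gibbs β g) F ≤ κ * n + 2 := by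
    rw [ent, hFm, Real.log_one, mul_zero, sub_zero]
    have hlog : ∀ y, Real.log (F y) ≤ κ * n + 2 := fun y => by
      refine (Real.log_le_log (hFpos y) (hFle y)).trans ?_
      rw [Real.log_mul three_pos.ne' (Real.exp_pos _).ne', Real.log_exp]
      have := Real.log_le_sub_one_of_pos (three_pos (α := ℝ))
      linarith
    calc ∑ y, gibbs β g y * (F y * Real.log (F y)) ≤ ∑ y, gibbs β g y * (F y * (κ * n + 2)) :=
          Finset.sum_le_sum fun y _ => mul_le_mul_of_nonneg_left
            (mul_le_mul_of_nonneg_left (hlog y) (hFpos y).le) (gibbs_pos β g y).le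
      _ = κ * n + 2 := by simp only [← mul_assoc, ← Finset.sum_mul, hFm, one_mul]
  have htv := tv_le_entropy β g (G := flow β g F s) (fun y => (hFt s hs y).1)
    ((flow_mean' β g F s).trans hFm)
  have hsmall : (∑ y, gibbs β g y * |flow β g F s y - 1|) ^ 2 ≤ (1 / 4) ^ 2 := by
    refine htv.trans ?_
    linarith [hdec.trans (add_le_add (mul_le_mul_of_nonneg_left hent (Real.exp_pos _).le) le_rfl)]
  have hF4 := (abs_le.1 (abs_le_of_sq_le_sq hsmall (by norm_num))).2
  have hk : ∀ y, |kernel β g (T + s) x y - gibbs β g y| ≤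
      gibbs β g y * |flow β g f s y - flow β g F s y| + gibbs β g y * |flow β g F s y - 1| := fun y => by
    rw [kernel_eq_density, ← flow_startDensity β g T s x, ← mul_add, ← mul_sub_one, abs_mul,
      abs_of_pos (gibbs_pos β g y)]
    exact mul_le_mul_of_nonneg_left (abs_sub_le _ _ _) (gibbs_pos β g y).le
  have := (Finset.sum_le_sum fun y (_ : y ∈ Finset.univ) => hk y).trans
    ((Finset.sum_add_distrib).le.trans (add_le_add ((flow_l1 β g f F hs).trans hl1) hF4))
  linarith

omit β g in
/-- Logarithmic mixing from the two halves. -/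
theorem logMixing_of (β : ℝ) (hbi : BurnIn β) (hwc : WarmContraction β) : LogMixing β := by
  obtain ⟨K, c, hK, hc, hW⟩ := hwc
  set κ := c / 2 with hκdef
  have hκ : 0 < κ := by positivity
  obtain ⟨T, hT, hB⟩ := hbi (κ / 64) (by positivity)
  refine ⟨2 * K + T, by positivity, ?_⟩
  have hsum := hB.add hW
  rw [add_zero] at hsum
  refine squeeze_zero' (Eventually.of_forall fun _ => measureReal_nonneg) ?_ hsum
  have hlim : Tendsto (fun n : ℕ => ((κ * n + 2) / (n:ℝ) ^ 2 + 3 * Real.exp (-(κ * n)))) atTop (𝓝 0) := by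
    have h0 : Tendsto (fun n : ℕ => (n:ℝ)⁻¹) atTop (𝓝 0) := tendsto_inv_atTop_nhds_zero_nat
    have h1 : Tendsto (fun n : ℕ => κ * (n:ℝ)⁻¹ + 2 * ((n:ℝ)⁻¹) ^ 2) atTop (𝓝 0) := by
      simpa using (h0.const_mul κ).add ((h0.pow 2).const_mul 2)
    have h2 : Tendsto (fun n : ℕ => 3 * Real.exp (-(κ * n))) atTop (𝓝 0) := by
      simpa using (tendsto_exp_nat hκ).const_mul 3
    have h3 : Tendsto (fun n : ℕ => (κ * n + 2) / (n:ℝ) ^ 2) atTop (𝓝 0) := h1.congr' (by
      filter_upwards [eventually_ge_atTop 1] with n hn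
      have : (n:ℝ) ≠ 0 := by positivity
      field_simp)
    simpa using h3.add h2
  filter_upwards [hlim.eventually_le_const (show (0:ℝ) < 1 / 64 by norm_num), eventually_ge_atTop 3,
    tendsto_natCast_atTop_atTop.eventually_ge_atTop (64 / κ)] with n hsmall hn3 hnκ
  refine (measureReal_mono ?_).trans (measureReal_union_le _ _)
  intro g hg
  by_contra hno
  simp only [Set.mem_union, Set.mem_ofPred_eq, not_or, not_exists, not_and, not_lt] at hno
  refine hg ?_
  have hn0 : 0 < n := by omega
  have hnR : (0:ℝ) < n := by exact_mod_cast hn0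
  have hlog : 1 ≤ Real.log n := by
    rw [Real.le_log_iff_exp_le hnR]
    have : (3:ℝ) ≤ n := by exact_mod_cast hn3
    linarith [Real.exp_one_lt_d9]
  have e : (2 * K + T) * Real.log n = T + (2 * K * Real.log n + T * (Real.log n - 1)) := by ring
  rw [e]
  refine mixed_of β g hK hκ hT.le
    (add_nonneg (by positivity) (mul_nonneg hT.le (sub_nonneg.2 hlog))) hn0
    (fun f B hf hm => hno.2 f B hf hm) hno.1 ?_ ?_
  · rw [div_le_iff₀ (by positivity)]
    have := (div_le_iff₀ hκ).1 hnκ
    linarith
  · refine le_trans (add_le_add ?_ ?_) hsmall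
    · rw [mul_comm, div_eq_mul_inv (κ * n + 2)]
      refine mul_le_mul_of_nonneg_left ?_ (by positivity)
      rw [← Real.exp_log (show (0:ℝ) < ((n:ℝ) ^ 2)⁻¹ by positivity), Real.log_inv, Real.log_pow]
      refine Real.exp_le_exp.2 (neg_le_neg ?_)
      rw [le_div_iff₀ hK]
      push_cast
      linarith [mul_nonneg hT.le (sub_nonneg.2 hlog)]
    · rw [mul_assoc, ← Real.exp_add, show κ * n + -(c * n) = -(κ * n) by rw [hκdef]; ring]

end Vale.Agent.P150.High
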