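import Vale.Agent.P150.SKNorm
import Vale.Agent.P150.Fast.OpNorm

/-!
# P150, BallMax: Gaussian linear and quadratic tails, resampling of one row, sparse offsets
-/

open MeasureTheory ProbabilityTheory Finset
open scoped Matrix

namespace Vale.Agent.P150.High.Ball

open Vale.Agent.P150 Fast.OpNorm

variable {ι : Type*} [Fintype ι]

/-! ### rotation and tails -/

lemma charFun_dot (c : ι → ℝ) :
    ∫ w, Complex.exp ((dot c w : ℝ) * Complex.I) ∂gauss ι =
      Complex.exp (-((∑ k, c k ^ 2 : ℝ) : ℂ) / 2) := by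
  unfold gauss dot
  push_cast
  simp only [Finset.sum_mul, Complex.exp_sum]
  rw [integral_fintype_prod_eq_prod
    (fun e (t : ℝ) => Complex.exp ((c e : ℂ) * (t : ℂ) * Complex.I)), ← Finset.sum_neg_distrib,
    Finset.sum_div, Complex.exp_sum]
  refine Finset.prod_congr rfl fun e _ => ?_
  rw [← charFun_apply_real, charFun_gaussianReal]
  congr 1
  push_cast
  ring

lemma dual_dot (L : StrongDual ℝ ((ι → ℝ) × (ι → ℝ))) :
    ∃ p q : ι → ℝ, ∀ u v, L (u, v) = dot p u + dot q v := by
  classical
  refine ⟨fun e => L (Pi.single e 1, 0), fun e => L (0, Pi.single e 1), fun u v => ?_⟩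
  have : (u, v) = (∑ e, u e • ((Pi.single e 1 : ι → ℝ), (0 : ι → ℝ))) +
      ∑ e, v e • ((0 : ι → ℝ), (Pi.single e 1 : ι → ℝ)) := by
    ext j <;> simp [Prod.fst_sum, Prod.snd_sum, Finset.sum_apply, Pi.single_apply]
  rw [this, map_add, map_sum, map_sum]
  simp only [map_smul, smul_eq_mul, mul_comm, dot]

lemma charFun_pair (L : StrongDual ℝ ((ι → ℝ) × (ι → ℝ))) (a b c d : ℝ) (p q : ι → ℝ)
    (hL : ∀ u v, L (u, v) = dot p u + dot q v) :
    charFunDual (((gauss ι).prod (gauss ι)).map
      fun z => ((fun e => a * z.1 e + b * z.2 e), fun e => c * z.1 e + d * z.2 e)) L =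
      Complex.exp (-((∑ e, (p e * a + q e * c) ^ 2 + ∑ e, (p e * b + q e * d) ^ 2 : ℝ) : ℂ) / 2) := by
  rw [charFunDual_apply, integral_map (by fun_prop) (by fun_prop)]
  simp only [hL]
  have e : ∀ z : (ι → ℝ) × (ι → ℝ),
      Complex.exp (((dot p (fun e => a * z.1 e + b * z.2 e) +
        dot q (fun e => c * z.1 e + d * z.2 e) : ℝ) : ℂ) * Complex.I)
      = Complex.exp ((dot (fun e => p e * a + q e * c) z.1 : ℝ) * Complex.I) *
        Complex.exp ((dot (fun e => p e * b + q e * d) z.2 : ℝ) * Complex.I) := by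
    intro z
    rw [← Complex.exp_add, ← add_mul, ← Complex.ofReal_add, dot, dot, dot, dot,
      ← Finset.sum_add_distrib, ← Finset.sum_add_distrib]
    congr 4
    funext e; ring
  simp only [e]
  rw [integral_prod_mul (fun u : ι → ℝ => Complex.exp ((dot (fun e => p e * a + q e * c) u : ℝ) * Complex.I))
    (fun u : ι → ℝ => Complex.exp ((dot (fun e => p e * b + q e * d) u : ℝ) * Complex.I)),
    charFun_dot, charFun_dot, ← Complex.exp_add]
  congr 1; push_cast; ring

/-- two independent standard Gaussian vectors may be rotated -/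
lemma rotation_mp (a b : ℝ) (hab : a ^ 2 + b ^ 2 = 1) :
    MeasurePreserving (fun z : (ι → ℝ) × (ι → ℝ) =>
      ((fun e => a * z.1 e + b * z.2 e), fun e => b * z.1 e + (-a) * z.2 e))
      ((gauss ι).prod (gauss ι)) ((gauss ι).prod (gauss ι)) := by
  refine ⟨by fun_prop, ?_⟩
  apply Measure.ext_of_charFunDual
  ext L
  obtain ⟨p, q, hL⟩ := dual_dot L
  have hid := charFun_pair L 1 0 0 1 p q hL
  simp only [one_mul, zero_mul, add_zero, zero_add] at hid
  rw [Measure.map_id'] at hid
  rw [charFun_pair L a b b (-a) p q hL, hid]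
  congr 4
  rw [← Finset.sum_add_distrib, ← Finset.sum_add_distrib]
  refine Finset.sum_congr rfl fun e _ => ?_
  linear_combination (p e ^ 2 + q e ^ 2) * hab

/-- `∑ z_k z_l A k l` -/
def qform (A : Matrix ι ι ℝ) (z : ι → ℝ) : ℝ := ∑ k, ∑ l, z k * z l * A k l

lemma qform_eq (A : Matrix ι ι ℝ) (z : ι → ℝ) : qform A z = z ⬝ᵥ (A *ᵥ z) := by
  simp only [qform, dotProduct, Matrix.mulVec, mul_sum]
  exact sum_congr rfl fun k _ => sum_congr rfl fun l _ => by ring

lemma continuous_qform (A : Matrix ι ι ℝ) : Continuous (qform A) := by unfold qform; fun_prop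

lemma integrable_eval_mul (k l : ι) : Integrable (fun z : ι → ℝ => z k * z l) (gauss ι) := by
  refine integrable_of_bound (C := 1) (M := 2) (by fun_prop) fun z => ?_
  rw [abs_mul, one_mul, show (2:ℝ) * l1 z = l1 z + l1 z by ring, Real.exp_add]
  have h := fun i => (abs_le_l1 z i).trans
    ((le_add_of_nonneg_right zero_le_one).trans (Real.add_one_le_exp (l1 z)))
  exact mul_le_mul (h k) (h l) (abs_nonneg _) (Real.exp_pos _).le

lemma integral_eval_mul [DecidableEq ι] (k l : ι) :
    ∫ z, z k * z l ∂gauss ι = if k = l then 1 else 0 := by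
  rw [gauss_ibp k (φ := fun z => z l) (φ' := fun _ => if k = l then 1 else 0) (C := 1) (M := 1)
    zero_le_one (by fun_prop) continuous_const (fun z => ?_) (fun z => ?_) fun z t => ?_]
  · simp
  · rw [one_mul, one_mul]
    exact (abs_le_l1 z l).trans ((le_add_of_nonneg_right zero_le_one).trans (Real.add_one_le_exp _))
  · rw [one_mul, one_mul]
    refine le_trans ?_ (Real.one_le_exp (l1_nonneg z))
    split <;> simp
  · rcases eq_or_ne k l with h | h
    · subst h
      simpa [id_eq] using (hasDerivAt_id' t)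
    · simpa [h, Function.update_of_ne (Ne.symm h)] using hasDerivAt_const t (z l)

lemma qform_mean (A : Matrix ι ι ℝ) :
    Integrable (qform A) (gauss ι) ∧ ∫ z, qform A z ∂gauss ι = A.trace := by
  classical
  have h : ∀ k l, Integrable (fun z : ι → ℝ => z k * z l * A k l) (gauss ι) := fun k l =>
    (integrable_eval_mul k l).mul_const _
  refine ⟨integrable_finsetSum _ fun k _ => integrable_finsetSum _ fun l _ => h k l, ?_⟩
  simp only [qform]
  rw [integral_finsetSum _ fun k _ => integrable_finsetSum _ fun l _ => h k l]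
  refine sum_congr rfl fun k _ => ?_
  rw [integral_finsetSum _ fun l _ => h k l]
  simp [integral_mul_const, integral_eval_mul]

lemma exp_qform_integrable {A : Matrix ι ι ℝ} {R t : ℝ} (hA : OpLe A R) (ht : |t| * R < 1 / 2) :
    Integrable (fun z => Real.exp (t * qform A z)) (gauss ι) := by
  refine (exp_sumsq (ι := ι) ht).1.mono'
    (Real.continuous_exp.comp ((continuous_qform A).const_mul t)).aestronglyMeasurable
    (Filter.Eventually.of_forall fun z => ?_)
  rw [Real.norm_eq_abs, Real.abs_exp, Real.exp_le_exp]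
  refine (le_abs_self _).trans ?_
  rw [abs_mul, mul_assoc, qform_eq]
  exact mul_le_mul_of_nonneg_left (hA.quad z) (abs_nonneg t)

/-- exponential moment of a centred quadratic form -/
lemma qform_mgf {A : Matrix ι ι ℝ} {R t : ℝ} (hA : OpLe A R) (ht : 8 * (t * R) ^ 2 ≤ 1) :
    ∫ z, Real.exp (t * qform A z) ∂gauss ι ≤
      Real.exp (t * A.trace + 4 * (t * R) ^ 2 * Fintype.card ι) := by
  have htR : |t| * R < 1 / 2 := by
    have h1 : (|t| * R) ^ 2 = (t * R) ^ 2 := by rw [mul_pow, sq_abs, ← mul_pow]
    nlinarith [mul_nonneg (abs_nonneg t) hA.1]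
  have htR' : |(-t)| * R < 1 / 2 := by rwa [abs_neg]
  have i1 := exp_qform_integrable hA htR
  have i2 := exp_qform_integrable hA htR'
  obtain ⟨iq, hq⟩ := qform_mean A
  have hlow : Real.exp (-t * A.trace) ≤ ∫ z, Real.exp (-t * qform A z) ∂gauss ι := by
    have h : (1:ℝ) ≤ ∫ z, Real.exp (t * A.trace) * Real.exp (-t * qform A z) ∂gauss ι := by
      calc (1:ℝ) = ∫ z, (1 + (t * A.trace + -t * qform A z)) ∂gauss ι := by
            rw [integral_add (integrable_const _) ((integrable_const _).fun_add (iq.const_mul _)),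
              integral_add (integrable_const _) (iq.const_mul _), integral_const_mul, integral_const_mul, hq]
            simp
        _ ≤ _ := integral_mono ((integrable_const _).fun_add
              ((integrable_const _).fun_add (iq.const_mul _))) (i2.const_mul _) fun z => by
            rw [← Real.exp_add]
            linarith [Real.add_one_le_exp (t * A.trace + -t * qform A z)]
    rw [integral_const_mul] at h
    rw [show -t * A.trace = -(t * A.trace) by ring, Real.exp_neg]
    exact inv_le_iff_one_le_mul₀' (Real.exp_pos _) |>.2 h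
  have hprod : (∫ z, Real.exp (t * qform A z) ∂gauss ι) * ∫ z, Real.exp (-t * qform A z) ∂gauss ι ≤
      Real.exp (4 * (t * R) ^ 2 * Fintype.card ι) := by
    rw [← integral_prod_mul]
    set r := (√2)⁻¹ with hrdef
    have hr : r ^ 2 = 1 / 2 := by rw [hrdef, inv_pow, Real.sq_sqrt zero_le_two]; norm_num
    have hmp := rotation_mp (ι := ι) r r (by rw [hr]; norm_num)
    set F := fun z : (ι → ℝ) × (ι → ℝ) =>
      Real.exp (t * qform A z.1) * Real.exp (-t * qform A z.2) with hF
    have iF : Integrable F ((gauss ι).prod (gauss ι)) := i1.mul_prod i2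
    set c := fun u : ι → ℝ => t • ((A + Aᵀ) *ᵥ u) with hc
    set Φ := fun z : (ι → ℝ) × (ι → ℝ) =>
      ((fun e => r * z.1 e + r * z.2 e), fun e => r * z.1 e + (-r) * z.2 e) with hΦ
    have hkey : ∀ z, F (Φ z) = Real.exp (dot (c z.1) z.2) := fun z => by
      simp only [hF, hΦ, ← Real.exp_add, hc, qform, dot, Pi.smul_apply, smul_eq_mul, Matrix.mulVec,
        dotProduct, Matrix.add_apply, Matrix.transpose_apply, mul_sum, sum_mul]
      congr 1
      rw [← sum_add_distrib]
      simp only [add_mul, mul_add, sum_add_distrib]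
      rw [sum_comm (f := fun k l => t * (A l k * z.1 l) * z.2 k)]
      simp only [← sum_add_distrib]
      refine sum_congr rfl fun k _ => sum_congr rfl fun l _ => ?_
      linear_combination (2 * t * A k l * (z.1 k * z.2 l + z.2 k * z.1 l)) * hr
    have hcomp : Integrable (fun z => Real.exp (dot (c z.1) z.2)) ((gauss ι).prod (gauss ι)) := by
      have := hmp.integrable_comp_of_integrable iF
      simpa only [Function.comp_def, hkey] using this
    calc ∫ z, F z ∂(gauss ι).prod (gauss ι) = ∫ z, F (Φ z) ∂(gauss ι).prod (gauss ι) := by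
          conv_lhs => rw [← hmp.map_eq, integral_map hmp.measurable.aemeasurable
            (by rw [hmp.map_eq]; exact iF.aestronglyMeasurable)]
      _ = ∫ u, ∫ v, Real.exp (dot (c u) v) ∂gauss ι ∂gauss ι := by
          simp only [hkey]
          exact integral_prod _ hcomp
      _ ≤ ∫ u, Real.exp (2 * (t * R) ^ 2 * ∑ k, u k ^ 2) ∂gauss ι := by
          refine integral_mono hcomp.integral_prod_left (exp_sumsq (by linarith)).1 fun u => ?_
          rw [mgf_dot, Real.exp_le_exp]
          have h := (hA.add hA.transpose).2 u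
          simp only [Fast.OpNorm.nsq] at h
          simp only [hc, Pi.smul_apply, smul_eq_mul, mul_pow, ← mul_sum]
          nlinarith [mul_le_mul_of_nonneg_left h (sq_nonneg t)]
      _ ≤ _ := by
          rw [(exp_sumsq (by linarith)).2, mul_comm _ (Fintype.card ι : ℝ), Real.exp_nat_mul]
          refine pow_le_pow_left₀ (by positivity) ?_ _
          set x := 4 * (t * R) ^ 2 with hx
          have hx0 : 0 ≤ x := by positivity
          have hx1 : x ≤ 1 / 2 := by linarith
          rw [show 1 - 2 * (2 * (t * R) ^ 2) = 1 - x by rw [hx]; ring, inv_le_comm₀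
            (Real.sqrt_pos.2 (by linarith)) (Real.exp_pos _), ← Real.exp_neg]
          refine Real.le_sqrt_of_sq_le ?_
          rw [sq, ← Real.exp_add, show -x + -x = -(2 * x) by ring, Real.exp_neg,
            inv_le_comm₀ (Real.exp_pos _) (by linarith)]
          refine le_trans ?_ (Real.add_one_le_exp (2 * x))
          rw [inv_le_iff_one_le_mul₀ (by linarith)]
          nlinarith
  have hpos : 0 ≤ ∫ z, Real.exp (t * qform A z) ∂gauss ι := integral_nonneg fun z => (Real.exp_pos _).le
  have h := (mul_le_mul_of_nonneg_left hlow hpos).trans hprod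
  rw [← le_div_iff₀ (Real.exp_pos _), ← Real.exp_sub] at h
  exact h.trans_eq (by ring_nf)

lemma qform_tail_one {A : Matrix ι ι ℝ} {R t a : ℝ} (hA : OpLe A R) (ht0 : 0 ≤ t)
    (ht : 8 * (t * R) ^ 2 ≤ 1) :
    (gauss ι).real {z | a ≤ qform A z - A.trace} ≤
      Real.exp (-(t * a) + 4 * (t * R) ^ 2 * Fintype.card ι) := by
  have htR : |t| * R < 1 / 2 := by
    rw [abs_of_nonneg ht0]; nlinarith [mul_nonneg ht0 hA.1]
  have hi : Integrable (fun z => Real.exp (t * (qform A z - A.trace))) (gauss ι) := by
    simp only [mul_sub, Real.exp_sub]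
    exact (exp_qform_integrable hA htR).div_const _
  refine (measure_ge_le_exp_mul_mgf a ht0 hi).trans ?_
  rw [mgf]
  simp only [mul_sub, Real.exp_sub, integral_div]
  refine (mul_le_mul_of_nonneg_left (div_le_div_of_nonneg_right (qform_mgf hA ht) (Real.exp_pos _).le)
    (Real.exp_pos _).le).trans_eq ?_
  rw [← Real.exp_sub, ← Real.exp_add]
  ring_nf

/-- two sided tail of a centred quadratic form -/
lemma qform_tail {A : Matrix ι ι ℝ} {R t a : ℝ} (hA : OpLe A R) (ht0 : 0 ≤ t)
    (ht : 8 * (t * R) ^ 2 ≤ 1) :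
    (gauss ι).real {z | a < |qform A z - A.trace|} ≤
      2 * Real.exp (-(t * a) + 4 * (t * R) ^ 2 * Fintype.card ι) := by
  have hq : ∀ z, qform (-A) z = -qform A z := fun z => by simp [qform]
  refine (measureReal_mono (s₂ := {z | a ≤ qform A z - A.trace} ∪
    {z | a ≤ qform (-A) z - (-A).trace}) fun z hz => ?_).trans ((measureReal_union_le _ _).trans
      ((add_le_add (qform_tail_one hA ht0 ht) (qform_tail_one hA.neg ht0 ht)).trans_eq (two_mul _).symm))
  simp only [Set.mem_union, Set.mem_ofPred_eq, hq, Matrix.trace_neg] at hz ⊢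
  rcases lt_abs.1 hz with h | h
  · exact Or.inl h.le
  · exact Or.inr (by linarith)

/-- tail of a linear form -/
lemma dot_tail {c : ι → ℝ} {S a : ℝ} (hS : 0 < S) (hc : ∑ k, c k ^ 2 ≤ S) (ha : 0 ≤ a) :
    (gauss ι).real {z | a < |dot c z|} ≤ 2 * Real.exp (-(a ^ 2 / (2 * S))) := by
  set t := a / S with ht
  have ht0 : 0 ≤ t := div_nonneg ha hS.le
  have one : ∀ d : ι → ℝ, ∑ k, d k ^ 2 ≤ S →
      (gauss ι).real {z | a ≤ dot d z} ≤ Real.exp (-(a ^ 2 / (2 * S))) := fun d hd => by
    have e : ∀ z, t * dot d z = dot (fun k => t * d k) z := fun z => by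
      simp only [dot, mul_sum, mul_assoc]
    have hi : Integrable (fun z => Real.exp (t * dot d z)) (gauss ι) :=
      integrable_of_bound (C := 1) (M := ∑ k, |t * d k|) (by unfold dot; fun_prop) fun z => by
        rw [Real.abs_exp, one_mul, e, Real.exp_le_exp]
        exact (le_abs_self _).trans (abs_dot_le (fun k => Finset.single_le_sum
          (f := fun k => |t * d k|) (fun _ _ => abs_nonneg _) (Finset.mem_univ k)) z)
    refine (measure_ge_le_exp_mul_mgf a ht0 hi).trans ?_
    rw [mgf]
    simp only [e, mgf_dot, mul_pow, ← mul_sum]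
    rw [← Real.exp_add, Real.exp_le_exp]
    have h1 : t ^ 2 * ∑ k, d k ^ 2 ≤ t ^ 2 * S := mul_le_mul_of_nonneg_left hd (sq_nonneg t)
    have h2 : t * a = a ^ 2 / S := by rw [ht]; ring
    have h3 : t ^ 2 * S = a ^ 2 / S := by rw [ht]; field_simp
    rw [show a ^ 2 / (2 * S) = a ^ 2 / S / 2 by ring]
    linarith
  refine (measureReal_mono (s₂ := {z | a ≤ dot c z} ∪ {z | a ≤ dot (fun k => -c k) z}) fun z hz => ?_).trans
    ((measureReal_union_le _ _).trans ((add_le_add (one c hc) (one _ (by simpa using hc))).trans_eq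
      (two_mul _).symm))
  simp only [Set.mem_union, Set.mem_ofPred_eq, dot, neg_mul, sum_neg_distrib] at hz ⊢
  rcases lt_abs.1 hz with h | h
  · exact Or.inl h.le
  · exact Or.inr h.le

/-! ### one row -/

variable {n : ℕ}

/-- replace the couplings at `i` by `z` -/
def setRow (g : Edge n → ℝ) (i : Fin n) (z : Fin n → ℝ) (e : Edge n) : ℝ :=
  if e.1.1 = i then z e.1.2 else if e.1.2 = i then z e.1.1 else g e

/-- remove the couplings at `i` -/
def zeroRow (g : Edge n → ℝ) (i : Fin n) : Edge n → ℝ := setRow g i 0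

lemma zeroRow_setRow (g : Edge n → ℝ) (i : Fin n) (z : Fin n → ℝ) :
    zeroRow (setRow g i z) i = zeroRow g i := by
  funext e
  simp only [zeroRow, setRow]
  split_ifs <;> rfl

lemma coupling_setRow (g : Edge n → ℝ) (i j : Fin n) (z : Fin n → ℝ) (h : j ≠ i) :
    coupling (setRow g i z) i j = z j := by
  rcases lt_or_gt_of_ne h with h' | h'
  · simp [coupling, setRow, h', not_lt.2 h'.le, h'.ne]
  · simp [coupling, setRow, h']

lemma coupling_self (g : Edge n → ℝ) (i : Fin n) : coupling g i i = 0 := by simp [coupling]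

lemma coupling_zeroRow (g : Edge n → ℝ) (i a b : Fin n) :
    coupling (zeroRow g i) a b = if a = i ∨ b = i then 0 else coupling g a b := by
  rcases lt_trichotomy a b with h | h | h
  · simp only [coupling, h, dite_true, zeroRow, setRow, Pi.zero_apply]
    split_ifs <;> simp_all
  · subst h
    simp [coupling_self]
  · simp only [coupling, h, dite_true, not_lt.2 h.le, dite_false, zeroRow, setRow, Pi.zero_apply]
    split_ifs <;> simp_all

lemma setRow_mp (i : Fin n) :
    MeasurePreserving (fun p : (Edge n → ℝ) × (Fin n → ℝ) => setRow p.1 i p.2)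
      ((disorder n).prod (gauss (Fin n))) (disorder n) := by
  classical
  have hm : Measurable fun p : (Edge n → ℝ) × (Fin n → ℝ) => setRow p.1 i p.2 := by
    refine measurable_pi_lambda _ fun e => ?_
    simp only [setRow]
    split_ifs <;> fun_prop
  refine ⟨hm, (Measure.pi_eq fun s hs => ?_).symm⟩
  rw [Measure.map_apply hm (MeasurableSet.univ_pi hs)]
  set A : Edge n → Set ℝ := fun e => if e.1.1 = i ∨ e.1.2 = i then Set.univ else s e
  set B : Fin n → Set ℝ := fun j =>
    if h : i < j then s ⟨(i, j), h⟩ else if h' : j < i then s ⟨(j, i), h'⟩ else Set.univ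
  have e : (fun p : (Edge n → ℝ) × (Fin n → ℝ) => setRow p.1 i p.2) ⁻¹' Set.univ.pi s =
      Set.univ.pi A ×ˢ Set.univ.pi B := by
    ext p
    simp only [Set.mem_preimage, Set.mem_univ_pi, Set.mem_prod, A, B]
    constructor
    · intro h
      refine ⟨fun e => ?_, fun j => ?_⟩
      · split_ifs with h1
        · trivial
        · rw [not_or] at h1
          simpa [setRow, h1.1, h1.2] using h e
      · split_ifs with h1 h2
        · simpa [setRow] using h ⟨(i, j), h1⟩
        · simpa [setRow, h2.ne] using h ⟨(j, i), h2⟩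
        · trivial
    · rintro ⟨hA, hB⟩ ⟨⟨a, b⟩, hab⟩
      simp only [setRow]
      split_ifs with h1 h2
      · subst h1
        simpa [hab] using hB b
      · subst h2
        simpa [hab, not_lt.2 hab.le] using hB a
      · simpa [h1, h2] using hA ⟨(a, b), hab⟩
  rw [e, Measure.prod_prod, disorder, gauss, Measure.pi_pi, Measure.pi_pi]
  have hA : ∏ e, gaussianReal 0 1 (A e) =
      ∏ e ∈ univ.filter (fun e : Edge n => ¬(e.1.1 = i ∨ e.1.2 = i)), gaussianReal 0 1 (s e) := by
    rw [prod_filter]
    refine prod_congr rfl fun e _ => ?_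
    simp only [A]
    split_ifs <;> simp
  have hB : ∏ j, gaussianReal 0 1 (B j) =
      ∏ e ∈ univ.filter (fun e : Edge n => e.1.1 = i ∨ e.1.2 = i), gaussianReal 0 1 (s e) := by
    rw [show ∏ j, gaussianReal 0 1 (B j) = ∏ j ∈ univ.erase i, gaussianReal 0 1 (B j) from
      (prod_erase _ (by simp [B])).symm]
    refine prod_bij' (fun j hj => if h : i < j then ⟨(i, j), h⟩ else ⟨(j, i),
        lt_of_le_of_ne (not_lt.1 h) (mem_erase.1 hj).1⟩)
      (fun e _ => if e.1.1 = i then e.1.2 else e.1.1) ?_ ?_ ?_ ?_ ?_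
    · intro j hj
      split_ifs <;> simp
    · intro e he
      have := e.2.ne
      rcases (mem_filter.1 he).2 with h | h <;> simp [h] <;> simp_all <;>
        exact fun h' => this h'.symm
    · intro j hj
      have := (mem_erase.1 hj).1
      split_ifs <;> simp_all
    · rintro ⟨⟨a, b⟩, hab⟩ he
      rcases (mem_filter.1 he).2 with h | h <;> simp only at h <;> subst h
      · simp [hab]
      · simp [hab.ne, not_lt.2 hab.le]
    · intro j hj
      have hne := (mem_erase.1 hj).1
      simp only [B]
      split_ifs with h1 h2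
      · rfl
      · rfl
      · exact absurd (lt_of_le_of_ne (not_lt.1 h1) hne) h2
  rw [hA, hB, mul_comm, prod_filter_mul_prod_filter_not]

lemma section_bound {E : Set ((Edge n → ℝ) × (Fin n → ℝ))} (hE : MeasurableSet E) (i : Fin n)
    {B : ℝ} (hB : 0 ≤ B)
    (h : ∀ g w, (gauss (Fin n)).real {z | (setRow g i z, w) ∈ E} ≤ B) :
    ((disorder n).prod (gauss (Fin n))).real E ≤ B := by
  refine ENNReal.toReal_le_of_le_ofReal hB ?_
  rw [Measure.prod_apply_symm hE]
  calc ∫⁻ w, disorder n ((fun g => (g, w)) ⁻¹' E) ∂gauss (Fin n)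
      ≤ ∫⁻ _, ENNReal.ofReal B ∂gauss (Fin n) := by
        refine lintegral_mono fun w => ?_
        have hS : MeasurableSet ((fun g => (g, w)) ⁻¹' E) := hE.preimage measurable_prodMk_right
        rw [← (setRow_mp i).measure_preimage hS.nullMeasurableSet,
          Measure.prod_apply (hS.preimage (setRow_mp i).measurable)]
        calc _ ≤ ∫⁻ _, ENNReal.ofReal B ∂disorder n := by
              refine lintegral_mono fun g => ?_
              rw [← ofReal_measureReal]
              exact ENNReal.ofReal_le_ofReal (h g w)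
          _ = ENNReal.ofReal B := by simp
    _ = ENNReal.ofReal B := by simp

/-! ### sparse offsets -/

/-- integer vectors in `[-L, L]^n` with at most `t` non-zero entries -/
def sparse (n L : ℕ) (t : ℝ) : Set (Fin n → ℤ) :=
  {o | (∀ j, |o j| ≤ L) ∧ ((univ.filter fun j => o j ≠ 0).card : ℝ) ≤ t}

lemma sparse_card (n L : ℕ) {t lam : ℝ} (hlam : 0 ≤ lam) :
    ∃ S : Finset (Fin n → ℤ), (∀ o ∈ sparse n L t, o ∈ S) ∧
      (S.card : ℝ) ≤ Real.exp (lam * t + n * (2 * L * Real.exp (-lam))) := by
  classical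
  set box := Fintype.piFinset fun _ : Fin n => Finset.Icc (-(L:ℤ)) L
  refine ⟨box.filter fun o => ((univ.filter fun j => o j ≠ 0).card : ℝ) ≤ t, fun o ho =>
    mem_filter.2 ⟨Fintype.mem_piFinset.2 fun j => Finset.mem_Icc.2 (abs_le.1 (ho.1 j)), ho.2⟩, ?_⟩
  set f : ℤ → ℝ := fun a => if a = 0 then 1 else Real.exp (-lam) with hf
  have hprod : ∀ o : Fin n → ℤ,
      ∏ j, f (o j) = Real.exp (-lam * ((univ.filter fun j => o j ≠ 0).card : ℝ)) := fun o => by
    simp only [hf, Finset.prod_ite, prod_const_one, one_mul, prod_const, ← Real.exp_nat_mul]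
    rw [mul_comm]
  calc ((box.filter fun o => ((univ.filter fun j => o j ≠ 0).card : ℝ) ≤ t).card : ℝ)
      = ∑ o ∈ box.filter (fun o => ((univ.filter fun j => o j ≠ 0).card : ℝ) ≤ t), (1:ℝ) := by simp
    _ ≤ ∑ o ∈ box.filter (fun o => ((univ.filter fun j => o j ≠ 0).card : ℝ) ≤ t),
          Real.exp (lam * t) * ∏ j, f (o j) := sum_le_sum fun o ho => by
        rw [hprod, ← Real.exp_add]
        exact Real.one_le_exp (by linarith [mul_le_mul_of_nonneg_left (mem_filter.1 ho).2 hlam])
    _ ≤ ∑ o ∈ box, Real.exp (lam * t) * ∏ j, f (o j) :=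
        sum_le_sum_of_subset_of_nonneg (filter_subset _ _) fun o _ _ => by
          rw [hprod]; positivity
    _ = Real.exp (lam * t) * (∑ a ∈ Finset.Icc (-(L:ℤ)) L, f a) ^ n := by
        rw [← mul_sum, Finset.sum_prod_piFinset (Finset.Icc (-(L:ℤ)) L) (fun _ : Fin n => f)]
        simp
    _ ≤ Real.exp (lam * t) * Real.exp (2 * L * Real.exp (-lam)) ^ n := by
        refine mul_le_mul_of_nonneg_left (pow_le_pow_left₀ (sum_nonneg fun a _ => ?_) ?_ n)
          (Real.exp_pos _).le
        · simp only [hf]; split_ifs <;> positivity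
        have hs : ∑ a ∈ Finset.Icc (-(L:ℤ)) L, f a = 1 + 2 * L * Real.exp (-lam) := by
          rw [← Finset.add_sum_erase _ _ (show (0:ℤ) ∈ Finset.Icc (-(L:ℤ)) L by simp),
            sum_congr rfl fun a ha => show f a = Real.exp (-lam) by simp [hf, (mem_erase.1 ha).1]]
          have hc : ((Finset.Icc (-(L:ℤ)) L).erase 0).card = 2 * L := by
            rw [Finset.card_erase_of_mem (by simp), Int.card_Icc]; omega
          simp [hf, sum_const, hc]
        rw [hs, add_comm]
        exact Real.add_one_le_exp _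
    _ = _ := by rw [← Real.exp_nat_mul, ← Real.exp_add]

end Vale.Agent.P150.High.Ball
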