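import Vale.Agent.P150.High.ResCalc
import Vale.Agent.P150.High.BallTail

/-!
# P150, BallMax: one site left out

With `D₀` the profile with `D i = 0` and `g₀` the disorder without the couplings at `i`, the matrices
`G₀ = (1 + D₀ W)⁻¹ D₀` and the columns `b ≠ i` of ` (1 + D₀ W)⁻¹` do not see the couplings at `i`, and
`H i b = H₀ i b / (1 - D i H₀ i i)` is explicit in them.
-/

open Matrix Finset
open scoped Matrix.Norms.L2Operator ComplexConjugate

namespace Vale.Agent.P150.High.Ball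

open Vale.Agent.P150 ResCalc

variable {n : ℕ}

/-- `b - uJ` -/
noncomputable def bW (β b u : ℝ) (g : Edge n → ℝ) : Matrix (Fin n) (Fin n) ℂ :=
  cmat (b • (1 : Matrix (Fin n) (Fin n) ℝ) - u • Matrix.of (cpl β g))

/-- the inverse of `1 + D W` -/
noncomputable def Mi (W : Matrix (Fin n) (Fin n) ℂ) (D : Fin n → ℝ) : Matrix (Fin n) (Fin n) ℂ :=
  (1 + cdiag D * W)⁻¹

lemma cG_eq_Mi (W : Matrix (Fin n) (Fin n) ℂ) (D : Fin n → ℝ) : cG W D = Mi W D * cdiag D := rfl

lemma cM_eq_Mi {W : Matrix (Fin n) (Fin n) ℂ} {D : Fin n → ℝ} {R : ℝ} (h : Res W D R) :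
    cM W D = Mi W D := (Matrix.inv_eq_left_inv h.M_mul).symm

lemma resW_zero (β u θ : ℝ) (g : Edge n → ℝ) (D : Fin n → ℝ) :
    resW 0 β u θ g D = bW β (resShift β u θ D) u g := by
  simp [resW, cW, resV, bW]

lemma bW_apply (β b u : ℝ) (g : Edge n → ℝ) (a c : Fin n) :
    bW β b u g a c = (((if a = c then b else 0) - u * cpl β g a c : ℝ) : ℂ) := by
  simp [bW, cmat, Matrix.one_apply]

lemma bW_zeroRow (β b u : ℝ) (g : Edge n → ℝ) (i a c : Fin n) (ha : a ≠ i) (hc : c ≠ i) :
    bW β b u g a c = bW β b u (zeroRow g i) a c := by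
  simp [bW_apply, cpl, coupling_zeroRow, ha, hc]

/-- the form condition passes to the profile with `D i = 0` and the disorder without the row -/
lemma formGe_minor {η β b u : ℝ} {g : Edge n → ℝ} {D : Fin n → ℝ}
    (h : FormGe η (b • (1 : Matrix (Fin n) (Fin n) ℝ) - u • Matrix.of (cpl β g)) D) (i : Fin n) :
    FormGe η (b • (1 : Matrix (Fin n) (Fin n) ℝ) - u • Matrix.of (cpl β g)) (Function.update D i 0) ∧
    FormGe η (b • (1 : Matrix (Fin n) (Fin n) ℝ) - u • Matrix.of (cpl β (zeroRow g i)))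
      (Function.update D i 0) := by
  have e1 : ∀ v : Fin n → ℝ, (fun j => Function.update D i 0 j * v j) =
      fun j => D j * Function.update v i 0 j := fun v => by
    funext j; rcases eq_or_ne j i with h | h <;> simp [h]
  have e2 : ∀ v : Fin n → ℝ, ∑ j, Function.update D i 0 j * v j ^ 2 =
      ∑ j, D j * Function.update v i 0 j ^ 2 := fun v => sum_congr rfl fun j _ => by
    rcases eq_or_ne j i with h | h <;> simp [h]
  have e3 : ∀ v : Fin n → ℝ, ∑ j, (Function.update D i 0 j * v j) ^ 2 =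
      ∑ j, (D j * Function.update v i 0 j) ^ 2 := fun v => sum_congr rfl fun j _ => by
    rw [congrFun (e1 v) j]
  refine ⟨fun v => ?_, fun v => ?_⟩
  · have := h (Function.update v i 0)
    rwa [← e1 v, ← e2 v, ← e3 v] at this
  · have h' := h (Function.update v i 0)
    rw [← e1 v, ← e2 v, ← e3 v] at h'
    refine h'.trans (le_of_eq (congrArg₂ (· + ·) rfl ?_))
    simp only [dotProduct, Matrix.mulVec, Matrix.sub_apply, Matrix.smul_apply, Matrix.of_apply, cpl,
      coupling_zeroRow]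
    refine sum_congr rfl fun a _ => ?_
    rcases eq_or_ne a i with ha | ha
    · simp [ha]
    refine congrArg _ (sum_congr rfl fun c _ => ?_)
    rcases eq_or_ne c i with hc | hc <;> simp [ha, hc]

/-! ### rows of the minor -/

lemma mul_cdiag_apply (X : Matrix (Fin n) (Fin n) ℂ) (D : Fin n → ℝ) (a c : Fin n) :
    (X * cdiag D) a c = X a c * (D c : ℂ) := by
  rw [cdiag, Matrix.mul_diagonal]

lemma Mi_row {W : Matrix (Fin n) (Fin n) ℂ} {D : Fin n → ℝ} {i : Fin n} (hD : D i = 0)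
    (hu : IsUnit (1 + cdiag D * W).det) (c : Fin n) : Mi W D i c = if i = c then 1 else 0 := by
  have h : (((1 + cdiag D * W) * Mi W D) : Matrix (Fin n) (Fin n) ℂ) i c = (1 : Matrix (Fin n) (Fin n) ℂ) i c := by
    rw [Mi, Matrix.mul_nonsing_inv _ hu]
  rw [Matrix.add_mul, Matrix.one_mul, Matrix.mul_assoc, Matrix.add_apply, cdiag, Matrix.diagonal_mul,
    hD, Complex.ofReal_zero, zero_mul, add_zero, Matrix.one_apply] at h
  exact h

lemma cG_col {W : Matrix (Fin n) (Fin n) ℂ} {D : Fin n → ℝ} {i : Fin n} (hD : D i = 0) (a : Fin n) :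
    cG W D a i = 0 := by
  rw [cG_eq_Mi, mul_cdiag_apply, hD, Complex.ofReal_zero, mul_zero]

lemma cG_row {W : Matrix (Fin n) (Fin n) ℂ} {D : Fin n → ℝ} {i : Fin n} (hD : D i = 0)
    (hu : IsUnit (1 + cdiag D * W).det) (c : Fin n) : cG W D i c = 0 := by
  rw [cG_eq_Mi, mul_cdiag_apply, Mi_row hD hu]
  split_ifs with h
  · rw [← h, hD, Complex.ofReal_zero, mul_zero]
  · rw [zero_mul]

lemma sandwich_zero {X Δ Y : Matrix (Fin n) (Fin n) ℂ} {i a c : Fin n} (hX : X a i = 0) (hY : Y i c = 0)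
    (hΔ : ∀ k l, k ≠ i → l ≠ i → Δ k l = 0) : (X * Δ * Y) a c = 0 := by
  simp only [Matrix.mul_apply]
  refine sum_eq_zero fun l _ => ?_
  rcases eq_or_ne l i with h | h
  · rw [h, hY, mul_zero]
  · rw [sum_eq_zero fun k _ => ?_, zero_mul]
    rcases eq_or_ne k i with h' | h'
    · rw [h', hX, zero_mul]
    · rw [hΔ k l h' h, mul_zero]

/-! ### the cavity identities -/

/-- `σ = Re H₀ i i` and the three families of forms in the row, at given `G₀`, `M₀` -/
noncomputable def sigma (β b u : ℝ) (g : Edge n → ℝ) (i : Fin n) (G : Matrix (Fin n) (Fin n) ℂ) : ℝ :=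
  -b + u ^ 2 * (β ^ 2 / n) * ∑ k, ∑ l, coupling g i k * coupling g i l * (G k l).re

/-- the linear form of the row -/
noncomputable def rowForm (β u : ℝ) (g : Edge n → ℝ) (i : Fin n) (x : Fin n → ℂ) : ℝ :=
  u * (β / √n) * ∑ k, coupling g i k * (x k).re

theorem cavity {η β u θ : ℝ} (hη : 0 < η) {g : Edge n → ℝ} {D : Fin n → ℝ}
    (hA : Admissible β η u θ g D) (i : Fin n) :
    let b := resShift β u θ D
    let D₀ := Function.update D i 0
    let G := cG (bW β b u (zeroRow g i)) D₀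
    let M := Mi (bW β b u (zeroRow g i)) D₀
    let σ := sigma β b u g i G
    Res (bW β b u (zeroRow g i)) D₀ (1 / η) ∧
    resH β u θ g D i i * (1 - D i * σ) = σ ∧
    (∀ c, c ≠ i → resH β u θ g D i c * (1 - D i * σ) = rowForm β u g i fun k => M k c) ∧
    (∀ v : Fin n → ℝ, (resH β u θ g D *ᵥ fun j => D j * v j) i * (1 - D i * σ) =
      σ * (D i * v i) + rowForm β u g i (G *ᵥ fun j => (v j : ℂ))) ∧
    |∑ a, (G a a).re - ∑ a, (D a + D a ^ 2 * resH β u θ g D a a)| ≤
      1 + ‖cmat (resH β u θ g D)‖ + ‖cH (bW β b u g) D₀‖ * ‖cmat (resH β u θ g D)‖ := by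
  intro b D₀ G M σ
  set V := b • (1 : Matrix (Fin n) (Fin n) ℝ) - u • Matrix.of (cpl β g)
  set V₀ := b • (1 : Matrix (Fin n) (Fin n) ℝ) - u • Matrix.of (cpl β (zeroRow g i))
  have hsym : ∀ g' : Edge n → ℝ, (b • (1 : Matrix (Fin n) (Fin n) ℝ) - u • Matrix.of (cpl β g'))ᵀ =
      b • (1 : Matrix (Fin n) (Fin n) ℝ) - u • Matrix.of (cpl β g') := fun g' => by
    ext a c; simp [cpl, coupling_symm (g := g') a c, Matrix.one_apply, eq_comm]
  have hcW : ∀ g' : Edge n → ℝ, cW 0 (b • (1 : Matrix (Fin n) (Fin n) ℝ) - u • Matrix.of (cpl β g')) = bW β b u g' :=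
    fun g' => by simp [cW, bW]
  have hform := formGe_minor (η := η) (D := D) (show FormGe η V D from hA.2.2.2.2.2) i
  have h0 : Res (bW β b u g) D₀ (1 / η) := hcW g ▸ res_of_form (hsym g) hη hform.1
  have h00 : Res (bW β b u (zeroRow g i)) D₀ (1 / η) := hcW (zeroRow g i) ▸ res_of_form (hsym _) hη hform.2
  have hR := res_admissible hA hη 0
  have hH := resHc_zero hA hη
  rw [resW_zero] at hR
  rw [resHc, resW_zero] at hH
  change Res (bW β b u g) D (1 / η) at hR
  change cH (bW β b u g) D = cmat (resH β u θ g D) at hH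
  set W := bW β b u g
  set W₀ := bW β b u (zeroRow g i)
  set H₀ := cH W D₀
  have hD₀ : D₀ i = 0 := Function.update_self i 0 D
  have hD₀' : ∀ a, a ≠ i → D₀ a = D a := fun a ha => Function.update_of_ne ha 0 D
  -- the minor does not see the row
  have hΔ : ∀ k l, k ≠ i → l ≠ i → (W₀ - W) k l = 0 := fun k l hk hl => by
    rw [Matrix.sub_apply]
    exact sub_eq_zero.2 (bW_zeroRow β b u g i k l hk hl).symm
  have hG : cG W D₀ = G := by
    ext a c
    rw [← sub_eq_zero, ← Matrix.sub_apply, h00.G_sub h0]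
    exact sandwich_zero (cG_col hD₀ a) (cG_row hD₀ h00.unit c) hΔ
  have hM : ∀ a c, c ≠ i → cM W D₀ a c = M a c := fun a c hc => by
    rw [show M = cM W₀ D₀ from (cM_eq_Mi h00).symm, ← sub_eq_zero, ← Matrix.sub_apply, h00.M_sub h0]
    refine sandwich_zero (cG_col hD₀ a) ?_ hΔ
    rw [cM_eq_Mi h00, Mi_row hD₀ h00.unit, if_neg (Ne.symm hc)]
  have hWi : ∀ k, k ≠ i → W i k = ((-(u * (β / √n) * coupling g i k) : ℝ) : ℂ) := fun k hk => by
    rw [show W = bW β b u g from rfl, bW_apply, if_neg (Ne.symm hk), cpl]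
    push_cast; ring
  have hGrow : ∀ c, G i c = 0 := cG_row hD₀ h00.unit
  have hGcol : ∀ a, G a i = 0 := cG_col hD₀
  -- the diagonal of `H₀`
  have hii : (H₀ i i).re = σ := by
    have e : H₀ i i = -W i i + ∑ k, ∑ l, W i k * G k l * W i l := by
      simp only [H₀, cH, hG, Matrix.add_apply, Matrix.neg_apply, Matrix.mul_apply, sum_mul]
      rw [sum_comm]
      refine congrArg _ (sum_congr rfl fun k _ => sum_congr rfl fun l _ => ?_)
      rw [show W l i = W i l by rw [← Matrix.transpose_apply W, h0.symm]]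
    rw [e, show W i i = ((b : ℝ) : ℂ) by simp [W, bW_apply, cpl, coupling_self], Complex.add_re,
      Complex.neg_re, Complex.ofReal_re, Complex.re_sum]
    simp only [Complex.re_sum, σ, sigma, mul_sum]
    refine congrArg _ (sum_congr rfl fun k _ => sum_congr rfl fun l _ => ?_)
    rcases eq_or_ne k i with hk | hk
    · simp [hk, coupling_self, hGrow]
    rcases eq_or_ne l i with hl | hl
    · simp [hl, coupling_self, hGcol]
    rw [hWi k hk, hWi l hl]
    simp only [Complex.mul_re, Complex.mul_im, Complex.ofReal_re, Complex.ofReal_im]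
    rw [show u ^ 2 * (β ^ 2 / (n:ℝ)) = (u * (β / √n)) * (u * (β / √n)) by
      rw [show β ^ 2 / (n:ℝ) = (β / √n) ^ 2 by rw [div_pow, Real.sq_sqrt (Nat.cast_nonneg n)]]; ring]
    ring
  have hoff : ∀ c, c ≠ i → (H₀ i c).re = rowForm β u g i fun k => M k c := fun c hc => by
    simp only [H₀, Res.H_eq, Matrix.neg_apply, Matrix.mul_apply, Complex.neg_re, Complex.re_sum, rowForm,
      mul_sum, ← sum_neg_distrib]
    refine sum_congr rfl fun k _ => ?_
    rw [hM k c hc]
    rcases eq_or_ne k i with hk | hk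
    · rw [hk, show M i c = 0 from (Mi_row hD₀ h00.unit c).trans (if_neg (Ne.symm hc))]; simp
    · rw [hWi k hk]
      simp only [Complex.mul_re, Complex.ofReal_re, Complex.ofReal_im]; ring
  have hmix : H₀ * cdiag D₀ = -(W * G) := by
    rw [show H₀ = -(W * cM W D₀) from Res.H_eq, Matrix.neg_mul, Matrix.mul_assoc, h0.M_mul_D, hG]
  -- `H - H₀ = H₀ (D - D₀) H`
  have hkey : ∀ a c, cH W D a c - H₀ a c = H₀ a i * (D i : ℂ) * cH W D i c := fun a c => by
    rw [← Matrix.sub_apply, h0.H_sub hR]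
    simp only [sub_self, Matrix.mul_zero, Matrix.zero_mul, zero_add]
    rw [Matrix.mul_apply, sum_eq_single i]
    · rw [Matrix.mul_apply, sum_eq_single i] <;> simp +contextual [cdiag, hD₀, H₀]
    · intro l _ hl
      rw [Matrix.mul_apply, sum_eq_zero, zero_mul]
      intro k _
      rcases eq_or_ne k l with hkl | hkl
      · simp [cdiag, hkl, hD₀' l hl]
      · simp [cdiag, hkl]
    · simp
  set x := fun c => resH β u θ g D i c
  have hx : ∀ c, cH W D i c = (x c : ℂ) := fun c => by rw [hH]; rfl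
  have hrow : ∀ c, x c * (1 - D i * σ) = (H₀ i c).re := fun c => by
    have := congrArg Complex.re (hkey i c)
    rw [hx, Complex.sub_re, Complex.ofReal_re, Complex.mul_re, Complex.ofReal_re, Complex.ofReal_im,
      Complex.mul_re, Complex.ofReal_re, Complex.ofReal_im, hii] at this
    linarith
  refine ⟨h00, (hrow i).trans hii, fun c hc => (hrow c).trans (hoff c hc), fun v => ?_, ?_⟩
  · simp only [Matrix.mulVec, dotProduct, sum_mul]
    calc ∑ c, x c * (D c * v c) * (1 - D i * σ)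
        = ∑ c, (H₀ i c).re * (D c * v c) := sum_congr rfl fun c _ => by rw [← hrow c]; ring
      _ = σ * (D i * v i) + ∑ c, (H₀ i c).re * (D₀ c * v c) := by
          rw [← add_sum_erase _ _ (mem_univ i), ← add_sum_erase univ
            (fun c => (H₀ i c).re * (D₀ c * v c)) (mem_univ i), hii, hD₀]
          rw [zero_mul, mul_zero, zero_add]
          exact congrArg _ (sum_congr rfl fun c hc => by rw [hD₀' c (mem_erase.1 hc).1])
      _ = _ := by
          refine congrArg _ ?_
          have e : ((H₀ * cdiag D₀) *ᵥ fun j => (v j : ℂ)) i = -((W *ᵥ (G *ᵥ fun j => (v j : ℂ))) i) := by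
            rw [hmix, Matrix.neg_mulVec, Matrix.mulVec_mulVec, Pi.neg_apply]
          have e' := congrArg Complex.re e
          simp only [Matrix.mulVec, dotProduct, mul_cdiag_apply, Complex.re_sum, Complex.neg_re] at e'
          calc ∑ c, (H₀ i c).re * (D₀ c * v c) = ∑ c, (H₀ i c * (D₀ c : ℂ) * (v c : ℂ)).re :=
                sum_congr rfl fun c _ => by
                  simp only [Complex.mul_re, Complex.mul_im, Complex.ofReal_re, Complex.ofReal_im]; ring
            _ = _ := by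
                rw [e', ← sum_neg_distrib, rowForm, mul_sum]
                refine sum_congr rfl fun k _ => ?_
                rcases eq_or_ne k i with hk | hk
                · simp [hk, coupling_self, hGrow, Matrix.mulVec, dotProduct]
                · rw [hWi k hk]
                  simp only [Matrix.mulVec, dotProduct, Complex.mul_re, Complex.ofReal_re, Complex.ofReal_im]
                  ring
  · have hGa : ∀ a, (G a a).re = D₀ a + D₀ a ^ 2 * (H₀ a a).re := fun a => by
      rw [← hG, h0.G_eq, Matrix.add_apply, mul_cdiag_apply, cdiag, Matrix.diagonal_apply_eq,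
        Matrix.diagonal_mul, Complex.add_re, Complex.ofReal_re]
      simp only [Complex.mul_re, Complex.mul_im, Complex.ofReal_re, Complex.ofReal_im, H₀]
      ring
    have hb : ∀ a, 0 ≤ D a ∧ D a ≤ 1 := hA.2.2.2.1
    have hsq : ∀ a, D a ^ 2 ≤ 1 := fun a => pow_le_one₀ (hb a).1 (hb a).2
    rw [← sum_sub_distrib]
    refine (abs_sum_le_sum_abs _ _).trans ?_
    refine (sum_le_sum (g := fun a => (if a = i then 1 + ‖cH W D‖ else 0) +
      ‖H₀ a i‖ * ‖cH W D i a‖) fun a _ => ?_).trans ?_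
    · rcases eq_or_ne a i with ha | ha
      · rw [if_pos ha, hGa, ha, hD₀]
        refine le_trans ?_ (le_add_of_nonneg_right (by positivity))
        rw [show (0:ℝ) + 0 ^ 2 * (H₀ i i).re - (D i + D i ^ 2 * resH β u θ g D i i) =
          -(D i + D i ^ 2 * resH β u θ g D i i) by ring, abs_neg]
        refine (abs_add_le _ _).trans (add_le_add (abs_le.2 ⟨by linarith [(hb i).1], (hb i).2⟩) ?_)
        rw [abs_mul, abs_of_nonneg (sq_nonneg _)]
        refine (mul_le_of_le_one_left (abs_nonneg _) (hsq i)).trans ?_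
        have := ResCalc.entry_le (cH W D) i i
        rwa [hx, Complex.norm_real, Real.norm_eq_abs] at this
      · rw [if_neg ha, zero_add, hGa, hD₀' a ha]
        have e := congrArg Complex.re (hkey a a)
        rw [Complex.sub_re, hH] at e
        change resH β u θ g D a a - _ = _ at e
        rw [show D a + D a ^ 2 * (H₀ a a).re - (D a + D a ^ 2 * resH β u θ g D a a) =
          -(D a ^ 2 * (H₀ a i * (D i : ℂ) * cH W D i a).re) by rw [← hH] at e; rw [← e]; ring, abs_neg, abs_mul,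
          abs_of_nonneg (sq_nonneg _)]
        refine (mul_le_of_le_one_left (abs_nonneg _) (hsq a)).trans ((Complex.abs_re_le_norm _).trans ?_)
        rw [norm_mul, norm_mul, Complex.norm_real, Real.norm_eq_abs, abs_of_nonneg (hb i).1]
        exact mul_le_mul_of_nonneg_right (mul_le_of_le_one_right (norm_nonneg _) (hb i).2) (norm_nonneg _)
    · rw [sum_add_distrib, sum_ite_eq', if_pos (mem_univ i), ← hH]
      refine add_le_add le_rfl ((Real.sum_mul_le_sqrt_mul_sqrt _ _ _).trans ?_)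
      refine mul_le_mul ((Real.sqrt_le_sqrt (col_le _ _)).trans_eq (Real.sqrt_sq (norm_nonneg _))) ?_
        (Real.sqrt_nonneg _) (norm_nonneg _)
      refine (Real.sqrt_le_sqrt ?_).trans_eq (Real.sqrt_sq (norm_nonneg _))
      have := col_le (cH W D)ᵀ i
      rwa [ResCalc.norm_transpose] at this

/-! ### perturbation of the minor -/

lemma perturb {A A' : Matrix (Fin n) (Fin n) ℂ} {K : ℝ} (hA : IsUnit A.det) (hK : ‖A⁻¹‖ ≤ K)
    (h : K * ‖A' - A‖ ≤ 1 / 2) :
    IsUnit A'.det ∧ ‖A'⁻¹‖ ≤ 2 * K ∧ ‖A'⁻¹ - A⁻¹‖ ≤ 2 * K * K * ‖A' - A‖ := by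
  have hK0 : 0 ≤ K := (norm_nonneg _).trans hK
  have hX : ‖A⁻¹ * (A' - A)‖ ≤ 1 / 2 :=
    (norm_mul_le _ _).trans ((mul_le_mul_of_nonneg_right hK (norm_nonneg _)).trans h)
  have hu : IsUnit A'.det := by
    rw [← Matrix.isUnit_iff_isUnit_det, ← Matrix.mulVec_injective_iff_isUnit]
    intro v w hvw
    set d := v - w
    have h0 : A' *ᵥ d = 0 := by rw [Matrix.mulVec_sub]; exact sub_eq_zero.2 hvw
    have h1 : (A⁻¹ * (A' - A)) *ᵥ d = -d := by
      rw [Matrix.mul_sub, Matrix.nonsing_inv_mul _ hA, Matrix.sub_mulVec, Matrix.one_mulVec,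
        ← Matrix.mulVec_mulVec, h0, Matrix.mulVec_zero, zero_sub]
    have h2 := (csq_mulVec_le (A⁻¹ * (A' - A)) d).trans
      (mul_le_mul_of_nonneg_right (pow_le_pow_left₀ (norm_nonneg _) hX 2) (csq_nonneg d))
    rw [h1, show csq (-d) = csq d by simp [csq]] at h2
    exact sub_eq_zero.1 (eq_zero_of_csq (by nlinarith [csq_nonneg d]))
  have e : A⁻¹ - A'⁻¹ = A⁻¹ * (A' - A) * A'⁻¹ := by
    rw [Matrix.mul_sub, Matrix.sub_mul, Matrix.nonsing_inv_mul _ hA, Matrix.one_mul, Matrix.mul_assoc,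
      Matrix.mul_nonsing_inv _ hu, Matrix.mul_one]
  have h2 : ‖A'⁻¹‖ ≤ 2 * K := by
    have h3 : ‖A'⁻¹‖ ≤ ‖A⁻¹‖ + ‖A⁻¹ - A'⁻¹‖ := by
      calc ‖A'⁻¹‖ = ‖A⁻¹ - (A⁻¹ - A'⁻¹)‖ := by rw [sub_sub_cancel]
        _ ≤ _ := norm_sub_le _ _
    rw [e] at h3
    have h4 := (norm_mul_le (A⁻¹ * (A' - A)) A'⁻¹).trans (mul_le_mul_of_nonneg_right hX (norm_nonneg _))
    linarith
  refine ⟨hu, h2, ?_⟩
  rw [norm_sub_rev, e]
  refine (norm_mul_le _ _).trans ?_
  calc ‖A⁻¹ * (A' - A)‖ * ‖A'⁻¹‖ ≤ K * ‖A' - A‖ * (2 * K) :=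
        mul_le_mul ((norm_mul_le _ _).trans (mul_le_mul_of_nonneg_right hK (norm_nonneg _))) h2
          (norm_nonneg _) (by positivity)
    _ = _ := by ring

lemma norm_cdiag_le {D : Fin n → ℝ} {K : ℝ} (hK : 0 ≤ K) (h : ∀ a, |D a| ≤ K) : ‖cdiag D‖ ≤ K := by
  rw [cdiag, Matrix.l2_opNorm_diagonal]
  exact (pi_norm_le_iff_of_nonneg hK).2 fun a => by simpa using h a

lemma opLe_re {X : Matrix (Fin n) (Fin n) ℂ} {K : ℝ} (h : ‖X‖ ≤ K) :
    Fast.OpNorm.OpLe (Matrix.of fun a c => (X a c).re) K := by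
  refine ⟨(norm_nonneg _).trans h, fun w => ?_⟩
  have h1 := (csq_mulVec_le X fun a => (w a : ℂ)).trans
    (mul_le_mul_of_nonneg_right (pow_le_pow_left₀ (norm_nonneg _) h 2) (csq_nonneg _))
  have e : csq (fun a => (w a : ℂ)) = Fast.OpNorm.nsq w := by simp [csq, Fast.OpNorm.nsq, Complex.norm_real]
  rw [e] at h1
  refine le_trans ?_ h1
  refine sum_le_sum fun a _ => ?_
  rw [← sq_abs]
  refine pow_le_pow_left₀ (abs_nonneg _) (le_trans (le_of_eq ?_) (Complex.abs_re_le_norm _)) 2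
  simp [Matrix.mulVec, dotProduct, Complex.re_sum]

end Vale.Agent.P150.High.Ball
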