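import Vale.Agent.P150.High.BallTail
import Vale.Agent.P150.High.AmpLip

/-!
# P150, BallMax: the centre moves little when the couplings at one site are removed
-/

open MeasureTheory Matrix Finset

namespace Vale.Agent.P150.High.Ball

open Vale.Agent.P150 Fast AmpLip

variable {n : ℕ}

/-- drop the coordinate `i` -/
def off (i : Fin n) (v : Fin n → ℝ) : Fin n → ℝ := Function.update v i 0

lemma off_add (i : Fin n) (v w : Fin n → ℝ) : off i (v + w) = off i v + off i w := by
  funext j; rcases eq_or_ne j i with h | h <;> simp [off, h]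

lemma off_smul (i : Fin n) (c : ℝ) (v : Fin n → ℝ) : off i (c • v) = c • off i v := by
  funext j; rcases eq_or_ne j i with h | h <;> simp [off, h]

lemma nrm_off_le (i : Fin n) (v : Fin n → ℝ) : PartB.nrm (off i v) ≤ PartB.nrm v :=
  nrm_mono fun j => by rcases eq_or_ne j i with h | h <;> simp [off, h]

lemma abs_le_nrm (v : Fin n → ℝ) (j : Fin n) : |v j| ≤ PartB.nrm v :=
  Real.abs_le_sqrt (single_le_sum (f := fun k => v k ^ 2) (fun _ _ => sq_nonneg _) (mem_univ j))

lemma nrm_le_split (i : Fin n) (v : Fin n → ℝ) : PartB.nrm v ≤ |v i| + PartB.nrm (off i v) := by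
  have e : v = Pi.single i (v i) + off i v := by
    funext j; rcases eq_or_ne j i with h | h <;> simp [off, h]
  conv_lhs => rw [e]
  refine (nrm_add _ _).trans (add_le_add (le_of_eq ?_) le_rfl)
  rw [PartB.nrm, sum_eq_single i (fun j _ hj => by simp [hj]) (by simp)]
  simp [Real.sqrt_sq_eq_abs]

lemma abs_tanh_le_one (a : ℝ) : |Real.tanh a| ≤ 1 := (Real.abs_tanh_lt_one _).le

lemma nrm_tanh_diff (i : Fin n) (v w : Fin n → ℝ) :
    PartB.nrm (fun j => Real.tanh (v j) - Real.tanh (w j)) ≤ 2 + PartB.nrm (off i (v - w)) := by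
  refine (nrm_le_split i _).trans (add_le_add ?_ (nrm_mono fun j => ?_))
  · exact (abs_sub _ _).trans (by linarith [abs_tanh_le_one (v i), abs_tanh_le_one (w i)])
  · rcases eq_or_ne j i with h | h
    · simp [off, h]
    · simpa [off, h] using tanh_lip (v j) (w j)

lemma nrm_off_apply {J J' : Matrix (Fin n) (Fin n) ℝ} {i : Fin n} {R : ℝ}
    (hsame : ∀ a b, a ≠ i → b ≠ i → J a b = J' a b) (hR : PartB.nrm (fun a => J a i - J' a i) ≤ R)
    (v : Fin n → ℝ) : PartB.nrm (off i ((J - J') *ᵥ v)) ≤ R * |v i| := by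
  have e : off i ((J - J') *ᵥ v) = off i (v i • fun a => J a i - J' a i) := by
    funext a
    rcases eq_or_ne a i with h | h
    · simp [off, h]
    · simp only [off, Function.update_of_ne h, mulVec, dotProduct, Matrix.sub_apply, Pi.smul_apply, smul_eq_mul]
      rw [sum_eq_single i (fun b _ hb => by rw [hsame a b h hb]; ring) (by simp), mul_comm]
  rw [e]
  refine (nrm_off_le i _).trans ?_
  rw [nrm_smul, mul_comm R]
  exact mul_le_mul_of_nonneg_left hR (abs_nonneg _)

lemma step_off {u c Λ R : ℝ} {J J' : Matrix (Fin n) (Fin n) ℝ} {i : Fin n}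
    (hu : |u| ≤ 1) (hc : |c| ≤ 1) (hJ : OpNorm.OpLe J' Λ)
    (hsame : ∀ a b, a ≠ i → b ≠ i → J a b = J' a b) (hR : PartB.nrm (fun a => J a i - J' a i) ≤ R)
    {y y' a a' b b' : Fin n → ℝ} (ha : |a i| ≤ 1) :
    PartB.nrm (off i ((y + u • (J *ᵥ a) + c • b) - (y' + u • (J' *ᵥ a') + c • b'))) ≤
      PartB.nrm (off i (y - y')) + (Λ * PartB.nrm (a - a') + R) + PartB.nrm (off i (b - b')) := by
  have e : (y + u • (J *ᵥ a) + c • b) - (y' + u • (J' *ᵥ a') + c • b') =
      (y - y') + u • (J' *ᵥ (a - a') + (J - J') *ᵥ a) + c • (b - b') := by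
    rw [mulVec_sub, sub_mulVec, smul_sub, smul_add, smul_sub, smul_sub]; abel
  have hR0 : 0 ≤ R := (nrm_nonneg _).trans hR
  rw [e, off_add, off_add, off_smul, off_smul, off_add]
  refine (nrm_add _ _).trans (add_le_add ((nrm_add _ _).trans (add_le_add le_rfl ?_)) ?_)
  · rw [nrm_smul]
    refine (mul_le_of_le_one_left (nrm_nonneg _) hu).trans ((nrm_add _ _).trans (add_le_add ?_ ?_))
    · exact (nrm_off_le i _).trans (nrm_mulVec hJ _)
    · exact (nrm_off_apply hsame hR a).trans (mul_le_of_le_one_right hR0 ha)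
  · rw [nrm_smul]; exact mul_le_of_le_one_left (nrm_nonneg _) hc

/-- Off the removed site the fields move by `O(L^k (1 + |f_i|))`. -/
lemma field_row {β shift s : ℝ} (hβ : |β| ≤ 1) (hs : s ∈ Set.Icc (0 : ℝ) 1)
    {J J' : Fin n → Fin n → ℝ} {i : Fin n} {Λ R F : ℝ} {y y' f : Fin n → ℝ}
    (hJ : OpNorm.OpLe (Matrix.of J') Λ) (hsame : ∀ a b, a ≠ i → b ≠ i → J a b = J' a b)
    (hR : PartB.nrm (fun a => J a i - J' a i) ≤ R)
    (hy : y - y' = (Matrix.of J - Matrix.of J') *ᵥ f) (hf : |f i| ≤ F) (l : ℕ) :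
    PartB.nrm (off i (ampZ β shift s J y f l - ampZ β shift s J' y' f l)) ≤
      (R * (F + 1) + 2 * Λ + 2) * (Λ + 3) ^ l := by
  have hR0 : 0 ≤ R := (nrm_nonneg _).trans hR
  have hF0 : 0 ≤ F := (abs_nonneg _).trans hf
  set X := R * (F + 1) + 2 * Λ + 2 with hX
  have hΛ := hJ.1
  have hX0 : 0 ≤ X := by positivity
  have h00 : PartB.nrm (0 : Fin n → ℝ) = 0 := by simp [PartB.nrm]
  have hY : PartB.nrm (off i (y - y')) ≤ R * F := by
    rw [hy]
    exact (nrm_off_apply (J := Matrix.of J) (J' := Matrix.of J') (fun a b ha hb => hsame a b ha hb)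
      hR f).trans (mul_le_mul_of_nonneg_left hf hR0)
  have e0 : ampZ β shift s J y f 0 = ampZ β shift s J' y' f 0 := by funext j; simp only [ampZ]
  induction l using Nat.twoStepInduction with
  | zero =>
    rw [e0, sub_self, show off i (0 : Fin n → ℝ) = 0 by simp [off], h00]
    simpa using hX0
  | one =>
    obtain ⟨hu, hb, -⟩ := coef_le hβ hs (qSE_mem (gamSE β shift s 0))
    rw [ampZ_one, ampZ_one, e0]
    refine (step_off hu hb hJ hsame hR (abs_tanh_le_one _)).trans ?_
    simp only [sub_self, h00, show off i (0 : Fin n → ℝ) = 0 by simp [off], mul_zero, zero_add, add_zero, pow_one]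
    have : X ≤ X * (Λ + 3) := le_mul_of_one_le_right hX0 (by linarith)
    linarith [show R * (F + 1) = R * F + R by ring]
  | more l h1 h2 =>
    obtain ⟨hu, -, hb⟩ := coef_le hβ hs (qSE_mem (gamSE β shift s (l + 1)))
    rw [ampZ_two, ampZ_two]
    refine (step_off hu hb hJ hsame hR (abs_tanh_le_one _)).trans ?_
    have ha : PartB.nrm ((fun j => Real.tanh (ampZ β shift s J y f (l + 1) j)) -
        fun j => Real.tanh (ampZ β shift s J' y' f (l + 1) j)) ≤ 2 + X * (Λ + 3) ^ (l + 1) :=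
      (nrm_tanh_diff i _ _).trans (add_le_add le_rfl h2)
    have hb' : PartB.nrm (off i ((fun j => Real.tanh (ampZ β shift s J y f l j)) -
        fun j => Real.tanh (ampZ β shift s J' y' f l j))) ≤ 2 + X * (Λ + 3) ^ l :=
      (nrm_off_le i _).trans ((nrm_tanh_diff i _ _).trans (add_le_add le_rfl h1))
    have hP : 1 ≤ (Λ + 3) ^ l := one_le_pow₀ (by linarith)
    have h3 := mul_le_mul_of_nonneg_left ha hΛ
    rw [pow_succ, pow_succ] at *
    nlinarith [mul_le_mul_of_nonneg_left hP hX0, mul_nonneg hX0 (le_trans zero_le_one hP),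
      mul_nonneg hΛ (mul_nonneg hX0 (le_trans zero_le_one hP))]

lemma of_tiltCpl (β : ℝ) (g : Edge n → ℝ) (ξ : Fin n → ℝ) :
    Matrix.of (tiltCpl β g ξ) = Matrix.of (cpl β g) +
      (β ^ 2 / n) • (Matrix.of (fun _ _ : Fin n => (1:ℝ) * 1) -
        Matrix.of (fun a b => ξ a * ξ b) - Matrix.diagonal fun a => 1 - ξ a ^ 2) := by
  ext a b
  rcases eq_or_ne a b with h | h
  · subst h
    simp [tiltCpl, sq]
  · simp [tiltCpl, h, mul_sub]

lemma opLe_tilt {β Λ : ℝ} (hβ : |β| ≤ 1) (hn : 0 < n) {g : Edge n → ℝ}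
    (hg : OpNorm.OpLe (Matrix.of (cpl β g)) Λ) {ξ : Fin n → ℝ} (hξ : ∑ a, ξ a ^ 2 ≤ 4 * n) :
    OpNorm.OpLe (Matrix.of (tiltCpl β g ξ)) (Λ + 10) := by
  have hn' : (0:ℝ) < n := by exact_mod_cast hn
  have h1 := OpNorm.opLe_rankOne (fun _ : Fin n => (1:ℝ)) (fun _ : Fin n => (1:ℝ))
  have h2 := OpNorm.opLe_rankOne ξ ξ
  have h3 : OpNorm.OpLe (Matrix.diagonal fun a => 1 - ξ a ^ 2) (1 + 4 * (n:ℝ)) := by
    refine OpNorm.opLe_diagonal (by positivity) fun a => ?_
    have := (single_le_sum (f := fun a => ξ a ^ 2) (fun a _ => sq_nonneg _) (mem_univ a)).trans hξ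
    rw [abs_le]
    constructor <;> linarith [sq_nonneg (ξ a)]
  rw [of_tiltCpl]
  refine OpNorm.OpLe.mono (hg.add (((h1.sub h2).sub h3).smul (β ^ 2 / n))) ?_
  simp only [OpNorm.nsq, one_pow, sum_const, card_univ, Fintype.card_fin, nsmul_eq_mul, mul_one]
  rw [Real.mul_self_sqrt hn'.le, Real.mul_self_sqrt (sum_nonneg fun a _ => sq_nonneg _),
    abs_of_nonneg (by positivity)]
  have hb : β ^ 2 / n ≤ 1 / n :=
    div_le_div_of_nonneg_right ((sq_le_one_iff_abs_le_one β).2 hβ) hn'.le
  have h4 : (n:ℝ) + ∑ a, ξ a ^ 2 + (1 + 4 * n) ≤ 10 * n := by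
    have : (1:ℝ) ≤ n := by exact_mod_cast hn
    linarith
  refine add_le_add le_rfl ((mul_le_mul hb h4 (by positivity) (by positivity)).trans (le_of_eq ?_))
  field_simp

lemma opLe_zeroRow {β Λ : ℝ} {g : Edge n → ℝ} (hg : OpNorm.OpLe (Matrix.of (cpl β g)) Λ) (i : Fin n) :
    OpNorm.OpLe (Matrix.of (cpl β (zeroRow g i))) Λ := by
  refine ⟨hg.1, fun w => ?_⟩
  have e : Matrix.of (cpl β (zeroRow g i)) *ᵥ w = off i (Matrix.of (cpl β g) *ᵥ off i w) := by
    funext a
    rcases eq_or_ne a i with h | h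
    · simp [off, h, mulVec, dotProduct, cpl, coupling_zeroRow]
    · simp only [off, Function.update_of_ne h, mulVec, dotProduct, Matrix.of_apply, cpl, coupling_zeroRow]
      refine sum_congr rfl fun b _ => ?_
      rcases eq_or_ne b i with h' | h' <;> simp [h, h']
  rw [e]
  have key : ∀ u : Fin n → ℝ, OpNorm.nsq (off i u) ≤ OpNorm.nsq u := fun u => sum_le_sum fun a _ => by
    rcases eq_or_ne a i with h | h <;> simp [off, h]; positivity
  exact (key _).trans ((hg.2 _).trans (mul_le_mul_of_nonneg_left (key w) (sq_nonneg _)))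

/-- The centre after removing the couplings at `i`. -/
lemma centre_row {β shift s : ℝ} (hβ : |β| ≤ 1) (hs : s ∈ Set.Icc (0 : ℝ) 1) (hn : 0 < n)
    {g : Edge n → ℝ} (hg : OpNorm.OpLe (Matrix.of (cpl β g)) 3) {w : Fin n → ℝ}
    (hξ : ∑ a, prodXi β shift w a ^ 2 ≤ 4 * n) (i : Fin n) (k : ℕ) :
    PartB.nrm (fun j => prodCentre β shift s g w k j - prodCentre β shift s (zeroRow g i) w k j) ≤
      2 + (3 * (|prodXi β shift w i| + 2) + 28) * 16 ^ k := by
  set ξ := prodXi β shift w
  set g₀ := zeroRow g i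
  have hf : |prodF β shift s w i| ≤ |ξ i| + 1 := by
    simp only [prodF]
    refine (abs_add_le _ _).trans ?_
    rw [abs_mul, abs_of_nonneg hs.1, abs_of_nonneg (Real.sqrt_nonneg _)]
    have : √s * |ξ i| ≤ |ξ i| :=
      mul_le_of_le_one_left (abs_nonneg _) (by rw [Real.sqrt_le_one]; exact hs.2)
    linarith [hs.2]
  have hsame : ∀ a b, a ≠ i → b ≠ i → tiltCpl β g ξ a b = tiltCpl β g₀ ξ a b := fun a b ha hb => by
    simp [tiltCpl, cpl, g₀, coupling_zeroRow, ha, hb]
  have hcol : PartB.nrm (fun a => tiltCpl β g ξ a i - tiltCpl β g₀ ξ a i) ≤ 3 := by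
    have e : ∀ a, tiltCpl β g ξ a i - tiltCpl β g₀ ξ a i = cpl β g a i := fun a => by
      simp [tiltCpl, cpl, g₀, coupling_zeroRow]
    simp only [e]
    exact (Real.sqrt_le_sqrt (hg.col i)).trans_eq (Real.sqrt_sq (by norm_num))
  have hy : prodY β shift s g w - prodY β shift s g₀ w =
      (Matrix.of (tiltCpl β g ξ) - Matrix.of (tiltCpl β g₀ ξ)) *ᵥ prodF β shift s w := by
    rw [prodY, prodY, shiftMat, shiftMat, ← sub_mulVec, add_sub_add_right_eq_sub]
  have h := field_row (shift := shift) hβ hs (opLe_tilt hβ hn (opLe_zeroRow hg i) hξ) hsame hcol hy hf k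
  refine (nrm_tanh_diff i _ _).trans (add_le_add le_rfl (h.trans (le_of_eq ?_)))
  ring

lemma continuous_tanhR : Continuous Real.tanh := by
  rw [funext Real.tanh_eq_sinh_div_cosh]
  exact Real.continuous_sinh.div Real.continuous_cosh fun x => (Real.cosh_pos x).ne'

lemma continuous_tilt (β shift : ℝ) (a b : Fin n) :
    Continuous fun p : (Edge n → ℝ) × (Fin n → ℝ) => tiltCpl β p.1 (prodXi β shift p.2) a b := by
  simp only [tiltCpl, cpl, coupling, prodXi]
  split_ifs <;> fun_prop

lemma continuous_prodCentre (β shift s : ℝ) (k : ℕ) (j : Fin n) :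
    Continuous fun p : (Edge n → ℝ) × (Fin n → ℝ) => prodCentre β shift s p.1 p.2 k j := by
  have hJ := continuous_tilt (n := n) β shift
  have hf : ∀ b, Continuous fun p : (Edge n → ℝ) × (Fin n → ℝ) => prodF β shift s p.2 b := fun b => by
    simp only [prodF, prodXi]; fun_prop
  have hy : ∀ a, Continuous fun p : (Edge n → ℝ) × (Fin n → ℝ) => prodY β shift s p.1 p.2 a := fun a => by
    simp only [prodY, mulVec, dotProduct, shiftMat, Matrix.add_apply, Matrix.of_apply]
    exact continuous_finsetSum _ fun b _ => ((hJ a b).add continuous_const).mul (hf b)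
  have hz : ∀ l a, Continuous fun p : (Edge n → ℝ) × (Fin n → ℝ) =>
      ampZ β shift s (tiltCpl β p.1 (prodXi β shift p.2)) (prodY β shift s p.1 p.2) (prodF β shift s p.2) l a := by
    intro l
    induction l using Nat.twoStepInduction with
    | zero => intro a; simp only [ampZ]; exact (hf a).div_const _
    | one =>
      intro a
      simp only [ampZ]
      exact ((hy a).add (continuous_const.mul (continuous_finsetSum _ fun b _ =>
        (hJ a b).mul (continuous_tanhR.comp ((hf b).div_const _))))).add (continuous_const.mul (hf a))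
    | more l h1 h2 =>
      intro a
      simp only [ampZ]
      exact ((hy a).add (continuous_const.mul (continuous_finsetSum _ fun b _ =>
        (hJ a b).mul (continuous_tanhR.comp (h2 b))))).sub
          (continuous_const.mul (continuous_tanhR.comp (h1 a)))
  exact continuous_tanhR.comp (hz k j)

end Vale.Agent.P150.High.Ball
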