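import Vale.Agent.P150.High.BallCentre
import Vale.Agent.P150.High.BallCavity

/-!
# P150, all `β < 1`: the events at the grid of profiles

At a grid offset from the centre computed without the couplings at a site, the linear and quadratic
forms in those couplings deviate only with exponentially small probability.
-/

open MeasureTheory Matrix Finset
open scoped Matrix.Norms.L2Operator

namespace Vale.Agent.P150.High.Ball

open Vale.Agent.P150 ResCalc Fast

variable {n : ℕ}

/-- real parts of the entries -/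
noncomputable def reMat (X : Matrix (Fin n) (Fin n) ℂ) : Matrix (Fin n) (Fin n) ℝ :=
  Matrix.of fun a c => (X a c).re

lemma dot_row {x z : Fin n → ℝ} {g : Edge n → ℝ} {i : Fin n} (hx : x i = 0) :
    dot x (coupling (setRow g i z) i) = dot x z := by
  refine sum_congr rfl fun k _ => ?_
  rcases eq_or_ne k i with h | h
  · simp [h, hx]
  · rw [coupling_setRow g i k z h]

lemma qform_row {A : Matrix (Fin n) (Fin n) ℝ} {z : Fin n → ℝ} {g : Edge n → ℝ} {i : Fin n}
    (hr : ∀ c, A i c = 0) (hc : ∀ a, A a i = 0) : qform A (coupling (setRow g i z) i) = qform A z := by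
  refine sum_congr rfl fun a _ => sum_congr rfl fun c _ => ?_
  rcases eq_or_ne a i with h | h
  · simp [h, hr]
  rcases eq_or_ne c i with h' | h'
  · simp [h', hc]
  rw [coupling_setRow g i a z h, coupling_setRow g i c z h']

/-- grid profile -/
noncomputable def gridM (β shift s : ℝ) (k M : ℕ) (i : Fin n) (q : ℤ × ℤ × (Fin n → ℤ))
    (p : (Edge n → ℝ) × (Fin n → ℝ)) : Fin n → ℝ :=
  Function.update (fun j => prodCentre β shift s (zeroRow p.1 i) p.2 k j + (q.2.2 j : ℝ) / M) i 1

/-- grid matrix `W` -/
noncomputable def gridW (β : ℝ) (M : ℕ) (i : Fin n) (q : ℤ × ℤ × (Fin n → ℤ))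
    (p : (Edge n → ℝ) × (Fin n → ℝ)) : Matrix (Fin n) (Fin n) ℂ :=
  bW β ((q.1 : ℝ) / M) ((q.2.1 : ℝ) / M) (zeroRow p.1 i)

/-- a linear or quadratic form in the row deviates at a grid point -/
def devSet (β shift s : ℝ) (k M : ℕ) (K ε₁ : ℝ) (i : Fin n) (q : ℤ × ℤ × (Fin n → ℤ)) :
    Set ((Edge n → ℝ) × (Fin n → ℝ)) :=
  {p | IsUnit (1 + cdiag (profileOf (gridM β shift s k M i q p)) * gridW β M i q p).det ∧
    ‖Mi (gridW β M i q p) (profileOf (gridM β shift s k M i q p))‖ ≤ K ∧
    ‖cG (gridW β M i q p) (profileOf (gridM β shift s k M i q p))‖ ≤ K ∧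
    OpNorm.nsq (gridM β shift s k M i q p) ≤ 9 * n ∧ OpNorm.nsq (prodXi β shift p.2) ≤ 4 * n ∧
    (ε₁ * n < |qform (reMat (cG (gridW β M i q p) (profileOf (gridM β shift s k M i q p)))) (coupling p.1 i)
        - (reMat (cG (gridW β M i q p) (profileOf (gridM β shift s k M i q p)))).trace| ∨
      (∃ c, c ≠ i ∧ ε₁ * √n <
        |dot (fun a => (Mi (gridW β M i q p) (profileOf (gridM β shift s k M i q p)) a c).re) (coupling p.1 i)|) ∨
      ε₁ * n < |dot (reMat (cG (gridW β M i q p) (profileOf (gridM β shift s k M i q p))) *ᵥ fun _ => 1)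
        (coupling p.1 i)| ∨
      ε₁ * n < |dot (reMat (cG (gridW β M i q p) (profileOf (gridM β shift s k M i q p))) *ᵥ
        gridM β shift s k M i q p) (coupling p.1 i)| ∨
      ε₁ * n < |dot (reMat (cG (gridW β M i q p) (profileOf (gridM β shift s k M i q p))) *ᵥ
        prodXi β shift p.2) (coupling p.1 i)|)}

lemma measurable_devSet (β shift s : ℝ) (k M : ℕ) (K ε₁ : ℝ) (i : Fin n) (q : ℤ × ℤ × (Fin n → ℤ)) :
    MeasurableSet (devSet β shift s k M K ε₁ i q) := by
  have hz : ∀ e, Continuous fun p : (Edge n → ℝ) × (Fin n → ℝ) => zeroRow p.1 i e := fun e => by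
    simp only [zeroRow, setRow, Pi.zero_apply]
    split_ifs <;> fun_prop
  have hz' : Continuous fun p : (Edge n → ℝ) × (Fin n → ℝ) => (zeroRow p.1 i, p.2) :=
    (continuous_pi hz).prodMk continuous_snd
  have hm : ∀ j, Continuous fun p => gridM β shift s k M i q p j := fun j => by
    simp only [gridM, Function.update_apply]
    split_ifs
    · exact continuous_const
    · exact ((continuous_prodCentre β shift s k j).comp hz').add continuous_const
  have hW : ∀ a c, Continuous fun p => gridW β M i q p a c := fun a c => by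
    simp only [gridW, bW_apply, cpl, coupling]
    refine Complex.continuous_ofReal.comp (continuous_const.sub (continuous_const.mul (continuous_const.mul ?_)))
    split_ifs
    · exact hz _
    · exact hz _
    · exact continuous_const
  have hA : Continuous fun p => 1 + cdiag (profileOf (gridM β shift s k M i q p)) * gridW β M i q p := by
    refine continuous_matrix fun a c => ?_
    simp only [Matrix.add_apply, cdiag, Matrix.diagonal_mul, profileOf]
    exact continuous_const.add ((Complex.continuous_ofReal.comp (continuous_const.sub ((hm a).pow 2))).mul (hW a c))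
  have hMi : ∀ a c, Measurable fun p =>
      Mi (gridW β M i q p) (profileOf (gridM β shift s k M i q p)) a c := fun a c => by
    simp only [Mi, Matrix.inv_def, Ring.inverse_eq_inv', Matrix.smul_apply, smul_eq_mul]
    exact hA.matrix_det.measurable.inv.mul ((hA.matrix_adjugate).matrix_elem a c).measurable
  have hG : ∀ a c, Measurable fun p =>
      cG (gridW β M i q p) (profileOf (gridM β shift s k M i q p)) a c := fun a c => by
    simp only [cG_eq_Mi, mul_cdiag_apply, profileOf]
    exact (hMi a c).mul (Complex.continuous_ofReal.comp (continuous_const.sub ((hm c).pow 2))).measurable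
  have hnorm : ∀ F : (Edge n → ℝ) × (Fin n → ℝ) → Matrix (Fin n) (Fin n) ℂ,
      (∀ a c, Measurable fun p => F p a c) → Measurable fun p => ‖F p‖ := fun F hF => by
    have hc : Continuous fun X : Fin n → Fin n → ℂ => ‖Matrix.of X‖ :=
      continuous_norm.comp (continuous_matrix fun a c => (continuous_apply c).comp (continuous_apply a))
    exact hc.measurable.comp (measurable_pi_lambda _ fun a => measurable_pi_lambda _ fun c => hF a c)
  have hrow : ∀ c, Measurable fun p : (Edge n → ℝ) × (Fin n → ℝ) => coupling p.1 i c := fun c => by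
    simp only [coupling]; split_ifs <;> fun_prop
  have hGr : ∀ a c, Measurable fun p =>
      reMat (cG (gridW β M i q p) (profileOf (gridM β shift s k M i q p))) a c := fun a c =>
    Complex.measurable_re.comp (hG a c)
  have hdot : ∀ x : (Edge n → ℝ) × (Fin n → ℝ) → Fin n → ℝ, (∀ a, Measurable fun p => x p a) →
      Measurable fun p => |dot (x p) (coupling p.1 i)| := fun x hx => by
    unfold dot
    exact (Finset.measurable_sum _ fun a _ => (hx a).mul (hrow a)).abs
  have hmv : ∀ v : (Edge n → ℝ) × (Fin n → ℝ) → Fin n → ℝ, (∀ a, Measurable fun p => v p a) → ∀ a,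
      Measurable fun p => (reMat (cG (gridW β M i q p) (profileOf (gridM β shift s k M i q p))) *ᵥ v p) a :=
    fun v hv a => by
      simp only [Matrix.mulVec, dotProduct]
      exact Finset.measurable_sum _ fun c _ => (hGr a c).mul (hv c)
  have hξ : ∀ a, Measurable fun p : (Edge n → ℝ) × (Fin n → ℝ) => prodXi β shift p.2 a := fun a => by
    simp only [prodXi]; fun_prop
  unfold devSet
  simp only [Set.ofPred_and, Set.ofPred_or, Set.ofPred_exists]
  refine MeasurableSet.inter ?_ (MeasurableSet.inter ?_ (MeasurableSet.inter ?_ (MeasurableSet.inter ?_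
    (MeasurableSet.inter ?_ (MeasurableSet.union ?_ (MeasurableSet.union ?_ (MeasurableSet.union ?_
      (MeasurableSet.union ?_ ?_))))))))
  · simp only [isUnit_iff_ne_zero, ne_eq]
    exact (measurableSet_eq_fun hA.matrix_det.measurable measurable_const).compl
  · exact measurableSet_le (hnorm _ hMi) measurable_const
  · exact measurableSet_le (hnorm _ hG) measurable_const
  · exact measurableSet_le (Finset.measurable_sum _ fun a _ => ((hm a).measurable).pow_const 2) measurable_const
  · exact measurableSet_le (Finset.measurable_sum _ fun a _ => (hξ a).pow_const 2) measurable_const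
  · refine measurableSet_lt measurable_const (Measurable.abs (Measurable.sub ?_ ?_))
    · unfold qform
      exact Finset.measurable_sum _ fun a _ => Finset.measurable_sum _ fun c _ =>
        ((hrow a).mul (hrow c)).mul (hGr a c)
    · unfold Matrix.trace
      exact Finset.measurable_sum _ fun a _ => hGr a a
  · refine MeasurableSet.iUnion fun c => ?_
    exact (MeasurableSet.const _).inter
      (measurableSet_lt measurable_const (hdot _ fun a => Complex.measurable_re.comp (hMi a c)))
  · exact measurableSet_lt measurable_const (hdot _ (hmv _ fun _ => measurable_const))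
  · exact measurableSet_lt measurable_const (hdot _ (hmv _ fun a => (hm a).measurable))
  · exact measurableSet_lt measurable_const (hdot _ (hmv _ hξ))

lemma devSet_prob (hn : 0 < n) {β shift s : ℝ} {k M : ℕ} {K ε₁ t : ℝ} (hK : 0 < K) (hε : 0 < ε₁)
    (ht : 0 ≤ t) (ht1 : 8 * (t * K) ^ 2 ≤ 1) (ht2 : 8 * t * K ^ 2 ≤ ε₁)
    (i : Fin n) (q : ℤ × ℤ × (Fin n → ℤ)) :
    (prodLaw n).real (devSet β shift s k M K ε₁ i q) ≤
      (8 + 2 * n) * Real.exp (-(min (t * ε₁ / 2) (ε₁ ^ 2 / (18 * K ^ 2)) * n)) := by
  have hn' : (0:ℝ) < n := by exact_mod_cast hn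
  set c₀ := min (t * ε₁ / 2) (ε₁ ^ 2 / (18 * K ^ 2))
  set E := Real.exp (-(c₀ * n))
  refine section_bound (measurable_devSet β shift s k M K ε₁ i q) i (by positivity) fun g w => ?_
  have hzero : ∀ z, (gridM β shift s k M i q (setRow g i z, w) = gridM β shift s k M i q (g, w)) ∧
      gridW β M i q (setRow g i z, w) = gridW β M i q (g, w) := fun z => by
    simp [gridM, gridW, zeroRow_setRow]
  set m := gridM β shift s k M i q (g, w)
  set W := gridW β M i q (g, w)
  set G := cG W (profileOf m)
  set Mm := Mi W (profileOf m)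
  by_cases hgood : IsUnit (1 + cdiag (profileOf m) * W).det ∧ ‖Mm‖ ≤ K ∧ ‖G‖ ≤ K ∧
      OpNorm.nsq m ≤ 9 * n ∧ OpNorm.nsq (prodXi β shift w) ≤ 4 * n
  swap
  · refine le_trans (le_of_eq ?_) (mul_nonneg (by positivity) (Real.exp_pos _).le)
    rw [show {z | (setRow g i z, w) ∈ devSet β shift s k M K ε₁ i q} = ∅ from
      Set.eq_empty_of_forall_notMem fun z hz => hgood (by
        obtain ⟨h1, h2, h3, h4, h5, -⟩ := hz
        rw [(hzero z).1] at h1 h2 h3 h4
        rw [(hzero z).2] at h1 h2 h3
        exact ⟨h1, h2, h3, h4, h5⟩), measureReal_empty]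
  obtain ⟨hu, hM, hG, hm, hξ⟩ := hgood
  have hD : profileOf m i = 0 := by simp [profileOf, m, gridM]
  have hr : ∀ c, reMat G i c = 0 := fun c => by simp [reMat, G, cG_row hD hu]
  have hc : ∀ a, reMat G a i = 0 := fun a => by simp [reMat, G, cG_col hD]
  have hop := opLe_re hG
  change OpNorm.OpLe (reMat G) K at hop
  have hv : ∀ v : Fin n → ℝ, (reMat G *ᵥ v) i = 0 := fun v => by simp [Matrix.mulVec, dotProduct, hr]
  have hcol : ∀ c, c ≠ i → (Mm i c).re = 0 := fun c hci => by simp [Mm, Mi_row hD hu, Ne.symm hci]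
  have hsub : {z | (setRow g i z, w) ∈ devSet β shift s k M K ε₁ i q} ⊆
      {z | ε₁ * n < |qform (reMat G) z - (reMat G).trace|} ∪
      ((⋃ c : Fin n, {z | ε₁ * √n < |dot (fun a => (Mm a c).re) z| ∧ c ≠ i}) ∪
      ({z | ε₁ * n < |dot (reMat G *ᵥ fun _ => 1) z|} ∪
      ({z | ε₁ * n < |dot (reMat G *ᵥ m) z|} ∪
      {z | ε₁ * n < |dot (reMat G *ᵥ prodXi β shift w) z|}))) := by
    intro z hz
    obtain ⟨-, -, -, -, -, hz⟩ := hz
    simp only [(hzero z).1, (hzero z).2] at hz
    rcases hz with h | ⟨c, hci, h⟩ | h | h | h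
    · exact Or.inl (show _ < _ from by rwa [qform_row hr hc] at h)
    · refine Or.inr (Or.inl (Set.mem_iUnion.2 ⟨c, show _ < _ from ?_, hci⟩))
      rwa [dot_row (x := fun a => (Mm a c).re) (hcol c hci)] at h
    · exact Or.inr (Or.inr (Or.inl (show _ < _ from by rwa [dot_row (hv _)] at h)))
    · exact Or.inr (Or.inr (Or.inr (Or.inl (show _ < _ from by rwa [dot_row (hv _)] at h))))
    · exact Or.inr (Or.inr (Or.inr (Or.inr (show _ < _ from by rwa [dot_row (hv _)] at h))))
  have hE : ∀ x : ℝ, c₀ * n ≤ x → 2 * Real.exp (-x) ≤ 2 * E := fun x hx =>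
    mul_le_mul_of_nonneg_left (Real.exp_le_exp.2 (neg_le_neg hx)) zero_le_two
  have b1 : (gauss (Fin n)).real {z | ε₁ * n < |qform (reMat G) z - (reMat G).trace|} ≤ 2 * E := by
    refine (qform_tail hop ht ht1).trans ?_
    rw [Fintype.card_fin, show -(t * (ε₁ * n)) + 4 * (t * K) ^ 2 * n = -((t * ε₁ - 4 * (t * K) ^ 2) * n) by ring]
    refine hE _ (mul_le_mul_of_nonneg_right ((min_le_left _ _).trans ?_) hn'.le)
    nlinarith [mul_le_mul_of_nonneg_left ht2 ht]
  have hK2 : 0 < K ^ 2 := pow_pos hK 2
  have b2 : ∀ c, (gauss (Fin n)).real {z | ε₁ * √n < |dot (fun a => (Mm a c).re) z| ∧ c ≠ i} ≤ 2 * E := fun c => by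
    refine (measureReal_mono fun z hz => hz.1).trans ((dot_tail hK2 ?_ (by positivity)).trans (hE _ ?_))
    · refine (sum_le_sum fun a _ => ?_).trans ((col_le Mm c).trans (pow_le_pow_left₀ (norm_nonneg _) hM 2))
      rw [← sq_abs]
      exact pow_le_pow_left₀ (abs_nonneg _) (Complex.abs_re_le_norm _) 2
    · rw [mul_pow, Real.sq_sqrt hn'.le, show ε₁ ^ 2 * n / (2 * K ^ 2) = ε₁ ^ 2 / (2 * K ^ 2) * n by ring]
      refine mul_le_mul_of_nonneg_right ((min_le_right _ _).trans ?_) hn'.le
      exact div_le_div_of_nonneg_left (sq_nonneg _) (by positivity) (by linarith)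
  have b3 : ∀ v : Fin n → ℝ, OpNorm.nsq v ≤ 9 * n →
      (gauss (Fin n)).real {z | ε₁ * n < |dot (reMat G *ᵥ v) z|} ≤ 2 * E := fun v hvn => by
    refine (dot_tail (S := K ^ 2 * (9 * n)) (by positivity)
      ((hop.2 v).trans (mul_le_mul_of_nonneg_left hvn hK2.le)) (by positivity)).trans (hE _ ?_)
    rw [show (ε₁ * n) ^ 2 / (2 * (K ^ 2 * (9 * n))) = ε₁ ^ 2 / (18 * K ^ 2) * n by field_simp; ring]
    exact mul_le_mul_of_nonneg_right (min_le_right _ _) hn'.le
  refine (measureReal_mono hsub).trans ?_
  refine (measureReal_union_le _ _).trans ((add_le_add b1 ((measureReal_union_le _ _).trans (add_le_add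
    ((measureReal_iUnion_fintype_le _).trans ((sum_le_sum fun c _ => b2 c).trans_eq (by simp; rfl)))
    ((measureReal_union_le _ _).trans (add_le_add (b3 _ (by simp [OpNorm.nsq]; linarith))
      ((measureReal_union_le _ _).trans (add_le_add (b3 _ hm) (b3 _ (hξ.trans (by linarith)))))))))).trans ?_)
  ring_nf
  rfl

end Vale.Agent.P150.High.Ball
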