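import Vale.Agent.P150.High.BallSite

/-!
# P150, all `β < 1`: entrywise facts on the resolvents over the ball around the centre

For each site the couplings at it are resampled. The profiles in the ball are replaced by sparse grid
offsets from the centre computed without them, whose number is `exp (n h(ρ))` with `h(ρ) → 0`.
-/

open MeasureTheory Matrix Finset Filter
open scoped Matrix.Norms.L2Operator Topology

namespace Vale.Agent.P150.High.Ball

open Vale.Agent.P150 ResCalc Fast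

variable {n : ℕ}

/-! ### the statement -/

lemma plantVar_le {β shift : ℝ} (hc : 4 ≤ shift) : plantVar β shift ≤ 1 / 2 := by
  rw [plantVar, div_le_iff₀ (by linarith [Real.sqrt_nonneg (shift ^ 2 - 4 * β ^ 2)])]
  linarith [Real.sqrt_nonneg (shift ^ 2 - 4 * β ^ 2)]

lemma prodLaw_fst (S : Set (Edge n → ℝ)) : (prodLaw n).real {p | p.1 ∈ S} = (disorder n).real S := by
  rw [show {p : (Edge n → ℝ) × (Fin n → ℝ) | p.1 ∈ S} = S ×ˢ Set.univ by ext; simp, prodLaw,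
    measureReal_prod_prod]
  simp

lemma prodLaw_snd (S : Set (Fin n → ℝ)) : (prodLaw n).real {p | p.2 ∈ S} = (gauss (Fin n)).real S := by
  rw [show {p : (Edge n → ℝ) × (Fin n → ℝ) | p.2 ∈ S} = Set.univ ×ˢ S by ext; simp, prodLaw,
    measureReal_prod_prod]
  simp

lemma xi_large {β shift : ℝ} (hc : 4 ≤ shift) {a : ℝ} (ha : 0 ≤ a) :
    (prodLaw n).real {p | ∃ i, a < |prodXi β shift p.2 i|} ≤ n * (2 * Real.exp (-a ^ 2)) := by
  classical
  refine le_trans (le_of_eq (prodLaw_snd {z | ∃ i, a < |prodXi β shift z i|})) ?_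
  refine (measureReal_mono (s₂ := ⋃ i : Fin n, {z | a < |dot (Pi.single i √(plantVar β shift)) z|})
    fun z hz => ?_).trans ?_
  · obtain ⟨i, hi⟩ := hz
    refine Set.mem_iUnion.2 ⟨i, ?_⟩
    rw [Set.mem_ofPred_eq]
    rwa [show dot (Pi.single i √(plantVar β shift)) z = prodXi β shift z i by
      simp [prodXi, dot, Pi.single_apply]]
  refine (measureReal_iUnion_fintype_le _).trans
    (le_trans (sum_le_sum (g := fun _ => 2 * Real.exp (-a ^ 2)) fun i _ => ?_) (le_of_eq (by simp)))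
  refine (dot_tail (S := 1 / 2) (by norm_num) ?_ ha).trans (le_of_eq (by ring_nf))
  simp only [Pi.single_apply, ite_pow, zero_pow two_ne_zero, sum_ite_eq', mem_univ, if_true]
  rw [Real.sq_sqrt (AmpLip.plantVar_pos hc).le]
  exact plantVar_le hc

lemma xi_sumsq {β shift : ℝ} (hc : 4 ≤ shift) :
    (prodLaw n).real {p | 4 * (n:ℝ) < OpNorm.nsq (prodXi β shift p.2)} ≤ Real.exp (-(n:ℝ)) := by
  refine le_trans (le_of_eq (prodLaw_snd {z | 4 * (n:ℝ) < OpNorm.nsq (prodXi β shift z)})) ?_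
  refine (measureReal_mono (s₂ := {z : Fin n → ℝ | 8 * (n:ℝ) ≤ ∑ a, z a ^ 2}) fun z hz => ?_).trans ?_
  · have h : OpNorm.nsq (prodXi β shift z) = plantVar β shift * ∑ a, z a ^ 2 := by
      simp only [OpNorm.nsq, prodXi, mul_pow, Real.sq_sqrt (AmpLip.plantVar_pos hc).le, mul_sum]
    have h' : 0 ≤ ∑ a, z a ^ 2 := sum_nonneg fun a _ => sq_nonneg _
    simp only [Set.mem_ofPred_eq] at hz ⊢
    nlinarith [mul_le_mul_of_nonneg_right (plantVar_le (β := β) hc) h']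
  · refine (ProbabilityTheory.measure_ge_le_exp_mul_mgf (μ := gauss (Fin n)) (X := fun z => ∑ a, z a ^ 2)
      (8 * (n:ℝ)) (t := 1 / 4) (by norm_num) (exp_sumsq (by norm_num)).1).trans ?_
    rw [ProbabilityTheory.mgf, (exp_sumsq (by norm_num)).2, Fintype.card_fin]
    have h1 : (√(1 - 2 * (1 / 4) : ℝ))⁻¹ ≤ Real.exp 1 := by
      rw [inv_le_comm₀ (Real.sqrt_pos.2 (by norm_num)) (Real.exp_pos _), ← Real.exp_neg]
      refine Real.le_sqrt_of_sq_le ?_
      rw [sq, ← Real.exp_add, show ((-1:ℝ) + -1) = -2 by norm_num, Real.exp_neg,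
        inv_le_comm₀ (Real.exp_pos _) (by norm_num)]
      linarith [Real.add_one_le_exp (2:ℝ)]
    refine (mul_le_mul_of_nonneg_left (pow_le_pow_left₀ (by positivity) h1 n) (Real.exp_pos _).le).trans_eq ?_
    rw [← Real.exp_nat_mul, ← Real.exp_add]
    ring_nf

lemma poly_exp (A : ℝ) {c : ℝ} (hc : 0 < c) :
    ∀ᶠ n : ℕ in atTop, (A * (n + 1) ^ 2) * Real.exp (-(2 * c * n)) ≤ Real.exp (-(c * n)) := by
  have h := (Real.tendsto_pow_mul_exp_neg_atTop_nhds_zero 2).comp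
    ((tendsto_natCast_atTop_atTop (R := ℝ)).atTop_mul_const hc)
  have h' := h.const_mul (4 * |A| / c ^ 2)
  rw [mul_zero] at h'
  filter_upwards [h'.eventually (eventually_le_nhds zero_lt_one), eventually_ge_atTop 1] with n hn h1
  have h1' : (1:ℝ) ≤ n := by exact_mod_cast h1
  have e : Real.exp (-(2 * c * n)) = Real.exp (-(c * n)) * Real.exp (-(c * n)) := by
    rw [← Real.exp_add]; ring_nf
  rw [e, ← mul_assoc]
  refine mul_le_of_le_one_left (Real.exp_pos _).le ?_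
  simp only [Function.comp_apply] at hn
  rw [show n * c = c * (n:ℝ) from mul_comm _ _, show 4 * |A| / c ^ 2 * ((c * n) ^ 2 * Real.exp (-(c * n))) =
    |A| * (2 * n) ^ 2 * Real.exp (-(c * n)) by field_simp; ring] at hn
  refine le_trans (mul_le_mul_of_nonneg_right ?_ (Real.exp_pos _).le) hn
  exact mul_le_mul (le_abs_self A) (pow_le_pow_left₀ (by linarith) (by linarith) 2) (by positivity) (abs_nonneg A)

lemma opLe_of_ball {β : ℝ} {g : Edge n → ℝ} (hg : g ∈ Ball β 3) : OpLe (Matrix.of (cpl β g)) 3 := fun v w => by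
  obtain ⟨-, h⟩ := opLe_of_norm_cmat (show ‖cmat (Matrix.of (cpl β g))‖ ≤ 3 from hg)
  have h1 := (Real.sqrt_le_sqrt (h w)).trans_eq
    (by rw [Real.sqrt_mul (sq_nonneg _), Real.sqrt_sq (by norm_num : (0:ℝ) ≤ 3)])
  have e : ∀ x : Fin n → ℝ, dotProduct x x = OpNorm.nsq x := fun x => by
    simp [OpNorm.nsq, dotProduct, sq]
  rw [e, e]
  refine (OpNorm.abs_dot_le v _).trans ((mul_le_mul_of_nonneg_left h1 (Real.sqrt_nonneg _)).trans_eq ?_)
  ring

lemma no_event (hn : 0 < n) {β shift s : ℝ} (hβ0 : 0 ≤ β) (hβ1 : β < 1) (hs : s ∈ Set.Icc (0 : ℝ) 1)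
    {η : ℝ} (hη : 0 < η) {k M : ℕ} (hM : 0 < M) {e ε ε' ρ : ℝ} (he : 0 < e) (he1 : e ≤ 1 / 512)
    (heε : 512 * e ≤ ε) (hρ : 0 < ρ)
    (hδ : 644 * (1 + 16 / η) ^ 2 / M ≤ e) (hnK : 1 + 16 * (1 + 16 / η) + (16 * (1 + 16 / η)) ^ 2 ≤ e * n)
    (hn1 : 1 ≤ e * √n) (hε' : ε' ≤ e) (hctr : 2 + 34 * 16 ^ k + 3 * 16 ^ k * (ε' * √n) ≤ √(ρ * n))
    {g : Edge n → ℝ} {w : Fin n → ℝ} (hg : g ∈ Ball β 3)
    (hd : OpLe (Matrix.of (cpl β g)) 3 → ∀ u θ D, Admissible β η u θ g D →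
      ∑ j, (resH β u θ g D j j - resPhi θ D j) ^ 2 ≤ e ^ 2 * n)
    (hξ : OpNorm.nsq (prodXi β shift w) ≤ 4 * n) (hmax : ∀ a, |prodXi β shift w a| ≤ ε' * √n)
    {L : Finset (Fin n → ℤ)} (hL : ∀ o ∈ sparse n (2 * M) (4 * ρ * (M:ℝ) ^ 2 * n), o ∈ L)
    (hdev : ∀ i, ∀ q ∈ (Finset.Icc (-(9 * M : ℤ)) (9 * M)) ×ˢ (Finset.Icc (0:ℤ) (2 * M)) ×ˢ L,
      (g, w) ∉ devSet β shift s k M (8 * (1 + 16 / η)) e i q) :
    ¬ ((∃ i, ε * Real.sqrt n < |prodXi β shift w i|) ∨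
      ∃ u θ m, InBall ρ (prodCentre β shift s g w k) m ∧
        Admissible β η u θ g (profileOf m) ∧
        ((∃ i, ε < |resH β u θ g (profileOf m) i i - resPhi θ (profileOf m) i|) ∨
         (∃ i j, i ≠ j ∧ ε < |resH β u θ g (profileOf m) i j|) ∨
         ∃ v : Fin n → ℝ, (v = (fun _ => 1) ∨ v = m ∨ v = prodXi β shift w) ∧
           ∃ i, ε * Real.sqrt n < |(resH β u θ g (profileOf m) *ᵥ fun j => profileOf m j * v j) i|)) := by
  have hsn := Real.sqrt_nonneg (n:ℝ)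
  have h84 : 84 * e * √n ≤ ε * √n := mul_le_mul_of_nonneg_right (by linarith) hsn
  rintro (⟨i, hi⟩ | ⟨u, θ, m, hm, hA, hbad⟩)
  · have := mul_le_mul_of_nonneg_right (show ε' ≤ ε by linarith) hsn
    linarith [hmax i]
  have key := bad_site_free hn hβ0 hβ1 hs hη hM he he1 hρ hδ hnK hn1 hε' hctr hg hξ hmax
    (hd (opLe_of_ball hg)) hL hdev hm hA
  rcases hbad with ⟨i, hi⟩ | ⟨i, j, hij, hi⟩ | ⟨v, hv, i, hi⟩
  · linarith [(key i).1]
  · linarith [(key i).2.1 j (Ne.symm hij)]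
  · linarith [(key i).2.2 v hv]

lemma grid_count {M : ℕ} {L : Finset (Fin n → ℤ)} {a : ℝ} (hL : (L.card : ℝ) ≤ a) :
    (((Finset.Icc (-(9 * M : ℤ)) (9 * M)) ×ˢ (Finset.Icc (0:ℤ) (2 * M)) ×ˢ L).card : ℝ) ≤
      ((18 * M + 1 : ℕ) * (2 * M + 1 : ℕ) : ℝ) * a := by
  rw [Finset.card_product, Finset.card_product, Int.card_Icc, Int.card_Icc,
    show ((9 * M : ℤ) + 1 - -(9 * M : ℤ)).toNat = 18 * M + 1 by omega,
    show ((2 * M : ℤ) + 1 - 0).toNat = 2 * M + 1 by omega, Nat.cast_mul, Nat.cast_mul, ← mul_assoc]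
  exact mul_le_mul_of_nonneg_left hL (by positivity)

lemma dev_mass (hn : 0 < n) {β shift s : ℝ} {k M : ℕ} {K e t : ℝ} (hK : 0 < K) (he : 0 < e) (ht : 0 ≤ t)
    (ht1 : 8 * (t * K) ^ 2 ≤ 1) (ht2 : 8 * t * K ^ 2 ≤ e) {Q : Finset (ℤ × ℤ × (Fin n → ℤ))} {B : ℝ}
    (hB : (Q.card : ℝ) * Real.exp (-(min (t * e / 2) (e ^ 2 / (18 * K ^ 2)) * n)) ≤ B) :
    (prodLaw n).real (⋃ i : Fin n, ⋃ q ∈ Q, devSet β shift s k M K e i q) ≤ n * ((8 + 2 * n) * B) := by
  refine (measureReal_iUnion_fintype_le _).trans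
    (le_trans (sum_le_sum (g := fun _ => (8 + 2 * (n:ℝ)) * B) fun i _ => ?_) (le_of_eq (by simp)))
  refine (measureReal_biUnion_finset_le _ _).trans
    ((sum_le_sum fun q _ => devSet_prob hn hK he ht ht1 ht2 i q).trans ?_)
  rw [sum_const, nsmul_eq_mul, mul_left_comm]
  exact mul_le_mul_of_nonneg_left hB (by positivity)

lemma union5 {μ : Measure ((Edge n → ℝ) × (Fin n → ℝ))} [IsFiniteMeasure μ]
    {S A1 A2 A3 A4 A5 : Set ((Edge n → ℝ) × (Fin n → ℝ))} {N E : ℝ} (hN : 0 ≤ N) (hE : 0 ≤ E)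
    (hS : ∀ p ∈ S, p ∉ A1 → p ∉ A2 → p ∉ A3 → p ∉ A4 → p ∈ A5)
    (k1 : μ.real A1 ≤ 2 * E) (k2 : μ.real A2 ≤ E) (k3 : μ.real A3 ≤ E) (k4 : μ.real A4 ≤ n * (2 * E))
    (k5 : μ.real A5 ≤ n * ((8 + 2 * n) * (N * E))) :
    μ.real S ≤ (6 + 10 * N) * ((n:ℝ) + 1) ^ 2 * E := by
  have hsub : S ⊆ A1 ∪ (A2 ∪ (A3 ∪ (A4 ∪ A5))) := fun p hp => by
    simp only [Set.mem_union]
    by_contra h
    push Not at h
    exact h.2.2.2.2 (hS p hp h.1 h.2.1 h.2.2.1 h.2.2.2.1)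
  refine (measureReal_mono hsub).trans ((measureReal_union_le _ _).trans ((add_le_add k1
    ((measureReal_union_le _ _).trans (add_le_add k2 ((measureReal_union_le _ _).trans (add_le_add k3
      ((measureReal_union_le _ _).trans (add_le_add k4 k5))))))).trans ?_))
  have h0 : (0:ℝ) ≤ n := Nat.cast_nonneg n
  rw [show 2 * E + (E + (E + (n * (2 * E) + n * ((8 + 2 * n) * (N * E))))) =
    (4 + 2 * n + (8 * n + 2 * n ^ 2) * N) * E by ring]
  refine mul_le_mul_of_nonneg_right ?_ hE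
  nlinarith [mul_le_mul_of_nonneg_right (show 8 * (n:ℝ) + 2 * n ^ 2 ≤ 10 * (n + 1) ^ 2 by nlinarith) hN]

theorem ballMax : BallMaxStatement := by
  intro β shift η ε hβ0 hβ1 hshift hη hε
  set e := min ε 1 / 512 with hedef
  have he : 0 < e := div_pos (lt_min hε one_pos) (by norm_num)
  have he1 : e ≤ 1 / 512 := div_le_div_of_nonneg_right (min_le_right _ _) (by norm_num)
  have heε : 512 * e ≤ ε := by rw [hedef]; linarith [min_le_left ε 1]
  set Km := 1 + 16 / η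
  have hKm : 1 ≤ Km := le_add_of_nonneg_right (by positivity)
  obtain ⟨M, hM⟩ := exists_nat_ge (644 * Km ^ 2 / e + 1)
  have hMpos : (0:ℝ) < M := lt_of_lt_of_le (by positivity) hM
  have hM0 : 0 < M := by exact_mod_cast hMpos
  have hδ : 644 * Km ^ 2 / M ≤ e := by
    rw [div_le_iff₀ hMpos]
    have h1 : 644 * Km ^ 2 / e ≤ M := by linarith
    rw [div_le_iff₀ he] at h1
    linarith
  set K := 8 * Km
  have hK : 0 < K := by positivity
  set t := min (e / (8 * K ^ 2)) (1 / (3 * K)) with htdef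
  have ht0 : 0 < t := lt_min (by positivity) (by positivity)
  have ht1 : 8 * (t * K) ^ 2 ≤ 1 := by
    have h1 : t * (3 * K) ≤ 1 := (le_div_iff₀ (by positivity)).1 (min_le_right _ _)
    nlinarith [mul_nonneg ht0.le hK.le]
  have ht2 : 8 * t * K ^ 2 ≤ e := by
    have h1 : t * (8 * K ^ 2) ≤ e := (le_div_iff₀ (by positivity)).1 (min_le_left _ _)
    linarith
  set c₀ := min (t * e / 2) (e ^ 2 / (18 * K ^ 2)) with hc₀def
  have hc₀ : 0 < c₀ := lt_min (by positivity) (by positivity)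
  -- entropy
  set lam := max 0 (Real.log (16 * M / c₀)) with hlam
  have hlam0 : 0 ≤ lam := le_max_left _ _
  have hlam1 : 2 * ((2 * M : ℕ) : ℝ) * Real.exp (-lam) ≤ c₀ / 4 := by
    have h1 : 16 * M / c₀ ≤ Real.exp lam := by
      refine le_trans (le_of_eq (Real.exp_log (by positivity)).symm) (Real.exp_le_exp.2 (le_max_right _ _))
    rw [Real.exp_neg, ← div_eq_mul_inv, div_le_iff₀ (Real.exp_pos _)]
    rw [div_le_iff₀ hc₀] at h1
    push_cast
    linarith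
  set ρ := c₀ / (16 * (M:ℝ) ^ 2 * (lam + 1)) with hρdef
  have hρ : 0 < ρ := by positivity
  have hρ1 : lam * (4 * ρ * (M:ℝ) ^ 2) ≤ c₀ / 4 := by
    rw [hρdef, show lam * (4 * (c₀ / (16 * (M:ℝ) ^ 2 * (lam + 1))) * (M:ℝ) ^ 2) = c₀ / 4 * (lam / (lam + 1)) by
      field_simp; ring]
    exact mul_le_of_le_one_right (by positivity) ((div_le_one (by linarith)).2 (by linarith))
  refine ⟨ρ, hρ, fun k => ?_⟩
  set ε' := min e (√ρ / (6 * 16 ^ k)) with hε'def
  have hε' : 0 < ε' := lt_min he (by positivity)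
  have hdiag := DiagMean.diagMean β η (e ^ 2) 1 hβ0 hβ1 hη (pow_pos he 2)
  obtain ⟨cb, hcb, hball⟩ := ball_prob
  set c := min cb (min 1 (min (ε' ^ 2) (c₀ / 2))) / 2 with hcdef
  have hc : 0 < c := div_pos (lt_min hcb (lt_min one_pos (lt_min (pow_pos hε' 2) (by positivity)))) two_pos
  refine ⟨c, hc, fun s hs => ?_⟩
  have hsq : Tendsto (fun n : ℕ => √(n:ℝ)) atTop atTop := Real.tendsto_sqrt_atTop.comp tendsto_natCast_atTop_atTop
  filter_upwards [eventually_gt_atTop 0, hdiag,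
    (tendsto_natCast_atTop_atTop (R := ℝ)).eventually_ge_atTop ((1 + 16 * Km + (16 * Km) ^ 2) / e),
    hsq.eventually_ge_atTop (1 / e), hsq.eventually_ge_atTop (2 * (2 + 34 * 16 ^ k) / √ρ),
    poly_exp (6 + 10 * ((18 * M + 1 : ℕ) * (2 * M + 1 : ℕ) : ℝ)) hc] with n hn hdiagn hnK hn1 hn2 hpoly
  have hn' : (0:ℝ) < n := by exact_mod_cast hn
  rw [div_le_iff₀ he] at hnK hn1
  have hρn : √(ρ * n) = √ρ * √n := Real.sqrt_mul hρ.le _
  have hctr : 2 + 34 * 16 ^ k + 3 * 16 ^ k * (ε' * √n) ≤ √(ρ * n) := by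
    rw [div_le_iff₀ (Real.sqrt_pos.2 hρ)] at hn2
    have h1 : ε' * (6 * 16 ^ k) ≤ √ρ := (le_div_iff₀ (by positivity)).1 (min_le_right _ _)
    rw [hρn]
    nlinarith [mul_le_mul_of_nonneg_right h1 (Real.sqrt_nonneg (n:ℝ))]
  have : IsProbabilityMeasure (prodLaw n) := by unfold prodLaw; infer_instance
  obtain ⟨L, hL, hLcard⟩ := sparse_card n (2 * M) (t := 4 * ρ * (M:ℝ) ^ 2 * n) hlam0
  refine (union5 (N := ((18 * M + 1 : ℕ) * (2 * M + 1 : ℕ) : ℝ)) (E := Real.exp (-(2 * c * n)))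
    (A1 := {p | p.1 ∈ {g | g ∉ Ball β 3}})
    (A2 := {p | p.1 ∈ {g | OpLe (Matrix.of (cpl β g)) 3 ∧
      ∃ u θ D, Admissible β η u θ g D ∧ e ^ 2 * n < ∑ j, (resH β u θ g D j j - resPhi θ D j) ^ 2}})
    (A3 := {p | 4 * (n:ℝ) < OpNorm.nsq (prodXi β shift p.2)})
    (A4 := {p | ∃ i, ε' * √n < |prodXi β shift p.2 i|})
    (A5 := ⋃ i : Fin n, ⋃ q ∈ (Finset.Icc (-(9 * M : ℤ)) (9 * M)) ×ˢ (Finset.Icc (0:ℤ) (2 * M)) ×ˢ L,
      devSet β shift s k M K e i q)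
    (by positivity) (Real.exp_pos _).le (fun p hp a1 a2 a3 a4 => ?_) ?_ ?_ ?_ ?_ ?_).trans hpoly
  · simp only [Set.mem_ofPred_eq, not_not, not_and, not_exists, not_lt] at a1 a2 a3 a4
    simp only [Set.mem_iUnion]
    by_contra hdev
    push Not at hdev
    exact no_event hn hβ0 hβ1 hs hη hM0 he he1 heε hρ hδ (by linarith) (by linarith) (min_le_left _ _) hctr
      a1 a2 a3 a4 hL hdev hp
  all_goals have hc2 : ∀ x : ℝ, 2 * c ≤ x → Real.exp (-(x * n)) ≤ Real.exp (-(2 * c * n)) := fun x hx =>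
    Real.exp_le_exp.2 (neg_le_neg (mul_le_mul_of_nonneg_right hx hn'.le))
  all_goals have h2c : 2 * c = min cb (min 1 (min (ε' ^ 2) (c₀ / 2))) := by rw [hcdef]; ring
  · refine (prodLaw_fst _).trans_le ((hball n hn β (by rw [abs_of_nonneg hβ0]; exact hβ1.le)).trans ?_)
    exact mul_le_mul_of_nonneg_left (hc2 _ (h2c ▸ min_le_left _ _)) zero_le_two
  · exact (prodLaw_fst _).trans_le
      (hdiagn.trans (hc2 _ (h2c ▸ (min_le_right _ _).trans (min_le_left _ _))))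
  · exact (xi_sumsq hshift).trans
      ((le_of_eq (by rw [one_mul])).trans (hc2 1 (h2c ▸ (min_le_right _ _).trans (min_le_left _ _))))
  · refine (xi_large hshift (by positivity)).trans ?_
    rw [mul_pow, Real.sq_sqrt hn'.le]
    exact mul_le_mul_of_nonneg_left (mul_le_mul_of_nonneg_left (hc2 _ (h2c ▸ (min_le_right _ _).trans
      ((min_le_right _ _).trans (min_le_left _ _)))) zero_le_two) hn'.le
  · refine dev_mass hn hK he ht0.le ht1 ht2 ?_
    rw [← hc₀def]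
    refine (mul_le_mul_of_nonneg_right (grid_count (hLcard.trans (Real.exp_le_exp.2
      (show _ ≤ c₀ / 2 * n from ?_)))) (Real.exp_pos _).le).trans ?_
    · have := mul_le_mul_of_nonneg_right hρ1 hn'.le
      have := mul_le_mul_of_nonneg_right hlam1 hn'.le
      linarith
    · rw [mul_assoc, ← Real.exp_add, show c₀ / 2 * n + -(c₀ * n) = -(c₀ / 2 * n) by ring]
      exact mul_le_mul_of_nonneg_left
        (hc2 _ (h2c ▸ (min_le_right _ _).trans ((min_le_right _ _).trans (min_le_right _ _)))) (by positivity)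

end Vale.Agent.P150.High.Ball
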