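import Vale.Agent.P150.High.DiagMeanLaw
import Vale.Agent.P150.High.LipConc

/-!
# P150, the diagonal of `H` in mean square, for all profiles at once

The per-index mean, Euclidean concentration at rate `n²` and a net of exponential size.
-/

open MeasureTheory ProbabilityTheory Filter Matrix Finset
open scoped Matrix.Norms.L2Operator Topology

namespace Vale.Agent.P150.High.DiagMean

open Vale.Agent.P150 Vale.Agent.P150.High.ResCalc Vale.Agent.P150.High.DiagMeanLaw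

variable {n : ℕ}

lemma mem_ball_of_opLe {β : ℝ} {g : Edge n → ℝ} (h : OpLe (Matrix.of (cpl β g)) 3) : g ∈ Ball β 3 :=
  norm_cmat_le (Fast.OpNorm.opLe_of_bilin (by norm_num) fun v w => by
    simpa only [Fast.OpNorm.nsq_eq_dot] using h v w)

lemma frac_lip {θ θ' x y δ : ℝ} (hθ : |θ| ≤ 1 / 2) (hθ' : |θ'| ≤ 1 / 2) (hx0 : 0 ≤ x) (hx1 : x ≤ 1)
    (hy0 : 0 ≤ y) (hy1 : y ≤ 1) (hd : |θ - θ'| ≤ δ) (hxy : |x - y| ≤ δ) :
    |x / (1 + θ * x) - y / (1 + θ' * y)| ≤ 8 * δ ∧ |-θ / (1 + θ * x) - -θ' / (1 + θ' * y)| ≤ 8 * δ := by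
  have hδ : 0 ≤ δ := (abs_nonneg _).trans hd
  have h1 := (frac_bound hθ hx0 hx1).1
  have h2 := (frac_bound hθ' hy0 hy1).1
  have hp : 1 / 4 ≤ (1 + θ * x) * (1 + θ' * y) := by nlinarith
  refine ⟨?_, ?_⟩
  · rw [div_sub_div _ _ (by linarith) (by linarith), abs_div, abs_of_pos (by positivity : 0 < (1 + θ * x) * (1 + θ' * y)),
      div_le_iff₀ (by positivity)]
    rw [show x * (1 + θ' * y) - (1 + θ * x) * y = (x - y) + x * y * (θ' - θ) by ring]
    have h3 : |x * y * (θ' - θ)| ≤ 1 * δ := by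
      rw [abs_mul, abs_sub_comm θ' θ, abs_of_nonneg (mul_nonneg hx0 hy0)]
      exact mul_le_mul (by nlinarith) hd (abs_nonneg _) zero_le_one
    nlinarith [abs_add_le (x - y) (x * y * (θ' - θ))]
  · rw [div_sub_div _ _ (by linarith) (by linarith), abs_div, abs_of_pos (by positivity : 0 < (1 + θ * x) * (1 + θ' * y)),
      div_le_iff₀ (by positivity)]
    rw [show -θ * (1 + θ' * y) - (1 + θ * x) * -θ' = (θ' - θ) + θ * θ' * (x - y) by ring]
    have h3 : |θ * θ' * (x - y)| ≤ 1 * δ := by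
      rw [abs_mul, abs_mul]
      exact mul_le_mul (by nlinarith [abs_nonneg θ, abs_nonneg θ']) hxy (abs_nonneg _) zero_le_one
    nlinarith [abs_add_le (θ' - θ) (θ * θ' * (x - y)), abs_sub_comm θ' θ]

lemma shift_lip {β u u' θ θ' δ : ℝ} {D D' : Fin n → ℝ} (hβ : β ^ 2 ≤ 1) (hu : |u| ≤ 2) (hu' : |u'| ≤ 2)
    (hθ : |θ| ≤ 1 / 2) (hθ' : |θ'| ≤ 1 / 2) (hD : ∀ j, 0 ≤ D j ∧ D j ≤ 1)
    (hD' : ∀ j, 0 ≤ D' j ∧ D' j ≤ 1) (hdu : |u - u'| ≤ δ) (hdθ : |θ - θ'| ≤ δ) (hdD : ∀ j, |D j - D' j| ≤ δ) :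
    |resShift β u θ D - resShift β u' θ' D'| ≤ 41 * δ := by
  have hδ : 0 ≤ δ := (abs_nonneg _).trans hdu
  set m := (∑ j, D j / (1 + θ * D j)) / (n : ℝ)
  set m' := (∑ j, D' j / (1 + θ' * D' j)) / (n : ℝ)
  have h1 : |m| ≤ 2 := mean_le zero_le_two fun j => by
    have := frac_bound hθ (hD j).1 (hD j).2
    rw [abs_of_nonneg this.2.1]; exact this.2.2
  have h2 : |m - m'| ≤ 8 * δ := by
    simp only [m, m', ← sub_div, ← sum_sub_distrib]
    exact mean_le (by linarith) fun j =>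
      (frac_lip hθ hθ' (hD j).1 (hD j).2 (hD' j).1 (hD' j).2 hdθ (hdD j)).1
  have h3 : |u ^ 2 - u' ^ 2| ≤ 4 * δ := by
    rw [sq_sub_sq, abs_mul]
    exact mul_le_mul ((abs_add_le _ _).trans (by linarith)) hdu (abs_nonneg _) (by norm_num)
  have h4 : u' ^ 2 ≤ 4 := by nlinarith [sq_abs u', abs_nonneg u']
  rw [show resShift β u θ D - resShift β u' θ' D' = (θ - θ') + β ^ 2 * ((u ^ 2 - u' ^ 2) * m + u' ^ 2 * (m - m')) by
    simp only [resShift, m, m']; ring]
  refine (abs_add_le _ _).trans ?_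
  have h5 : |(u ^ 2 - u' ^ 2) * m + u' ^ 2 * (m - m')| ≤ 4 * δ * 2 + 4 * (8 * δ) := by
    refine (abs_add_le _ _).trans ?_
    rw [abs_mul, abs_mul, abs_of_nonneg (sq_nonneg u')]
    exact add_le_add (mul_le_mul h3 h1 (abs_nonneg _) (by positivity)) (mul_le_mul h4 h2 (abs_nonneg _) (by norm_num))
  rw [abs_mul, abs_of_nonneg (sq_nonneg β)]
  linarith [(mul_le_of_le_one_left (abs_nonneg _) hβ).trans h5]

lemma resHc_param {τ β u u' θ θ' δ : ℝ} {g : Edge n → ℝ} {D D' : Fin n → ℝ} (hτ : 0 < τ) (hτ1 : τ ≤ 1)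
    (hβ : β ^ 2 ≤ 1) (hu : |u| ≤ 2) (hu' : |u'| ≤ 2) (hθ : |θ| ≤ 1 / 2) (hθ' : |θ'| ≤ 1 / 2)
    (hD : ∀ j, 0 ≤ D j ∧ D j ≤ 1) (hD' : ∀ j, 0 ≤ D' j ∧ D' j ≤ 1) (hg : g ∈ Ball β 3)
    (hdu : |u - u'| ≤ δ) (hdθ : |θ - θ'| ≤ δ) (hdD : ∀ j, |D j - D' j| ≤ δ) :
    √(cfsq (resHc τ β u' θ' g D' - resHc τ β u θ g D)) ≤
      (1 + 16 / τ) ^ 2 * 300 * δ * √n := by
  have hδ : 0 ≤ δ := (abs_nonneg _).trans hdu
  have hW : ∀ w th (E : Fin n → ℝ), |w| ≤ 2 → |th| ≤ 1 / 2 → (∀ j, 0 ≤ E j ∧ E j ≤ 1) →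
      ‖resW τ β w th g E‖ ≤ 16 ∧ 1 + 1 / τ * ‖resW τ β w th g E‖ ≤ 1 + 16 / τ := fun w th E hw hth hE => by
    have := (norm_resW_le (D := E) (abs_le.2 ⟨by linarith, hτ1⟩) hβ hw hth hE hg).trans
      (show (10:ℝ) + 2 * 3 ≤ 16 by norm_num)
    exact ⟨this, add_le_add le_rfl (by rw [one_div_mul_eq_div]; exact div_le_div_of_nonneg_right this hτ.le)⟩
  obtain ⟨w1, w2⟩ := hW u θ D hu hθ hD
  obtain ⟨w1', w2'⟩ := hW u' θ' D' hu' hθ' hD'
  refine ((res_tau hτ β u θ g D).H_sub_cfsq (res_tau hτ β u' θ' g D')).trans ?_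
  have hsn : √(n:ℝ) * √(n:ℝ) = n := Real.mul_self_sqrt (Nat.cast_nonneg n)
  have h1 : √(cfsq (resW τ β u θ g D - resW τ β u' θ' g D')) ≤ 44 * δ * √n := by
    have hX : ‖resW τ β u θ g D - resW τ β u' θ' g D'‖ ≤ 44 * δ := by
      rw [resW_eq, resW_eq, show ∀ (a b c d : Matrix (Fin n) (Fin n) ℂ), (a - b) - (c - d) = (a - c) - (b - d)
        from fun a b c d => by abel, ← sub_smul, ← sub_smul, sub_sub_sub_cancel_right]
      refine (norm_sub_le _ _).trans ?_
      rw [norm_smul, norm_smul, ← Complex.ofReal_sub, ← Complex.ofReal_sub, Complex.norm_real, Complex.norm_real,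
        Real.norm_eq_abs, Real.norm_eq_abs]
      refine (add_le_add ((mul_le_of_le_one_right (abs_nonneg _) norm_one_le).trans
        (shift_lip hβ hu hu' hθ hθ' hD hD' hdu hdθ hdD)) (mul_le_mul hdu hg (norm_nonneg _) hδ)).trans ?_
      linarith
    rw [Real.sqrt_le_left (by positivity), mul_pow, Real.sq_sqrt (Nat.cast_nonneg n), cfsq, Finset.sum_comm]
    refine (sum_le_sum fun j _ => (col_le _ j).trans (pow_le_pow_left₀ (norm_nonneg _) hX 2)).trans_eq ?_
    simp [mul_comm]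
  have h2 : √(∑ j, (D' j - D j) ^ 2) ≤ δ * √n := by
    rw [Real.sqrt_le_left (by positivity), mul_pow, Real.sq_sqrt (Nat.cast_nonneg n)]
    refine (sum_le_sum (g := fun _ => δ ^ 2) fun j _ => ?_).trans_eq (by simp [mul_comm])
    exact sq_le_sq' (by linarith [(abs_le.1 (hdD j)).2]) (by linarith [(abs_le.1 (hdD j)).1])
  set K := 1 + 16 / τ
  have hK : 0 ≤ K := by positivity
  calc _ ≤ K * K * (44 * δ * √n) + 16 * K * (16 * K) * (δ * √n) := by
        refine add_le_add (mul_le_mul (mul_le_mul w2 w2' (by positivity) hK) h1 (Real.sqrt_nonneg _) (by positivity))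
          (mul_le_mul (mul_le_mul (mul_le_mul w1 w2 (by positivity) (by norm_num))
            (mul_le_mul w1' w2' (by positivity) (by norm_num)) (by positivity) (by positivity)) h2
            (Real.sqrt_nonneg _) (by positivity))
    _ ≤ _ := by linarith [(by ring : K * K * (44 * δ * √n) + 16 * K * (16 * K) * (δ * √n) = K ^ 2 * 300 * δ * √n)]

/-- Euclidean norm of the diagonal error of the regularisation at the parameters `q` -/
noncomputable def err (τ β : ℝ) (q : ℝ × ℝ × (Fin n → ℝ)) (g : Edge n → ℝ) : ℝ :=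
  √(∑ j, ‖resHc τ β q.1 q.2.1 g q.2.2 j j - (resPhi q.2.1 q.2.2 j : ℂ)‖ ^ 2)

lemma diag_sq_le (A : Matrix (Fin n) (Fin n) ℂ) : ∑ j, ‖A j j‖ ^ 2 ≤ cfsq A :=
  sum_le_sum fun j _ => single_le_sum (f := fun k => ‖A j k‖ ^ 2) (fun _ _ => sq_nonneg _) (mem_univ j)

lemma norm2_triangle (x y : Fin n → ℂ) :
    √(∑ j, ‖x j‖ ^ 2) ≤ √(∑ j, ‖y j‖ ^ 2) + √(∑ j, ‖x j - y j‖ ^ 2) := by
  have e : ∀ z : Fin n → ℂ, √(∑ j, ‖z j‖ ^ 2) = ‖(WithLp.toLp 2 z : EuclideanSpace ℂ (Fin n))‖ := fun z => by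
    rw [EuclideanSpace.norm_eq]
  rw [e x, e y, e fun j => x j - y j]
  exact norm_le_norm_add_norm_sub' _ _

section Main

/-- tail and variance of Euclidean Lipschitz functions of a Gaussian vector -/
def LipConc : Prop :=
  ∃ c C K : ℝ, 0 < c ∧ 0 ≤ C ∧ 0 ≤ K ∧ ∀ (n : ℕ) (f : (Edge n → ℝ) → ℝ) (L : ℝ), 0 < L →
    (∀ z w, |f z - f w| ≤ L * √(∑ e, (z e - w e) ^ 2)) →
    Integrable f (gauss (Edge n)) ∧
    (∀ t, 0 < t → (gauss (Edge n)).real {z | t ≤ f z - ∫ w, f w ∂gauss (Edge n)} ≤ C * Real.exp (-(c * t ^ 2 / L ^ 2))) ∧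
    Integrable (fun z => (f z - ∫ w, f w ∂gauss (Edge n)) ^ 2) (gauss (Edge n)) ∧
    ∫ z, (f z - ∫ w, f w ∂gauss (Edge n)) ^ 2 ∂gauss (Edge n) ≤ K * L ^ 2

theorem diagMean_of_conc (hconc : LipConc) : DiagMeanStatement := by
  obtain ⟨c0, C0, Kv, hc0, hC0, hKv, hconc⟩ := hconc
  intro β η ε Cexp hβ0 hβ1 hη hε
  have hβ : β ^ 2 ≤ 1 := pow_le_one₀ hβ0 hβ1.le
  set r := √ε
  have hr : 0 < r := Real.sqrt_pos.2 hε
  set ε₁ := r / 8
  obtain ⟨τ₀, hτ₀, hτ₀1, hmean⟩ := mean_diag_proj η ε₁ hη (by positivity)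
  set KE := (1 + 16 / η) ^ 2
  set τ := min τ₀ (r / (8 * KE))
  have hτ : 0 < τ := lt_min hτ₀ (by positivity)
  have hτ1 : τ ≤ 1 := (min_le_left _ _).trans hτ₀1
  have hτK : KE * τ ≤ r / 8 := by
    have := (le_div_iff₀ (by positivity)).1 (min_le_right τ₀ (r / (8 * KE)))
    linarith
  set K := 1 + 16 / τ
  have hK : 0 < K := by positivity
  obtain ⟨m, hm⟩ := exists_nat_gt ((K ^ 2 * 300 + 8) / (r / 8))
  have hm0 : (0:ℝ) < m := lt_of_le_of_lt (by positivity) hm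
  set δ := 1 / (m:ℝ)
  have hδ0 : 0 ≤ δ := by positivity
  have hδ : (K ^ 2 * 300 + 8) * δ ≤ r / 8 := by
    have := (div_lt_iff₀ (by positivity : (0:ℝ) < r / 8)).1 hm
    rw [mul_one_div, div_le_iff₀ hm0]; linarith
  set A := Real.log (2 * (m:ℝ) + 1)
  set γ := c0 * (ε / 16) / (3 * K ^ 2) ^ 2
  have hγ : 0 < γ := by positivity
  have hlim1 : Tendsto (fun n : ℕ => Kv * ((3 * K ^ 2) ^ 2 / (n:ℝ))) atTop (𝓝 0) := by
    simpa using ((tendsto_const_div_atTop_nhds_zero_nat ((3 * K ^ 2) ^ 2)).const_mul Kv)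
  filter_upwards [hmean τ hτ (min_le_left _ _), Filter.eventually_ge_atTop 1,
    hlim1.eventually (eventually_le_nhds (show (0:ℝ) < ε / 256 by positivity)),
    tendsto_natCast_atTop_atTop.eventually_ge_atTop ((|C0| + 3 * A + |Cexp|) / γ)]
    with n hmean hn1 hvar hbig
  have hn : (0:ℝ) < n := by exact_mod_cast hn1
  have hsn : 0 < √(n:ℝ) := Real.sqrt_pos.2 hn
  obtain ⟨P, hP, hfix, hlip, -⟩ := exists_proj (n := n) β (show (0:ℝ) ≤ 3 by norm_num)
  have hPc : Continuous P := by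
    refine continuous_pi fun e => continuous_iff_continuousAt.2 fun g => tendsto_iff_norm_sub_tendsto_zero.2 ?_
    have hc : Tendsto (fun w : Edge n → ℝ => √(∑ e, (w e - g e) ^ 2)) (𝓝 g) (𝓝 0) :=
      (by fun_prop : Continuous fun w : Edge n → ℝ => √(∑ e, (w e - g e) ^ 2)).tendsto' g 0 (by simp)
    refine squeeze_zero (fun _ => norm_nonneg _) (fun w => ?_) hc
    rw [Real.norm_eq_abs]
    exact Real.abs_le_sqrt ((single_le_sum (f := fun e => (P w e - P g e) ^ 2) (fun _ _ => sq_nonneg _)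
      (mem_univ e)).trans (hlip w g))
  set S : Set (ℝ × ℝ × (Fin n → ℝ)) := {p | (0 ≤ p.1 ∧ p.1 ≤ 2 ∧ |p.2.1| ≤ 1 / 2 ∧
    ∀ j, 0 ≤ p.2.2 j ∧ p.2.2 j ≤ 1) ∧ β ^ 2 * p.1 ^ 2 * gamTwo p.2.1 p.2.2 ≤ 1 - η}
  obtain ⟨N, hNS, hNcard, hN⟩ := exists_net n (Nat.cast_pos.1 hm0) S fun p hp => hp.1
  set t := √(n:ℝ) * (r / 4)
  set L := 3 * K ^ 2 / √(n:ℝ)
  have hL : 0 < L := by positivity
  have hL2 : L ^ 2 = (3 * K ^ 2) ^ 2 / n := by simp only [L]; rw [div_pow, Real.sq_sqrt hn.le]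
  set μ := gauss (Edge n)
  set X := fun (q : ℝ × ℝ × (Fin n → ℝ)) g j =>
    resHc τ β q.1 q.2.1 (P g) q.2.2 j j - (resPhi q.2.1 q.2.2 j : ℂ)
  have hXlip : ∀ q ∈ N, ∀ z w, √(∑ j, ‖X q z j - X q w j‖ ^ 2) ≤ L * √(∑ e, (z e - w e) ^ 2) := fun q hq z w => by
    obtain ⟨⟨hu0, hu2, hθ, hD⟩, -⟩ := hNS hq
    have h := resHc_lip (Λ := 3) hτ hτ1 hβ (abs_le.2 ⟨by linarith, hu2⟩) hθ hD (hP z) (hP w)
    rw [show (10:ℝ) + 2 * 3 = 16 by norm_num] at h
    refine le_trans ?_ (h.trans (mul_le_mul_of_nonneg_left (Real.sqrt_le_sqrt (hlip z w)) (by positivity)))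
    simp only [X, sub_sub_sub_cancel_right]
    exact Real.sqrt_le_sqrt (diag_sq_le (resHc τ β q.1 q.2.1 (P z) q.2.2 - resHc τ β q.1 q.2.1 (P w) q.2.2))
  have htail : ∀ q ∈ N, μ.real {g | √(n:ℝ) * (r / 2) ≤ err τ β q (P g)} ≤ C0 * Real.exp (-(γ * n * n)) := fun q hq => by
    obtain ⟨⟨hu0, hu2, hθ, hD⟩, hΓ⟩ := hNS hq
    set F := fun g => err τ β q (P g)
    have hF : ∀ z w, |F z - F w| ≤ L * √(∑ e, (z e - w e) ^ 2) := fun z w => by
      refine le_trans (abs_le.2 ⟨?_, ?_⟩) (hXlip q hq z w)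
      · have h := norm2_triangle (X q w) (X q z)
        simp only [norm_sub_rev (X q w _) (X q z _)] at h
        simp only [F, err]; simp only [X] at h ⊢; linarith
      · have h := norm2_triangle (X q z) (X q w)
        simp only [F, err]; simp only [X] at h ⊢; linarith
    obtain ⟨hFi, htl, -, -⟩ := hconc n F L hL hF
    have hcoord : ∀ j, Integrable (fun g => ‖X q g j‖ ^ 2) μ ∧
        ∫ g, ‖X q g j‖ ^ 2 ∂μ ≤ 4 * (Kv * L ^ 2) + 2 * ε₁ ^ 2 := fun j => by
      have hl : ∀ P' : ℂ →L[ℝ] ℝ, (∀ x, |P' x| ≤ ‖x‖) →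
          ∀ z w, |P' (X q z j) - P' (X q w j)| ≤ L * √(∑ e, (z e - w e) ^ 2) := fun P' hP' z w => by
        rw [← map_sub]
        refine (hP' _).trans (le_trans ?_ (hXlip q hq z w))
        rw [← Real.sqrt_sq (norm_nonneg (X q z j - X q w j))]
        exact Real.sqrt_le_sqrt (single_le_sum (f := fun j => ‖X q z j - X q w j‖ ^ 2)
          (fun _ _ => sq_nonneg _) (mem_univ j))
      obtain ⟨ri, -, rv, rV⟩ := hconc n _ L hL (hl Complex.reCLM fun x => Complex.abs_re_le_norm x)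
      obtain ⟨ii, -, iv, iV⟩ := hconc n _ L hL (hl Complex.imCLM fun x => Complex.abs_im_le_norm x)
      have hXi : Integrable (fun g => X q g j) μ := by
        refine (ri.norm.add ii.norm).mono'
          ((((continuous_H hτ).comp hPc).matrix_elem j j).sub continuous_const).aestronglyMeasurable
          (.of_forall fun g => ?_)
        simp only [Pi.add_apply, Complex.reCLM_apply, Complex.imCLM_apply, Real.norm_eq_abs]
        exact Complex.norm_le_abs_re_add_abs_im _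
      set a := ∫ g, X q g j ∂μ
      have hXa : ‖a‖ ≤ ε₁ := by
        have h := hmean β q.1 q.2.1 q.2.2 P hβ (abs_le.2 ⟨by linarith, hu2⟩) hθ hD hΓ hPc hP hfix j
        rw [disorder_eq_gauss] at h
        have hHi : Integrable (fun g => resHc τ β q.1 q.2.1 (P g) q.2.2 j j) μ := by
          have := hXi.fun_add (integrable_const (resPhi q.2.1 q.2.2 j : ℂ))
          simpa [X] using this
        simp only [a, X]
        rw [integral_sub hHi (integrable_const _), integral_const, probReal_univ, one_smul]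
        exact h
      rw [ContinuousLinearMap.integral_comp_comm _ hXi] at rv rV iv iV
      have hpt : ∀ g, ‖X q g j‖ ^ 2 ≤ 2 * ((Complex.reCLM (X q g j) - Complex.reCLM a) ^ 2 +
          (Complex.imCLM (X q g j) - Complex.imCLM a) ^ 2) + 2 * ‖a‖ ^ 2 := fun g => by
        have h := (pow_le_pow_left₀ (norm_nonneg _) (norm_le_norm_add_norm_sub' (X q g j) a) 2).trans add_sq_le
        have e : ‖X q g j - a‖ ^ 2 = (Complex.reCLM (X q g j) - Complex.reCLM a) ^ 2 +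
            (Complex.imCLM (X q g j) - Complex.imCLM a) ^ 2 := by
          rw [Complex.sq_norm, Complex.normSq_apply]; simp; ring
        linarith
      have hq2 := ((rv.fun_add iv).const_mul 2).fun_add (integrable_const (μ := μ) (2 * ‖a‖ ^ 2))
      have hsq : Integrable (fun g => ‖X q g j‖ ^ 2) μ := hq2.mono' (((((continuous_H hτ).comp hPc).matrix_elem j j).sub
        continuous_const).norm.pow 2).aestronglyMeasurable (.of_forall fun g => by
          rw [Real.norm_of_nonneg (sq_nonneg _)]; exact hpt g)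
      refine ⟨hsq, (integral_mono hsq hq2 hpt).trans ?_⟩
      rw [integral_add ((rv.fun_add iv).const_mul 2) (integrable_const _), integral_const_mul, integral_add rv iv,
        integral_const, probReal_univ, one_smul]
      have : ‖a‖ ^ 2 ≤ ε₁ ^ 2 := pow_le_pow_left₀ (norm_nonneg _) hXa 2
      linarith
    have hF2i : Integrable (fun g => F g ^ 2) μ := by
      simp only [F, err, Real.sq_sqrt (sum_nonneg fun j _ => sq_nonneg ‖_‖)]
      exact integrable_finsetSum _ fun j _ => (hcoord j).1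
    have hF2 : ∫ g, F g ^ 2 ∂μ ≤ t ^ 2 := by
      simp only [F, err, Real.sq_sqrt (sum_nonneg fun j _ => sq_nonneg ‖_‖)]
      rw [integral_finsetSum _ fun j _ => (hcoord j).1]
      refine (sum_le_sum fun j _ => (hcoord j).2).trans ?_
      rw [sum_const, Finset.card_univ, Fintype.card_fin, nsmul_eq_mul]
      simp only [t, mul_pow, Real.sq_sqrt hn.le, ε₁, hL2]
      refine mul_le_mul_of_nonneg_left ?_ hn.le
      rw [div_pow r, div_pow r, show r ^ 2 = ε from Real.sq_sqrt hε.le,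
        show Kv * (3 ^ 2 * (K ^ 2) ^ 2 / (n:ℝ)) = Kv * ((3 * K ^ 2) ^ 2 / n) by ring]
      linarith
    have hEF : ∫ g, F g ∂μ ≤ t := by
      have ht : 0 < t := by positivity
      refine (integral_mono hFi ((hF2i.fun_add (integrable_const (t ^ 2))).div_const (2 * t)) fun g => ?_).trans ?_
      · rw [le_div_iff₀ (by positivity)]; linarith [two_mul_le_add_sq (F g) t]
      · rw [integral_div, integral_add hF2i (integrable_const _), integral_const, probReal_univ, one_smul,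
          div_le_iff₀ (by positivity)]
        linarith [(by ring : t * (2 * t) = t ^ 2 + t ^ 2)]
    refine (measureReal_mono (s₂ := {g | t ≤ F g - ∫ w, F w ∂μ}) fun g hg => ?_).trans
      ((htl t (by positivity)).trans (le_of_eq ?_))
    · simp only [Set.mem_ofPred_eq] at hg ⊢
      simp only [t, F] at *
      linarith
    · simp only [t, γ, hL2, mul_pow, Real.sq_sqrt hn.le, div_pow, show r ^ 2 = ε from Real.sq_sqrt hε.le]
      congr 2
      field_simp
      ring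
  rw [disorder_eq_gauss]
  refine le_trans (measureReal_mono (μ := μ) (s₂ := ⋃ q ∈ N, {g | √(n:ℝ) * (r / 2) ≤ err τ β q (P g)}) ?_ (measure_ne_top _ _)) ?_
  · rintro g ⟨hop, u, θ, D, hadm, hlt⟩
    have hg := mem_ball_of_opLe hop
    obtain ⟨hu0, hu2, hθ, hD, hΓ, hform⟩ := hadm
    obtain ⟨q, hqN, hdu, hdθ, hdD⟩ := hN (u, θ, D) ⟨⟨hu0, hu2, hθ, hD⟩, hΓ⟩
    obtain ⟨⟨hqu0, hqu2, hqθ, hqD⟩, -⟩ := hNS hqN
    simp only [Set.mem_iUnion, Set.mem_ofPred_eq]
    refine ⟨q, hqN, ?_⟩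
    rw [hfix g hg]
    set y := fun j => resHc τ β q.1 q.2.1 g q.2.2 j j - (resPhi q.2.1 q.2.2 j : ℂ)
    set z := fun j => resHc τ β u θ g D j j - (resPhi θ D j : ℂ)
    set x := fun j => ((resH β u θ g D j j - resPhi θ D j : ℝ) : ℂ)
    have hx : √(n:ℝ) * r < √(∑ j, ‖x j‖ ^ 2) := by
      simp only [x, Complex.norm_real, Real.norm_eq_abs, sq_abs, r]
      rw [← Real.sqrt_mul hn.le, mul_comm]
      exact Real.sqrt_lt_sqrt (by positivity) hlt
    have h1 : √(∑ j, ‖x j - z j‖ ^ 2) ≤ √(n:ℝ) * (r / 8) := by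
      have h := (resH_approx (Λ := 3) ⟨hu0, hu2, hθ, hD, hΓ, hform⟩ hη hβ hg hτ.le hτ1).2
      rw [show (10:ℝ) + 2 * 3 = 16 by norm_num] at h
      rw [Real.sqrt_le_left (by positivity), mul_pow, Real.sq_sqrt hn.le]
      refine (sum_le_sum (g := fun _ => (r / 8) ^ 2) fun j _ => pow_le_pow_left₀ (norm_nonneg _) ?_ 2).trans_eq (by simp)
      refine le_trans (le_of_eq ?_) ((entry_le _ j j).trans (h.trans hτK))
      rw [norm_sub_rev]
      simp [x, z, cmat]
    have h2 : √(∑ j, ‖z j - y j‖ ^ 2) ≤ √(n:ℝ) * (r / 8) := by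
      set a := fun j => resHc τ β u θ g D j j - resHc τ β q.1 q.2.1 g q.2.2 j j
      have ha : √(∑ j, ‖a j‖ ^ 2) ≤ K ^ 2 * 300 * δ * √(n:ℝ) := by
        refine (Real.sqrt_le_sqrt ((sum_le_sum fun j _ => le_of_eq ?_).trans (diag_sq_le
          (resHc τ β q.1 q.2.1 g q.2.2 - resHc τ β u θ g D)))).trans (resHc_param hτ hτ1 hβ
            (abs_le.2 ⟨by linarith, hu2⟩) (abs_le.2 ⟨by linarith, hqu2⟩) hθ hqθ hD hqD hg hdu hdθ hdD)
        simp only [a, Matrix.sub_apply, norm_sub_rev]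
      have hb : √(∑ j, ‖(z j - y j) - a j‖ ^ 2) ≤ 8 * δ * √(n:ℝ) := by
        rw [Real.sqrt_le_left (by positivity), mul_pow, Real.sq_sqrt hn.le]
        refine (sum_le_sum (g := fun _ => (8 * δ) ^ 2) fun j _ => pow_le_pow_left₀ (norm_nonneg _) ?_ 2).trans_eq
          (by simp [mul_comm])
        rw [show z j - y j - a j = ((resPhi q.2.1 q.2.2 j - resPhi θ D j : ℝ) : ℂ) by
          simp only [z, y, a]; push_cast; ring, Complex.norm_real, Real.norm_eq_abs, abs_sub_comm]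
        exact (frac_lip hθ hqθ (hD j).1 (hD j).2 (hqD j).1 (hqD j).2 hdθ (hdD j)).2
      refine (norm2_triangle (fun j => z j - y j) a).trans ((add_le_add ha hb).trans ?_)
      linarith [mul_le_mul_of_nonneg_right hδ hsn.le]
    have e1 := norm2_triangle x z
    have e2 := norm2_triangle z y
    simp only [err]
    simp only [y] at e2
    linarith [mul_pos hsn hr]
  · refine (measureReal_biUnion_finset_le N _).trans ((sum_le_sum htail).trans ?_)
    rw [sum_const, nsmul_eq_mul]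
    have h2m : (0:ℝ) < 2 * (m:ℝ) + 1 := by positivity
    have hA : 0 ≤ A := Real.log_nonneg (by linarith)
    have hcard : (N.card : ℝ) ≤ Real.exp ((n + 2 : ℕ) * A) := by
      rw [Real.exp_nat_mul, Real.exp_log h2m]
      exact_mod_cast hNcard
    have hC : C0 ≤ Real.exp |C0| := (le_abs_self _).trans (by linarith [Real.add_one_le_exp |C0|])
    refine (mul_le_mul hcard (mul_le_mul_of_nonneg_right hC (Real.exp_pos _).le) (by positivity)
      (Real.exp_pos _).le).trans ?_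
    rw [← Real.exp_add, ← Real.exp_add, Real.exp_le_exp]
    have hb := mul_le_mul_of_nonneg_right ((div_le_iff₀ hγ).1 hbig) hn.le
    have hn1' : (1:ℝ) ≤ n := by exact_mod_cast hn1
    have h1 : |C0| ≤ |C0| * n := le_mul_of_one_le_right (abs_nonneg _) hn1'
    have h2 : A ≤ A * n := le_mul_of_one_le_right hA hn1'
    have h3 : Cexp * n ≤ |Cexp| * n := mul_le_mul_of_nonneg_right (le_abs_self _) hn.le
    push_cast
    linarith

/-- the concentration input -/
theorem lipConc : LipConc := by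
  refine ⟨1 / (Real.exp 1 * Real.pi ^ 2), Real.sqrt 2 * Real.exp 1, Real.sqrt 2 * Real.pi ^ 2,
    by positivity, by positivity, by positivity, fun n f L hL hf => ?_⟩
  refine ⟨(High.LipConc.moment (k := 1) le_rfl hL.le hf).1, fun t ht => (High.LipConc.tail hL hf ht).trans
    (le_of_eq (congrArg (fun s => Real.sqrt 2 * Real.exp 1 * Real.exp (-s)) ?_)),
    High.LipConc.variance hL.le hf⟩
  field_simp

/-- `DiagMeanStatement`: the diagonal prediction in mean square, for all profiles at once. -/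
theorem diagMean : DiagMeanStatement := diagMean_of_conc lipConc

end Main

end Vale.Agent.P150.High.DiagMean
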