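import Vale.Agent.P150.High.BallGrid
import Vale.Agent.P150.High.DiagMean

/-!
# P150, all `β < 1`: a site without deviations

If no form in the couplings at a site deviates at the grid offsets, the row of the resolvent at that
site is as predicted, for every profile in the ball.
-/

open MeasureTheory Matrix Finset
open scoped Matrix.Norms.L2Operator

namespace Vale.Agent.P150.High.Ball

open Vale.Agent.P150 ResCalc Fast

variable {n : ℕ}

lemma reMat_mulVec (X : Matrix (Fin n) (Fin n) ℂ) (v : Fin n → ℝ) (a : Fin n) :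
    ((X *ᵥ fun j => (v j : ℂ)) a).re = (reMat X *ᵥ v) a := by
  simp [reMat, Matrix.mulVec, dotProduct, Complex.re_sum]

lemma rowForm_eq (β u : ℝ) (g : Edge n → ℝ) (i : Fin n) (x : Fin n → ℂ) :
    rowForm β u g i x = u * (β / √n) * dot (fun k => (x k).re) (coupling g i) := by
  simp only [rowForm, dot, mul_comm]

lemma abs_dot_le' (x y : Fin n → ℝ) : |dot x y| ≤ √(OpNorm.nsq x) * √(OpNorm.nsq y) :=
  OpNorm.abs_dot_le x y

lemma row_norm_le {β : ℝ} {g : Edge n → ℝ} (hg : g ∈ Ball β 3) (i : Fin n) :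
    |β / √n| * √(OpNorm.nsq (coupling g i)) ≤ 3 := by
  have h := (opLe_of_norm_cmat (show ‖cmat (Matrix.of (cpl β g))‖ ≤ 3 from hg)).row i
  rw [← Real.sqrt_sq_eq_abs, ← Real.sqrt_mul (sq_nonneg _), Real.sqrt_le_left (by norm_num)]
  refine le_trans (le_of_eq ?_) h
  simp [OpNorm.nsq, cpl, mul_sum, mul_pow]

lemma res_bW {η β b u : ℝ} {g : Edge n → ℝ} {D : Fin n → ℝ} (hη : 0 < η)
    (h : FormGe η (b • (1 : Matrix (Fin n) (Fin n) ℝ) - u • Matrix.of (cpl β g)) D) :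
    Res (bW β b u g) D (1 / η) := by
  have e : cW 0 (b • (1 : Matrix (Fin n) (Fin n) ℝ) - u • Matrix.of (cpl β g)) = bW β b u g := by
    simp [cW, bW]
  refine e ▸ res_of_form ?_ hη h
  ext a c; simp [cpl, coupling_symm (g := g) a c, Matrix.one_apply, eq_comm]

lemma bW_sub (β b b' u u' : ℝ) (g : Edge n → ℝ) :
    bW β b u g - bW β b' u' g = bW β (b - b') (u - u') g := by
  ext a c
  simp only [Matrix.sub_apply, bW_apply]
  split_ifs <;> push_cast <;> ring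

lemma norm_bW_le {β b u Λ : ℝ} {g : Edge n → ℝ} (hg : g ∈ Ball β Λ) :
    ‖bW β b u g‖ ≤ |b| + |u| * Λ := by
  have e : bW β b u g = (b : ℂ) • (1 : Matrix (Fin n) (Fin n) ℂ) - (u : ℂ) • cmat (Matrix.of (cpl β g)) := by
    ext a c
    simp only [bW_apply, cmat, Matrix.sub_apply, Matrix.smul_apply, Matrix.map_apply, Matrix.of_apply,
      Matrix.one_apply, smul_eq_mul]
    split_ifs <;> push_cast <;> ring
  rw [e]
  refine (norm_sub_le _ _).trans (add_le_add ?_ ?_)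
  · rw [norm_smul, Complex.norm_real, Real.norm_eq_abs]
    exact mul_le_of_le_one_right (abs_nonneg _) norm_one_le
  · rw [norm_smul, Complex.norm_real, Real.norm_eq_abs]
    exact mul_le_mul_of_nonneg_left hg (abs_nonneg _)

/-- round towards zero -/
noncomputable def trunc (x : ℝ) : ℤ := if 0 ≤ x then ⌊x⌋ else ⌈x⌉

lemma trunc_spec (x : ℝ) : |x - trunc x| ≤ 1 ∧ |(trunc x : ℝ)| ≤ |x| ∧ (trunc x ≠ 0 → 1 ≤ |x|) := by
  have key : |x - trunc x| ≤ 1 ∧ |(trunc x : ℝ)| ≤ |x| := by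
    unfold trunc
    split_ifs with h
    · have h1 := Int.floor_le x
      have h2 := Int.lt_floor_add_one x
      have h3 : (0:ℝ) ≤ ⌊x⌋ := by exact_mod_cast Int.floor_nonneg.2 h
      rw [abs_of_nonneg (sub_nonneg.2 h1), abs_of_nonneg h3, abs_of_nonneg h]
      exact ⟨by linarith, h1⟩
    · push Not at h
      have h1 := Int.le_ceil x
      have h2 := Int.ceil_lt_add_one x
      have h3 : (⌈x⌉ : ℝ) ≤ 0 := by exact_mod_cast Int.ceil_le.2 (by simpa using h.le)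
      rw [abs_of_nonpos (sub_nonpos.2 h1), abs_of_nonpos h3, abs_of_neg h]
      exact ⟨by linarith, by linarith⟩
  refine ⟨key.1, key.2, fun h0 => le_trans ?_ key.2⟩
  exact_mod_cast Int.one_le_abs h0

/-! ### the grid point of a profile -/

/-- the offsets of `m` from `a` -/
noncomputable def gridOff (M : ℕ) (i : Fin n) (m a : Fin n → ℝ) (j : Fin n) : ℤ :=
  if j = i then 0 else trunc ((m j - a j) * M)

lemma gridOff_sparse {M : ℕ} (hM : 0 < M) (i : Fin n) {m a : Fin n → ℝ} {ρ : ℝ} (hm : ∀ j, |m j| ≤ 1)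
    (ha : ∀ j, |a j| ≤ 1) (hd : ∑ j, (m j - a j) ^ 2 ≤ 4 * ρ * n) :
    gridOff M i m a ∈ sparse n (2 * M) (4 * ρ * (M:ℝ) ^ 2 * n) := by
  have hM' : (0:ℝ) < M := by exact_mod_cast hM
  refine ⟨fun j => ?_, ?_⟩
  · simp only [gridOff]
    split_ifs
    · simp
    · have h1 := (trunc_spec ((m j - a j) * M)).2.1
      rw [abs_mul, abs_of_pos hM'] at h1
      have h2 : |m j - a j| ≤ 2 := (abs_sub _ _).trans (by linarith [hm j, ha j])
      have h3 : |((trunc ((m j - a j) * M) : ℤ) : ℝ)| ≤ ((2 * M : ℕ) : ℝ) := by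
        push_cast; nlinarith
      exact_mod_cast h3
  · calc ((univ.filter fun j => gridOff M i m a j ≠ 0).card : ℝ)
        = ∑ j ∈ univ.filter (fun j => gridOff M i m a j ≠ 0), (1:ℝ) := by simp
      _ ≤ ∑ j ∈ univ.filter (fun j => gridOff M i m a j ≠ 0), ((m j - a j) * M) ^ 2 := sum_le_sum fun j hj => by
          have hj' := (mem_filter.1 hj).2
          simp only [gridOff] at hj'
          split_ifs at hj'
          · exact absurd rfl hj'
          · exact (one_le_sq_iff_one_le_abs _).2 ((trunc_spec _).2.2 hj')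
      _ ≤ ∑ j, ((m j - a j) * M) ^ 2 :=
          sum_le_sum_of_subset_of_nonneg (filter_subset _ _) fun _ _ _ => sq_nonneg _
      _ ≤ _ := by
          simp only [mul_pow, ← sum_mul]
          nlinarith [mul_le_mul_of_nonneg_right hd (sq_nonneg (M:ℝ))]

lemma gridPar_mem {M : ℕ} {b u : ℝ} (hb : |b| ≤ 9) (hu0 : 0 ≤ u) (hu2 : u ≤ 2) :
    ⌊b * M⌋ ∈ Finset.Icc (-(9 * M : ℤ)) (9 * M) ∧ ⌊u * M⌋ ∈ Finset.Icc (0:ℤ) (2 * M) := by
  have hM : (0:ℝ) ≤ M := Nat.cast_nonneg M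
  refine ⟨Finset.mem_Icc.2 ⟨Int.le_floor.2 ?_, Int.floor_le_iff.2 ?_⟩,
    Finset.mem_Icc.2 ⟨Int.floor_nonneg.2 (mul_nonneg hu0 hM), Int.floor_le_iff.2 ?_⟩⟩
  · push_cast; nlinarith [(abs_le.1 hb).1]
  · push_cast; nlinarith [(abs_le.1 hb).2]
  · push_cast; nlinarith

lemma grid_close {M : ℕ} (hM : 0 < M) (i : Fin n) {m a : Fin n → ℝ} (hm : ∀ j, |m j| ≤ 1) (j : Fin n) :
    |Function.update m i 1 j - Function.update (fun j => a j + (gridOff M i m a j : ℝ) / M) i 1 j| ≤ 1 / M ∧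
    |Function.update m i 1 j| ≤ 1 := by
  have hM' : (0:ℝ) < M := by exact_mod_cast hM
  rcases eq_or_ne j i with h | h
  · simp [h]
  · rw [Function.update_of_ne h, Function.update_of_ne h, gridOff, if_neg h, le_div_iff₀ hM']
    refine ⟨le_trans (le_of_eq ?_) (trunc_spec ((m j - a j) * M)).1, hm j⟩
    rw [← abs_of_pos hM', ← abs_mul, abs_of_pos hM']
    congr 1
    field_simp
    ring

lemma profile_near {δ : ℝ} (hδ : 0 ≤ δ) (hδ1 : δ ≤ 1) {m₀ mq : Fin n → ℝ}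
    (h : ∀ j, |m₀ j - mq j| ≤ δ ∧ |m₀ j| ≤ 1) :
    ‖cdiag (profileOf mq) - cdiag (profileOf m₀)‖ ≤ 4 * δ ∧ ‖cdiag (profileOf mq)‖ ≤ 4 ∧
      OpNorm.nsq mq ≤ 9 * n := by
  have hq : ∀ j, |mq j| ≤ 2 := fun j => by
    have := abs_sub_abs_le_abs_sub (mq j) (m₀ j)
    rw [abs_sub_comm (mq j)] at this
    linarith [(h j).1, (h j).2]
  refine ⟨?_, norm_cdiag_le (by norm_num) fun j => ?_, ?_⟩
  · rw [show cdiag (profileOf mq) - cdiag (profileOf m₀) = cdiag (profileOf mq - profileOf m₀) by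
      rw [cdiag, cdiag, cdiag, Matrix.diagonal_sub]; congr 1; funext j; simp]
    refine norm_cdiag_le (by positivity) fun j => ?_
    rw [Pi.sub_apply, profileOf, profileOf,
      show 1 - mq j ^ 2 - (1 - m₀ j ^ 2) = (m₀ j - mq j) * (m₀ j + mq j) by ring, abs_mul, mul_comm (4:ℝ)]
    exact mul_le_mul (h j).1 ((abs_add_le _ _).trans (by linarith [(h j).2, hq j])) (abs_nonneg _) hδ
  · obtain ⟨h1, h2⟩ := abs_le.1 (hq j)
    simp only [profileOf]
    rw [abs_le]; constructor <;> nlinarith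
  · refine (sum_le_sum (g := fun _ => (9:ℝ)) fun j _ => ?_).trans (by simp [mul_comm])
    rw [← sq_abs]; nlinarith [hq j, abs_nonneg (mq j)]

lemma grid_shift {β b u : ℝ} {M : ℕ} (hM : 0 < M) {g : Edge n → ℝ} (hg : g ∈ Ball β 3) :
    ‖bW β ((⌊b * M⌋ : ℝ) / M) ((⌊u * M⌋ : ℝ) / M) g - bW β b u g‖ ≤ 4 * (1 / M) := by
  have hM' : (0:ℝ) < M := by exact_mod_cast hM
  rw [bW_sub]
  refine (norm_bW_le hg).trans ?_
  have fl : ∀ x : ℝ, |(⌊x * M⌋ : ℝ) / M - x| ≤ 1 / M := fun x => by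
    rw [div_sub' hM'.ne', abs_div, abs_of_pos hM']
    refine div_le_div_of_nonneg_right ?_ hM'.le
    have := Int.floor_le (x * M); have := Int.lt_floor_add_one (x * M)
    rw [abs_le]; constructor <;> linarith
  linarith [fl b, fl u]

lemma grid_perturb {W Wq : Matrix (Fin n) (Fin n) ℂ} {D Dq : Fin n → ℝ} {Km δ e : ℝ} (hKm : 1 ≤ Km)
    (hδ : 0 ≤ δ) (hκ : 644 * Km ^ 2 * δ ≤ e) (he : e ≤ 1) (hu : IsUnit (1 + cdiag D * W).det)
    (hM : ‖Mi W D‖ ≤ Km) (hW : ‖W‖ ≤ 16) (hWd : ‖Wq - W‖ ≤ 4 * δ)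
    (hDd : ‖cdiag Dq - cdiag D‖ ≤ 4 * δ) (hDq : ‖cdiag Dq‖ ≤ 4) :
    IsUnit (1 + cdiag Dq * Wq).det ∧ ‖Mi Wq Dq‖ ≤ 2 * Km ∧ ‖Mi W D - Mi Wq Dq‖ ≤ e ∧
      ‖cG W D - cG Wq Dq‖ ≤ e ∧ ‖cG Wq Dq‖ ≤ 8 * Km := by
  have hK0 : 0 ≤ Km := le_trans zero_le_one hKm
  have hdiff : ‖(1 + cdiag Dq * Wq) - (1 + cdiag D * W)‖ ≤ 80 * δ := by
    rw [show (1 + cdiag Dq * Wq) - (1 + cdiag D * W) =
      (cdiag Dq - cdiag D) * W + cdiag Dq * (Wq - W) by rw [Matrix.mul_sub, Matrix.sub_mul]; abel]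
    refine (norm_add_le _ _).trans (le_trans (add_le_add ((norm_mul_le _ _).trans
      (mul_le_mul hDd hW (norm_nonneg _) (by positivity))) ((norm_mul_le _ _).trans
      (mul_le_mul hDq hWd (norm_nonneg _) (by norm_num)))) (le_of_eq (by ring)))
  have hK2 : Km * δ ≤ Km ^ 2 * δ := mul_le_mul_of_nonneg_right (le_self_pow₀ hKm two_ne_zero) hδ
  obtain ⟨huq, hMq, hMd⟩ := perturb hu hM
    ((mul_le_mul_of_nonneg_left hdiff hK0).trans (by linarith))
  change ‖Mi Wq Dq‖ ≤ 2 * Km at hMq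
  change ‖Mi Wq Dq - Mi W D‖ ≤ _ at hMd
  have hMd' : ‖Mi Wq Dq - Mi W D‖ ≤ 160 * Km ^ 2 * δ :=
    hMd.trans ((mul_le_mul_of_nonneg_left hdiff (by positivity)).trans (le_of_eq (by ring)))
  have hp : 0 ≤ Km ^ 2 * δ := by positivity
  refine ⟨huq, hMq, (norm_sub_rev _ _).trans_le (hMd'.trans (by linarith)), ?_, ?_⟩
  · rw [norm_sub_rev, show cG Wq Dq - cG W D = (Mi Wq Dq - Mi W D) * cdiag Dq + Mi W D * (cdiag Dq - cdiag D) by
      rw [cG_eq_Mi, cG_eq_Mi, Matrix.sub_mul, Matrix.mul_sub]; abel]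
    refine (norm_add_le _ _).trans (le_trans (add_le_add ((norm_mul_le _ _).trans
      (mul_le_mul hMd' hDq (norm_nonneg _) (by positivity))) ((norm_mul_le _ _).trans
      (mul_le_mul hM hDd (norm_nonneg _) hK0))) (by linarith))
  · rw [cG_eq_Mi]
    exact (norm_mul_le _ _).trans ((mul_le_mul hMq hDq (norm_nonneg _) (by positivity)).trans_eq (by ring))

/-! ### the forms in the row -/

lemma row_lin {β u : ℝ} (hβ : |β| ≤ 1) (hu : |u| ≤ 2) (hn : 0 < n) {h : Fin n → ℝ}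
    (hrow : |β / √n| * √(OpNorm.nsq h) ≤ 3) {x y : Fin n → ℝ} {B C : ℝ}
    (h1 : √(OpNorm.nsq (x - y)) ≤ B) (h2 : |dot y h| ≤ C) :
    |u * (β / √n) * dot x h| ≤ 6 * B + 2 / √n * C := by
  have hsn : (0:ℝ) < √n := Real.sqrt_pos.2 (by exact_mod_cast hn)
  have e4 : dot x h = dot (x - y) h + dot y h := by
    simp only [dot, Pi.sub_apply, ← sum_add_distrib]
    exact sum_congr rfl fun a _ => by ring
  have h3 : |β / √n| ≤ 1 / √n := by
    rw [abs_div, abs_of_pos hsn]; exact div_le_div_of_nonneg_right hβ hsn.le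
  rw [e4, abs_mul, abs_mul]
  refine (mul_le_mul_of_nonneg_left (abs_add_le _ _) (by positivity)).trans ?_
  rw [mul_add]
  refine add_le_add ?_ ?_
  · calc |u| * |β / √n| * |dot (x - y) h| ≤ |u| * |β / √n| * (√(OpNorm.nsq (x - y)) * √(OpNorm.nsq h)) :=
          mul_le_mul_of_nonneg_left (abs_dot_le' _ _) (by positivity)
      _ = |u| * √(OpNorm.nsq (x - y)) * (|β / √n| * √(OpNorm.nsq h)) := by ring
      _ ≤ 2 * B * 3 := mul_le_mul (mul_le_mul hu h1 (Real.sqrt_nonneg _) zero_le_two) hrow (by positivity)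
          (mul_nonneg zero_le_two ((Real.sqrt_nonneg _).trans h1))
      _ = _ := by ring
  · calc |u| * |β / √n| * |dot y h| ≤ 2 * (1 / √n) * C :=
          mul_le_mul (mul_le_mul hu h3 (abs_nonneg _) zero_le_two) h2 (abs_nonneg _) (by positivity)
      _ = _ := by ring

lemma form_col {β u e : ℝ} (hβ : |β| ≤ 1) (hu : |u| ≤ 2) (hn : 0 < n) (he : 0 ≤ e) {g : Edge n → ℝ}
    (hg : g ∈ Ball β 3) (i c : Fin n) {X Y : Matrix (Fin n) (Fin n) ℂ} (hd : ‖X - Y‖ ≤ e)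
    (hY : |dot (fun a => (Y a c).re) (coupling g i)| ≤ e * √n) :
    |rowForm β u g i fun a => X a c| ≤ 8 * e := by
  have h1 : √(OpNorm.nsq ((fun a => (X a c).re) - fun a => (Y a c).re)) ≤ e := by
    refine (Real.sqrt_le_left he).2 (le_trans (sum_le_sum fun a _ => ?_) ((col_le (X - Y) c).trans
      (pow_le_pow_left₀ (norm_nonneg _) hd 2)))
    rw [← sq_abs]
    refine pow_le_pow_left₀ (abs_nonneg _) (le_trans (le_of_eq ?_) (Complex.abs_re_le_norm _)) 2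
    simp
  have h := row_lin hβ hu hn (row_norm_le hg i) h1 hY
  rw [rowForm_eq]
  refine h.trans (le_of_eq ?_)
  have : (√n : ℝ) ≠ 0 := (Real.sqrt_pos.2 (by exact_mod_cast hn)).ne'
  field_simp; ring

lemma form_vec {β u e δ Km : ℝ} (hβ : |β| ≤ 1) (hu : |u| ≤ 2) (hn : 0 < n) (he : 0 ≤ e) (hKm : 0 ≤ Km)
    (hκ : 8 * Km * δ ≤ e) {g : Edge n → ℝ} (hg : g ∈ Ball β 3) (i : Fin n)
    {X Y : Matrix (Fin n) (Fin n) ℂ} (hd : ‖X - Y‖ ≤ e) (hY : ‖Y‖ ≤ 8 * Km) (hX : ∀ a, X a i = 0)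
    {v v₀ vq : Fin n → ℝ} (h1 : ∀ j, j ≠ i → v₀ j = v j) (h2 : √(OpNorm.nsq v₀) ≤ 2 * √n)
    (h3 : √(OpNorm.nsq (v₀ - vq)) ≤ δ * √n)
    (h4 : |dot (reMat Y *ᵥ vq) (coupling g i)| ≤ e * n) :
    |rowForm β u g i (X *ᵥ fun j => (v j : ℂ))| ≤ 20 * e * √n := by
  have hsn : (0:ℝ) < √n := Real.sqrt_pos.2 (by exact_mod_cast hn)
  have e5 : reMat X *ᵥ v = reMat X *ᵥ v₀ := by
    funext a
    simp only [Matrix.mulVec, dotProduct]
    refine sum_congr rfl fun j _ => ?_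
    rcases eq_or_ne j i with h | h
    · simp [h, reMat, hX]
    · rw [h1 j h]
  have hre : reMat (X - Y) = reMat X - reMat Y := by ext a c; simp [reMat]
  have h6 : √(OpNorm.nsq (reMat X *ᵥ v₀ - reMat Y *ᵥ vq)) ≤ e * (2 * √n) + 8 * Km * (δ * √n) := by
    rw [show reMat X *ᵥ v₀ - reMat Y *ᵥ vq = reMat (X - Y) *ᵥ v₀ + reMat Y *ᵥ (v₀ - vq) by
      rw [hre, Matrix.sub_mulVec, Matrix.mulVec_sub]; abel]
    exact (OpNorm.sqrt_nsq_add _ _).trans (add_le_add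
      ((AmpLip.nrm_mulVec (opLe_re hd) _).trans (mul_le_mul_of_nonneg_left h2 he))
      ((AmpLip.nrm_mulVec (opLe_re hY) _).trans (mul_le_mul_of_nonneg_left h3 (by positivity))))
  have h7 := row_lin hβ hu hn (row_norm_le hg i) h6 h4
  rw [rowForm_eq]
  simp only [reMat_mulVec]
  rw [e5]
  refine h7.trans ?_
  have e6 : 2 / √n * (e * n) = 2 * e * √n := by
    rw [div_mul_eq_mul_div, div_eq_iff hsn.ne', mul_assoc (2 * e), Real.mul_self_sqrt (Nat.cast_nonneg n)]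
    ring
  rw [e6]
  nlinarith [mul_le_mul_of_nonneg_right hκ hsn.le]

lemma sigma_trace {η β u θ e : ℝ} (hη : 0 < η) (hβ : β ^ 2 ≤ 1) (he : 0 ≤ e) {g : Edge n → ℝ}
    (hg : g ∈ Ball β 3) {D : Fin n → ℝ} (hA : Admissible β η u θ g D)
    (hnK : 1 + 16 * (1 + 16 / η) + (16 * (1 + 16 / η)) ^ 2 ≤ e * n)
    (hd : ∑ j, (resH β u θ g D j j - resPhi θ D j) ^ 2 ≤ e ^ 2 * n) (i : Fin n) :
    |(reMat (cG (bW β (resShift β u θ D) u (zeroRow g i)) (Function.update D i 0))).trace -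
      ∑ a, D a / (1 + θ * D a)| ≤ 2 * (e * n) := by
  obtain ⟨-, -, -, -, ctr⟩ := cavity hη hA i
  obtain ⟨hu0, hu2, hθ, hD01, -, hform⟩ := id hA
  set b := resShift β u θ D
  set Km := 1 + 16 / η
  have hb : |b| ≤ 9 := shift_le hβ (abs_le.2 ⟨by linarith, hu2⟩) hθ hD01
  have t3 : |(reMat (cG (bW β b u (zeroRow g i)) (Function.update D i 0))).trace -
      ∑ a, (D a + D a ^ 2 * resH β u θ g D a a)| ≤ e * n := by
    refine ctr.trans (le_trans ?_ hnK)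
    have hH := (resH_approx (τ := 0) hA hη hβ hg le_rfl zero_le_one).1
    norm_num at hH
    have h0 : ‖cH (bW β b u g) (Function.update D i 0)‖ ≤ 16 * Km := by
      have hR := res_bW hη (formGe_minor (η := η) (D := D) hform i).1
      have hW : ‖bW β b u g‖ ≤ 16 := (norm_bW_le hg).trans (by rw [abs_of_nonneg hu0]; linarith)
      refine hR.norm_H_le.trans (mul_le_mul hW (add_le_add le_rfl ?_) ?_ (by norm_num))
      · rw [one_div_mul_eq_div]
        exact div_le_div_of_nonneg_right hW hη.le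
      · positivity
    nlinarith [mul_le_mul h0 hH (norm_nonneg _) (le_trans (norm_nonneg _) h0), norm_nonneg (cmat (resH β u θ g D))]
  have t4 : |∑ a, (D a + D a ^ 2 * resH β u θ g D a a) - ∑ a, D a / (1 + θ * D a)| ≤ e * n := by
    rw [← sum_sub_distrib]
    refine (abs_sum_le_sum_abs _ _).trans ((sum_le_sum fun a _ => ?_).trans
      ((Real.sum_mul_le_sqrt_mul_sqrt univ (fun _ => (1:ℝ)) fun a => |resH β u θ g D a a - resPhi θ D a|).trans ?_))
    · obtain ⟨hden, -, -⟩ := frac_bound hθ (hD01 a).1 (hD01 a).2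
      have e2 : D a + D a ^ 2 * resH β u θ g D a a - D a / (1 + θ * D a) =
          D a ^ 2 * (resH β u θ g D a a - resPhi θ D a) := by
        have hne : 1 + θ * D a ≠ 0 := by linarith
        rw [resPhi, div_eq_mul_inv, div_eq_mul_inv]
        linear_combination -(D a) * mul_inv_cancel₀ hne
      rw [e2, one_mul, abs_mul, abs_of_nonneg (sq_nonneg _)]
      exact mul_le_of_le_one_left (abs_nonneg _) (pow_le_one₀ (hD01 a).1 (hD01 a).2)
    · simp only [one_pow, sum_const, card_univ, Fintype.card_fin, nsmul_eq_mul, mul_one, sq_abs]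
      refine (mul_le_mul_of_nonneg_left (Real.sqrt_le_sqrt hd) (Real.sqrt_nonneg _)).trans ?_
      rw [Real.sqrt_mul (sq_nonneg e), Real.sqrt_sq he, mul_left_comm, Real.mul_self_sqrt (Nat.cast_nonneg n)]
  refine (abs_sub_le _ _ _).trans ((add_le_add t3 t4).trans (le_of_eq (by ring)))

lemma sigma_near (hn : 0 < n) {η β u θ e : ℝ} (hη : 0 < η) (hβ : β ^ 2 ≤ 1) (he : 0 ≤ e) {g : Edge n → ℝ}
    (hg : g ∈ Ball β 3) {D : Fin n → ℝ} (hA : Admissible β η u θ g D)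
    (hnK : 1 + 16 * (1 + 16 / η) + (16 * (1 + 16 / η)) ^ 2 ≤ e * n)
    (hd : ∑ j, (resH β u θ g D j j - resPhi θ D j) ^ 2 ≤ e ^ 2 * n) (i : Fin n)
    {Y : Matrix (Fin n) (Fin n) ℂ}
    (hY : ‖cG (bW β (resShift β u θ D) u (zeroRow g i)) (Function.update D i 0) - Y‖ ≤ e)
    (dA : |qform (reMat Y) (coupling g i) - (reMat Y).trace| ≤ e * n) :
    |sigma β (resShift β u θ D) u g i (cG (bW β (resShift β u θ D) u (zeroRow g i)) (Function.update D i 0)) + θ|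
      ≤ 52 * e := by
  have hn' : (0:ℝ) < n := by exact_mod_cast hn
  have tt := sigma_trace hη hβ he hg hA hnK hd i
  have hrow := row_norm_le hg i
  obtain ⟨hu0, hu2, -, -, -, -⟩ := id hA
  set b := resShift β u θ D with hbdef
  set X := cG (bW β b u (zeroRow g i)) (Function.update D i 0)
  set h := coupling g i
  have hop := opLe_re hY
  change OpNorm.OpLe (reMat (X - Y)) e at hop
  have hre : reMat (X - Y) = reMat X - reMat Y := by ext a c; simp [reMat]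
  have hu4 : u ^ 2 * β ^ 2 ≤ 4 := by nlinarith [sq_nonneg u, sq_nonneg β]
  have hcoef : u ^ 2 * (β ^ 2 / n) ≤ 4 / n := by
    rw [← mul_div_assoc]; exact div_le_div_of_nonneg_right hu4 hn'.le
  have t1 : u ^ 2 * (β ^ 2 / n) * |qform (reMat X) h - qform (reMat Y) h| ≤ 36 * e := by
    have e1 : qform (reMat X) h - qform (reMat Y) h = qform (reMat (X - Y)) h := by
      rw [qform_eq, qform_eq, qform_eq, hre, Matrix.sub_mulVec, dotProduct_sub]
    rw [e1, qform_eq]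
    refine (mul_le_mul_of_nonneg_left (hop.quad h) (by positivity)).trans ?_
    have h9 : β ^ 2 / n * OpNorm.nsq h ≤ 9 := by
      have := mul_le_mul hrow hrow (by positivity) (by norm_num)
      rw [mul_mul_mul_comm, abs_mul_abs_self, Real.mul_self_sqrt (OpNorm.nsq_nonneg _), div_mul_div_comm,
        Real.mul_self_sqrt hn'.le, ← sq] at this
      linarith
    calc u ^ 2 * (β ^ 2 / n) * (e * OpNorm.nsq h) = u ^ 2 * e * (β ^ 2 / n * OpNorm.nsq h) := by ring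
      _ ≤ 4 * e * 9 := mul_le_mul (mul_le_mul_of_nonneg_right (by nlinarith) he) h9
          (mul_nonneg (by positivity) (OpNorm.nsq_nonneg _)) (by positivity)
      _ = _ := by ring
  have t2 : |(reMat Y).trace - (reMat X).trace| ≤ e * n := by
    rw [abs_sub_comm, ← Matrix.trace_sub, ← hre, Matrix.trace]
    refine (abs_sum_le_sum_abs _ _).trans ((sum_le_sum fun a _ => hop.entry a a).trans_eq ?_)
    simp [mul_comm]
  have hrep : sigma β b u g i X = -b + u ^ 2 * (β ^ 2 / n) * qform (reMat X) h := rfl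
  have hb' : b = θ + u ^ 2 * (β ^ 2 / n) * ∑ a, D a / (1 + θ * D a) := by rw [hbdef, resShift]; ring
  have e3 : sigma β b u g i X + θ = u ^ 2 * (β ^ 2 / n) * (qform (reMat X) h - qform (reMat Y) h) +
      u ^ 2 * (β ^ 2 / n) * ((qform (reMat Y) h - (reMat Y).trace) +
        ((reMat Y).trace - (reMat X).trace) + ((reMat X).trace - ∑ a, D a / (1 + θ * D a))) := by
    rw [hrep, hb']; ring
  rw [e3]
  refine (abs_add_le _ _).trans ?_
  rw [abs_mul (u ^ 2 * (β ^ 2 / n)), abs_mul (u ^ 2 * (β ^ 2 / n)),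
    abs_of_nonneg (by positivity : (0:ℝ) ≤ u ^ 2 * (β ^ 2 / n))]
  refine (add_le_add t1 (mul_le_mul hcoef ((abs_add_le _ _).trans (add_le_add
    ((abs_add_le _ _).trans (add_le_add dA t2)) tt)) (abs_nonneg _) (by positivity))).trans ?_
  rw [show 4 / (n:ℝ) * (e * n + e * n + 2 * (e * n)) = 16 * e by field_simp; ring]
  linarith

lemma site_bound {D θ σ e : ℝ} (hθ : |θ| ≤ 1 / 2) (hd0 : 0 ≤ D) (hd1 : D ≤ 1) (he1 : e ≤ 1 / 512)
    (hsig : |σ + θ| ≤ 52 * e) :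
    |σ| ≤ 1 ∧ (∀ x, x * (1 - D * σ) = σ → |x - -θ / (1 + θ * D)| ≤ 416 * e) ∧
      ∀ x y B : ℝ, x * (1 - D * σ) = y → |y| ≤ B → |x| ≤ 4 * B := by
  obtain ⟨hden, -, -⟩ := frac_bound hθ hd0 hd1
  have hσ : |σ| ≤ 1 := by
    have := abs_sub (σ + θ) θ
    rw [add_sub_cancel_right] at this
    linarith
  have hdσ : 1 / 4 ≤ 1 - D * σ := by
    have h1 : D * (σ + θ) ≤ 1 / 4 := (le_abs_self _).trans (by
      rw [abs_mul, abs_of_nonneg hd0]; nlinarith [abs_nonneg (σ + θ)])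
    have h2 : -(1/2) ≤ D * θ := by nlinarith [(abs_le.1 hθ).1]
    linarith
  refine ⟨hσ, fun x hx => ?_, fun x y B h1 h2 => ?_⟩
  · have hne : 1 - D * σ ≠ 0 := by linarith
    have hne2 : 1 + θ * D ≠ 0 := by linarith
    rw [eq_div_of_mul_eq hne hx,
      show σ / (1 - D * σ) - -θ / (1 + θ * D) = (σ + θ) / ((1 - D * σ) * (1 + θ * D)) by
        rw [div_sub_div _ _ hne hne2]; congr 1; ring, abs_div,
      abs_of_pos (mul_pos (by linarith : 0 < 1 - D * σ) (by linarith : 0 < 1 + θ * D)),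
      div_le_iff₀ (mul_pos (by linarith) (by linarith))]
    nlinarith [mul_le_mul hdσ hden (by norm_num) (by linarith), abs_nonneg (σ + θ)]
  · rw [← h1, abs_mul, abs_of_pos (by linarith : 0 < 1 - D * σ)] at h2
    nlinarith [mul_le_mul_of_nonneg_left hdσ (abs_nonneg x)]

/-! ### no deviation, no bad site -/

lemma centre_near {β shift s ρ ε' : ℝ} (hn : 0 < n) (hβ : |β| ≤ 1) (hs : s ∈ Set.Icc (0 : ℝ) 1) {k : ℕ}
    (hρ : 0 < ρ) (hctr : 2 + 34 * 16 ^ k + 3 * 16 ^ k * (ε' * √n) ≤ √(ρ * n)) {g : Edge n → ℝ}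
    {w : Fin n → ℝ} (hg : g ∈ Ball β 3) (hξ : OpNorm.nsq (prodXi β shift w) ≤ 4 * n)
    (hmax : ∀ a, |prodXi β shift w a| ≤ ε' * √n) {m : Fin n → ℝ}
    (hm : InBall ρ (prodCentre β shift s g w k) m) (i : Fin n) :
    ∑ j, (m j - prodCentre β shift s (zeroRow g i) w k j) ^ 2 ≤ 4 * ρ * n := by
  set a₀ := prodCentre β shift s (zeroRow g i) w k
  have h1 : PartB.nrm (fun j => m j - prodCentre β shift s g w k j) ≤ √(ρ * n) :=
    Real.sqrt_le_sqrt hm.2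
  have h2 : PartB.nrm (fun j => prodCentre β shift s g w k j - a₀ j) ≤ √(ρ * n) := by
    refine (centre_row (shift := shift) hβ hs hn (opLe_of_norm_cmat hg) hξ i k).trans (le_trans ?_ hctr)
    have : (1:ℝ) ≤ 16 ^ k := one_le_pow₀ (by norm_num)
    nlinarith [hmax i]
  have h3 := AmpLip.nrm_add (fun j => m j - prodCentre β shift s g w k j)
    (fun j => prodCentre β shift s g w k j - a₀ j)
  have e3 : ((fun j => m j - prodCentre β shift s g w k j) + fun j => prodCentre β shift s g w k j - a₀ j)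
      = fun j => m j - a₀ j := by funext j; simp
  rw [e3] at h3
  have h4 : PartB.nrm (fun j => m j - a₀ j) ≤ 2 * √(ρ * n) := by linarith
  rw [PartB.nrm, Real.sqrt_le_left (by positivity), mul_pow, Real.sq_sqrt (by positivity)] at h4
  linarith

lemma grid_forms {β shift s : ℝ} (hβ : β ^ 2 ≤ 1) {η : ℝ} (hη : 0 < η) {k M : ℕ} (hM : 0 < M)
    {e ρ : ℝ} (he1 : e ≤ 1) (hδ : 644 * (1 + 16 / η) ^ 2 / M ≤ e) {g : Edge n → ℝ} {w : Fin n → ℝ}
    (hg : g ∈ Ball β 3) (hξ : OpNorm.nsq (prodXi β shift w) ≤ 4 * n)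
    {L : Finset (Fin n → ℤ)} (hL : ∀ o ∈ sparse n (2 * M) (4 * ρ * (M:ℝ) ^ 2 * n), o ∈ L)
    {u θ : ℝ} {m : Fin n → ℝ} (hm : ∀ j, |m j| ≤ 1) (hA : Admissible β η u θ g (profileOf m)) (i : Fin n)
    (hdist : ∑ j, (m j - prodCentre β shift s (zeroRow g i) w k j) ^ 2 ≤ 4 * ρ * n)
    (hdev : ∀ q ∈ (Finset.Icc (-(9 * M : ℤ)) (9 * M)) ×ˢ (Finset.Icc (0:ℤ) (2 * M)) ×ˢ L,
      (g, w) ∉ devSet β shift s k M (8 * (1 + 16 / η)) e i q) :
    ∃ Mq Gq : Matrix (Fin n) (Fin n) ℂ, ∃ mq : Fin n → ℝ,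
      ‖Mi (bW β (resShift β u θ (profileOf m)) u (zeroRow g i)) (Function.update (profileOf m) i 0) - Mq‖ ≤ e ∧
      ‖cG (bW β (resShift β u θ (profileOf m)) u (zeroRow g i)) (Function.update (profileOf m) i 0) - Gq‖ ≤ e ∧
      ‖Gq‖ ≤ 8 * (1 + 16 / η) ∧ (∀ j, |Function.update m i 1 j - mq j| ≤ 1 / M) ∧
      |qform (reMat Gq) (coupling g i) - (reMat Gq).trace| ≤ e * n ∧
      (∀ c, c ≠ i → |dot (fun a => (Mq a c).re) (coupling g i)| ≤ e * √n) ∧
      |dot (reMat Gq *ᵥ fun _ => 1) (coupling g i)| ≤ e * n ∧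
      |dot (reMat Gq *ᵥ mq) (coupling g i)| ≤ e * n ∧
      |dot (reMat Gq *ᵥ prodXi β shift w) (coupling g i)| ≤ e * n := by
  obtain ⟨h00, -, -, -, -⟩ := cavity hη hA i
  obtain ⟨hu0, hu2, hθ, hD01, -, -⟩ := id hA
  set Km := 1 + 16 / η
  have hKm : 1 ≤ Km := le_add_of_nonneg_right (by positivity)
  have hb : |resShift β u θ (profileOf m)| ≤ 9 := shift_le hβ (abs_le.2 ⟨by linarith, hu2⟩) hθ hD01
  set b := resShift β u θ (profileOf m)
  set g₀ := zeroRow g i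
  have hg₀ : g₀ ∈ Ball β 3 := norm_cmat_le (opLe_zeroRow (opLe_of_norm_cmat hg) i)
  set a₀ := prodCentre β shift s g₀ w k
  set o := gridOff M i m a₀
  have hM' : (1:ℝ) ≤ M := by exact_mod_cast hM
  have hδ0 : (0:ℝ) ≤ 1 / M := by positivity
  have hclose := grid_close hM i (a := a₀) hm
  obtain ⟨hDd, hDq, hmq⟩ := profile_near hδ0 ((div_le_one (by linarith)).2 hM') hclose
  have hD₀ : profileOf (Function.update m i 1) = Function.update (profileOf m) i 0 := by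
    funext j; rcases eq_or_ne j i with h | h <;> simp [profileOf, h]
  rw [hD₀] at hDd
  set D₀ := Function.update (profileOf m) i 0
  have hW : ‖bW β b u g₀‖ ≤ 16 := (norm_bW_le hg₀).trans (by rw [abs_of_nonneg hu0]; linarith)
  have hMn : ‖Mi (bW β b u g₀) D₀‖ ≤ Km := by
    rw [← cM_eq_Mi h00]
    refine h00.norm_M_le.trans (add_le_add le_rfl ?_)
    rw [one_div_mul_eq_div]
    exact div_le_div_of_nonneg_right hW hη.le
  obtain ⟨huq, hMq, hMd, hGd, hGq⟩ := grid_perturb hKm hδ0 (by rwa [mul_one_div]) he1 h00.unit hMn hW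
    (grid_shift (b := b) (u := u) hM hg₀) hDd hDq
  obtain ⟨hq1, hq2⟩ := gridPar_mem (M := M) hb hu0 hu2
  have hnd := hdev (⌊b * M⌋, ⌊u * M⌋, o)
    (Finset.mem_product.2 ⟨hq1, Finset.mem_product.2 ⟨hq2,
      hL o (gridOff_sparse hM i hm (fun j => abs_tanh_le_one _) hdist)⟩⟩)
  simp only [devSet, Set.mem_ofPred_eq, not_and, not_or, not_exists, not_lt] at hnd
  obtain ⟨dA, dB, d1, dm, dξ⟩ := hnd huq (hMq.trans (by linarith)) hGq hmq hξ
  exact ⟨_, _, _, hMd, hGd, hGq, fun j => (hclose j).1, dA, dB, d1, dm, dξ⟩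

lemma bad_site_free (hn : 0 < n) {β shift s : ℝ} (hβ0 : 0 ≤ β) (hβ1 : β < 1) (hs : s ∈ Set.Icc (0 : ℝ) 1)
    {η : ℝ} (hη : 0 < η) {k M : ℕ} (hM : 0 < M) {e ε' ρ : ℝ} (he : 0 < e) (he1 : e ≤ 1 / 512) (hρ : 0 < ρ)
    (hδ : 644 * (1 + 16 / η) ^ 2 / M ≤ e) (hnK : 1 + 16 * (1 + 16 / η) + (16 * (1 + 16 / η)) ^ 2 ≤ e * n)
    (hn1 : 1 ≤ e * √n) (hε' : ε' ≤ e) (hctr : 2 + 34 * 16 ^ k + 3 * 16 ^ k * (ε' * √n) ≤ √(ρ * n))
    {g : Edge n → ℝ} {w : Fin n → ℝ} (hg : g ∈ Ball β 3)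
    (hξ : OpNorm.nsq (prodXi β shift w) ≤ 4 * n) (hmax : ∀ a, |prodXi β shift w a| ≤ ε' * √n)
    (hdiag : ∀ u θ D, Admissible β η u θ g D →
      ∑ j, (resH β u θ g D j j - resPhi θ D j) ^ 2 ≤ e ^ 2 * n)
    {L : Finset (Fin n → ℤ)} (hL : ∀ o ∈ sparse n (2 * M) (4 * ρ * (M:ℝ) ^ 2 * n), o ∈ L)
    (hdev : ∀ i, ∀ q ∈ (Finset.Icc (-(9 * M : ℤ)) (9 * M)) ×ˢ (Finset.Icc (0:ℤ) (2 * M)) ×ˢ L,
      (g, w) ∉ devSet β shift s k M (8 * (1 + 16 / η)) e i q)
    {u θ : ℝ} {m : Fin n → ℝ} (hm : InBall ρ (prodCentre β shift s g w k) m)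
    (hA : Admissible β η u θ g (profileOf m)) (i : Fin n) :
    |resH β u θ g (profileOf m) i i - resPhi θ (profileOf m) i| ≤ 416 * e ∧
    (∀ c, c ≠ i → |resH β u θ g (profileOf m) i c| ≤ 32 * e) ∧
    ∀ v : Fin n → ℝ, (v = (fun _ => 1) ∨ v = m ∨ v = prodXi β shift w) →
      |(resH β u θ g (profileOf m) *ᵥ fun j => profileOf m j * v j) i| ≤ 84 * e * √n := by
  have hβ : |β| ≤ 1 := by rw [abs_of_nonneg hβ0]; exact hβ1.le
  have hβ2 : β ^ 2 ≤ 1 := (sq_le_one_iff_abs_le_one β).2 hβ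
  have hdist := centre_near hn hβ hs hρ hctr hg hξ hmax hm i
  obtain ⟨Mq, Gq, mq, hMd, hGd, hGq, hclose, dA, dB, d1, dm, dξ⟩ :=
    grid_forms hβ2 hη hM (le_trans he1 (by norm_num)) hδ hg hξ hL hm.1 hA i hdist (hdev i)
  obtain ⟨-, cdi, coff, cvec, -⟩ := cavity hη hA i
  have hsig := sigma_near hn hη hβ2 he.le hg hA hnK (hdiag u θ _ hA) i hGd dA
  obtain ⟨hu0, hu2, hθ, hD01, -, -⟩ := id hA
  have hu : |u| ≤ 2 := abs_le.2 ⟨by linarith, hu2⟩
  obtain ⟨hσ, hdia, hdiv⟩ := site_bound hθ (hD01 i).1 (hD01 i).2 he1 hsig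
  refine ⟨hdia _ cdi, fun c hc => ?_, fun v hv => ?_⟩
  · exact (hdiv _ _ _ (coff c hc) (form_col hβ hu hn he.le hg i c hMd (dB c hc))).trans_eq (by ring)
  · have hM' : (1:ℝ) ≤ M := by exact_mod_cast hM
    have hδ0 : (0:ℝ) ≤ 1 / M := by positivity
    have hKm : (1:ℝ) ≤ 1 + 16 / η := le_add_of_nonneg_right (by positivity)
    have hκ : 8 * (1 + 16 / η) * (1 / M) ≤ e := by
      have h1 := mul_le_mul_of_nonneg_right (le_self_pow₀ hKm two_ne_zero) hδ0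
      rw [← mul_one_div] at hδ
      nlinarith
    have cst : ∀ x : Fin n → ℝ, ∀ c : ℝ, 0 ≤ c → (∀ j, |x j| ≤ c) → √(OpNorm.nsq x) ≤ c * √n :=
      fun x c hc hx => AmpLip.nrm_le_const hc hx
    have hsn : (0:ℝ) ≤ √n := Real.sqrt_nonneg _
    obtain ⟨v₀, vq, h1, h2, h3, h4, hvi⟩ : ∃ v₀ vq : Fin n → ℝ, (∀ j, j ≠ i → v₀ j = v j) ∧
        √(OpNorm.nsq v₀) ≤ 2 * √n ∧ √(OpNorm.nsq (v₀ - vq)) ≤ 1 / M * √n ∧
        |dot (reMat Gq *ᵥ vq) (coupling g i)| ≤ e * n ∧ |v i| ≤ e * √n := by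
      rcases hv with rfl | rfl | rfl
      · exact ⟨fun _ => 1, fun _ => 1, fun _ _ => rfl, cst _ 2 zero_le_two (fun _ => by norm_num),
          cst _ _ hδ0 (fun _ => by simp), d1, by simpa using hn1⟩
      · refine ⟨Function.update v i 1, mq, fun j hj => Function.update_of_ne hj _ _,
          cst _ 2 zero_le_two (fun j => ?_), cst _ _ hδ0 hclose, dm, (hm.1 i).trans hn1⟩
        rcases eq_or_ne j i with h | h
        · simp [h]
        · rw [Function.update_of_ne h]; linarith [hm.1 j]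
      · refine ⟨_, _, fun _ _ => rfl, (Real.sqrt_le_sqrt hξ).trans_eq ?_,
          cst _ _ hδ0 (fun _ => by simp), dξ, (hmax i).trans (mul_le_mul_of_nonneg_right hε' hsn)⟩
        rw [Real.sqrt_mul (by norm_num), show √(4:ℝ) = 2 by
          rw [show (4:ℝ) = 2 ^ 2 by norm_num, Real.sqrt_sq zero_le_two]]
    have hform := form_vec hβ hu hn he.le (le_trans zero_le_one hKm) hκ hg i hGd hGq
      (cG_col (Function.update_self i 0 (profileOf m))) h1 h2 h3 h4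
    refine (hdiv _ _ (21 * e * √n) (cvec v) ?_).trans_eq (by ring)
    refine (abs_add_le _ _).trans ((add_le_add (b := e * √n) ?_ hform).trans_eq (by ring))
    rw [abs_mul, abs_mul, abs_of_nonneg (hD01 i).1]
    calc _ ≤ 1 * (1 * (e * √n)) :=
          mul_le_mul hσ (mul_le_mul (hD01 i).2 hvi (abs_nonneg _) zero_le_one)
            (mul_nonneg (hD01 i).1 (abs_nonneg _)) zero_le_one
      _ = e * √n := by ring

end Vale.Agent.P150.High.Ball
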