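import Vale.Agent.P150.Fast.PartB.PsiLip

/-!
# P150, certificate: the algebra of the drift at the predictions

If `p_jj ≈ p₀` and `H ∘ p ≈ Q/n`, then `Ψ = (1 + HD)(X + A)(1 + DH)` and the rank one terms of
`X + A` cancel; in Frobenius norm only `|H ∘ p|_F = o(√n)` is needed.
-/

open Matrix Vale.Agent.P150.Fast
open scoped Matrix.Norms.L2Operator

namespace Vale.Agent.P150.High.Cert

open Vale.Agent.P150.PartB

variable {n : ℕ}

/-- the mean of a vector -/
noncomputable def avgv (f : Fin n → ℝ) : ℝ := (∑ i, f i) / n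

/-- the mean of `D²` -/
noncomputable def rTwo (D : Fin n → ℝ) : ℝ := avgv fun i => D i ^ 2

/-- the mean of `D³` -/
noncomputable def rThree (D : Fin n → ℝ) : ℝ := avgv fun i => D i ^ 3

/-- the prediction of `p_jj` -/
noncomputable def pZero (β c s : ℝ) (D : Fin n → ℝ) : ℝ :=
  (c + 2 * β ^ 2 * (1 - s) * avgv D) / (1 - aCoef β s * rTwo D)

/-- `n` times the prediction of `H_jk²` -/
noncomputable def kOne (β s : ℝ) (D : Fin n → ℝ) : ℝ := aCoef β s / (1 - aCoef β s * rTwo D)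

/-- the derivative of `kOne` along the flow -/
noncomputable def kTwo (β c s : ℝ) (D : Fin n → ℝ) : ℝ :=
  (2 * β ^ 2 * (1 - s) + 2 * pZero β c s D * aCoef β s ^ 2 * rThree D) / (1 - aCoef β s * rTwo D) ^ 2

/-- the prediction of `H ∘ p` -/
noncomputable def qPred (β c s : ℝ) (D : Fin n → ℝ) : Matrix (Fin n) (Fin n) ℝ :=
  Matrix.of fun j k => (kTwo β c s D / 2 + pZero β c s D * kOne β s D * (D j + D k)) / n

/-- `1 - m²` -/
def prof (m : Fin n → ℝ) (i : Fin n) : ℝ := 1 - m i ^ 2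

/-! ### small facts -/

lemma nrm_nonneg (v : Fin n → ℝ) : 0 ≤ nrm v := Real.sqrt_nonneg _

lemma nrm_le_of_abs {v : Fin n → ℝ} {K : ℝ} (hK : 0 ≤ K) (h : ∀ i, |v i| ≤ K) :
    nrm v ≤ K * Real.sqrt n := by
  rw [← Real.sqrt_sq hK, ← Real.sqrt_mul (sq_nonneg K)]
  refine Real.sqrt_le_sqrt ((Finset.sum_le_sum fun i _ =>
    sq_le_sq' (abs_le.1 (h i)).1 (abs_le.1 (h i)).2).trans_eq ?_)
  simp [mul_comm]

lemma abs_dot_le (v w : Fin n → ℝ) : |∑ i, v i * w i| ≤ nrm v * nrm w := OpNorm.abs_dot_le v w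

lemma nrm_mono {v w : Fin n → ℝ} (h : ∀ i, |v i| ≤ |w i|) : nrm v ≤ nrm w :=
  Real.sqrt_le_sqrt (Finset.sum_le_sum fun i _ => sq_le_sq.2 (h i))

lemma nrm_add (v w : Fin n → ℝ) : nrm (fun i => v i + w i) ≤ nrm v + nrm w := OpNorm.sqrt_nsq_add v w

lemma nrm_smul (r : ℝ) (v : Fin n → ℝ) : nrm (fun i => r * v i) = |r| * nrm v := by
  rw [nrm, nrm, ← Real.sqrt_sq_eq_abs, ← Real.sqrt_mul (sq_nonneg r)]
  simp only [mul_pow, Finset.mul_sum]

lemma nrm_mulVec_le (X : Matrix (Fin n) (Fin n) ℝ) (v : Fin n → ℝ) : nrm (X *ᵥ v) ≤ ‖X‖ * nrm v := by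
  rw [nrm, nrm, ← Real.sqrt_sq (norm_nonneg X), ← Real.sqrt_mul (sq_nonneg _)]
  exact Real.sqrt_le_sqrt ((OpNorm.opLe_iff_norm_le.2 le_rfl).2 v)

lemma norm_vmv_le (u v : Fin n → ℝ) :
    ‖vecMulVec u v‖ ≤ nrm u * nrm v ∧ fnrm (vecMulVec u v) ≤ nrm u * nrm v := by
  refine ⟨OpNorm.opLe_iff_norm_le.1 (OpNorm.opLe_rankOne u v), le_of_eq ?_⟩
  rw [fnrm, nrm, nrm, ← Real.sqrt_mul (Finset.sum_nonneg fun i _ => sq_nonneg _), Finset.sum_mul_sum]
  simp only [vecMulVec_apply, mul_pow]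

lemma norm_diagonal_le {v : Fin n → ℝ} {K : ℝ} (hK : 0 ≤ K) (h : ∀ i, |v i| ≤ K) : ‖diagonal v‖ ≤ K :=
  OpNorm.opLe_iff_norm_le.1 (OpNorm.opLe_diagonal hK h)

lemma fnrm_one : fnrm (1 : Matrix (Fin n) (Fin n) ℝ) = Real.sqrt n := by
  rw [← Matrix.diagonal_one, PsiLip.fnrm_diagonal]; simp [nrm]

lemma abs_avgv_le {f : Fin n → ℝ} {K : ℝ} (hK : 0 ≤ K) (h : ∀ i, |f i| ≤ K) : |avgv f| ≤ K := by
  rw [avgv, abs_div, Nat.abs_cast]
  refine div_le_of_le_mul₀ (Nat.cast_nonneg n) hK
    ((Finset.abs_sum_le_sum_abs _ _).trans ((Finset.sum_le_sum fun i _ => h i).trans_eq ?_))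
  simp [mul_comm]

variable {β c s : ℝ} {J A : Matrix (Fin n) (Fin n) ℝ} {m : Fin n → ℝ} {H p : Matrix (Fin n) (Fin n) ℝ}

lemma dMat_prof : dMat m = diagonal (prof m) := rfl

/-- `X + A` for `A = J + c` -/
noncomputable def xPlus (β c s : ℝ) (J : Matrix (Fin n) (Fin n) ℝ) (m : Fin n → ℝ)
    (H p : Matrix (Fin n) (Fin n) ℝ) : Matrix (Fin n) (Fin n) ℝ :=
  xMain β s J m H p + (J + c • 1)

/-- `Ψ = (1 + HD)(X + A)(1 + DH)` at `F = H` -/
lemma psiMain_eq (β c s : ℝ) (J : Matrix (Fin n) (Fin n) ℝ) (m : Fin n → ℝ) (H : Matrix (Fin n) (Fin n) ℝ) :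
    psiMain β s J (J + c • 1) m H H =
      (1 + H * dMat m) * xPlus β c s J m H (pMat (J + c • 1) m H) * (1 + dMat m * H) := by
  rw [psiMain, xPlus, pMat]; noncomm_ring

lemma qv_eq (hn : 0 < n) : avgv (prof m) = 1 - qv m := by
  have : (n : ℝ) ≠ 0 := by exact_mod_cast hn.ne'
  simp only [avgv, prof, qv, Finset.sum_sub_distrib]
  simp only [Finset.sum_const, Finset.card_univ, Fintype.card_fin, nsmul_eq_mul, mul_one]
  field_simp

lemma shift_eq (hn : 0 < n) (h : 1 - aCoef β s * rTwo (prof m) ≠ 0) :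
    shiftCoef β s m p - c + pZero β c s (prof m) =
      aCoef β s * avgv (fun i => prof m i ^ 2 * (pZero β c s (prof m) - p i i)) := by
  have e : avgv (fun i => prof m i ^ 2 * (pZero β c s (prof m) - p i i)) =
      pZero β c s (prof m) * rTwo (prof m) - trP m p := by
    simp only [rTwo, avgv, trP, prof, mul_sub, Finset.sum_sub_distrib, sub_div, ← Finset.sum_mul]
    ring
  rw [e, shiftCoef, ← qv_eq hn, aCoef']
  have h2 : pZero β c s (prof m) * (1 - aCoef β s * rTwo (prof m)) = c + 2 * β ^ 2 * (1 - s) * avgv (prof m) := by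
    rw [pZero, div_mul_cancel₀ _ h]
  linear_combination h2

/-- the rank one part of `X` -/
noncomputable def rankPart (β s : ℝ) (m : Fin n → ℝ) (H p : Matrix (Fin n) (Fin n) ℝ) :
    Matrix (Fin n) (Fin n) ℝ :=
  ((2 * aCoef' β s + (2 * aCoef β s) ^ 2 *
      (trace ((dMat m + dMat m * H * dMat m) * (dMat m * p * dMat m)) / n)) / n) • vecMulVec m m
    - (2 * (2 * aCoef β s) / n) • (vecMulVec (cross m H p) m + vecMulVec m (cross m H p))

lemma xPlus_eq : xPlus β c s J m H p =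
    -diagonal (fun i => p i i - pZero β c s (prof m))
      - (shiftCoef β s m p - c + pZero β c s (prof m)) • 1
      + ((4 : ℝ) • (diagonal m * (H ⊙ p) * diagonal m) + rankPart β s m H p) := by
  rw [show diagonal (fun i => p i i - pZero β c s (prof m)) =
      diagonal (fun i => p i i) - pZero β c s (prof m) • (1 : Matrix (Fin n) (Fin n) ℝ) by
    rw [← Matrix.diagonal_one, ← Matrix.diagonal_smul, Matrix.diagonal_sub]
    simp]
  rw [xPlus, xMain, rankPart,
    show (2 * aCoef' β s + (2 * aCoef β s) ^ 2 *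
      (trace ((dMat m + dMat m * H * dMat m) * (dMat m * p * dMat m)) / n)) / n =
      2 * aCoef' β s / n + (2 * aCoef β s) ^ 2 *
      trace ((dMat m + dMat m * H * dMat m) * (dMat m * p * dMat m)) / (n : ℝ) ^ 2 by ring]
  module

lemma resDrift_eq (hn : 0 < n) (h : 1 - aCoef β s * rTwo (prof m) ≠ 0) (F : Matrix (Fin n) (Fin n) ℝ) (i : Fin n) :
    resDrift β c s A m F i = m i * ((pMat A m F i i - pZero β c s (prof m)) +
      aCoef β s * avgv (fun j => prof m j ^ 2 * (pZero β c s (prof m) - pMat A m F j j))) := by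
  rw [← shift_eq hn h, resDrift]; ring

/-! ### the predicted rank one terms -/

lemma cross_eq (hH : ∀ j k, H j k = H k j) (j : Fin n) :
    cross m H p j = m j * (prof m j * p j j + ((H ⊙ p) *ᵥ fun k => prof m k ^ 2) j) := by
  rw [cross, dMat_prof]
  congr 1
  simp only [Matrix.mul_add, Matrix.mul_one, Matrix.add_apply, Matrix.mul_diagonal, Matrix.mulVec, dotProduct,
    Matrix.hadamard_apply]
  rw [mul_comm (p j j), ← Matrix.mul_assoc, Matrix.mul_apply]
  congr 1
  refine Finset.sum_congr rfl fun k _ => ?_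
  simp only [Matrix.mul_diagonal, hH j k]; ring

lemma trace_eq (hH : ∀ j k, H j k = H k j) :
    trace ((dMat m + dMat m * H * dMat m) * (dMat m * p * dMat m)) =
      (∑ j, prof m j ^ 3 * p j j) + ∑ j, prof m j ^ 2 * ((H ⊙ p) *ᵥ fun k => prof m k ^ 2) j := by
  rw [dMat_prof, Matrix.add_mul, Matrix.trace_add]
  congr 1
  · simp only [trace, Matrix.diag, Matrix.diagonal_mul, Matrix.mul_diagonal]
    exact Finset.sum_congr rfl fun j _ => by ring
  · simp only [trace, Matrix.diag, Matrix.mul_apply,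
      Matrix.diagonal_apply, Matrix.mulVec, dotProduct, Matrix.hadamard_apply, mul_ite, ite_mul, zero_mul, mul_zero,
      Finset.sum_ite_eq, Finset.sum_ite_eq', Finset.mem_univ, if_true, Finset.mul_sum]
    rw [Finset.sum_comm]
    exact Finset.sum_congr rfl fun j _ => Finset.sum_congr rfl fun k _ => by rw [hH k j]; ring

lemma qPred_mulVec (D : Fin n → ℝ) (j : Fin n) :
    (qPred β c s D *ᵥ fun k => D k ^ 2) j =
      kTwo β c s D / 2 * rTwo D + pZero β c s D * kOne β s D * (D j * rTwo D + rThree D) := by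
  simp only [qPred, Matrix.mulVec, dotProduct, Matrix.of_apply, rTwo, rThree, avgv]
  simp only [Finset.mul_sum, Finset.sum_div, ← Finset.sum_add_distrib]
  exact Finset.sum_congr rfl fun k _ => by ring

/-- the rank one terms cancel at the predictions -/
lemma cancel (h : 1 - aCoef β s * rTwo (prof m) ≠ 0) (j k : Fin n) :
    4 * (m j * qPred β c s (prof m) j k * m k) +
      (2 * aCoef' β s + (2 * aCoef β s) ^ 2 * (pZero β c s (prof m) * rThree (prof m) +
        kTwo β c s (prof m) / 2 * rTwo (prof m) ^ 2 +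
        2 * pZero β c s (prof m) * kOne β s (prof m) * rTwo (prof m) * rThree (prof m))) / n * (m j * m k) -
      2 * (2 * aCoef β s) / n *
        (m j * (prof m j * pZero β c s (prof m) + (qPred β c s (prof m) *ᵥ fun i => prof m i ^ 2) j) * m k +
          m j * (m k * (prof m k * pZero β c s (prof m) + (qPred β c s (prof m) *ᵥ fun i => prof m i ^ 2) k))) = 0 := by
  rw [qPred_mulVec, qPred_mulVec]
  simp only [qPred, Matrix.of_apply, kOne, kTwo, aCoef']
  set a := aCoef β s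
  set r := rTwo (prof m)
  set r3 := rThree (prof m)
  set p0 := pZero β c s (prof m)
  field_simp
  ring

lemma qPred_trace :
    avgv (fun j => prof m j ^ 2 * (qPred β c s (prof m) *ᵥ fun k => prof m k ^ 2) j) =
      kTwo β c s (prof m) / 2 * rTwo (prof m) ^ 2 +
        2 * pZero β c s (prof m) * kOne β s (prof m) * rTwo (prof m) * rThree (prof m) := by
  simp only [qPred_mulVec, avgv, rTwo, rThree]
  set r := (∑ i, prof m i ^ 2) / (n : ℝ) with hr
  set r3 := (∑ i, prof m i ^ 3) / (n : ℝ) with hr3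
  rw [show (∑ j, prof m j ^ 2 * (kTwo β c s (prof m) / 2 * r +
      pZero β c s (prof m) * kOne β s (prof m) * (prof m j * r + r3))) =
    (kTwo β c s (prof m) / 2 * r + pZero β c s (prof m) * kOne β s (prof m) * r3) * ∑ j, prof m j ^ 2 +
      pZero β c s (prof m) * kOne β s (prof m) * r * ∑ j, prof m j ^ 3 by
    simp only [Finset.mul_sum, ← Finset.sum_add_distrib]
    exact Finset.sum_congr rfl fun j _ => by ring]
  rw [add_div, mul_div_assoc, mul_div_assoc, ← hr, ← hr3]
  ring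

/-- `rankPart` at the predictions -/
noncomputable def errV (β c s : ℝ) (m : Fin n → ℝ) (H p : Matrix (Fin n) (Fin n) ℝ) (j : Fin n) : ℝ :=
  m j * (prof m j * (p j j - pZero β c s (prof m)) +
    ((H ⊙ p - qPred β c s (prof m)) *ᵥ fun k => prof m k ^ 2) j)

/-- the error of the trace -/
noncomputable def errT (β c s : ℝ) (m : Fin n → ℝ) (H p : Matrix (Fin n) (Fin n) ℝ) : ℝ :=
  avgv (fun j => prof m j ^ 3 * (p j j - pZero β c s (prof m))) +
    avgv (fun j => prof m j ^ 2 * ((H ⊙ p - qPred β c s (prof m)) *ᵥ fun k => prof m k ^ 2) j)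

lemma bracket_eq (h : 1 - aCoef β s * rTwo (prof m) ≠ 0) (hH : ∀ j k, H j k = H k j) :
    (4 : ℝ) • (diagonal m * (H ⊙ p) * diagonal m) + rankPart β s m H p =
      (4 : ℝ) • (diagonal m * (H ⊙ p - qPred β c s (prof m)) * diagonal m) +
        ((2 * aCoef β s) ^ 2 * errT β c s m H p / n) • vecMulVec m m -
        (2 * (2 * aCoef β s) / n) •
          (vecMulVec (errV β c s m H p) m + vecMulVec m (errV β c s m H p)) := by
  have hT : trace ((dMat m + dMat m * H * dMat m) * (dMat m * p * dMat m)) / n =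
      errT β c s m H p + (pZero β c s (prof m) * rThree (prof m) + kTwo β c s (prof m) / 2 * rTwo (prof m) ^ 2 +
        2 * pZero β c s (prof m) * kOne β s (prof m) * rTwo (prof m) * rThree (prof m)) := by
    rw [trace_eq hH, add_div, errT, add_assoc (pZero β c s (prof m) * rThree (prof m)), ← qPred_trace]
    simp only [avgv, rThree, Matrix.sub_mulVec, Pi.sub_apply, mul_sub, Finset.sum_sub_distrib, sub_div,
      ← Finset.sum_mul]
    ring
  have hv : ∀ j, cross m H p j = errV β c s m H p j +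
      m j * (prof m j * pZero β c s (prof m) + (qPred β c s (prof m) *ᵥ fun k => prof m k ^ 2) j) := fun j => by
    rw [cross_eq hH, errV, Matrix.sub_mulVec, Pi.sub_apply]; ring
  ext j k
  have hc := cancel (c := c) h j k
  simp only [rankPart, hT, hv, Matrix.add_apply, Matrix.sub_apply, Matrix.smul_apply, smul_eq_mul,
    vecMulVec_apply, Matrix.mul_diagonal, Matrix.diagonal_mul]
  linear_combination hc

/-! ### the two bounds -/

lemma abs_prof {m : Fin n → ℝ} (hm : ∀ i, |m i| ≤ 1) (i : Fin n) : 0 ≤ prof m i ∧ prof m i ≤ 1 := by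
  rw [prof]
  constructor <;> nlinarith [abs_le.1 (hm i), sq_nonneg (m i)]

lemma rTwo_mem {m : Fin n → ℝ} (hm : ∀ i, |m i| ≤ 1) : 0 ≤ rTwo (prof m) ∧ rTwo (prof m) ≤ 1 :=
  ⟨div_nonneg (Finset.sum_nonneg fun i _ => sq_nonneg _) (Nat.cast_nonneg n),
    (le_abs_self _).trans (abs_avgv_le zero_le_one fun i => by
      rw [abs_pow]; exact pow_le_one₀ (abs_nonneg _) (by rw [abs_of_nonneg (abs_prof hm i).1]; exact (abs_prof hm i).2))⟩

lemma denom_ne (hβ : |β| < 1) (hs : s ∈ Set.Icc (0 : ℝ) 1) (hm : ∀ i, |m i| ≤ 1) :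
    1 - aCoef β s * rTwo (prof m) ≠ 0 := by
  have h1 : aCoef β s ≤ β ^ 2 := mul_le_of_le_one_right (sq_nonneg β) (pow_le_one₀ (by linarith [hs.2]) (by linarith [hs.1]))
  have h2 : β ^ 2 < 1 := by rw [← sq_abs]; exact pow_lt_one₀ (abs_nonneg β) hβ two_ne_zero
  have h3 : 0 ≤ aCoef β s := mul_nonneg (sq_nonneg _) (sq_nonneg _)
  nlinarith [rTwo_mem hm]

/-- operator norm -/
theorem xPlus_norm (hβ : |β| < 1) (hs : s ∈ Set.Icc (0 : ℝ) 1) (hn : 0 < n) (hm : ∀ i, |m i| ≤ 1)
    (hH : ∀ j k, H j k = H k j) {δ : ℝ} (hp : ∀ i, |p i i - pZero β c s (prof m)| ≤ δ)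
    (hQ : ‖H ⊙ p - qPred β c s (prof m)‖ ≤ δ) : ‖xPlus β c s J m H p‖ ≤ 40 * δ := by
  have hne := denom_ne hβ hs hm
  have hδ : 0 ≤ δ := (norm_nonneg _).trans hQ
  obtain ⟨-, ha, -⟩ := PsiLip.coef_bounds hβ.le hs
  have hn' : (0 : ℝ) < n := by exact_mod_cast hn
  have hsn : Real.sqrt n * Real.sqrt n = n := Real.mul_self_sqrt hn'.le
  have hD : ∀ i k, |prof m i ^ k| ≤ 1 := fun i k => by
    rw [abs_pow]; exact pow_le_one₀ (abs_nonneg _) (by rw [abs_of_nonneg (abs_prof hm i).1]; exact (abs_prof hm i).2)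
  have hM : ‖diagonal m‖ ≤ 1 := norm_diagonal_le zero_le_one hm
  have hmn : nrm m ≤ Real.sqrt n := (nrm_le_of_abs zero_le_one hm).trans_eq (one_mul _)
  have hEv : nrm ((H ⊙ p - qPred β c s (prof m)) *ᵥ fun k => prof m k ^ 2) ≤ δ * Real.sqrt n :=
    (nrm_mulVec_le _ _).trans (mul_le_mul hQ ((nrm_le_of_abs zero_le_one fun i => hD i 2).trans_eq (one_mul _))
      (nrm_nonneg _) hδ)
  have hV : nrm (errV β c s m H p) ≤ 2 * δ * Real.sqrt n := by
    refine (nrm_mono fun i => ?_).trans ((nrm_add (fun i => prof m i * (p i i - pZero β c s (prof m)))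
      ((H ⊙ p - qPred β c s (prof m)) *ᵥ fun k => prof m k ^ 2)).trans ?_)
    · rw [errV, abs_mul]
      exact mul_le_of_le_one_left (abs_nonneg _) (hm i)
    · have h1 : nrm (fun i => prof m i * (p i i - pZero β c s (prof m))) ≤ δ * Real.sqrt n := by
        refine nrm_le_of_abs hδ fun i => ?_
        rw [abs_mul, abs_of_nonneg (abs_prof hm i).1]
        exact (mul_le_of_le_one_left (abs_nonneg _) (abs_prof hm i).2).trans (hp i)
      linarith
  have hT : |errT β c s m H p| ≤ 2 * δ := by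
    refine (abs_add_le _ _).trans (le_trans (add_le_add (abs_avgv_le hδ fun i => ?_) ?_) (two_mul δ).ge)
    · rw [abs_mul]; exact (mul_le_of_le_one_left (abs_nonneg _) (hD i 3)).trans (hp i)
    · rw [avgv, abs_div, Nat.abs_cast, div_le_iff₀ hn']
      refine (abs_dot_le _ _).trans ((mul_le_mul (nrm_le_of_abs zero_le_one fun i => hD i 2) hEv
        (nrm_nonneg _) (by positivity)).trans_eq ?_)
      linear_combination δ * hsn
  rw [xPlus_eq, bracket_eq hne hH, shift_eq hn hne]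
  have t1 : ‖diagonal fun i => p i i - pZero β c s (prof m)‖ ≤ δ := norm_diagonal_le hδ hp
  have t2 : ‖(aCoef β s * avgv fun i => prof m i ^ 2 * (pZero β c s (prof m) - p i i)) •
      (1 : Matrix (Fin n) (Fin n) ℝ)‖ ≤ δ := by
    rw [norm_smul, Real.norm_eq_abs, abs_mul]
    refine (mul_le_mul (mul_le_mul ha (abs_avgv_le hδ fun i => ?_) (abs_nonneg _) zero_le_one)
      PsiLip.norm_one_le (norm_nonneg _) (by positivity)).trans_eq (by ring)
    rw [abs_mul, abs_sub_comm]
    exact (mul_le_of_le_one_left (abs_nonneg _) (hD i 2)).trans (hp i)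
  have t3 : ‖(4 : ℝ) • (diagonal m * (H ⊙ p - qPred β c s (prof m)) * diagonal m)‖ ≤ 4 * δ := by
    rw [norm_smul, Real.norm_eq_abs, show |(4 : ℝ)| = 4 by norm_num]
    refine mul_le_mul_of_nonneg_left ((norm_mul_le _ _).trans ?_) (by norm_num)
    exact (mul_le_mul ((norm_mul_le _ _).trans (mul_le_mul hM hQ (norm_nonneg _) zero_le_one)) hM
      (norm_nonneg _) (by positivity)).trans_eq (by ring)
  have t4 : ‖((2 * aCoef β s) ^ 2 * errT β c s m H p / n) • vecMulVec m m‖ ≤ 8 * δ := by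
    rw [norm_smul, Real.norm_eq_abs, abs_div, Nat.abs_cast, div_mul_eq_mul_div, div_le_iff₀ hn', abs_mul, abs_pow]
    have h4 : |2 * aCoef β s| ^ 2 ≤ 4 := by
      rw [abs_mul, abs_two, mul_pow]; nlinarith [abs_nonneg (aCoef β s)]
    refine (mul_le_mul (mul_le_mul h4 hT (abs_nonneg _) (by norm_num))
      ((norm_vmv_le m m).1.trans (mul_le_mul hmn hmn (nrm_nonneg _) (Real.sqrt_nonneg _)))
      (norm_nonneg _) (by positivity)).trans_eq ?_
    linear_combination 8 * δ * hsn
  have t5 : ‖(2 * (2 * aCoef β s) / n) • (vecMulVec (errV β c s m H p) m + vecMulVec m (errV β c s m H p))‖ ≤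
      16 * δ := by
    rw [norm_smul, Real.norm_eq_abs, abs_div, Nat.abs_cast, div_mul_eq_mul_div, div_le_iff₀ hn']
    have h4 : |2 * (2 * aCoef β s)| ≤ 4 := by rw [abs_mul, abs_mul, abs_two]; linarith
    refine (mul_le_mul h4 ((norm_add_le _ _).trans (add_le_add
      ((norm_vmv_le _ _).1.trans (mul_le_mul hV hmn (nrm_nonneg _) (by positivity)))
      ((norm_vmv_le _ _).1.trans (mul_le_mul hmn hV (nrm_nonneg _) (Real.sqrt_nonneg _)))))
      (norm_nonneg _) (by norm_num)).trans_eq ?_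
    linear_combination 16 * δ * hsn
  refine (norm_add_le _ _).trans ((add_le_add ((norm_sub_le _ _).trans (add_le_add
    ((norm_neg _).le.trans t1) t2)) ((norm_sub_le _ _).trans (add_le_add ((norm_add_le _ _).trans
      (add_le_add t3 t4)) t5))).trans ?_)
  linarith

/-- Frobenius norm and the drift of the residual -/
theorem xPlus_fnrm (hβ : |β| < 1) (hs : s ∈ Set.Icc (0 : ℝ) 1) (hn : 0 < n) (hm : ∀ i, |m i| ≤ 1)
    {δ K : ℝ} (hHK : ‖H‖ ≤ K) (hpK : ‖p‖ ≤ K)
    (hp : nrm (fun i => p i i - pZero β c s (prof m)) ≤ δ * Real.sqrt n)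
    (hQ : fnrm (H ⊙ p) ≤ δ * Real.sqrt n) :
    fnrm (xPlus β c s J m H p) ≤ 6 * δ * Real.sqrt n + (4 + 12 * (K + 1) * (K + 1)) ∧
      nrm (fun i => m i * ((p i i - pZero β c s (prof m)) +
        aCoef β s * avgv (fun j => prof m j ^ 2 * (pZero β c s (prof m) - p j j)))) ≤ 2 * δ * Real.sqrt n := by
  have hne := denom_ne hβ hs hm
  have hn' : (0 : ℝ) < n := by exact_mod_cast hn
  have hsn : Real.sqrt n * Real.sqrt n = n := Real.mul_self_sqrt hn'.le
  have hδ : 0 ≤ δ := nonneg_of_mul_nonneg_left ((nrm_nonneg _).trans hp) (Real.sqrt_pos.2 hn')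
  have hK : 0 ≤ K := (norm_nonneg _).trans hHK
  obtain ⟨-, ha, ha'⟩ := PsiLip.coef_bounds hβ.le hs
  have hM : ‖diagonal m‖ ≤ 1 := norm_diagonal_le zero_le_one hm
  have hD : ‖dMat m‖ ≤ 1 := norm_diagonal_le zero_le_one fun i => by
    rw [show (1 - m i ^ 2) = prof m i from rfl, abs_of_nonneg (abs_prof hm i).1]; exact (abs_prof hm i).2
  have hmn : nrm m ≤ Real.sqrt n := (nrm_le_of_abs zero_le_one hm).trans_eq (one_mul _)
  set σ := aCoef β s * avgv fun i => prof m i ^ 2 * (pZero β c s (prof m) - p i i)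
  have hσ : |σ| * Real.sqrt n ≤ δ * Real.sqrt n := by
    refine mul_le_mul_of_nonneg_right ?_ (Real.sqrt_nonneg _)
    rw [abs_mul]
    refine (mul_le_mul ha ?_ (abs_nonneg _) zero_le_one).trans_eq (one_mul δ)
    rw [avgv, abs_div, Nat.abs_cast, div_le_iff₀ hn']
    refine (abs_dot_le _ _).trans ((mul_le_mul (nrm_le_of_abs zero_le_one fun i => ?_) (le_of_eq_of_le ?_ hp)
      (nrm_nonneg _) (by positivity)).trans_eq ?_)
    · rw [abs_pow, abs_of_nonneg (abs_prof hm i).1]; exact pow_le_one₀ (abs_prof hm i).1 (abs_prof hm i).2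
    · simp only [nrm]; congr 1; exact Finset.sum_congr rfl fun i _ => by ring
    · linear_combination δ * hsn
  refine ⟨?_, ?_⟩
  · rw [xPlus_eq, shift_eq hn hne]
    set T := trace ((dMat m + dMat m * H * dMat m) * (dMat m * p * dMat m)) / (n : ℝ)
    have hT : |T| ≤ (K + 1) * (K + 1) := by
      have hb : ‖(dMat m + dMat m * H * dMat m) * (dMat m * p * dMat m)‖ ≤ (K + 1) * (K + 1) := by
        refine (norm_mul_le _ _).trans (mul_le_mul ?_ ?_ (norm_nonneg _) (by linarith))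
        · refine (norm_add_le _ _).trans ((add_le_add hD ((norm_mul_le _ _).trans (mul_le_mul ((norm_mul_le _ _).trans
            (mul_le_mul hD hHK (norm_nonneg _) zero_le_one)) hD (norm_nonneg _) (by positivity)))).trans_eq (by ring))
        · refine ((norm_mul_le _ _).trans (mul_le_mul ((norm_mul_le _ _).trans
            (mul_le_mul hD hpK (norm_nonneg _) zero_le_one)) hD (norm_nonneg _) (by positivity))).trans ?_
          linarith
      exact (abs_avgv_le (by positivity) fun i => (PsiLip.abs_entry_le _ i i).trans hb)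
    have hv : nrm (cross m H p) ≤ (K + 1) * (K + 1) * Real.sqrt n := by
      refine nrm_le_of_abs (by positivity) fun i => ?_
      rw [cross, abs_mul]
      refine (mul_le_of_le_one_left (abs_nonneg _) (hm i)).trans ((PsiLip.abs_entry_le _ i i).trans ?_)
      refine (norm_mul_le _ _).trans (mul_le_mul (((norm_mul_le _ _).trans (mul_le_mul hpK hD (norm_nonneg _) hK)).trans
        (by linarith)) ?_ (norm_nonneg _) (by linarith))
      refine (norm_add_le _ _).trans ((add_le_add PsiLip.norm_one_le ((norm_mul_le _ _).trans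
        (mul_le_mul hD hHK (norm_nonneg _) zero_le_one))).trans_eq (by ring))
    have t1 : fnrm (-diagonal fun i => p i i - pZero β c s (prof m)) ≤ δ * Real.sqrt n := by
      rw [← neg_one_smul ℝ, PsiLip.sem_fnrm.smul, abs_neg, abs_one, one_mul, PsiLip.fnrm_diagonal]
      exact hp
    have t2 : fnrm (σ • (1 : Matrix (Fin n) (Fin n) ℝ)) ≤ δ * Real.sqrt n := by
      rw [PsiLip.sem_fnrm.smul, fnrm_one]; exact hσ
    have t3 : fnrm ((4 : ℝ) • (diagonal m * (H ⊙ p) * diagonal m)) ≤ 4 * (δ * Real.sqrt n) := by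
      rw [PsiLip.sem_fnrm.smul, show |(4 : ℝ)| = 4 by norm_num]
      refine mul_le_mul_of_nonneg_left ((PsiLip.sem_fnrm.mulRight _ _).trans ?_) (by norm_num)
      exact (mul_le_mul ((PsiLip.sem_fnrm.mulLeft _ _).trans (mul_le_mul hM hQ (PsiLip.sem_fnrm.nonneg _) zero_le_one))
        hM (norm_nonneg _) (by positivity)).trans_eq (by ring)
    have t4 : fnrm (rankPart β s m H p) ≤ 4 + 12 * (K + 1) * (K + 1) := by
      rw [rankPart, sub_eq_add_neg, ← neg_smul]
      refine (PsiLip.sem_fnrm.add _ _).trans (le_trans (add_le_add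
        (show fnrm _ ≤ 4 + 4 * ((K + 1) * (K + 1)) from ?_) (show fnrm _ ≤ 8 * ((K + 1) * (K + 1)) from ?_)) (by linarith))
      · rw [PsiLip.sem_fnrm.smul, abs_div, Nat.abs_cast, div_mul_eq_mul_div, div_le_iff₀ hn']
        have h4 : |2 * aCoef' β s + (2 * aCoef β s) ^ 2 * T| ≤ 4 + 4 * ((K + 1) * (K + 1)) := by
          refine (abs_add_le _ _).trans (add_le_add (by rw [abs_mul, abs_two]; linarith) ?_)
          rw [abs_mul, abs_pow, abs_mul, abs_two]
          exact mul_le_mul (by nlinarith [abs_nonneg (aCoef β s)]) hT (abs_nonneg _) (by norm_num)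
        exact (mul_le_mul h4 ((norm_vmv_le m m).2.trans (mul_le_mul hmn hmn (nrm_nonneg _) (Real.sqrt_nonneg _)))
          (PsiLip.sem_fnrm.nonneg _) (by positivity)).trans_eq (by rw [hsn])
      · rw [PsiLip.sem_fnrm.smul, abs_neg, abs_div, Nat.abs_cast, div_mul_eq_mul_div, div_le_iff₀ hn']
        have h4 : |2 * (2 * aCoef β s)| ≤ 4 := by rw [abs_mul, abs_mul, abs_two]; linarith
        refine (mul_le_mul h4 ((PsiLip.sem_fnrm.add _ _).trans (add_le_add
          ((norm_vmv_le _ _).2.trans (mul_le_mul hv hmn (nrm_nonneg _) (by positivity)))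
          ((norm_vmv_le _ _).2.trans (mul_le_mul hmn hv (nrm_nonneg _) (Real.sqrt_nonneg _)))))
          (PsiLip.sem_fnrm.nonneg _) (by norm_num)).trans_eq ?_
        linear_combination 8 * ((K + 1) * (K + 1)) * hsn
    rw [sub_eq_add_neg, ← neg_smul]
    have t2' : fnrm ((-σ) • (1 : Matrix (Fin n) (Fin n) ℝ)) ≤ δ * Real.sqrt n := by
      rw [PsiLip.sem_fnrm.smul, abs_neg, ← PsiLip.sem_fnrm.smul]; exact t2
    refine ((PsiLip.sem_fnrm.add _ _).trans (add_le_add ((PsiLip.sem_fnrm.add _ _).trans (add_le_add t1 t2'))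
      ((PsiLip.sem_fnrm.add _ _).trans (add_le_add t3 t4)))).trans ?_
    linarith
  · refine (nrm_mono (w := fun i => (p i i - pZero β c s (prof m)) + σ) fun i => ?_).trans
      ((nrm_add (fun i => p i i - pZero β c s (prof m)) (fun _ => σ)).trans ?_)
    · rw [abs_mul]; exact mul_le_of_le_one_left (abs_nonneg _) (hm i)
    · have h2 : nrm (fun _ : Fin n => σ) = |σ| * Real.sqrt n := by
        simp [nrm, Real.sqrt_mul (Nat.cast_nonneg n), Real.sqrt_sq_eq_abs, mul_comm]
      rw [h2]; linarith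

end Vale.Agent.P150.High.Cert
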