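import Vale.Agent.P150.High.CertSpike

/-!
# P150, certificate: the drift bounds at one profile
-/

open Matrix Vale.Agent.P150.Fast
open scoped Matrix.Norms.L2Operator

namespace Vale.Agent.P150.High.Cert

open Vale.Agent.P150.PartB

variable {n : ℕ} {β s c : ℝ} {g : Edge n → ℝ} {ξ m : Fin n → ℝ}

/-! ### the differences -/

lemma p_diff (A A0 H H0 D : Matrix (Fin n) (Fin n) ℝ) :
    (1 + H * D) * A * (1 + D * H) - (1 + H0 * D) * A0 * (1 + D * H0) =
      (H - H0) * D * A * (1 + D * H) + (1 + H0 * D) * (A - A0) * (1 + D * H) +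
        (1 + H0 * D) * A0 * D * (H - H0) := by noncomm_ring

lemma one_add_norms {H : Matrix (Fin n) (Fin n) ℝ} {K : ℝ} (hm : ∀ i, |m i| ≤ 1) (hH : ‖H‖ ≤ K) :
    ‖1 + H * dMat m‖ ≤ 1 + K ∧ ‖1 + dMat m * H‖ ≤ 1 + K ∧ ‖dMat m‖ ≤ 1 := by
  have hD : ‖dMat m‖ ≤ 1 := norm_diagonal_le zero_le_one fun i => by
    rw [show (1 - m i ^ 2) = prof m i from rfl, abs_of_nonneg (abs_prof hm i).1]; exact (abs_prof hm i).2
  have hK : 0 ≤ K := (norm_nonneg _).trans hH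
  exact ⟨(norm_add_le _ _).trans (add_le_add PsiLip.norm_one_le ((norm_mul_le _ _).trans
      ((mul_le_mul hH hD (norm_nonneg _) hK).trans_eq (mul_one _)))),
    (norm_add_le _ _).trans (add_le_add PsiLip.norm_one_le ((norm_mul_le _ _).trans
      ((mul_le_mul hD hH (norm_nonneg _) zero_le_one).trans_eq (one_mul _)))), hD⟩

lemma pMat_norm {H A : Matrix (Fin n) (Fin n) ℝ} {K KA : ℝ} (hm : ∀ i, |m i| ≤ 1) (hH : ‖H‖ ≤ K)
    (hA : ‖A‖ ≤ KA) : ‖pMat A m H‖ ≤ (1 + K) ^ 2 * KA := by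
  obtain ⟨q1, q2, -⟩ := one_add_norms hm hH
  have hK : 0 ≤ 1 + K := (norm_nonneg _).trans q1
  exact ((norm_mul_le _ _).trans (mul_le_mul ((norm_mul_le _ _).trans (mul_le_mul q1 hA (norm_nonneg _) hK)) q2
    (norm_nonneg _) (mul_nonneg hK ((norm_nonneg _).trans hA)))).trans_eq (by ring)

/-- what is needed of the pure part and of one step `e` -/
structure Step (β c s e C : ℝ) (g : Edge n → ℝ) (m : Fin n → ℝ) : Prop where
  quot : ‖(1 / e) • (resH β (1 - s + e) (-(e * pZero β c s (prof m))) g (prof m) - resH β (1 - s) 0 g (prof m))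
      - pMat (Matrix.of (cpl β g) + c • 1) m (resH β (1 - s) 0 g (prof m))‖ ≤ C * e
  phi : ∀ j, |resPhi (-(e * pZero β c s (prof m))) (prof m) j / e - pZero β c s (prof m)| ≤ C * e
  kap : ∀ j k, |(β ^ 2 * (1 - s + e) ^ 2 /
        (1 - β ^ 2 * (1 - s + e) ^ 2 * gamTwo (-(e * pZero β c s (prof m))) (prof m)) *
        resWeight (-(e * pZero β c s (prof m))) (prof m) j * resWeight (-(e * pZero β c s (prof m))) (prof m) k
      - kOne β s (prof m)) / (2 * e)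
      - (kTwo β c s (prof m) / 2 + pZero β c s (prof m) * kOne β s (prof m) * (prof m j + prof m k))| ≤ C * e

/-- the basic facts at one profile -/
lemma basic (hn : 0 < n) {η : ℝ} (hη : 0 < η) (hβ : |β| ≤ 1) (hc : 0 ≤ c) (hs : s ∈ Set.Icc (0 : ℝ) 1)
    (hW : ‖Matrix.of (cpl β g)‖ ≤ 3) (hξ : ∑ i, ξ i ^ 2 ≤ n) (hm : ∀ i, |m i| < 1)
    (hV : Coer η (vMat β s (tiltMat β g ξ) m) (prof m)) (hV0 : Coer η (resV β (1 - s) 0 g (prof m)) (prof m)) :
    let K := 18 + 324 / η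
    ‖hMat β s (tiltMat β g ξ) m‖ ≤ K ∧ ‖resH β (1 - s) 0 g (prof m)‖ ≤ K ∧
      ‖tiltMat β g ξ + c • 1‖ ≤ 11 + c ∧ ‖Matrix.of (cpl β g) + c • (1 : Matrix (Fin n) (Fin n) ℝ)‖ ≤ 11 + c ∧
      (∀ j k, hMat β s (tiltMat β g ξ) m j k = hMat β s (tiltMat β g ξ) m k j) ∧
      hMat β s (tiltMat β g ξ) m - resH β (1 - s) 0 g (prof m) =
        -((1 + resH β (1 - s) 0 g (prof m) * dMat m) *
          (vMat β s (tiltMat β g ξ) m - resV β (1 - s) 0 g (prof m)) *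
          (1 + dMat m * hMat β s (tiltMat β g ξ) m)) := by
  intro K
  have hm' : ∀ i, |m i| ≤ 1 := fun i => (hm i).le
  have hD : ∀ i, 0 < prof m i := fun i => by show 0 < 1 - m i ^ 2; nlinarith [abs_lt.1 (hm i)]
  obtain ⟨hu, ha, -⟩ := PsiLip.coef_bounds hβ hs
  have hb : |β ^ 2| ≤ 1 := by rw [abs_pow]; exact pow_le_one₀ (abs_nonneg β) hβ
  have hdd : ∀ r : ℝ, |r| ≤ 1 → ∀ i, |r * (β ^ 2 / n * (1 - ξ i ^ 2))| ≤ (1 + ξ i ^ 2) / n := fun r hr i => by
    rw [abs_mul, abs_mul, abs_div, Nat.abs_cast]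
    refine (mul_le_of_le_one_left (by positivity) hr).trans ?_
    rw [div_mul_eq_mul_div]
    refine div_le_div_of_nonneg_right ((mul_le_of_le_one_left (abs_nonneg _) hb).trans ?_) (Nat.cast_nonneg n)
    exact (abs_sub _ _).trans_eq (by rw [abs_one, abs_of_nonneg (sq_nonneg _)])
  have hE : ‖spikeMat (-((1 - s) * β ^ 2)) ((1 - s) * β ^ 2) (-(2 * aCoef β s)) ξ m
      (fun i => (1 - s) * (β ^ 2 / n * (1 - ξ i ^ 2)))‖ ≤ 8 :=
    (spike_norms hn (by rw [abs_neg, abs_mul]; linarith [mul_le_one₀ hu (abs_nonneg _) hb])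
      (by rw [abs_mul]; linarith [mul_le_one₀ hu (abs_nonneg _) hb])
      (by rw [abs_neg, abs_mul, abs_two]; linarith) hξ hm' (hdd _ hu)).1
  have hEJ : ‖spikeMat (β ^ 2) (-β ^ 2) 0 ξ m (fun i => -(β ^ 2 / n * (1 - ξ i ^ 2)))‖ ≤ 8 :=
    (spike_norms hn (by linarith) (by rw [abs_neg]; linarith) (by norm_num) hξ hm'
      (fun i => by simpa [neg_mul] using hdd (-1) (by norm_num) i)).1
  have hnV0 : ‖resV β (1 - s) 0 g (prof m)‖ ≤ 7 := by
    refine (norm_resV_le (M := 1) hW (by linarith) ?_).trans (by norm_num)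
    rw [resShift_zero, abs_mul]
    exact mul_le_one₀ ha (abs_nonneg _) (abs_avgv_le zero_le_one fun i => by
      rw [abs_of_nonneg (abs_prof hm' i).1]; exact (abs_prof hm' i).2)
  have hnV : ‖vMat β s (tiltMat β g ξ) m‖ ≤ 18 := by
    rw [vMat_eq_spike hn]; exact (norm_add_le _ _).trans (by linarith)
  have hVs : (vMat β s (tiltMat β g ξ) m)ᵀ = vMat β s (tiltMat β g ξ) m := by
    rw [vMat_eq_spike hn, Matrix.transpose_add, resV_transpose, spikeMat]
    simp [Matrix.transpose_add, Matrix.transpose_smul, Matrix.transpose_vecMulVec, Matrix.diagonal_transpose]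
  obtain ⟨-, -, hsym, hn1⟩ := hOf_facts hη hD hVs hV
  obtain ⟨-, -, -, hn2⟩ := hOf_facts hη hD (resV_transpose β (1 - s) 0 g (prof m)) hV0
  have hK : ∀ {M : Matrix (Fin n) (Fin n) ℝ}, ‖M‖ ≤ 18 → ‖M‖ + ‖M‖ * (1 / η) * ‖M‖ ≤ K := fun {M} h => by
    calc _ ≤ 18 + 18 * (1 / η) * 18 := add_le_add h
          (mul_le_mul (mul_le_mul_of_nonneg_right h (by positivity)) h (norm_nonneg _) (by positivity))
      _ = K := by simp only [K]; ring
  have hc1 : ‖c • (1 : Matrix (Fin n) (Fin n) ℝ)‖ ≤ c := by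
    rw [norm_smul, Real.norm_eq_abs, abs_of_nonneg hc]; exact mul_le_of_le_one_right hc PsiLip.norm_one_le
  refine ⟨hn1.trans (hK hnV), hn2.trans (hK (by linarith)), ?_, (norm_add_le _ _).trans (by linarith), hsym, ?_⟩
  · rw [tiltMat_eq β g ξ m]
    exact (norm_add_le _ _).trans ((add_le_add ((norm_add_le _ _).trans (add_le_add hW hEJ)) hc1).trans (by linarith))
  · have h := hOf_sub hη hη hD (resV_transpose β (1 - s) 0 g (prof m)) hVs hV0 hV
    show hOf _ (prof m) - hOf _ (prof m) = _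
    rw [← neg_sub (hOf (resV β (1 - s) 0 g (prof m)) (prof m)), h, dMat_prof,
      ← neg_sub (vMat β s (tiltMat β g ξ) m)]
    simp only [hMat, resH_eq, hOf, dMat_prof]
    noncomm_ring

lemma tilt_diag_le {t : ℝ} (ht : |t| ≤ 1) (hβ : |β| ≤ 1) (ξ : Fin n → ℝ) (i : Fin n) :
    |t * (β ^ 2 / n * (1 - ξ i ^ 2))| ≤ (1 + ξ i ^ 2) / n := by
  have hb : |β ^ 2| ≤ 1 := by rw [abs_pow]; exact pow_le_one₀ (abs_nonneg β) hβ
  rw [abs_mul, abs_mul, abs_div, Nat.abs_cast]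
  refine (mul_le_of_le_one_left (by positivity) ht).trans ?_
  rw [div_mul_eq_mul_div]
  refine div_le_div_of_nonneg_right ((mul_le_of_le_one_left (abs_nonneg _) hb).trans ?_) (Nat.cast_nonneg n)
  exact (abs_sub _ _).trans_eq (by rw [abs_one, abs_of_nonneg (sq_nonneg _)])

lemma coef_le_two (hβ : |β| ≤ 1) (hs : s ∈ Set.Icc (0 : ℝ) 1) :
    |-((1 - s) * β ^ 2)| ≤ 2 ∧ |(1 - s) * β ^ 2| ≤ 2 ∧ |-(2 * aCoef β s)| ≤ 2 ∧ |β ^ 2| ≤ 2 ∧ |-β ^ 2| ≤ 2 := by
  obtain ⟨hu, ha, -⟩ := PsiLip.coef_bounds hβ hs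
  have hb : |β ^ 2| ≤ 1 := by rw [abs_pow]; exact pow_le_one₀ (abs_nonneg β) hβ
  have hub : |(1 - s) * β ^ 2| ≤ 1 := by rw [abs_mul]; exact mul_le_one₀ hu (abs_nonneg _) hb
  exact ⟨by rw [abs_neg]; linarith, by linarith, by rw [abs_neg, abs_mul, abs_two]; linarith, by linarith,
    by rw [abs_neg]; linarith⟩

variable {H H0 He A A0 EV q : Matrix (Fin n) (Fin n) ℝ} {L KA : ℝ}

/-- Frobenius size of the two differences -/
lemma diff_fnrm (hL : 1 ≤ L) (hKA : 1 ≤ KA) (hD : ‖dMat m‖ ≤ 1) (q2 : ‖1 + dMat m * H‖ ≤ L)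
    (r1 : ‖1 + H0 * dMat m‖ ≤ L) (hA : ‖A‖ ≤ KA) (hA0 : ‖A0‖ ≤ KA) (hEV : fnrm EV ≤ 8) (hEA : fnrm (A - A0) ≤ 8)
    (hdiff : H - H0 = -((1 + H0 * dMat m) * EV * (1 + dMat m * H))) :
    fnrm (H - H0) ≤ 24 * KA * L ^ 3 ∧ fnrm (pMat A m H - pMat A0 m H0) ≤ 24 * KA * L ^ 3 := by
  have hN := @PsiLip.sem_fnrm n
  have hL0 : 0 ≤ L := by linarith
  have hΔH : fnrm (H - H0) ≤ L * 8 * L := by
    rw [hdiff, ← neg_one_smul ℝ, hN.smul, abs_neg, abs_one, one_mul]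
    exact (hN.mulRight _ _).trans (mul_le_mul ((hN.mulLeft _ _).trans
      (mul_le_mul r1 hEV (hN.nonneg _) hL0)) q2 (norm_nonneg _) (by positivity))
  have h23 : L ^ 2 ≤ L ^ 3 := pow_le_pow_right₀ hL (by norm_num)
  refine ⟨hΔH.trans ?_, ?_⟩
  · calc L * 8 * L = 8 * 1 * L ^ 2 := by ring
      _ ≤ 24 * KA * L ^ 3 := mul_le_mul (mul_le_mul (by norm_num) hKA zero_le_one (by norm_num)) h23
          (by positivity) (by positivity)
  rw [pMat, pMat, p_diff]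
  refine (hN.add _ _).trans ((add_le_add ((hN.add _ _).trans (add_le_add
    (b := L * 8 * L * 1 * KA * L) (d := L * 8 * L) ?_ ?_))
    (show fnrm ((1 + H0 * dMat m) * A0 * dMat m * (H - H0)) ≤ L * KA * 1 * (L * 8 * L) from ?_)).trans ?_)
  · exact (hN.mulRight _ _).trans (mul_le_mul ((hN.mulRight _ _).trans (mul_le_mul ((hN.mulRight _ _).trans
      (mul_le_mul hΔH hD (norm_nonneg _) (by positivity))) hA (norm_nonneg _) (by positivity))) q2
      (norm_nonneg _) (by positivity))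
  · exact (hN.mulRight _ _).trans (mul_le_mul ((hN.mulLeft _ _).trans
      (mul_le_mul r1 hEA (hN.nonneg _) hL0)) q2 (norm_nonneg _) (by positivity))
  · exact (hN.mulLeft _ _).trans (mul_le_mul ((norm_mul_le _ _).trans (mul_le_mul ((norm_mul_le _ _).trans
      (mul_le_mul r1 hA0 (norm_nonneg _) hL0)) hD (norm_nonneg _) (by positivity))) hΔH
      (hN.nonneg _) (by positivity))
  · have h1 : L * 8 * L ≤ 8 * KA * L ^ 3 := by
      calc L * 8 * L = 8 * 1 * L ^ 2 := by ring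
        _ ≤ 8 * KA * L ^ 3 := mul_le_mul (mul_le_mul_of_nonneg_left hKA (by norm_num)) h23 (by positivity) (by positivity)
    linarith

/-- the diagonal of the difference quotient in `ℓ²` -/
lemma diag_quot_l2 {e C εd p0 : ℝ} {φ : Fin n → ℝ} (he : 0 < e) (hC : 0 ≤ C) (hεd : 0 ≤ εd)
    (hquot : ‖(1 / e) • (He - H0) - q‖ ≤ C * e) (hphi : ∀ j, |φ j / e - p0| ≤ C * e)
    (hde : ∑ j, (He j j - φ j) ^ 2 ≤ εd * n) (hd0 : ∑ j, H0 j j ^ 2 ≤ εd * n) :
    nrm (fun i => q i i - p0) ≤ (2 * (C * e) + 2 * Real.sqrt εd / e) * Real.sqrt n := by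
  have hde' : nrm (fun j => He j j - φ j) ≤ Real.sqrt εd * Real.sqrt n := by
    rw [← Real.sqrt_mul hεd]; exact Real.sqrt_le_sqrt hde
  have hd0' : nrm (fun j => H0 j j) ≤ Real.sqrt εd * Real.sqrt n := by
    rw [← Real.sqrt_mul hεd]; exact Real.sqrt_le_sqrt hd0
  refine (nrm_mono (w := fun i => ((1 / e) * (He i i - φ i) + -(1 / e) * H0 i i) + (φ i / e - p0) +
      -((1 / e) • (He - H0) - q) i i) fun i => le_of_eq (congrArg _ ?_)).trans ?_
  · simp only [Matrix.sub_apply, Matrix.smul_apply, smul_eq_mul]; ring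
  refine (nrm_add _ _).trans ((add_le_add ((nrm_add _ _).trans (add_le_add ((nrm_add _ _).trans
    (add_le_add (b := 1 / e * (Real.sqrt εd * Real.sqrt n)) (d := 1 / e * (Real.sqrt εd * Real.sqrt n)) ?_ ?_))
    (nrm_le_of_abs (mul_nonneg hC he.le) hphi)))
    (nrm_le_of_abs (mul_nonneg hC he.le) fun i => ?_)).trans_eq (by ring))
  · rw [nrm_smul, abs_of_pos (by positivity)]; exact mul_le_mul_of_nonneg_left hde' (by positivity)
  · rw [nrm_smul, abs_neg, abs_of_pos (by positivity)]; exact mul_le_mul_of_nonneg_left hd0' (by positivity)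
  · rw [abs_neg]; exact (PsiLip.abs_entry_le _ i i).trans hquot

/-- `|H ∘ q|_F` from the fourth powers of the entries -/
lemma fnrm_had_four {Kp εd : ℝ} (hKp : 0 ≤ Kp) (hεd : 0 ≤ εd) (hq : ‖q‖ ≤ Kp)
    (hd0 : ∑ j, H0 j j ^ 2 ≤ εd * n)
    (hf0 : ∑ j, ∑ k, (if j = k then 0 else H0 j k ^ 4) ≤ εd * n) :
    fnrm (H0 ⊙ q) ≤ Kp * Real.sqrt (εd + Real.sqrt εd) * Real.sqrt n := by
  have hn' : (0 : ℝ) ≤ n := Nat.cast_nonneg n
  rw [fnrm, mul_assoc, ← Real.sqrt_mul (by positivity), ← Real.sqrt_sq hKp, ← Real.sqrt_mul (sq_nonneg Kp)]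
  refine Real.sqrt_le_sqrt ?_
  have hqb : ∀ i j, |q i j| ≤ Kp := fun i j => (PsiLip.abs_entry_le q i j).trans hq
  have hsplit : ∀ j k, (H0 ⊙ q) j k ^ 2 = (if j = k then H0 j j ^ 2 * q j j ^ 2 else 0) +
      (if j = k then 0 else H0 j k ^ 2) * q j k ^ 2 := fun j k => by
    rcases eq_or_ne j k with rfl | h
    · simp [mul_pow]
    · simp [h, mul_pow]
  simp only [hsplit, Finset.sum_add_distrib, Finset.sum_ite_eq, Finset.mem_univ, if_true]
  have t1 : ∑ j, H0 j j ^ 2 * q j j ^ 2 ≤ Kp ^ 2 * (εd * n) := by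
    refine le_trans (Finset.sum_le_sum fun j _ => mul_le_mul_of_nonneg_left
      (sq_le_sq' (abs_le.1 (hqb j j)).1 (abs_le.1 (hqb j j)).2) (sq_nonneg _)) ?_
    rw [← Finset.sum_mul, mul_comm]; exact mul_le_mul_of_nonneg_left hd0 (sq_nonneg _)
  have t2 : ∑ j, ∑ k, (if j = k then 0 else H0 j k ^ 2) * q j k ^ 2 ≤ Kp ^ 2 * (Real.sqrt εd * n) := by
    rw [← Fintype.sum_prod_type']
    refine (Real.sum_mul_le_sqrt_mul_sqrt _ _ _).trans ?_
    have a1 : Real.sqrt (∑ x : Fin n × Fin n, (if x.1 = x.2 then 0 else H0 x.1 x.2 ^ 2) ^ 2) ≤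
        Real.sqrt (εd * n) := Real.sqrt_le_sqrt (le_trans (le_of_eq (by
      rw [Fintype.sum_prod_type]
      refine Finset.sum_congr rfl fun j _ => Finset.sum_congr rfl fun k _ => ?_
      split_ifs <;> ring)) hf0)
    have a2 : Real.sqrt (∑ x : Fin n × Fin n, (q x.1 x.2 ^ 2) ^ 2) ≤ Real.sqrt ((Kp ^ 2) ^ 2 * n) := by
      refine Real.sqrt_le_sqrt ?_
      rw [Fintype.sum_prod_type]
      calc ∑ j, ∑ k, (q j k ^ 2) ^ 2 ≤ ∑ j, ∑ k, Kp ^ 2 * q j k ^ 2 := Finset.sum_le_sum fun j _ =>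
            Finset.sum_le_sum fun k _ => by
              rw [sq (q j k ^ 2)]
              exact mul_le_mul_of_nonneg_right (sq_le_sq' (abs_le.1 (hqb j k)).1 (abs_le.1 (hqb j k)).2) (sq_nonneg _)
        _ = Kp ^ 2 * OpNorm.fsq q := by simp only [OpNorm.fsq, Finset.mul_sum]
        _ ≤ Kp ^ 2 * (n * Kp ^ 2) := mul_le_mul_of_nonneg_left
            (((OpNorm.opLe_iff_norm_le.2 hq).fsq_le).trans_eq (by rw [Fintype.card_fin])) (sq_nonneg _)
        _ = (Kp ^ 2) ^ 2 * n := by ring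
    refine (mul_le_mul a1 a2 (Real.sqrt_nonneg _) (Real.sqrt_nonneg _)).trans_eq ?_
    rw [Real.sqrt_mul hεd, Real.sqrt_mul (by positivity), Real.sqrt_sq (by positivity)]
    linear_combination (Real.sqrt εd * Kp ^ 2) * Real.mul_self_sqrt hn'
  linarith

/-- Frobenius bounds on the drift -/
theorem drift_frob (η c : ℝ) (hη : 0 < η) (hc : 0 ≤ c) :
    ∃ Kc : ℝ, 0 < Kc ∧ ∀ {n : ℕ} (_ : 0 < n) {β s e C εd : ℝ} {g : Edge n → ℝ} {ξ m : Fin n → ℝ},
    |β| < 1 → s ∈ Set.Icc (0 : ℝ) 1 → 0 < e → 0 ≤ C → 0 ≤ εd →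
    ‖Matrix.of (cpl β g)‖ ≤ 3 → ∑ i, ξ i ^ 2 ≤ n → (∀ i, |m i| < 1) →
    Coer η (vMat β s (tiltMat β g ξ) m) (prof m) → Coer η (resV β (1 - s) 0 g (prof m)) (prof m) →
    Step β c s e C g m →
    (∑ j, (resH β (1 - s + e) (-(e * pZero β c s (prof m))) g (prof m) j j -
        resPhi (-(e * pZero β c s (prof m))) (prof m) j) ^ 2 ≤ εd * n) →
    (∑ j, resH β (1 - s) 0 g (prof m) j j ^ 2 ≤ εd * n) →
    (∑ j, ∑ k, (if j = k then 0 else resH β (1 - s) 0 g (prof m) j k ^ 4) ≤ εd * n) →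
    fnrm (psiMain β s (tiltMat β g ξ) (tiltMat β g ξ + c • 1) m (hMat β s (tiltMat β g ξ) m)
        (hMat β s (tiltMat β g ξ) m)) ≤
        Kc * (C * e + Real.sqrt εd / e + Real.sqrt (εd + Real.sqrt εd)) * Real.sqrt n + Kc ∧
      nrm (resDrift β c s (tiltMat β g ξ + c • 1) m (hMat β s (tiltMat β g ξ) m)) ≤
        Kc * (C * e + Real.sqrt εd / e + Real.sqrt (εd + Real.sqrt εd)) * Real.sqrt n + Kc := by
  set K := 18 + 324 / η
  set L := 1 + K
  set KA := 11 + c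
  set Kp := L ^ 2 * KA
  set F := (1 + K + Kp) * (24 * KA * L ^ 3)
  set Kc := 6 * L ^ 2 * (2 + Kp) + L ^ 2 * (6 * F + 4 + 12 * (K + Kp + 1) * (K + Kp + 1)) + 2 * F + 1
  have hK : 0 ≤ K := by positivity
  refine ⟨Kc, by positivity,
    fun {n} hn {β s e C εd g ξ m} hβ hs he hC hεd hW hξ hm hV hV0 hst hde hd0 hf0 => ?_⟩
  obtain ⟨hH, hH0, hA, hA0, -, hdiff⟩ := basic hn hη hβ.le hc hs hW hξ hm hV hV0
  change ‖_‖ ≤ K at hH hH0
  change ‖_‖ ≤ KA at hA hA0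
  have hm' : ∀ i, |m i| ≤ 1 := fun i => (hm i).le
  obtain ⟨q1, q2, hD⟩ := one_add_norms hm' hH
  obtain ⟨r1, -, -⟩ := one_add_norms hm' hH0
  obtain ⟨c1, c2, c3, c4, c5⟩ := coef_le_two hβ.le hs
  obtain ⟨hu, -, -⟩ := PsiLip.coef_bounds hβ.le hs
  have hKA : 1 ≤ KA := by simp only [KA]; linarith
  have hKp : 0 ≤ Kp := by positivity
  have hEA : fnrm ((tiltMat β g ξ + c • 1) - (Matrix.of (cpl β g) + c • 1)) ≤ 8 := by
    rw [add_sub_add_right_eq_sub, tiltMat_eq β g ξ m, add_sub_cancel_left]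
    exact (spike_norms hn c4 c5 (by norm_num) hξ hm'
      (fun i => by simpa [neg_mul] using tilt_diag_le (t := -1) (by norm_num) hβ.le ξ i)).2
  have hEV : fnrm (vMat β s (tiltMat β g ξ) m - resV β (1 - s) 0 g (prof m)) ≤ 8 := by
    rw [vMat_eq_spike hn, add_sub_cancel_left]
    exact (spike_norms hn c1 c2 c3 hξ hm' (fun i => tilt_diag_le hu hβ.le ξ i)).2
  obtain ⟨hΔH, hΔp⟩ := diff_fnrm (by linarith) hKA hD q2 r1 hA hA0 hEV hEA hdiff
  have hp : ‖pMat _ m _‖ ≤ Kp := pMat_norm hm' hH hA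
  have hp0 : ‖pMat _ m _‖ ≤ Kp := pMat_norm hm' hH0 hA0
  have hdp := diag_quot_l2 he hC hεd hst.quot hst.phi hde hd0
  have hh4 := fnrm_had_four hKp hεd hp0 hd0 hf0
  set H := hMat β s (tiltMat β g ξ) m
  set H0 := resH β (1 - s) 0 g (prof m)
  set A := tiltMat β g ξ + c • (1 : Matrix (Fin n) (Fin n) ℝ)
  set q := pMat (Matrix.of (cpl β g) + c • 1) m H0
  set X := C * e + Real.sqrt εd / e + Real.sqrt (εd + Real.sqrt εd)
  set r := Real.sqrt n
  have hr : 0 < r := Real.sqrt_pos.2 (by exact_mod_cast hn)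
  set δ := (2 + Kp) * X + F / r
  have hX : 0 ≤ X := by positivity
  have hF : 0 ≤ F := by positivity
  have hδr : δ * r = (2 + Kp) * X * r + F := by simp only [δ]; field_simp
  have hdiag : nrm (fun i => pMat A m H i i - pZero β c s (prof m)) ≤ δ * r := by
    refine (nrm_mono (w := fun i => (q i i - pZero β c s (prof m)) + (pMat A m H - q) i i)
      fun i => le_of_eq (by simp [Matrix.sub_apply])).trans ((nrm_add _ _).trans ?_)
    have h2 : nrm (fun i => (pMat A m H - q) i i) ≤ 24 * KA * L ^ 3 := by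
      refine le_trans (Real.sqrt_le_sqrt (Finset.sum_le_sum fun i _ => ?_)) hΔp
      exact Finset.single_le_sum (f := fun j => (pMat A m H - q) i j ^ 2) (fun j _ => sq_nonneg _)
        (Finset.mem_univ i)
    have h3 : (2 * (C * e) + 2 * Real.sqrt εd / e) * r ≤ (2 + Kp) * X * r := by
      refine mul_le_mul_of_nonneg_right ?_ hr.le
      calc 2 * (C * e) + 2 * Real.sqrt εd / e ≤ 2 * X := by
            simp only [X]; rw [mul_div_assoc]; linarith [Real.sqrt_nonneg (εd + Real.sqrt εd)]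
        _ ≤ (2 + Kp) * X := mul_le_mul_of_nonneg_right (by linarith) hX
    have h4 : 24 * KA * L ^ 3 ≤ F := le_mul_of_one_le_left (by positivity) (by linarith)
    rw [hδr]; linarith
  have hHp : fnrm (H ⊙ pMat A m H) ≤ δ * r := by
    have e1 : H ⊙ pMat A m H = H0 ⊙ q + (pMat A m H ⊙ (H - H0) + H0 ⊙ (pMat A m H - q)) := by
      ext i j; simp only [Matrix.add_apply, Matrix.sub_apply, Matrix.hadamard_apply]; ring
    rw [e1]
    have hN := @PsiLip.sem_fnrm n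
    refine (hN.add _ _).trans ((add_le_add hh4 ((hN.add _ _).trans (add_le_add
      ((hN.had _ _).trans (mul_le_mul hp hΔH (hN.nonneg _) hKp))
      ((hN.had _ _).trans (mul_le_mul hH0 hΔp (hN.nonneg _) hK))))).trans ?_)
    have h3 : Kp * Real.sqrt (εd + Real.sqrt εd) * r ≤ (2 + Kp) * X * r := by
      refine mul_le_mul_of_nonneg_right (mul_le_mul (by linarith) ?_ (Real.sqrt_nonneg _) (by linarith)) hr.le
      simp only [X]; linarith [mul_nonneg hC he.le, div_nonneg (Real.sqrt_nonneg εd) he.le]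
    have h4 : Kp * (24 * KA * L ^ 3) + K * (24 * KA * L ^ 3) ≤ F := by
      rw [← add_mul]; exact mul_le_mul_of_nonneg_right (by linarith) (by positivity)
    rw [hδr]; linarith
  obtain ⟨hX', hR⟩ := xPlus_fnrm (J := tiltMat β g ξ) hβ hs hn hm' (K := K + Kp)
    (hH.trans (le_add_of_nonneg_right hKp)) (hp.trans (le_add_of_nonneg_left hK)) hdiag hHp
  have hXr : 0 ≤ X * r := mul_nonneg hX hr.le
  have k1 : 6 * L ^ 2 * (2 + Kp) ≤ Kc := by
    simp only [Kc]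
    have : 0 ≤ L ^ 2 * (6 * F + 4 + 12 * (K + Kp + 1) * (K + Kp + 1)) + 2 * F := by positivity
    linarith
  have k2 : L ^ 2 * (6 * F + 4 + 12 * (K + Kp + 1) * (K + Kp + 1)) ≤ Kc ∧ 2 * F ≤ Kc := by
    simp only [Kc]
    have : 0 ≤ 6 * L ^ 2 * (2 + Kp) := by positivity
    have : 0 ≤ L ^ 2 * (6 * F + 4 + 12 * (K + Kp + 1) * (K + Kp + 1)) := by positivity
    constructor <;> linarith
  refine ⟨?_, ?_⟩
  · rw [psiMain_eq]
    have hN := @PsiLip.sem_fnrm n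
    refine (hN.mulRight _ _).trans ((mul_le_mul ((hN.mulLeft _ _).trans
      (mul_le_mul q1 hX' (hN.nonneg _) (by linarith))) q2 (norm_nonneg _)
      (mul_nonneg (by linarith) ((hN.nonneg _).trans hX'))).trans ?_)
    calc L * (6 * δ * r + (4 + 12 * (K + Kp + 1) * (K + Kp + 1))) * L
        = 6 * L ^ 2 * (2 + Kp) * (X * r) + L ^ 2 * (6 * F + 4 + 12 * (K + Kp + 1) * (K + Kp + 1)) := by
          rw [mul_assoc 6 δ r, hδr]; ring
      _ ≤ Kc * (X * r) + Kc := add_le_add (mul_le_mul_of_nonneg_right k1 hXr) k2.1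
      _ = Kc * X * r + Kc := by ring
  · have e : resDrift β c s A m H = fun i => m i * ((pMat A m H i i - pZero β c s (prof m)) +
        aCoef β s * avgv (fun j => prof m j ^ 2 * (pZero β c s (prof m) - pMat A m H j j))) :=
      funext fun i => resDrift_eq (A := A) hn (denom_ne hβ hs hm') H i
    rw [e]
    refine hR.trans ?_
    calc 2 * δ * r = 2 * (2 + Kp) * (X * r) + 2 * F := by rw [mul_assoc, hδr]; ring
      _ ≤ Kc * (X * r) + Kc := by
          refine add_le_add (mul_le_mul_of_nonneg_right (le_trans ?_ k1) hXr) k2.2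
          have hL2 : (1 : ℝ) ≤ L ^ 2 := one_le_pow₀ (show 1 ≤ L by linarith)
          exact mul_le_mul_of_nonneg_right (by linarith) (by linarith)
      _ = Kc * X * r + Kc := by ring

end Vale.Agent.P150.High.Cert
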