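import Vale.Agent.P150.High.AmpSpec
import Vale.Agent.P150.Fast.PartB.Defs

/-!
# P150, all `β < 1`: the certificate of the covariance induction

Under the product law the event `G` of `PartB.Defs` holds at the AMP candidate, at each fixed time,
with exponentially small failure probability and a rate independent of the time and of `ε₂`.
-/

open MeasureTheory Filter Matrix
open scoped Topology

namespace Vale.Agent.P150.High

open Vale.Agent.P150

/-- `CertLaw.lean`: the certificate, from the residual, margin, ball and resolvent statements. -/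
def CertStatement : Prop :=
  ∀ β : ℝ, 0 ≤ β → β < 1 → ∃ η shift : ℝ, 0 < η ∧ η ≤ 1 ∧ 4 ≤ shift ∧
    ∀ ε : ℝ, 0 < ε → ∃ ρ : ℝ, 0 < ρ ∧ ∃ k : ℕ, ∃ c : ℝ, 0 < c ∧ ∀ ε₂ : ℝ, 0 < ε₂ →
      ∀ s ∈ Set.Icc (0 : ℝ) 1, ∀ᶠ n : ℕ in atTop,
      (prodLaw n).real {p | ¬ PartB.Cert β shift η ε ρ ε₂ s
          (Matrix.of (tiltCpl β p.1 (prodXi β shift p.2))) (prodY β shift s p.1 p.2)
          (ampZ β shift s (tiltCpl β p.1 (prodXi β shift p.2)) (prodY β shift s p.1 p.2)
            (prodF β shift s p.2) k)} ≤ Real.exp (-(c * n))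

/-- The assembly of `CertStatement`. -/
def CertAssemblyStatement : Prop :=
  ResidualStatement → MarginStatement → BallMaxStatement → DiagMeanStatement → FourMeanStatement →
    SchurOpStatement → CertStatement

end Vale.Agent.P150.High
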