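import Vale.Agent.P150.High.CertOp
import Vale.Agent.P150.High.CertSpec
import Vale.Agent.P150.High.ResCalc

/-!
# P150, all `β < 1`: the certificate under the product law

Off an exponentially small event every profile in the ball around the centre is `η`-coercive, its
pure resolvents at `(1 - s, 0)` and one step away are predicted, and the drift bounds follow.  The
operator bound fixes the step from `ε`, hence the radius and the rate; the two `ℓ²` bounds use a
second step, from `ε₂`, whose inputs hold at every exponential rate.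
-/

open MeasureTheory Filter Matrix Vale.Agent.P150.Fast
open scoped Topology Matrix.Norms.L2Operator

namespace Vale.Agent.P150.High.Cert

open Vale.Agent.P150 Vale.Agent.P150.PartB

variable {n : ℕ}

/-! ### events -/

lemma sumsq_tail (n : ℕ) :
    (gauss (Fin n)).real {z | 8 * (n : ℝ) < ∑ a, z a ^ 2} ≤ Real.exp (-(n : ℝ)) := by
  refine (measureReal_mono (s₂ := {z : Fin n → ℝ | 8 * (n : ℝ) ≤ ∑ a, z a ^ 2}) fun z hz => ?_).trans ?_
  · simp only [Set.mem_ofPred_eq] at hz ⊢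
    exact hz.le
  refine (ProbabilityTheory.measure_ge_le_exp_mul_mgf (μ := gauss (Fin n)) (X := fun z => ∑ a, z a ^ 2)
    (8 * (n : ℝ)) (t := 1 / 4) (by norm_num) (exp_sumsq (by norm_num)).1).trans ?_
  rw [ProbabilityTheory.mgf, (exp_sumsq (by norm_num)).2, Fintype.card_fin]
  have h1 : (Real.sqrt (1 - 2 * (1 / 4) : ℝ))⁻¹ ≤ Real.exp 1 :=
    calc (Real.sqrt (1 - 2 * (1 / 4) : ℝ))⁻¹ ≤ 2 := by
          rw [inv_le_comm₀ (Real.sqrt_pos.2 (by norm_num)) two_pos]
          exact Real.le_sqrt_of_sq_le (by norm_num)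
      _ ≤ Real.exp 1 := by linarith [Real.add_one_le_exp (1 : ℝ)]
  refine (mul_le_mul_of_nonneg_left (pow_le_pow_left₀ (by positivity) h1 n) (Real.exp_pos _).le).trans_eq ?_
  rw [← Real.exp_nat_mul, ← Real.exp_add]
  ring_nf

lemma fail_le {X A B C : Set ((Edge n → ℝ) × (Fin n → ℝ))} {D₁ D₂ D₃ D₄ : Set (Edge n → ℝ)}
    {Z : Set (Fin n → ℝ)} {r : ℝ} (hA : (prodLaw n).real A ≤ r) (hB : (prodLaw n).real B ≤ r)
    (hC : (prodLaw n).real C ≤ r) (h₁ : (disorder n).real D₁ ≤ r) (h₂ : (disorder n).real D₂ ≤ r)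
    (h₃ : (disorder n).real D₃ ≤ r) (h₄ : (disorder n).real D₄ ≤ 2 * r) (hZ : (gauss (Fin n)).real Z ≤ r)
    (h : ∀ g z, (g, z) ∉ A → (g, z) ∉ B → (g, z) ∉ C → g ∉ D₁ → g ∉ D₂ → g ∉ D₃ → g ∉ D₄ → z ∉ Z → (g, z) ∉ X) :
    (prodLaw n).real X ≤ 9 * r := by
  have : IsProbabilityMeasure (prodLaw n) := by unfold prodLaw; infer_instance
  have hfst : ∀ S : Set (Edge n → ℝ), (prodLaw n).real (S ×ˢ Set.univ) = (disorder n).real S := fun S => by
    rw [prodLaw, measureReal_prod_prod]; simp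
  have hsnd : (prodLaw n).real ((Set.univ : Set (Edge n → ℝ)) ×ˢ Z) = (gauss (Fin n)).real Z := by
    rw [prodLaw, measureReal_prod_prod]; simp
  refine (measureReal_mono (s₂ := A ∪ B ∪ C ∪ (D₁ ∪ D₂ ∪ D₃ ∪ D₄) ×ˢ Set.univ ∪ Set.univ ×ˢ Z) ?_).trans ?_
  · rintro ⟨g, z⟩ hp
    by_contra hc
    simp only [Set.mem_union, Set.mem_prod, Set.mem_univ, and_true, true_and, not_or] at hc
    obtain ⟨⟨⟨⟨a, b⟩, c⟩, ⟨⟨d₁, d₂⟩, d₃⟩, d₄⟩, e⟩ := hc
    exact h g z a b c d₁ d₂ d₃ d₄ e hp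
  · refine ((measureReal_union_le _ _).trans (add_le_add ((measureReal_union_le _ _).trans (add_le_add
      ((measureReal_union_le _ _).trans (add_le_add ((measureReal_union_le _ _).trans (add_le_add hA hB)) hC))
      ((hfst _).le.trans ((measureReal_union_le _ _).trans (add_le_add ((measureReal_union_le _ _).trans
        (add_le_add ((measureReal_union_le _ _).trans (add_le_add h₁ h₂)) h₃)) h₄))))) (hsnd.le.trans hZ))).trans
      (le_of_eq ?_)
    ring

/-! ### the noise and the observation -/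

lemma xi_le {β shift b : ℝ} (hc : 4 ≤ shift) (hb : 0 < b) (hcb : 16 / b ≤ shift) {z : Fin n → ℝ}
    (hz : ∑ a, z a ^ 2 ≤ 8 * n) : ∑ i, prodXi β shift z i ^ 2 ≤ b * n := by
  set d := shift + Real.sqrt (shift ^ 2 - 4 * β ^ 2)
  have hd : shift ≤ d := le_add_of_nonneg_right (Real.sqrt_nonneg _)
  have hd0 : 0 < d := by linarith
  have hv : plantVar β shift ≤ b / 8 := by
    rw [plantVar, div_le_iff₀ hd0]
    have h1 := (div_le_iff₀ hb).1 (hcb.trans hd)
    linarith [mul_comm d b]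
  have hv0 : 0 ≤ plantVar β shift := div_nonneg zero_le_two hd0.le
  have e : ∑ i, prodXi β shift z i ^ 2 = plantVar β shift * ∑ a, z a ^ 2 := by
    simp only [prodXi, mul_pow, Real.sq_sqrt hv0, Finset.mul_sum]
  rw [e]
  exact (mul_le_mul hv hz (Finset.sum_nonneg fun a _ => sq_nonneg (z a)) (by positivity)).trans_eq (by ring)

lemma prodY_le (hn : 0 < n) {β shift s : ℝ} (hβ : |β| ≤ 1) (hc : 0 ≤ shift) (hs : s ∈ Set.Icc (0 : ℝ) 1)
    {g : Edge n → ℝ} {z : Fin n → ℝ} (hW : ‖Matrix.of (cpl β g)‖ ≤ 3)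
    (hξ : ∑ i, prodXi β shift z i ^ 2 ≤ n) (i : Fin n) :
    |prodY β shift s g z i| ≤ 2 * (11 + shift) * Real.sqrt n := by
  obtain ⟨-, -, -, c4, c5⟩ := coef_le_two hβ hs
  set ξ := prodXi β shift z
  have hA : ‖shiftMat shift (tiltCpl β g ξ)‖ ≤ 11 + shift := by
    show ‖tiltMat β g ξ + shift • (1 : Matrix (Fin n) (Fin n) ℝ)‖ ≤ _
    rw [tiltMat_eq β g ξ (fun _ => (0 : ℝ))]
    refine (norm_add_le _ _).trans ((add_le_add ((norm_add_le _ _).trans (add_le_add hW
      (spike_norms hn c4 c5 (by norm_num) hξ (fun _ => by simp)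
        (fun j => by simpa [neg_mul] using tilt_diag_le (t := -1) (by norm_num) hβ ξ j)).1)) ?_).trans
      (le_of_eq (by ring : (3 + 8 + shift : ℝ) = 11 + shift)))
    rw [norm_smul, Real.norm_eq_abs, abs_of_nonneg hc]
    exact mul_le_of_le_one_right hc PsiLip.norm_one_le
  have hf : nrm (prodF β shift s z) ≤ 2 * Real.sqrt n := by
    refine (nrm_add (fun _ => s) fun i => Real.sqrt s * ξ i).trans ?_
    rw [nrm_smul, abs_of_nonneg (Real.sqrt_nonneg s)]
    refine (add_le_add (nrm_le_of_abs zero_le_one fun _ => ?_)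
      ((mul_le_of_le_one_left (nrm_nonneg _) ?_).trans (Real.sqrt_le_sqrt hξ))).trans_eq (by ring)
    · rw [abs_of_nonneg hs.1]; exact hs.2
    · exact Real.sqrt_le_one.2 hs.2
  refine le_trans ?_ ((nrm_mulVec_le _ _).trans (mul_le_mul hA hf (nrm_nonneg _) (by linarith)) |>.trans_eq
    (by ring : (11 + shift) * (2 * Real.sqrt n) = _))
  exact Real.abs_le_sqrt (Finset.single_le_sum
    (f := fun j => (shiftMat shift (tiltCpl β g ξ) *ᵥ prodF β shift s z) j ^ 2)
    (fun j _ => sq_nonneg _) (Finset.mem_univ i))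

lemma opLe_high_of_norm {M : Matrix (Fin n) (Fin n) ℝ} {L : ℝ} (h : ‖M‖ ≤ L) : High.OpLe M L := fun v w => by
  have e : ∀ x : Fin n → ℝ, Real.sqrt (dotProduct x x) = nrm x := fun x => by
    simp [nrm, dotProduct, sq]
  rw [e, e]
  refine (abs_dot_le v (M *ᵥ w)).trans ((mul_le_mul_of_nonneg_left ((nrm_mulVec_le M w).trans
    (mul_le_mul_of_nonneg_right h (nrm_nonneg w))) (nrm_nonneg v)).trans_eq (by ring))

lemma resPhi_zero (D : Fin n → ℝ) (j : Fin n) : resPhi 0 D j = 0 := by simp [resPhi]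

lemma pred_zero (β s : ℝ) (D : Fin n → ℝ) (j k : Fin n) :
    β ^ 2 * (1 - s) ^ 2 / (1 - β ^ 2 * (1 - s) ^ 2 * gamTwo 0 D) * resWeight 0 D j * resWeight 0 D k =
      kOne β s D := by
  simp [resWeight, gamTwo_zero, kOne, aCoef]

/-- The assembly of the certificate. -/
theorem certAssembly : CertAssemblyStatement := by
  intro hRes hMar hBall hDiag hFour hSchur β hβ0 hβ
  obtain ⟨η₀, hη₀, hMar⟩ := hMar β hβ0 hβ
  have hb2 : β ^ 2 < 1 := pow_lt_one₀ hβ0 hβ two_ne_zero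
  have hβa : |β| < 1 := by rwa [abs_of_nonneg hβ0]
  set shift := max 16 (64 / η₀)
  have hshift : 4 ≤ shift := le_trans (by norm_num) (le_max_left _ _)
  have hc0 : 0 ≤ shift := by linarith
  set η := min η₀ 1
  have hη : 0 < η := lt_min hη₀ one_pos
  set η₁ := min (η₀ / 4) ((1 - β ^ 2) / 2)
  have hη₁ : 0 < η₁ := lt_min (by linarith) (by linarith)
  have hη₁₀ : η₁ ≤ η₀ / 4 := min_le_left _ _
  obtain ⟨C, e₀, hC, he₀, hstep⟩ := pure_step hβ0 hβ hη₁ (min_le_right _ _) hc0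
  obtain ⟨Kf, hKf, hfrob⟩ := drift_frob η₁ shift hη₁ hc0
  obtain ⟨Ko, hKo, hop⟩ := drift_op η₁ β shift C hη₁ hβ0 hβ hc0 hC.le
  refine ⟨η, shift, hη, min_le_right _ _, hshift, fun ε hε => ?_⟩
  set τ := ε / (4 * Ko)
  have hτ : 0 < τ := by positivity
  set e := min (min e₀ 1) τ
  have he : 0 < e := lt_min (lt_min he₀ one_pos) hτ
  obtain ⟨δ, cS, hδ, hcS, hSch⟩ := hSchur β η₁ (e * τ) hβ0 hβ hη₁ (mul_pos he hτ)
  set εb := min (min (e * τ) δ) 1
  have hεb : 0 < εb := lt_min (lt_min (mul_pos he hτ) hδ) one_pos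
  obtain ⟨ρb, hρb, hBall⟩ := hBall β shift η₁ εb hβ0 hβ hshift hη₁ hεb
  obtain ⟨ρm, hρm, km, hMar⟩ := hMar shift hshift
  set ρ := min (Real.sqrt ρm) (Real.sqrt ρb)
  have hρ : 0 < ρ := lt_min (Real.sqrt_pos.2 hρm) (Real.sqrt_pos.2 hρb)
  obtain ⟨kr, hRes⟩ := hRes β shift ((η * ρ / 8) ^ 2) hβ0 hβ hshift (by positivity)
  set k := max km kr
  obtain ⟨cm, hcm, hMar⟩ := hMar k (le_max_left _ _)
  obtain ⟨cb, hcb, hBall⟩ := hBall k
  obtain ⟨cr, hcr, hRes⟩ := hRes k (le_max_right _ _)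
  obtain ⟨cw, hcw, hW⟩ := ResCalc.ball_prob
  set c₀ := min (min (min cm cb) (min cr cS)) (min cw 1)
  have hc₀ : 0 < c₀ := lt_min (lt_min (lt_min hcm hcb) (lt_min hcr hcS)) (lt_min hcw one_pos)
  refine ⟨ρ, hρ, k, c₀ / 2, half_pos hc₀, fun ε₂ hε₂ s hs => ?_⟩
  -- the second step
  set t := ε₂ / (4 * Kf)
  have ht : 0 < t := by positivity
  set e₂ := min (min e₀ 1) (t / C)
  have he₂ : 0 < e₂ := lt_min (lt_min he₀ one_pos) (by positivity)
  set εd := min (min 1 ((e₂ * t) ^ 2)) ((t ^ 2 / 2) ^ 2)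
  have hεd : 0 < εd := lt_min (lt_min one_pos (by positivity)) (by positivity)
  have hd1 : Real.sqrt εd ≤ e₂ * t :=
    (Real.sqrt_le_sqrt ((min_le_left _ _).trans (min_le_right _ _))).trans_eq (Real.sqrt_sq (by positivity))
  have hd2 : Real.sqrt (εd + Real.sqrt εd) ≤ t := by
    have h1 : Real.sqrt εd ≤ t ^ 2 / 2 :=
      (Real.sqrt_le_sqrt (min_le_right _ _)).trans_eq (Real.sqrt_sq (by positivity))
    have h2 : εd ≤ Real.sqrt εd := Real.le_sqrt_of_sq_le (by
      rw [sq]; exact mul_le_of_le_one_left hεd.le ((min_le_left _ _).trans (min_le_left _ _)))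
    exact (Real.sqrt_le_sqrt (by linarith)).trans_eq (Real.sqrt_sq ht.le)
  have hsqrt : Tendsto (fun n : ℕ => Real.sqrt n) atTop atTop :=
    Real.tendsto_sqrt_atTop.comp tendsto_natCast_atTop_atTop
  have hpow : Tendsto (fun n : ℕ => (n : ℝ) ^ (1 / 10 : ℝ)) atTop atTop :=
    (tendsto_rpow_atTop (by norm_num)).comp tendsto_natCast_atTop_atTop
  filter_upwards [hMar s hs, hBall s hs, hRes s hs, hSch, hDiag β η₁ εd c₀ hβ0 hβ hη₁ hεd,
    hFour β η₁ εd c₀ hβ0 hβ hη₁ hεd, eventually_gt_atTop 0,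
    tendsto_natCast_atTop_atTop.eventually_ge_atTop (16 / c₀),
    tendsto_natCast_atTop_atTop.eventually_ge_atTop (4 / η₀),
    tendsto_natCast_atTop_atTop.eventually_ge_atTop (1 / τ),
    hsqrt.eventually_ge_atTop (1 / εb), hsqrt.eventually_ge_atTop (1 / t),
    hpow.eventually_ge_atTop (2 * (11 + shift))] with n hM hB hR hS hD hF hn n₁ n₂ n₃ n₄ n₅ n₆
  have hn' : (0 : ℝ) < n := by exact_mod_cast hn
  have hrate : ∀ {c : ℝ}, c₀ ≤ c → Real.exp (-(c * n)) ≤ Real.exp (-(c₀ * n)) := fun h =>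
    Real.exp_le_exp.2 (neg_le_neg (mul_le_mul_of_nonneg_right h hn'.le))
  have h9 : 9 * Real.exp (-(c₀ * n)) ≤ Real.exp (-(c₀ / 2 * n)) := by
    have h1 : 9 ≤ Real.exp (c₀ / 2 * n) := by
      have := (div_le_iff₀ hc₀).1 n₁
      linarith [Real.add_one_le_exp (c₀ / 2 * n), mul_comm (n : ℝ) c₀]
    calc 9 * Real.exp (-(c₀ * n)) ≤ Real.exp (c₀ / 2 * n) * Real.exp (-(c₀ * n)) :=
          mul_le_mul_of_nonneg_right h1 (Real.exp_pos _).le
      _ = Real.exp (-(c₀ / 2 * n)) := by rw [← Real.exp_add]; ring_nf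
  refine (fail_le (hM.trans (hrate ((min_le_left _ _).trans ((min_le_left _ _).trans (min_le_left _ _)))))
    (hB.trans (hrate ((min_le_left _ _).trans ((min_le_left _ _).trans (min_le_right _ _)))))
    (hR.trans (hrate ((min_le_left _ _).trans ((min_le_right _ _).trans (min_le_left _ _)))))
    (hS.trans (hrate ((min_le_left _ _).trans ((min_le_right _ _).trans (min_le_right _ _))))) hD hF
    ((hW n hn β hβa.le).trans
      (mul_le_mul_of_nonneg_left (hrate ((min_le_right _ _).trans (min_le_left _ _))) zero_le_two))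
    ((sumsq_tail n).trans (le_of_eq_of_le (by rw [one_mul]) (hrate ((min_le_right _ _).trans (min_le_right _ _)))))
    fun g z nM nB nR nS nD nF nW nZ => ?_).trans h9
  simp only [Set.mem_ofPred_eq, not_exists, not_and, not_or, not_lt, not_not] at nM nB nR nS nD nF nW nZ ⊢
  set ξ := prodXi β shift z
  obtain ⟨hξb, nB⟩ := nB
  have hWn : ‖Matrix.of (cpl β g)‖ ≤ 3 := OpNorm.opLe_iff_norm_le.1 (ResCalc.opLe_of_norm_cmat nW)
  have hξ₀ : ∑ i, ξ i ^ 2 ≤ η₀ / 4 * n := xi_le hshift (by linarith)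
    (le_of_eq_of_le (by ring) (le_max_right _ _)) nZ
  have hξ : ∑ i, ξ i ^ 2 ≤ n :=
    (xi_le hshift one_pos (le_of_eq_of_le (div_one _) (le_max_left _ _)) nZ).trans_eq (one_mul _)
  have hεb1 : 1 ≤ εb * Real.sqrt n := by
    have := (div_le_iff₀ hεb).1 n₄
    linarith [mul_comm εb (Real.sqrt n)]
  have hball : ∀ {r : ℝ}, 0 ≤ r → ρ ≤ Real.sqrt r → ∀ m : Fin n → ℝ, (∀ i, |m i| < 1) →
      nrm (fun i => m i - Real.tanh (ampZ β shift s (tiltCpl β g ξ) (prodY β shift s g z)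
        (prodF β shift s z) k i)) ≤ ρ * Real.sqrt n →
      InBall r (prodCentre β shift s g z k) m := fun {r} hr hρr m hm hd => by
    refine ⟨fun i => (hm i).le, (Real.sqrt_le_iff.1 hd).2.trans ?_⟩
    rw [mul_pow, Real.sq_sqrt hn'.le]
    refine mul_le_mul_of_nonneg_right ?_ hn'.le
    exact (pow_le_pow_left₀ hρ.le hρr 2).trans_eq (Real.sq_sqrt hr)
  have hV : ∀ m : Fin n → ℝ, (∀ i, |m i| < 1) → nrm (fun i => m i - Real.tanh (ampZ β shift s (tiltCpl β g ξ)
      (prodY β shift s g z) (prodF β shift s z) k i)) ≤ ρ * Real.sqrt n →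
      Coer η₀ (vMat β s (tiltMat β g ξ) m) (prof m) ∧ Coer (2 * η₁) (resV β (1 - s) 0 g (prof m)) (prof m) :=
    fun m hm hd => by
      have h := coer_of_margin hm (nM m (hball hρm.le (min_le_left _ _) m hm hd))
      refine ⟨h, coer_mono (coer_pure hn hβa.le hs hξ₀ h) ?_⟩
      have h2 : (1 : ℝ) / n ≤ η₀ / 4 := by
        rw [div_le_iff₀ hn']
        have := (div_le_iff₀ hη₀).1 n₂
        linarith [mul_comm (n : ℝ) η₀]
      linarith
  refine ⟨?_, fun i => ?_, fun m hm hd v => ?_, fun m hm hd => ?psiFrob, fun m hm hd => ?resBall,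
    fun m hm hd => ?psiBall⟩
  · refine (Real.sqrt_le_sqrt nR.1).trans_eq ?_
    rw [Real.sqrt_mul (sq_nonneg _), Real.sqrt_sq (by positivity)]
  · refine (prodY_le hn hβa.le hc0 hs hWn hξ i).trans ?_
    refine (mul_le_mul_of_nonneg_right n₆ (Real.sqrt_nonneg _)).trans_eq ?_
    rw [Real.sqrt_eq_rpow, ← Real.rpow_add hn']
    norm_num
  · exact (mul_le_mul_of_nonneg_right (min_le_left _ _) (Finset.sum_nonneg fun i _ => sq_nonneg _)).trans
      ((hV m hm hd).1 v)
  all_goals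
    obtain ⟨hV1, hV0⟩ := hV m hm hd
    obtain ⟨-, hA0, hst⟩ := hstep g hWn hs hm hV0
    have hV1' := coer_mono hV1 (show η₁ ≤ η₀ by linarith)
    have hV0' := coer_mono hV0 (show η₁ ≤ 2 * η₁ by linarith)
  case psiBall =>
    obtain ⟨hAe, -, hq, hphi, hk⟩ := hst he ((min_le_left _ _).trans (min_le_left _ _))
    obtain ⟨de, oe, ve⟩ := nB _ _ m (hball hρb.le (min_le_right _ _) m hm hd) hAe
    obtain ⟨d0, o0, v0⟩ := nB _ _ m (hball hρb.le (min_le_right _ _) m hm hd) hA0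
    have hεbδ : εb ≤ δ := (min_le_left _ _).trans (min_le_right _ _)
    refine (hop hn hs he ((min_le_left _ _).trans (min_le_right _ _)) hεb1 (min_le_right _ _)
      (mul_pos he hτ).le hWn hξ hξb hm hV1' hV0' ⟨hq, hphi, hk⟩ de
      (fun j => by have h := d0 j; rw [resPhi_zero, sub_zero] at h; exact h) ve v0
      (highOpLe_norm (mul_pos he hτ).le (nS _ _ _ hAe fun a b hab => (oe a b hab).trans hεbδ)) ?_).trans ?_
    · have h0 := highOpLe_norm (mul_pos he hτ).le (nS _ _ _ hA0 fun a b hab => (o0 a b hab).trans hεbδ)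
      simp only [pred_zero] at h0
      exact h0
    · have x1 : εb / e ≤ τ := (div_le_iff₀ he).2 (((min_le_left _ _).trans (min_le_left _ _)).trans_eq (mul_comm e τ))
      have x2 : e * τ / e ≤ τ := le_of_eq (mul_div_cancel_left₀ τ he.ne')
      have x3 : (1 : ℝ) / n ≤ τ := by
        rw [div_le_iff₀ hn']
        have := (div_le_iff₀ hτ).1 n₃
        linarith [mul_comm (n : ℝ) τ]
      calc Ko * (e + εb / e + e * τ / e + 1 / n) ≤ Ko * (4 * τ) :=
            mul_le_mul_of_nonneg_left (by linarith [min_le_right (min e₀ 1) τ]) hKo.le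
        _ = ε := by simp only [τ]; field_simp
  all_goals
    obtain ⟨hAe, -, hq, hphi, hk⟩ := hst he₂ ((min_le_left _ _).trans (min_le_left _ _))
    have hW' : High.OpLe (Matrix.of (cpl β g)) 3 := opLe_high_of_norm hWn
    have hfr := hfrob hn hβa hs he₂ hC.le hεd.le hWn hξ hm hV1' hV0' ⟨hq, hphi, hk⟩ (nD hW' _ _ _ hAe)
      (by have h := nD hW' _ _ _ hA0; simp only [resPhi_zero, sub_zero] at h; exact h) (nF hW' _ _ _ hA0)
    have hX : Kf * (C * e₂ + Real.sqrt εd / e₂ + Real.sqrt (εd + Real.sqrt εd)) * Real.sqrt n + Kf ≤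
        ε₂ * Real.sqrt n := by
      have x1 : C * e₂ ≤ t := by
        have := (le_div_iff₀ hC).1 (min_le_right (min e₀ 1) (t / C))
        linarith [mul_comm C e₂]
      have x2 : Real.sqrt εd / e₂ ≤ t := (div_le_iff₀ he₂).2 (hd1.trans_eq (mul_comm _ _))
      have x3 : 1 ≤ t * Real.sqrt n := by
        have := (div_le_iff₀ ht).1 n₅
        linarith [mul_comm t (Real.sqrt n)]
      have e4 : ε₂ = 4 * Kf * t := by simp only [t]; field_simp
      calc _ ≤ Kf * (3 * t) * Real.sqrt n + Kf * (t * Real.sqrt n) :=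
            add_le_add (mul_le_mul_of_nonneg_right (mul_le_mul_of_nonneg_left (by linarith) hKf.le)
              (Real.sqrt_nonneg _)) (le_mul_of_one_le_right hKf.le x3)
        _ = ε₂ * Real.sqrt n := by rw [e4]; ring
  · exact hfr.1.trans hX
  · exact hfr.2.trans hX

end Vale.Agent.P150.High.Cert
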