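import Vale.Agent.P150.High.CertDrift

/-!
# P150, certificate: the drift in operator norm at one profile
-/

open Matrix Vale.Agent.P150.Fast
open scoped Matrix.Norms.L2Operator

namespace Vale.Agent.P150.High.Cert

open Vale.Agent.P150.PartB

variable {n : ℕ} {m : Fin n → ℝ} {H H0 He A A0 EV q : Matrix (Fin n) (Fin n) ℝ}

lemma one_add_vec {εb : ℝ} {u : Fin n → ℝ} (hu : ∀ i, |u i| ≤ εb * Real.sqrt n)
    (hv : ∀ i, |(H0 *ᵥ fun j => prof m j * u j) i| ≤ εb * Real.sqrt n) (i : Fin n) :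
    |((1 + H0 * dMat m) *ᵥ u) i| ≤ 2 * εb * Real.sqrt n := by
  rw [Matrix.add_mulVec, Matrix.one_mulVec, ← Matrix.mulVec_mulVec, Pi.add_apply,
    show dMat m *ᵥ u = fun j => prof m j * u j from funext fun j => Matrix.mulVec_diagonal _ _ j]
  exact ((abs_add_le _ _).trans (add_le_add (hu i) (hv i))).trans_eq (by ring)

lemma quot_vec {e C εb : ℝ} {w : Fin n → ℝ} (he : 0 < e) (hC : 0 ≤ C)
    (hquot : ‖(1 / e) • (He - H0) - q‖ ≤ C * e) (hw : nrm w ≤ Real.sqrt n)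
    (h₁ : ∀ i, |(He *ᵥ w) i| ≤ εb * Real.sqrt n) (h₀ : ∀ i, |(H0 *ᵥ w) i| ≤ εb * Real.sqrt n) (i : Fin n) :
    |(q *ᵥ w) i| ≤ (2 * εb / e + C * e) * Real.sqrt n := by
  have e1 : (q *ᵥ w) i = 1 / e * (He *ᵥ w) i - 1 / e * (H0 *ᵥ w) i - (((1 / e) • (He - H0) - q) *ᵥ w) i := by
    simp only [Matrix.sub_mulVec, Matrix.smul_mulVec, Pi.sub_apply, Pi.smul_apply, smul_eq_mul]; ring
  rw [e1]
  refine (abs_sub _ _).trans ((add_le_add ((abs_sub _ _).trans (add_le_add (b := 1 / e * (εb * Real.sqrt n))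
    (d := 1 / e * (εb * Real.sqrt n)) ?_ ?_)) (show |_| ≤ C * e * Real.sqrt n from ?_)).trans_eq (by ring))
  · rw [abs_mul, abs_of_pos (by positivity)]; exact mul_le_mul_of_nonneg_left (h₁ i) (by positivity)
  · rw [abs_mul, abs_of_pos (by positivity)]; exact mul_le_mul_of_nonneg_left (h₀ i) (by positivity)
  · refine le_trans ?_ ((nrm_mulVec_le _ _).trans (mul_le_mul hquot hw (nrm_nonneg _) (mul_nonneg hC he.le)))
    exact Real.abs_le_sqrt (Finset.single_le_sum (f := fun j => (((1 / e) • (He - H0) - q) *ᵥ w) j ^ 2)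
      (fun j _ => sq_nonneg _) (Finset.mem_univ i))

/-- rows of the two differences -/
lemma delta_rows {L KA a b : ℝ} (hL : 1 ≤ L) (hKA : 1 ≤ KA) (hD : ‖dMat m‖ ≤ 1) (q2 : ‖1 + dMat m * H‖ ≤ L)
    (hA : ‖A‖ ≤ KA) (ha : 0 ≤ a) (hb : 0 ≤ b)
    (h₁ : RowLe ((1 + H0 * dMat m) * EV) a) (h₂ : RowLe ((1 + H0 * dMat m) * (A - A0)) a)
    (h₃ : RowLe (pMat A0 m H0 * dMat m * EV) b)
    (hdiff : H - H0 = -((1 + H0 * dMat m) * EV * (1 + dMat m * H))) :
    RowLe (H - H0) (3 * KA * L ^ 2 * (a + b)) ∧ RowLe (pMat A m H - pMat A0 m H0) (3 * KA * L ^ 2 * (a + b)) := by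
  have hL0 : 0 ≤ L := by linarith
  have hG : L ≤ KA * L ^ 2 := by
    calc L = 1 * L ^ 1 := by ring
      _ ≤ KA * L ^ 2 := mul_le_mul hKA (pow_le_pow_right₀ hL (by norm_num)) (by positivity) (by linarith)
  have hLa : L * a ≤ KA * L ^ 2 * a := mul_le_mul_of_nonneg_right hG ha
  have hLb : L * b ≤ KA * L ^ 2 * b := mul_le_mul_of_nonneg_right hG hb
  have hKb : 0 ≤ KA * L ^ 2 * b := by positivity
  have hKa : 0 ≤ KA * L ^ 2 * a := by positivity
  have hΔH : RowLe (H - H0) (L * a) := by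
    rw [hdiff]
    exact ((h₁.mul_right (1 + dMat m * H)).neg).mono (mul_le_mul_of_nonneg_right q2 ha)
  refine ⟨hΔH.mono (by linarith), ?_⟩
  rw [pMat, pMat, p_diff]
  refine (((RowLe.add (δ := KA * L ^ 2 * a) (δ' := L * a) ?_ ?_).add (δ' := L * b) ?_)).mono (by linarith)
  · rw [Matrix.mul_assoc, Matrix.mul_assoc (H - H0)]
    refine (hΔH.mul_right _).mono ?_
    refine (mul_le_mul_of_nonneg_right ((norm_mul_le _ _).trans (mul_le_mul hD ((norm_mul_le _ _).trans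
      (mul_le_mul hA q2 (norm_nonneg _) (by linarith))) (norm_nonneg _) zero_le_one)) (by positivity)).trans_eq ?_
    ring
  · exact (h₂.mul_right _).mono (mul_le_mul_of_nonneg_right q2 ha)
  · have e1 : (1 + H0 * dMat m) * A0 * dMat m * (H - H0) =
        -(pMat A0 m H0 * dMat m * EV * (1 + dMat m * H)) := by
      rw [hdiff, pMat]; noncomm_ring
    rw [e1]
    exact (h₃.mul_right _).neg.mono (mul_le_mul_of_nonneg_right q2 hb)

lemma diag_quot_sup {e C εb p0 : ℝ} {φ : Fin n → ℝ} (he : 0 < e)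
    (hquot : ‖(1 / e) • (He - H0) - q‖ ≤ C * e) (hphi : ∀ j, |φ j / e - p0| ≤ C * e)
    (hde : ∀ j, |He j j - φ j| ≤ εb) (hd0 : ∀ j, |H0 j j| ≤ εb) (i : Fin n) :
    |q i i - p0| ≤ 2 * (εb / e) + 2 * (C * e) := by
  have e1 : q i i - p0 = (1 / e * (He i i - φ i) - 1 / e * H0 i i) +
      ((φ i / e - p0) - ((1 / e) • (He - H0) - q) i i) := by
    simp only [Matrix.sub_apply, Matrix.smul_apply, smul_eq_mul]; ring
  rw [e1]
  refine (abs_add_le _ _).trans ((add_le_add ((abs_sub _ _).trans (add_le_add (b := 1 / e * εb)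
    (d := 1 / e * εb) ?_ ?_)) ((abs_sub _ _).trans (add_le_add (hphi i)
    ((PsiLip.abs_entry_le _ i i).trans hquot)))).trans_eq (by ring))
  · rw [abs_mul, abs_of_pos (by positivity)]; exact mul_le_mul_of_nonneg_left (hde i) (by positivity)
  · rw [abs_mul, abs_of_pos (by positivity)]; exact mul_le_mul_of_nonneg_left (hd0 i) (by positivity)

lemma qFun_bound {β c s : ℝ} (hβ0 : 0 ≤ β) (hβ : β < 1) (hc : 0 ≤ c) (hs : s ∈ Set.Icc (0 : ℝ) 1)
    (hm : ∀ i, |m i| ≤ 1) (j k : Fin n) :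
    |kTwo β c s (prof m) / 2 + pZero β c s (prof m) * kOne β s (prof m) * (prof m j + prof m k)| ≤
      (3 + 3 * ((c + 2) / (1 - β ^ 2))) / (1 - β ^ 2) ^ 2 := by
  set P := (c + 2) / (1 - β ^ 2)
  obtain ⟨hp0b, har⟩ := pZero_bound (n := n) (c := c) hβ0 hβ hc hs hm
  have hb2 : β ^ 2 < 1 := pow_lt_one₀ hβ0 hβ two_ne_zero
  have hpos : 0 < 1 - β ^ 2 := by linarith
  have hP : 0 ≤ P := div_nonneg (by linarith) hpos.le
  obtain ⟨hu, ha, -⟩ := PsiLip.coef_bounds (by rw [abs_of_nonneg hβ0]; exact hβ.le) hs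
  have hb : |β ^ 2| ≤ 1 := by rw [abs_of_nonneg (sq_nonneg β)]; linarith
  have hd' : 1 - β ^ 2 ≤ 1 - aCoef β s * rTwo (prof m) := by linarith
  have hab : ∀ i, |prof m i| ≤ 1 := fun i => by
    rw [abs_of_nonneg (abs_prof hm i).1]; exact (abs_prof hm i).2
  have hk2 : |kTwo β c s (prof m)| ≤ (2 + 2 * P) / (1 - β ^ 2) ^ 2 := by
    rw [kTwo, abs_div, abs_of_pos (pow_pos (hpos.trans_le hd') 2)]
    refine div_le_div₀ (by linarith) ((abs_add_le _ _).trans (add_le_add ?_ ?_)) (pow_pos hpos 2)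
      (pow_le_pow_left₀ hpos.le hd' 2)
    · rw [abs_mul, abs_mul, abs_two]
      exact (mul_le_mul (mul_le_mul_of_nonneg_left hb two_pos.le) hu (abs_nonneg _) (by norm_num)).trans_eq (by norm_num)
    · rw [abs_mul, abs_mul, abs_mul, abs_two, abs_pow]
      refine (mul_le_mul (mul_le_mul (mul_le_mul_of_nonneg_left hp0b two_pos.le) (pow_le_one₀ (abs_nonneg _) ha)
        (by positivity) (by positivity)) (abs_avgv_le zero_le_one fun i => ?_) (abs_nonneg _) (by positivity)).trans_eq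
        (by ring)
      rw [abs_pow]; exact pow_le_one₀ (abs_nonneg _) (hab i)
  have hk1 : |kOne β s (prof m)| ≤ 1 / (1 - β ^ 2) ^ 2 := by
    rw [kOne, abs_div, abs_of_pos (hpos.trans_le hd')]
    refine div_le_div₀ zero_le_one ha (pow_pos hpos 2) (le_trans ?_ hd')
    rw [sq]; exact mul_le_of_le_one_left hpos.le (by linarith [sq_nonneg β])
  refine (abs_add_le _ _).trans ?_
  rw [abs_div, abs_two, abs_mul, abs_mul]
  have h3 : |pZero β c s (prof m)| * |kOne β s (prof m)| * |prof m j + prof m k| ≤ P * (1 / (1 - β ^ 2) ^ 2) * 2 :=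
    mul_le_mul (mul_le_mul hp0b hk1 (abs_nonneg _) hP) ((abs_add_le _ _).trans (by linarith [hab j, hab k]))
      (abs_nonneg _) (by positivity)
  calc _ ≤ (2 + 2 * P) / (1 - β ^ 2) ^ 2 / 2 + P * (1 / (1 - β ^ 2) ^ 2) * 2 :=
        add_le_add (div_le_div_of_nonneg_right hk2 two_pos.le) h3
    _ = (1 + 3 * P) / (1 - β ^ 2) ^ 2 := by ring
    _ ≤ _ := div_le_div_of_nonneg_right (by linarith) (sq_nonneg _)

/-- `H₀ ∘ q` against the prediction, from the two Schur squares -/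
lemma had_quot {e C εb εs K Kp Φ MQ k1 : ℝ} {φ : Fin n → ℝ} {κ Qf : Fin n → Fin n → ℝ}
    (he : 0 < e) (he1 : e ≤ 1) (hC : 0 ≤ C) (hK : 0 ≤ K) (hKp : 0 ≤ Kp) (hMQ : 0 ≤ MQ)
    (hH0 : ‖H0‖ ≤ K) (hq : ‖q‖ ≤ Kp) (hquot : ‖(1 / e) • (He - H0) - q‖ ≤ C * e)
    (hφ : ∀ j, |φ j| ≤ Φ * e) (hde : ∀ j, |He j j - φ j| ≤ εb) (hd0 : ∀ j, |H0 j j| ≤ εb)
    (hkap : ∀ j k, |(κ j k - k1) / (2 * e) - Qf j k| ≤ C * e) (hQf : ∀ j k, |Qf j k| ≤ MQ)
    (hSe : ‖Matrix.of fun j k : Fin n => if j = k then 0 else He j k ^ 2 - κ j k / n‖ ≤ εs)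
    (hS0 : ‖Matrix.of fun j k : Fin n => if j = k then 0 else H0 j k ^ 2 - k1 / n‖ ≤ εs) :
    ‖H0 ⊙ q - Matrix.of fun j k => Qf j k / n‖ ≤
      (K * C + C + Φ ^ 2 + (Kp + C) ^ 2) * e + 2 * εb ^ 2 / e + εs / e + MQ / n := by
  set Qm : Matrix (Fin n) (Fin n) ℝ := Matrix.of fun j k => Qf j k / n
  set Ze : Matrix (Fin n) (Fin n) ℝ := Matrix.of fun j k => if j = k then 0 else He j k ^ 2 - κ j k / n
  set Z0 : Matrix (Fin n) (Fin n) ℝ := Matrix.of fun j k => if j = k then 0 else H0 j k ^ 2 - k1 / n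
  set Pm : Matrix (Fin n) (Fin n) ℝ :=
    Matrix.of fun j k => (if j = k then 0 else (κ j k - k1) / (2 * e) / n) - Qf j k / n
  set Dg : Matrix (Fin n) (Fin n) ℝ := diagonal fun j => (He j j ^ 2 - H0 j j ^ 2) / (2 * e)
  set dd := (1 / e) • (He - H0)
  have hddn : ‖dd‖ ≤ Kp + C := by
    have h1 := norm_le_insert' dd q
    have h2 : C * e ≤ C := mul_le_of_le_one_right hC he1
    linarith [hquot]
  have e1 : H0 ⊙ q - Qm = -(H0 ⊙ (dd - q)) + ((1 / (2 * e)) • (Ze - Z0) + Dg + Pm) - (e / 2) • (dd ⊙ dd) := by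
    ext j k
    simp only [Matrix.add_apply, Matrix.sub_apply, Matrix.neg_apply, Matrix.smul_apply, Matrix.hadamard_apply,
      Matrix.of_apply, smul_eq_mul, Ze, Z0, Pm, Qm, Dg, dd, Matrix.diagonal_apply]
    split_ifs with h
    · subst h; field_simp; ring
    · field_simp; ring
  have b1 : ‖H0 ⊙ (dd - q)‖ ≤ K * (C * e) :=
    (PsiLip.norm_hadamard_le _ _).trans (mul_le_mul hH0 hquot (norm_nonneg _) hK)
  have b2 : ‖(1 / (2 * e)) • (Ze - Z0)‖ ≤ εs / e := by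
    rw [norm_smul, Real.norm_eq_abs, abs_of_pos (by positivity)]
    calc _ ≤ 1 / (2 * e) * (εs + εs) :=
          mul_le_mul_of_nonneg_left ((norm_sub_le _ _).trans (add_le_add hSe hS0)) (by positivity)
      _ = εs / e := by field_simp; ring
  have b3 : ‖Dg‖ ≤ Φ ^ 2 * e + 2 * εb ^ 2 / e := by
    refine norm_diagonal_le (by positivity) fun j => ?_
    rw [abs_div, abs_of_pos (by positivity : 0 < 2 * e), div_le_iff₀ (by positivity)]
    have h1 : |He j j| ≤ Φ * e + εb := by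
      have := abs_sub_abs_le_abs_sub (He j j) (φ j)
      linarith [hde j, hφ j]
    have h2 := pow_le_pow_left₀ (abs_nonneg _) h1 2
    have h3 := pow_le_pow_left₀ (abs_nonneg _) (hd0 j) 2
    rw [sq_abs] at h2 h3
    refine ((abs_sub _ _).trans_eq (by rw [abs_of_nonneg (sq_nonneg _), abs_of_nonneg (sq_nonneg _)])).trans ?_
    rw [add_mul, show 2 * εb ^ 2 / e * (2 * e) = 4 * εb ^ 2 by field_simp; ring]
    linarith [two_mul_le_add_sq (Φ * e) εb, sq_nonneg εb]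
  have b4 : ‖Pm‖ ≤ C * e + MQ / n := by
    have hM : 0 ≤ MQ / n := by positivity
    have hent : ∀ j k, |Pm j k| ≤ C * e / n + (if j = k then MQ / n else 0) := fun j k => by
      simp only [Pm, Matrix.of_apply]
      split_ifs with h
      · rw [zero_sub, abs_neg, abs_div, Nat.abs_cast]
        exact (div_le_div_of_nonneg_right (hQf j k) (Nat.cast_nonneg n)).trans (le_add_of_nonneg_left (by positivity))
      · rw [← sub_div, abs_div, Nat.abs_cast, add_zero]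
        exact div_le_div_of_nonneg_right (hkap j k) (Nat.cast_nonneg n)
    refine OpNorm.opLe_iff_norm_le.1 ?_
    have hB := add_nonneg (mul_nonneg hC he.le) hM
    have hsum : ∀ a : ℝ, 0 ≤ a → (n : ℝ) * (a / n) ≤ a := fun a ha => by
      rcases Nat.eq_zero_or_pos n with rfl | hn
      · simpa using ha
      · exact (mul_div_cancel₀ a (by exact_mod_cast hn.ne')).le
    have := OpNorm.opLe_of_abs_sums (X := Pm) hB hB
      (fun j => (Finset.sum_le_sum fun k _ => hent j k).trans (by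
        simp [Finset.sum_add_distrib]; exact hsum _ (mul_nonneg hC he.le)))
      (fun k => (Finset.sum_le_sum fun j _ => hent j k).trans (by
        simp [Finset.sum_add_distrib]; exact hsum _ (mul_nonneg hC he.le)))
    rwa [Real.sqrt_mul_self hB] at this
  have b5 : ‖(e / 2) • (dd ⊙ dd)‖ ≤ (Kp + C) ^ 2 * e := by
    rw [norm_smul, Real.norm_eq_abs, abs_of_pos (by positivity)]
    calc _ ≤ e / 2 * ((Kp + C) * (Kp + C)) := mul_le_mul_of_nonneg_left
          ((PsiLip.norm_hadamard_le _ _).trans (mul_le_mul hddn hddn (norm_nonneg _) (by positivity))) (by positivity)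
      _ = (Kp + C) ^ 2 * e / 2 := by ring
      _ ≤ (Kp + C) ^ 2 * e := half_le_self (by positivity)
  rw [e1]
  refine ((norm_sub_le _ _).trans (add_le_add ((norm_add_le _ _).trans (add_le_add
    ((norm_neg _).le.trans b1) ((norm_add_le _ _).trans (add_le_add ((norm_add_le _ _).trans
      (add_le_add b2 b3)) b4)))) b5)).trans_eq ?_
  ring

/-- rows of the spike parts from the vector bounds at `e` and at `0` -/
lemma spike_rows_all (hn : 0 < n) {β c s η e C εb : ℝ} {g : Edge n → ℝ} {ξ : Fin n → ℝ}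
    (hβ : |β| ≤ 1) (hs : s ∈ Set.Icc (0 : ℝ) 1) (he : 0 < e) (hC : 0 ≤ C) (hεb : 1 ≤ εb * Real.sqrt n)
    (hξ : ∑ i, ξ i ^ 2 ≤ n) (hξb : ∀ i, |ξ i| ≤ εb * Real.sqrt n) (hm : ∀ i, |m i| ≤ 1)
    (hH0 : ‖H0‖ ≤ η) (hq : ‖pMat (Matrix.of (cpl β g) + c • 1) m H0‖ ≤ (1 + η) ^ 2 * (11 + c))
    (hquot : ‖(1 / e) • (He - H0) - pMat (Matrix.of (cpl β g) + c • 1) m H0‖ ≤ C * e)
    (hve : ∀ u : Fin n → ℝ, (u = (fun _ => 1) ∨ u = m ∨ u = ξ) → ∀ i,
      |(He *ᵥ fun j => prof m j * u j) i| ≤ εb * Real.sqrt n)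
    (hv0 : ∀ u : Fin n → ℝ, (u = (fun _ => 1) ∨ u = m ∨ u = ξ) → ∀ i,
      |(H0 *ᵥ fun j => prof m j * u j) i| ≤ εb * Real.sqrt n) :
    let δd := 1 / (n : ℝ) + εb ^ 2
    RowLe ((1 + H0 * dMat m) * (vMat β s (tiltMat β g ξ) m - resV β (1 - s) 0 g (prof m)))
        (12 * εb + (1 + η) * δd) ∧
      RowLe ((1 + H0 * dMat m) * ((tiltMat β g ξ + c • 1) - (Matrix.of (cpl β g) + c • 1)))
        (12 * εb + (1 + η) * δd) ∧
      RowLe (pMat (Matrix.of (cpl β g) + c • 1) m H0 * dMat m *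
          (vMat β s (tiltMat β g ξ) m - resV β (1 - s) 0 g (prof m)))
        (6 * (2 * εb / e + C * e) + (1 + η) ^ 2 * (11 + c) * δd) := by
  intro δd
  have hn' : (0 : ℝ) < n := by exact_mod_cast hn
  set r := Real.sqrt n
  have hδd : 0 ≤ δd := by positivity
  obtain ⟨hu, -, -⟩ := PsiLip.coef_bounds hβ hs
  obtain ⟨c1, c2, c3, c4, c5⟩ := coef_le_two hβ hs
  obtain ⟨r1, -, hD⟩ := one_add_norms hm hH0
  have hdd : ∀ t : ℝ, |t| ≤ 1 → ∀ i, |t * (β ^ 2 / n * (1 - ξ i ^ 2))| ≤ δd := fun t ht i => by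
    refine (tilt_diag_le ht hβ ξ i).trans ?_
    rw [div_le_iff₀ hn', add_mul, one_div_mul_cancel hn'.ne']
    have h2 := pow_le_pow_left₀ (abs_nonneg _) (hξb i) 2
    rw [sq_abs, mul_pow, Real.sq_sqrt hn'.le] at h2
    linarith
  have hone : ∀ u : Fin n → ℝ, (u = (fun _ => 1) ∨ u = m ∨ u = ξ) → ∀ i, |u i| ≤ εb * r := by
    rintro u (rfl | rfl | rfl) i
    · rw [abs_one]; exact hεb
    · exact (hm i).trans hεb
    · exact hξb i
  have hw : ∀ u : Fin n → ℝ, (u = (fun _ => 1) ∨ u = m ∨ u = ξ) → nrm (fun j => prof m j * u j) ≤ r := by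
    intro u hu'
    refine (nrm_mono (w := u) fun j => ?_).trans ?_
    · rw [abs_mul, abs_of_nonneg (abs_prof hm j).1]; exact mul_le_of_le_one_left (abs_nonneg _) (abs_prof hm j).2
    · rcases hu' with rfl | rfl | rfl
      · exact (nrm_le_of_abs zero_le_one fun _ => abs_one.le).trans_eq (one_mul _)
      · exact (nrm_le_of_abs zero_le_one hm).trans_eq (one_mul _)
      · exact Real.sqrt_le_sqrt hξ
  have hX1 : ∀ u : Fin n → ℝ, (u = (fun _ => 1) ∨ u = m ∨ u = ξ) → ∀ i,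
      |((1 + H0 * dMat m) *ᵥ u) i| ≤ 2 * εb * r := fun u hu' => one_add_vec (hone u hu') (hv0 u hu')
  have hX2 : ∀ u : Fin n → ℝ, (u = (fun _ => 1) ∨ u = m ∨ u = ξ) → ∀ i,
      |((pMat (Matrix.of (cpl β g) + c • 1) m H0 * dMat m) *ᵥ u) i| ≤ (2 * εb / e + C * e) * r := fun u hu' i => by
    rw [← Matrix.mulVec_mulVec, show dMat m *ᵥ u = fun j => prof m j * u j from
      funext fun j => Matrix.mulVec_diagonal _ _ j]
    exact quot_vec he hC hquot (hw u hu') (hve u hu') (hv0 u hu') i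
  have hR := mul_le_mul_of_nonneg_right r1 hδd
  refine ⟨?_, ?_, ?_⟩
  · rw [vMat_eq_spike hn, add_sub_cancel_left]
    exact (spike_rows hn c1 c2 c3 hξ hm (hdd _ hu) hδd hX1).mono (by linarith)
  · rw [add_sub_add_right_eq_sub, tiltMat_eq β g ξ m, add_sub_cancel_left]
    exact (spike_rows hn c4 c5 (by norm_num) hξ hm
      (fun i => by simpa [neg_mul] using hdd (-1) (by norm_num) i) hδd hX1).mono (by linarith)
  · rw [vMat_eq_spike hn, add_sub_cancel_left]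
    refine (spike_rows hn c1 c2 c3 hξ hm (hdd _ hu) hδd hX2).mono (add_le_add le_rfl (mul_le_mul_of_nonneg_right ?_ hδd))
    exact (norm_mul_le _ _).trans ((mul_le_mul hq hD (norm_nonneg _) ((norm_nonneg _).trans hq)).trans_eq (mul_one _))

/-- operator bound on the drift -/
theorem drift_op (η β c C : ℝ) (hη : 0 < η) (hβ0 : 0 ≤ β) (hβ : β < 1) (hc : 0 ≤ c) (hC : 0 ≤ C) :
    ∃ Kc : ℝ, 0 < Kc ∧ ∀ {n : ℕ} (_ : 0 < n) {s e εb εs : ℝ} {g : Edge n → ℝ} {ξ m : Fin n → ℝ},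
    s ∈ Set.Icc (0 : ℝ) 1 → 0 < e → e ≤ 1 → 1 ≤ εb * Real.sqrt n → εb ≤ 1 → 0 ≤ εs →
    ‖Matrix.of (cpl β g)‖ ≤ 3 → ∑ i, ξ i ^ 2 ≤ n → (∀ i, |ξ i| ≤ εb * Real.sqrt n) → (∀ i, |m i| < 1) →
    Coer η (vMat β s (tiltMat β g ξ) m) (prof m) → Coer η (resV β (1 - s) 0 g (prof m)) (prof m) →
    Step β c s e C g m →
    (∀ j, |resH β (1 - s + e) (-(e * pZero β c s (prof m))) g (prof m) j j -
        resPhi (-(e * pZero β c s (prof m))) (prof m) j| ≤ εb) →
    (∀ j, |resH β (1 - s) 0 g (prof m) j j| ≤ εb) →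
    (∀ u : Fin n → ℝ, (u = (fun _ => 1) ∨ u = m ∨ u = ξ) → ∀ i,
      |(resH β (1 - s + e) (-(e * pZero β c s (prof m))) g (prof m) *ᵥ fun j => prof m j * u j) i| ≤
        εb * Real.sqrt n) →
    (∀ u : Fin n → ℝ, (u = (fun _ => 1) ∨ u = m ∨ u = ξ) → ∀ i,
      |(resH β (1 - s) 0 g (prof m) *ᵥ fun j => prof m j * u j) i| ≤ εb * Real.sqrt n) →
    (‖Matrix.of fun j k : Fin n => if j = k then 0 else
        resH β (1 - s + e) (-(e * pZero β c s (prof m))) g (prof m) j k ^ 2 -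
          β ^ 2 * (1 - s + e) ^ 2 / (1 - β ^ 2 * (1 - s + e) ^ 2 * gamTwo (-(e * pZero β c s (prof m))) (prof m)) *
          resWeight (-(e * pZero β c s (prof m))) (prof m) j * resWeight (-(e * pZero β c s (prof m))) (prof m) k / n‖ ≤ εs) →
    (‖Matrix.of fun j k : Fin n => if j = k then 0 else
        resH β (1 - s) 0 g (prof m) j k ^ 2 - kOne β s (prof m) / n‖ ≤ εs) →
    ‖psiMain β s (tiltMat β g ξ) (tiltMat β g ξ + c • 1) m (hMat β s (tiltMat β g ξ) m)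
        (hMat β s (tiltMat β g ξ) m)‖ ≤ Kc * (e + εb / e + εs / e + 1 / n) := by
  set K := 18 + 324 / η
  set L := 1 + K
  set KA := 11 + c
  set Kp := L ^ 2 * KA
  set P := (c + 2) / (1 - β ^ 2)
  set MQ := (3 + 3 * P) / (1 - β ^ 2) ^ 2
  set G := 3 * KA * L ^ 2 * (36 + 6 * C + 2 * (L + Kp))
  set T := (1 + Kp + K) * G + 4 + 2 * C + (K * C + C + (P + C) ^ 2 + (Kp + C) ^ 2) + 2 + 1 + MQ
  have hb2 : β ^ 2 < 1 := pow_lt_one₀ hβ0 hβ two_ne_zero
  have hP : 0 ≤ P := div_nonneg (by linarith) (by linarith)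
  have hK : 0 ≤ K := by positivity
  have hMQ : 0 ≤ MQ := by positivity
  refine ⟨40 * L ^ 2 * T, by positivity,
    fun {n} hn {s e εb εs g ξ m} hs he he1 hεb hεb1 hεs hW hξ hξb hm hV hV0 hst hde hd0 hve hv0 hSe hS0 => ?_⟩
  have hβa : |β| < 1 := by rwa [abs_of_nonneg hβ0]
  have hεb0 : 0 < εb := pos_of_mul_pos_left (zero_lt_one.trans_le hεb) (Real.sqrt_nonneg _)
  have hm' : ∀ i, |m i| ≤ 1 := fun i => (hm i).le
  obtain ⟨hH, hH0, hA, hA0, hsym, hdiff⟩ := basic hn hη hβa.le hc hs hW hξ hm hV hV0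
  change ‖_‖ ≤ K at hH hH0
  change ‖_‖ ≤ KA at hA hA0
  obtain ⟨q1, q2, hD⟩ := one_add_norms hm' hH
  have hp : ‖pMat _ m _‖ ≤ Kp := pMat_norm hm' hH hA
  have hp0 : ‖pMat _ m _‖ ≤ Kp := pMat_norm hm' hH0 hA0
  obtain ⟨hR1, hR2, hR3⟩ := spike_rows_all hn hβa.le hs he hC hεb hξ hξb hm' hH0 hp0 hst.quot hve hv0
  have hL1 : 1 ≤ L := le_add_of_nonneg_right hK
  have hKA : 1 ≤ KA := by simp only [KA]; linarith
  have hKp : 0 ≤ Kp := by positivity
  set X := e + εb / e + εs / e + 1 / (n : ℝ) with hX_def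
  have x1 : 0 ≤ εb / e := by positivity
  have x2 : 0 ≤ εs / e := by positivity
  have x3 : (0 : ℝ) ≤ 1 / n := by positivity
  have x4 : εb ≤ εb / e := le_div_self hεb0.le he he1
  have x5 : εb ^ 2 ≤ εb := by rw [sq]; exact mul_le_of_le_one_left hεb0.le hεb1
  have hX : 0 ≤ X := by linarith
  set δd := 1 / (n : ℝ) + εb ^ 2
  have hδd : 0 ≤ δd := by positivity
  have hδX : δd ≤ 2 * X := by simp only [δd]; linarith
  obtain ⟨hΔH, hΔp⟩ := delta_rows hL1 hKA hD q2 hA (by positivity) (by positivity) hR1 hR2 hR3 hdiff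
  set ρ := 3 * KA * L ^ 2 * (12 * εb + L * δd + (6 * (2 * εb / e + C * e) + Kp * δd))
  have hρ : ρ ≤ G * X ∧ 0 ≤ ρ := by
    refine ⟨?_, by positivity⟩
    calc ρ ≤ 3 * KA * L ^ 2 * ((36 + 6 * C + 2 * (L + Kp)) * X) := by
          refine mul_le_mul_of_nonneg_left ?_ (by positivity)
          have a1 : C * e ≤ C * X := mul_le_mul_of_nonneg_left (by linarith) hC
          have a2 : (L + Kp) * δd ≤ (L + Kp) * (2 * X) := mul_le_mul_of_nonneg_left hδX (by positivity)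
          rw [mul_div_assoc]
          linarith
      _ = G * X := by simp only [G]; ring
  have hG : 0 ≤ G := by positivity
  have hφ : ∀ j, |resPhi (-(e * pZero β c s (prof m))) (prof m) j| ≤ (P + C) * e := fun j => by
    have h1 := hst.phi j
    have h3 := abs_sub_abs_le_abs_sub (resPhi (-(e * pZero β c s (prof m))) (prof m) j / e) (pZero β c s (prof m))
    have h4 : C * e ≤ C := mul_le_of_le_one_right hC he1
    have h2 : |resPhi (-(e * pZero β c s (prof m))) (prof m) j / e| ≤ P + C := by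
      linarith [(pZero_bound (n := n) (c := c) hβ0 hβ hc hs hm').1]
    rwa [abs_div, abs_of_pos he, div_le_iff₀ he] at h2
  have hQ0 := had_quot (φ := resPhi (-(e * pZero β c s (prof m))) (prof m))
    (κ := fun j k => β ^ 2 * (1 - s + e) ^ 2 /
      (1 - β ^ 2 * (1 - s + e) ^ 2 * gamTwo (-(e * pZero β c s (prof m))) (prof m)) *
      resWeight (-(e * pZero β c s (prof m))) (prof m) j * resWeight (-(e * pZero β c s (prof m))) (prof m) k)
    (Qf := fun j k => kTwo β c s (prof m) / 2 + pZero β c s (prof m) * kOne β s (prof m) * (prof m j + prof m k))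
    he he1 hC hK hKp hMQ hH0 hp0 hst.quot hφ hde hd0 hst.kap
    (fun j k => qFun_bound hβ0 hβ hc hs hm' j k) hSe hS0
  have hdq := diag_quot_sup he hst.quot hst.phi hde hd0
  set H := hMat β s (tiltMat β g ξ) m
  set H0 := resH β (1 - s) 0 g (prof m)
  set A := tiltMat β g ξ + c • (1 : Matrix (Fin n) (Fin n) ℝ)
  set q := pMat (Matrix.of (cpl β g) + c • 1) m H0
  have t1 : 0 ≤ K * C + C + (P + C) ^ 2 + (Kp + C) ^ 2 := by positivity
  have hdp : ∀ i, |pMat A m H i i - pZero β c s (prof m)| ≤ T * X := fun i => by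
    have a1 : |pMat A m H i i - q i i| ≤ ρ := hΔp.diag i
    refine (abs_sub_le _ (q i i) _).trans ((add_le_add a1 (hdq i)).trans ?_)
    calc ρ + (2 * (εb / e) + 2 * (C * e)) ≤ G * X + (2 * X + 2 * (C * X)) := by
          linarith [mul_le_mul_of_nonneg_left (show e ≤ X by linarith) hC, hρ.1]
      _ = (G + 2 + 2 * C) * X := by ring
      _ ≤ T * X := mul_le_mul_of_nonneg_right (by
          simp only [T]; linarith [mul_nonneg (add_nonneg hKp hK) hG]) hX
  have hQ' : ‖H ⊙ pMat A m H - qPred β c s (prof m)‖ ≤ T * X := by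
    have e1 : H ⊙ pMat A m H - qPred β c s (prof m) = (H0 ⊙ q - qPred β c s (prof m)) +
        ((H - H0) ⊙ pMat A m H + (pMat A m H - q) ⊙ H0) := by
      ext i j; simp only [Matrix.add_apply, Matrix.sub_apply, Matrix.hadamard_apply]; ring
    rw [e1]
    refine ((norm_add_le _ _).trans (add_le_add hQ0 ((norm_add_le _ _).trans (add_le_add
      ((hΔH.hadamard hρ.2 _).trans (mul_le_mul hρ.1 hp (norm_nonneg _) (mul_nonneg hG hX)))
      ((hΔp.hadamard hρ.2 _).trans (mul_le_mul hρ.1 hH0 (norm_nonneg _) (mul_nonneg hG hX))))))).trans ?_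
    calc _ ≤ (K * C + C + (P + C) ^ 2 + (Kp + C) ^ 2) * X + 2 * X + 1 * X + MQ * X + (G * X * Kp + G * X * K) := by
          have b1 := mul_le_mul_of_nonneg_left (show e ≤ X by linarith) t1
          have b2 : εb ^ 2 / e ≤ X := (div_le_div_of_nonneg_right x5 he.le).trans (by linarith)
          have b3 : MQ / n ≤ MQ * X := by
            rw [← mul_one_div]; exact mul_le_mul_of_nonneg_left (by linarith) hMQ
          rw [mul_div_assoc 2 (εb ^ 2) e]
          linarith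
      _ = ((Kp + K) * G + (K * C + C + (P + C) ^ 2 + (Kp + C) ^ 2) + 2 + 1 + MQ) * X := by ring
      _ ≤ T * X := mul_le_mul_of_nonneg_right (by simp only [T]; linarith) hX
  rw [psiMain_eq]
  have hT : 0 ≤ T * X := (norm_nonneg _).trans hQ'
  have hX' := xPlus_norm (J := tiltMat β g ξ) hβa hs hn hm' hsym hdp hQ'
  exact ((norm_mul_le _ _).trans (mul_le_mul ((norm_mul_le _ _).trans (mul_le_mul q1 hX' (norm_nonneg _)
    (by linarith))) q2 (norm_nonneg _) (mul_nonneg (by linarith) (by linarith)))).trans_eq (by ring)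

end Vale.Agent.P150.High.Cert
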