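import Vale.Agent.P150.High.CertAlg
import Vale.Agent.P150.High.ResolventSpec

/-!
# P150, certificate: one finite difference along `(u + e, θ = -e p₀)`

Along this path `dV/de = -(cpl + shift)`, so `p = (1 + HD)(cpl + shift)(1 + DH)` is the difference
quotient of `H`, and the predictions of `p_jj` and `H ∘ p` are those of the predictions of `H_jj`
and `H ∘ H`.  All expansions are uniform in the profile.
-/

open Matrix Vale.Agent.P150.Fast
open scoped Matrix.Norms.L2Operator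

namespace Vale.Agent.P150.High.Cert

open Vale.Agent.P150.PartB

variable {n : ℕ}

/-! ### `H` of a symmetric `V` -/

/-- `H = -V (1 + D V)⁻¹` -/
noncomputable def hOf (V : Matrix (Fin n) (Fin n) ℝ) (D : Fin n → ℝ) : Matrix (Fin n) (Fin n) ℝ :=
  -(V * (1 + diagonal D * V)⁻¹)

/-- `1/D + V ≥ η` -/
def Coer (η : ℝ) (V : Matrix (Fin n) (Fin n) ℝ) (D : Fin n → ℝ) : Prop :=
  ∀ v : Fin n → ℝ, η * ∑ i, v i ^ 2 ≤ v ⬝ᵥ (diagonal (fun i => 1 / D i) + V) *ᵥ v

variable {η : ℝ} {V V' : Matrix (Fin n) (Fin n) ℝ} {D : Fin n → ℝ}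

lemma coer_mono {η' : ℝ} (h : Coer η V D) (hle : η' ≤ η) : Coer η' V D := fun v =>
  (mul_le_mul_of_nonneg_right hle (OpNorm.nsq_nonneg v)).trans (h v)

lemma coer_of_norm {δ : ℝ} (h : Coer η V D) (hd : ‖V' - V‖ ≤ δ) : Coer (η - δ) V' D := fun v => by
  refine OpNorm.coercive_of_sub h (OpNorm.opLe_iff_norm_le.2 ?_) v
  rwa [add_sub_add_left_eq_sub]

lemma quad_diag (D : Fin n → ℝ) (v : Fin n → ℝ) : v ⬝ᵥ (diagonal D *ᵥ v) = ∑ i, D i * v i ^ 2 := by
  simp only [dotProduct, Matrix.mulVec_diagonal]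
  exact Finset.sum_congr rfl fun i _ => by ring

lemma form_of_coer (hD : ∀ i, 0 < D i) (h : Coer η V D) (v : Fin n → ℝ) :
    η * ∑ j, (D j * v j) ^ 2 ≤
      ∑ j, D j * v j ^ 2 + dotProduct (fun j => D j * v j) (V *ᵥ fun j => D j * v j) := by
  refine (h fun j => D j * v j).trans (le_of_eq ?_)
  rw [Matrix.add_mulVec, dotProduct_add, quad_diag]
  congr 1
  exact Finset.sum_congr rfl fun j _ => by field_simp [(hD j).ne']

/-- the two equations of `hOf`, its symmetry and bound -/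
lemma hOf_facts (hη : 0 < η) (hD : ∀ i, 0 < D i) (hs : Vᵀ = V) (h : Coer η V D) :
    hOf V D + V + hOf V D * diagonal D * V = 0 ∧ hOf V D + V + V * diagonal D * hOf V D = 0 ∧
      (∀ j k, hOf V D j k = hOf V D k j) ∧ ‖hOf V D‖ ≤ ‖V‖ + ‖V‖ * (1 / η) * ‖V‖ := by
  set K := diagonal (fun i => 1 / D i) + V
  have hKu := OpNorm.isUnit_det_of_coercive hη h
  have e1 : diagonal D * diagonal (fun i => 1 / D i) = 1 := by
    rw [Matrix.diagonal_mul_diagonal, ← Matrix.diagonal_one]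
    exact congrArg diagonal (funext fun i => mul_one_div_cancel (hD i).ne')
  have e2 : 1 + diagonal D * V = diagonal D * K := by rw [Matrix.mul_add, e1]
  have hu : IsUnit (1 + diagonal D * V).det := by
    rw [e2, Matrix.det_mul]
    refine (isUnit_iff_ne_zero.2 ?_).mul hKu
    rw [Matrix.det_diagonal]
    exact Finset.prod_ne_zero_iff.2 fun i _ => (hD i).ne'
  set W := (1 + diagonal D * V)⁻¹
  have hW : W = 1 - K⁻¹ * V := by
    refine Matrix.inv_eq_right_inv ?_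
    rw [Matrix.mul_sub, Matrix.mul_one, ← Matrix.mul_assoc]
    conv_lhs => arg 2; rw [e2, Matrix.mul_assoc (diagonal D), Matrix.mul_nonsing_inv _ hKu, Matrix.mul_one]
    simp
  have hH : hOf V D = -(V * W) := rfl
  have hH' : hOf V D = -V + V * K⁻¹ * V := by rw [hH, hW]; noncomm_ring
  have hl : W * (1 + diagonal D * V) = 1 := Matrix.nonsing_inv_mul _ hu
  have hr : (1 + diagonal D * V) * W = 1 := Matrix.mul_nonsing_inv _ hu
  have hKs : K⁻¹ᵀ = K⁻¹ := by
    rw [Matrix.transpose_nonsing_inv, Matrix.transpose_add, Matrix.diagonal_transpose, hs]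
  refine ⟨?_, ?_, ?_, ?_⟩
  · rw [hH]
    calc -(V * W) + V + -(V * W) * diagonal D * V = V - V * (W * (1 + diagonal D * V)) := by noncomm_ring
      _ = 0 := by rw [hl, Matrix.mul_one, sub_self]
  · rw [hH]
    calc -(V * W) + V + V * diagonal D * -(V * W) = V - V * ((1 + diagonal D * V) * W) := by noncomm_ring
      _ = 0 := by rw [hr, Matrix.mul_one, sub_self]
  · have hsymm : (hOf V D)ᵀ = hOf V D := by
      rw [hH', Matrix.transpose_add, Matrix.transpose_neg, Matrix.transpose_mul, Matrix.transpose_mul, hKs, hs,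
        Matrix.mul_assoc]
    exact fun j k => (congrFun (congrFun hsymm j) k).symm
  · rw [hH']
    refine (norm_add_le _ _).trans (add_le_add (norm_neg V).le ?_)
    refine (norm_mul_le _ _).trans (mul_le_mul_of_nonneg_right ((norm_mul_le _ _).trans ?_) (norm_nonneg _))
    exact mul_le_mul_of_nonneg_left (OpNorm.opLe_iff_norm_le.1 (OpNorm.opLe_inv_of_coercive hη h)) (norm_nonneg _)

/-- difference of two `hOf` at one profile -/
lemma hOf_sub {η' : ℝ} (hη : 0 < η) (hη' : 0 < η') (hD : ∀ i, 0 < D i) (hs : Vᵀ = V) (hs' : V'ᵀ = V')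
    (h : Coer η V D) (h' : Coer η' V' D) :
    hOf V D - hOf V' D = -((1 + hOf V D * diagonal D) * (V - V') * (1 + diagonal D * hOf V' D)) := by
  obtain ⟨h1, -, -, -⟩ := hOf_facts hη hD hs h
  obtain ⟨-, h2, -, -⟩ := hOf_facts hη' hD hs' h'
  have e1 : (1 + hOf V D * diagonal D) * V = -hOf V D := by
    rw [eq_neg_iff_add_eq_zero, ← h1]; noncomm_ring
  have e2 : V' * (1 + diagonal D * hOf V' D) = -hOf V' D := by
    rw [eq_neg_iff_add_eq_zero, ← h2]; noncomm_ring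
  rw [Matrix.mul_sub, Matrix.sub_mul, e1, Matrix.mul_assoc _ V', e2]
  noncomm_ring

/-! ### first order expansions -/

/-- `f = f₀ + e f₁ + O(B e²)` with coefficients at most `B` -/
def T1 (e B f f₀ f₁ : ℝ) : Prop := |f₀| ≤ B ∧ |f₁| ≤ B ∧ |f - f₀ - e * f₁| ≤ B * e ^ 2

variable {e B B₁ B₂ f f₀ f₁ g g₀ g₁ : ℝ}

lemma t1_affine {B : ℝ} (h₀ : |f₀| ≤ B) (h₁ : |f₁| ≤ B) : T1 e B (f₀ + e * f₁) f₀ f₁ :=
  ⟨h₀, h₁, by
    rw [show f₀ + e * f₁ - f₀ - e * f₁ = 0 by ring, abs_zero]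
    exact mul_nonneg ((abs_nonneg _).trans h₀) (sq_nonneg e)⟩

lemma t1_const {B : ℝ} (h : |f₀| ≤ B) : T1 e B f₀ f₀ 0 := by
  simpa using t1_affine (e := e) (f₁ := 0) h (by simpa using (abs_nonneg _).trans h)

lemma T1.lin (h : T1 e B f f₀ f₁) (he : 0 ≤ e) (he1 : e ≤ 1) : |f - f₀| ≤ 2 * B * e := by
  have hB : 0 ≤ B := (abs_nonneg _).trans h.1
  calc |f - f₀| = |(f - f₀ - e * f₁) + e * f₁| := by ring_nf
    _ ≤ B * e ^ 2 + e * B := (abs_add_le _ _).trans (add_le_add h.2.2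
        (by rw [abs_mul, abs_of_nonneg he]; exact mul_le_mul_of_nonneg_left h.2.1 he))
    _ ≤ 2 * B * e := by nlinarith [mul_le_mul_of_nonneg_left he1 (mul_nonneg hB he)]

lemma T1.size (h : T1 e B f f₀ f₁) (he : 0 ≤ e) (he1 : e ≤ 1) : |f| ≤ 3 * B := by
  have hB : 0 ≤ B := (abs_nonneg _).trans h.1
  have := h.lin he he1
  have h2 := abs_sub_abs_le_abs_sub f f₀
  nlinarith [h.1]

lemma T1.add (h : T1 e B₁ f f₀ f₁) (h' : T1 e B₂ g g₀ g₁) : T1 e (B₁ + B₂) (f + g) (f₀ + g₀) (f₁ + g₁) := by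
  refine ⟨(abs_add_le _ _).trans (add_le_add h.1 h'.1), (abs_add_le _ _).trans (add_le_add h.2.1 h'.2.1), ?_⟩
  rw [show f + g - (f₀ + g₀) - e * (f₁ + g₁) = (f - f₀ - e * f₁) + (g - g₀ - e * g₁) by ring, add_mul]
  exact (abs_add_le _ _).trans (add_le_add h.2.2 h'.2.2)

lemma T1.mul (he : 0 ≤ e) (he1 : e ≤ 1) (h : T1 e B₁ f f₀ f₁) (h' : T1 e B₂ g g₀ g₁) :
    T1 e (6 * B₁ * B₂) (f * g) (f₀ * g₀) (f₀ * g₁ + f₁ * g₀) := by
  have hB₁ : 0 ≤ B₁ := (abs_nonneg _).trans h.1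
  have hB₂ : 0 ≤ B₂ := (abs_nonneg _).trans h'.1
  have hp : 0 ≤ B₁ * B₂ := mul_nonneg hB₁ hB₂
  refine ⟨?_, ?_, ?_⟩
  · rw [abs_mul]; exact (mul_le_mul h.1 h'.1 (abs_nonneg _) hB₁).trans (by linarith)
  · refine (abs_add_le _ _).trans ((add_le_add (b := B₁ * B₂) (d := B₁ * B₂) ?_ ?_).trans (by linarith))
    · rw [abs_mul]; exact mul_le_mul h.1 h'.2.1 (abs_nonneg _) hB₁
    · rw [abs_mul]; exact mul_le_mul h.2.1 h'.1 (abs_nonneg _) hB₁
  · rw [show f * g - f₀ * g₀ - e * (f₀ * g₁ + f₁ * g₀) =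
      (f - f₀ - e * f₁) * g + (f₀ + e * f₁) * (g - g₀ - e * g₁) + e ^ 2 * (f₁ * g₁) by ring]
    have h2 : |f₀ + e * f₁| ≤ 2 * B₁ := by
      refine (abs_add_le _ _).trans ?_
      rw [abs_mul, abs_of_nonneg he]
      nlinarith [h.1, h.2.1, mul_le_mul_of_nonneg_left h.2.1 he, mul_le_mul_of_nonneg_right he1 hB₁]
    have u1 : |(f - f₀ - e * f₁) * g| ≤ B₁ * e ^ 2 * (3 * B₂) := by
      rw [abs_mul]; exact mul_le_mul h.2.2 (h'.size he he1) (abs_nonneg _) (by positivity)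
    have u2 : |(f₀ + e * f₁) * (g - g₀ - e * g₁)| ≤ 2 * B₁ * (B₂ * e ^ 2) := by
      rw [abs_mul]; exact mul_le_mul h2 h'.2.2 (abs_nonneg _) (by positivity)
    have u3 : |e ^ 2 * (f₁ * g₁)| ≤ e ^ 2 * (B₁ * B₂) := by
      rw [abs_mul, abs_of_nonneg (sq_nonneg e), abs_mul]
      exact mul_le_mul_of_nonneg_left (mul_le_mul h.2.1 h'.2.1 (abs_nonneg _) hB₁) (sq_nonneg e)
    exact (((abs_add_le _ _).trans (add_le_add (abs_add_le _ _) le_rfl)).trans
      (add_le_add (add_le_add u1 u2) u3)).trans_eq (by ring)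

lemma T1.inv (he : 0 ≤ e) (he1 : e ≤ 1) {l : ℝ} (hl : 0 < l) (h : T1 e B f f₀ f₁) (hf : l ≤ f) (hf₀ : l ≤ f₀) :
    T1 e (1 / l + B / l ^ 2 + 3 * B ^ 2 / l ^ 3) f⁻¹ f₀⁻¹ (-(f₁ / f₀ ^ 2)) := by
  have hB : 0 ≤ B := (abs_nonneg _).trans h.1
  have h0 : 0 < f₀ := hl.trans_le hf₀
  have hf' : 0 < f := hl.trans_le hf
  have p1 : 0 ≤ 1 / l := by positivity
  have p2 : 0 ≤ B / l ^ 2 := by positivity
  have p3 : 0 ≤ 3 * B ^ 2 / l ^ 3 := by positivity
  refine ⟨?_, ?_, ?_⟩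
  · rw [abs_of_pos (inv_pos.2 h0), ← one_div]
    linarith [one_div_le_one_div_of_le hl hf₀]
  · rw [abs_neg, abs_div, abs_of_pos (pow_pos h0 2)]
    have := div_le_div₀ hB h.2.1 (pow_pos hl 2) (pow_le_pow_left₀ hl.le hf₀ 2)
    linarith
  · rw [show f⁻¹ - f₀⁻¹ - e * -(f₁ / f₀ ^ 2) =
      (-f₀ * (f - f₀ - e * f₁) + e * f₁ * (f - f₀)) / (f * f₀ ^ 2) by field_simp; ring]
    rw [abs_div, abs_of_pos (mul_pos hf' (pow_pos h0 2)), add_mul, add_mul]
    have hnum : |(-f₀ * (f - f₀ - e * f₁) + e * f₁ * (f - f₀))| ≤ 3 * B ^ 2 * e ^ 2 := by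
      refine (abs_add_le _ _).trans ((add_le_add (b := B * (B * e ^ 2)) (d := e * B * (2 * B * e)) ?_ ?_).trans_eq
        (by ring))
      · rw [abs_mul, abs_neg]; exact mul_le_mul h.1 h.2.2 (abs_nonneg _) hB
      · rw [abs_mul, abs_mul, abs_of_nonneg he]
        exact mul_le_mul (mul_le_mul_of_nonneg_left h.2.1 he) (h.lin he he1) (abs_nonneg _) (by positivity)
    have hden : l ^ 3 ≤ f * f₀ ^ 2 := by
      rw [pow_succ' l]; exact mul_le_mul hf (pow_le_pow_left₀ hl.le hf₀ 2) (sq_nonneg _) hf'.le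
    refine (div_le_div₀ (by positivity) hnum (pow_pos hl 3) hden).trans ?_
    rw [mul_div_right_comm]
    have : 0 ≤ e ^ 2 := sq_nonneg e
    nlinarith

lemma T1.avg {F F₀ F₁ : Fin n → ℝ} (h : ∀ i, T1 e B (F i) (F₀ i) (F₁ i)) (hB : 0 ≤ B) :
    T1 e B (avgv F) (avgv F₀) (avgv F₁) := by
  refine ⟨abs_avgv_le hB fun i => (h i).1, abs_avgv_le hB fun i => (h i).2.1, ?_⟩
  rw [show avgv F - avgv F₀ - e * avgv F₁ = avgv fun i => F i - F₀ i - e * F₁ i by
    simp only [avgv, Finset.sum_sub_distrib, sub_div, ← Finset.mul_sum]; ring]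
  exact abs_avgv_le (by positivity) fun i => (h i).2.2

/-! ### the step -/

lemma pZero_bound {β c s : ℝ} {m : Fin n → ℝ} (hβ0 : 0 ≤ β) (hβ : β < 1) (hc : 0 ≤ c)
    (hs : s ∈ Set.Icc (0 : ℝ) 1) (hm : ∀ i, |m i| ≤ 1) :
    |pZero β c s (prof m)| ≤ (c + 2) / (1 - β ^ 2) ∧ aCoef β s * rTwo (prof m) ≤ β ^ 2 := by
  have ha : aCoef β s ≤ β ^ 2 :=
    mul_le_of_le_one_right (sq_nonneg β) (pow_le_one₀ (by linarith [hs.2]) (by linarith [hs.1]))
  have ha0 : 0 ≤ aCoef β s := mul_nonneg (sq_nonneg _) (sq_nonneg _)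
  obtain ⟨hr0, hr1⟩ := rTwo_mem hm
  have h2 : aCoef β s * rTwo (prof m) ≤ β ^ 2 := (mul_le_of_le_one_right ha0 hr1).trans ha
  have hb : β ^ 2 < 1 := pow_lt_one₀ hβ0 hβ two_ne_zero
  refine ⟨?_, h2⟩
  rw [pZero, abs_div, abs_of_pos (by linarith : 0 < 1 - aCoef β s * rTwo (prof m))]
  refine div_le_div₀ (by linarith) ((abs_add_le _ _).trans ?_) (by linarith) (by linarith)
  rw [abs_of_nonneg hc, abs_mul, abs_mul, abs_mul, abs_two, abs_of_nonneg (sq_nonneg β)]
  have h3 : |1 - s| ≤ 1 := abs_le.2 ⟨by linarith [hs.2], by linarith [hs.1]⟩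
  have h4 : |avgv (prof m)| ≤ 1 := abs_avgv_le zero_le_one fun i => by
    rw [abs_of_nonneg (abs_prof hm i).1]; exact (abs_prof hm i).2
  have h5 : 2 * β ^ 2 * |1 - s| * |avgv (prof m)| ≤ 2 * 1 * 1 :=
    mul_le_mul (mul_le_mul (by linarith) h3 (abs_nonneg _) zero_le_two) h4 (abs_nonneg _) (by norm_num)
  linarith

lemma cplMat_transpose (β : ℝ) (g : Edge n → ℝ) : (Matrix.of (cpl β g))ᵀ = Matrix.of (cpl β g) := by
  ext i j; simp [cpl, coupling_symm g i j]

lemma resH_eq (β u θ : ℝ) (g : Edge n → ℝ) (D : Fin n → ℝ) : resH β u θ g D = hOf (resV β u θ g D) D := rfl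

lemma resV_transpose (β u θ : ℝ) (g : Edge n → ℝ) (D : Fin n → ℝ) :
    (resV β u θ g D)ᵀ = resV β u θ g D := by
  rw [resV, Matrix.transpose_sub, Matrix.transpose_smul, Matrix.transpose_one, Matrix.transpose_smul,
    cplMat_transpose]

lemma coer_of_form (hD : ∀ i, 0 < D i) (h : ∀ v : Fin n → ℝ, η * ∑ j, (D j * v j) ^ 2 ≤
      ∑ j, D j * v j ^ 2 + dotProduct (fun j => D j * v j) (V *ᵥ fun j => D j * v j)) : Coer η V D := by
  intro v
  have hv := h fun j => v j / D j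
  simp only [show ∀ j, D j * (v j / D j) = v j from fun j => mul_div_cancel₀ _ (hD j).ne'] at hv
  refine hv.trans (le_of_eq ?_)
  rw [Matrix.add_mulVec, dotProduct_add, quad_diag]
  congr 1
  exact Finset.sum_congr rfl fun j _ => by field_simp [(hD j).ne']

lemma gamTwo_zero (D : Fin n → ℝ) : gamTwo 0 D = rTwo D := by simp [gamTwo, resWeight, rTwo, avgv]

lemma resShift_zero (β s : ℝ) (D : Fin n → ℝ) : resShift β (1 - s) 0 D = aCoef β s * avgv D := by
  simp [resShift, aCoef, avgv]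

lemma avgv_D2w (p₀ : ℝ) (D : Fin n → ℝ) :
    avgv (fun i => D i ^ 2 * (2 * (p₀ * D i)) + 0 * 1) = 2 * p₀ * rThree D := by
  simp only [avgv, rThree, ← mul_div_assoc, Finset.mul_sum]
  congr 1; exact Finset.sum_congr rfl fun i _ => by ring

lemma avgv_Dz (p₀ : ℝ) (D : Fin n → ℝ) : avgv (fun i => D i * (p₀ * D i) + 0 * 1) = p₀ * rTwo D := by
  simp only [avgv, rTwo, ← mul_div_assoc, Finset.mul_sum]
  congr 1; exact Finset.sum_congr rfl fun i _ => by ring

/-- expansion of the scalars along the path -/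
theorem scalar_step {β c : ℝ} (hβ0 : 0 ≤ β) (hβ : β < 1) (hc : 0 ≤ c) :
    ∃ B e₀ : ℝ, 1 ≤ B ∧ 0 < e₀ ∧ ∀ {n : ℕ} {s : ℝ} (_ : s ∈ Set.Icc (0 : ℝ) 1) {m : Fin n → ℝ}
      (_ : ∀ i, |m i| ≤ 1) {e : ℝ}, 0 < e → e ≤ e₀ →
      |-(e * pZero β c s (prof m))| ≤ 1 / 2 ∧
      β ^ 2 * (1 - s + e) ^ 2 * gamTwo (-(e * pZero β c s (prof m))) (prof m) ≤ (1 + β ^ 2) / 2 ∧
      |resShift β (1 - s + e) (-(e * pZero β c s (prof m))) (prof m)| ≤ B ∧
      |resShift β (1 - s + e) (-(e * pZero β c s (prof m))) (prof m) - resShift β (1 - s) 0 (prof m) + e * c| ≤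
        B * e ^ 2 ∧
      (∀ j, |resPhi (-(e * pZero β c s (prof m))) (prof m) j / e - pZero β c s (prof m)| ≤ B * e) ∧
      ∀ j k, |(β ^ 2 * (1 - s + e) ^ 2 /
            (1 - β ^ 2 * (1 - s + e) ^ 2 * gamTwo (-(e * pZero β c s (prof m))) (prof m)) *
            resWeight (-(e * pZero β c s (prof m))) (prof m) j * resWeight (-(e * pZero β c s (prof m))) (prof m) k
          - kOne β s (prof m)) / (2 * e)
          - (kTwo β c s (prof m) / 2 + pZero β c s (prof m) * kOne β s (prof m) * (prof m j + prof m k))| ≤ B * e := by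
  set P := (c + 2) / (1 - β ^ 2)
  set l := (1 - β ^ 2) / 2
  have hb : β ^ 2 < 1 := pow_lt_one₀ hβ0 hβ two_ne_zero
  have hl : 0 < l := by positivity
  have hP : 0 ≤ P := div_nonneg (by linarith) (by linarith)
  set Bz := 1 / (1 / 2) + (1 + P) / (1 / 2) ^ 2 + 3 * (1 + P) ^ 2 / (1 / 2) ^ 3
  have hBz : 0 ≤ Bz := by positivity
  set Bw := 6 * Bz * Bz
  set Ba : ℝ := 6 * 1 * 4
  set Bg := 6 * 1 * Bw
  set Bx := (1 : ℝ) + 6 * Ba * Bg
  set Bi := 1 / l + Bx / l ^ 2 + 3 * Bx ^ 2 / l ^ 3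
  set Bk := 6 * (6 * (6 * Ba * Bi) * Bw) * Bw
  set Bb := (P + 1) + 6 * Ba * (6 * 1 * Bz)
  have hBb : 0 ≤ Bb := by positivity
  have hBk : 0 ≤ Bk := by positivity
  have hPz : 0 ≤ P * (2 * Bz) := by positivity
  set B := 1 + 3 * Bb + Bk + P * (2 * Bz)
  set e₀ := min (min 1 (1 / (4 * (P + 1)))) (l / (2 * Bx + 1))
  refine ⟨B, e₀, by simp only [B]; linarith, by positivity, fun {n s} hs {m} hm {e} he he0 => ?_⟩
  obtain ⟨hp, har⟩ := pZero_bound (n := n) hβ0 hβ hc hs hm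
  set D := prof m
  set p₀ := pZero β c s D
  set u := 1 - s
  have hu : 0 ≤ u ∧ u ≤ 1 := ⟨by linarith [hs.2], by linarith [hs.1]⟩
  have hDa : ∀ i, |D i| ≤ 1 := fun i => by rw [abs_of_nonneg (abs_prof hm i).1]; exact (abs_prof hm i).2
  have hD2 : ∀ i, |D i ^ 2| ≤ 1 := fun i => by rw [abs_pow]; exact pow_le_one₀ (abs_nonneg _) (hDa i)
  have he1 : e ≤ 1 := he0.trans ((min_le_left _ _).trans (min_le_left _ _))
  have he4 : e * P ≤ 1 / 4 := by
    have h1 := (le_div_iff₀ (by positivity)).1 (he0.trans ((min_le_left _ _).trans (min_le_right _ _)))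
    linarith
  have hex : e * (2 * Bx) ≤ l := by
    have h1 := (le_div_iff₀ (by positivity)).1 (he0.trans (min_le_right _ _))
    linarith
  set θ := -(e * p₀)
  set z := fun j => (1 + θ * D j)⁻¹
  have hθ : |θ| ≤ 1 / 4 := by
    rw [abs_neg, abs_mul, abs_of_pos he]; exact (mul_le_mul_of_nonneg_left hp he.le).trans he4
  have hz0 : ∀ j, 1 / 2 ≤ 1 + θ * D j := fun j => by
    have : |θ * D j| ≤ 1 / 4 := by
      rw [abs_mul]; exact (mul_le_of_le_one_right (abs_nonneg θ) (hDa j)).trans hθ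
    linarith [abs_le.1 this]
  have tz : ∀ j, T1 e Bz (z j) 1 (p₀ * D j) := fun j => by
    have h := t1_affine (e := e) (f₀ := 1) (f₁ := -(p₀ * D j)) (B := 1 + P) (by rw [abs_one]; linarith)
      (by rw [abs_neg, abs_mul]; linarith [mul_le_of_le_one_right (abs_nonneg p₀) (hDa j)])
    rw [show 1 + e * -(p₀ * D j) = 1 + θ * D j by simp only [θ]; ring] at h
    have h2 := h.inv he.le he1 (by norm_num : (0:ℝ) < 1 / 2) (hz0 j) (by norm_num)
    rw [inv_one, one_pow, div_one, neg_neg] at h2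
    exact h2
  have tw : ∀ j, T1 e Bw (resWeight θ D j) 1 (2 * (p₀ * D j)) := fun j => by
    have h := (tz j).mul he.le he1 (tz j)
    rw [show z j * z j = resWeight θ D j by simp [z, resWeight, sq], one_mul, mul_one] at h
    simpa [two_mul] using h
  have ta : T1 e Ba (β ^ 2 * (u + e) ^ 2) (aCoef β s) (β ^ 2 * (2 * u)) := by
    have h : T1 e 4 ((u + e) ^ 2) (u ^ 2) (2 * u) := ⟨by
        rw [abs_pow, abs_of_nonneg hu.1]; linarith [pow_le_one₀ (n := 2) hu.1 hu.2],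
      by rw [abs_of_nonneg (by linarith)]; linarith, by
        rw [show (u + e) ^ 2 - u ^ 2 - e * (2 * u) = e ^ 2 by ring, abs_of_nonneg (sq_nonneg e)]
        linarith [sq_nonneg e]⟩
    have h2 := (t1_const (e := e) (f₀ := β ^ 2) (B := 1) (by rw [abs_of_nonneg (sq_nonneg β)]; linarith)).mul he.le he1 h
    rw [zero_mul, add_zero] at h2
    exact h2
  have tg : T1 e Bg (gamTwo θ D) (rTwo D) (2 * p₀ * rThree D) := by
    have h := T1.avg (e := e) (fun j => (t1_const (e := e) (hD2 j)).mul he.le he1 (tw j)) (by positivity)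
    rw [avgv_D2w, show (fun j => D j ^ 2 * (1 : ℝ)) = fun j => D j ^ 2 from funext fun j => mul_one _] at h
    exact h
  have tx : T1 e Bx (1 - β ^ 2 * (u + e) ^ 2 * gamTwo θ D) (1 - aCoef β s * rTwo D)
      (-(aCoef β s * (2 * p₀ * rThree D) + β ^ 2 * (2 * u) * rTwo D)) := by
    obtain ⟨h1, h2, h3⟩ := (ta.mul he.le he1 tg)
    have hone : T1 e 1 (1 : ℝ) 1 0 := t1_const abs_one.le
    have := hone.add (show T1 e (6 * Ba * Bg) (-(β ^ 2 * (u + e) ^ 2 * gamTwo θ D)) (-(aCoef β s * rTwo D))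
      (-(aCoef β s * (2 * p₀ * rThree D) + β ^ 2 * (2 * u) * rTwo D)) from
      ⟨by rwa [abs_neg], by rwa [abs_neg], by
        rw [show ∀ a b d : ℝ, -a - -b - e * -d = -(a - b - e * d) from fun a b d => by ring, abs_neg]; exact h3⟩)
    rw [zero_add] at this
    simp only [← sub_eq_add_neg] at this
    exact this
  have hl2 : 2 * l = 1 - β ^ 2 := by simp only [l]; ring
  have hx : l ≤ 1 - β ^ 2 * (u + e) ^ 2 * gamTwo θ D := by
    have h1 := (abs_le.1 ((tx.lin he.le he1))).1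
    linarith
  have tk : T1 e (6 * Ba * Bi) (β ^ 2 * (u + e) ^ 2 / (1 - β ^ 2 * (u + e) ^ 2 * gamTwo θ D)) (kOne β s D)
      (kTwo β c s D) := by
    have hne : (1 - aCoef β s * rTwo D) ≠ 0 := by linarith
    have h := ta.mul he.le he1 (tx.inv he.le he1 hl hx (by linarith))
    rw [← div_eq_mul_inv, ← div_eq_mul_inv] at h
    convert h using 1
    · rfl
    rw [show kTwo β c s D = (2 * β ^ 2 * u + 2 * p₀ * aCoef β s ^ 2 * rThree D) / (1 - aCoef β s * rTwo D) ^ 2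
      from rfl]
    field_simp
    ring
  have tb : T1 e Bb (resShift β (u + e) θ D) (resShift β u 0 D) (-c) := by
    have hb := (t1_affine (e := e) (f₀ := (0 : ℝ)) (f₁ := -p₀) (B := P + 1) (by rw [abs_zero]; linarith)
      (by rw [abs_neg]; linarith)).add (ta.mul he.le he1
        (T1.avg (fun j => (t1_const (e := e) (hDa j)).mul he.le he1 (tz j)) (by positivity)))
    have e1 : avgv (fun i => D i * 1) = avgv D := by simp
    rw [e1, avgv_Dz, show 0 + e * -p₀ + β ^ 2 * (u + e) ^ 2 * avgv (fun i => D i * z i) = resShift β (u + e) θ D by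
      simp [resShift, θ, z, avgv, div_eq_mul_inv]] at hb
    have e3 : -p₀ + (aCoef β s * (p₀ * rTwo D) + β ^ 2 * (2 * u) * avgv D) = -c := by
      have h2 : p₀ * (1 - aCoef β s * rTwo D) = c + 2 * β ^ 2 * u * avgv D :=
        div_mul_cancel₀ _ (by linarith : 1 - aCoef β s * rTwo D ≠ 0)
      linear_combination -h2
    rw [e3, zero_add, ← resShift_zero] at hb
    exact hb
  refine ⟨by linarith, by linarith, (tb.size he.le he1).trans (by simp only [B]; linarith), ?_, fun j => ?_, fun j k => ?_⟩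
  · have := tb.2.2
    rw [mul_neg, sub_neg_eq_add] at this
    exact this.trans (mul_le_mul_of_nonneg_right (by simp only [B]; linarith) (sq_nonneg e))
  · rw [resPhi, show -θ / (1 + θ * D j) / e = p₀ * z j by simp only [θ, z]; field_simp,
      show p₀ * z j - p₀ = p₀ * (z j - 1) by ring, abs_mul]
    calc |p₀| * |z j - 1| ≤ P * (2 * Bz * e) := mul_le_mul hp ((tz j).lin he.le he1) (abs_nonneg _) hP
      _ = P * (2 * Bz) * e := by ring
      _ ≤ B * e := mul_le_mul_of_nonneg_right (by simp only [B]; linarith) he.le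
  · obtain ⟨-, -, h3⟩ := ((tk.mul he.le he1 (tw j)).mul he.le he1 (tw k))
    simp only [mul_one] at h3
    set f := β ^ 2 * (u + e) ^ 2 / (1 - β ^ 2 * (u + e) ^ 2 * gamTwo θ D) * resWeight θ D j * resWeight θ D k
    rw [show (f - kOne β s D) / (2 * e) - (kTwo β c s D / 2 + p₀ * kOne β s D * (D j + D k)) =
      (f - kOne β s D - e * (kOne β s D * (2 * (p₀ * D k)) + (kOne β s D * (2 * (p₀ * D j)) + kTwo β c s D))) /
        (2 * e) by field_simp; ring, abs_div, abs_of_pos (by linarith : 0 < 2 * e)]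
    refine (div_le_iff₀ (by linarith)).2 (h3.trans ?_)
    have hCB : Bk ≤ B := by simp only [B]; linarith
    calc Bk * e ^ 2 ≤ B * e ^ 2 := mul_le_mul_of_nonneg_right hCB (sq_nonneg e)
      _ ≤ B * e * (2 * e) := by
          have : 0 ≤ B * e ^ 2 := mul_nonneg (hBk.trans hCB) (sq_nonneg e)
          linarith

lemma norm_resV_le {β u θ M : ℝ} {g : Edge n → ℝ} {D : Fin n → ℝ} (hW : ‖Matrix.of (cpl β g)‖ ≤ 3)
    (hu : |u| ≤ 2) (hb : |resShift β u θ D| ≤ M) : ‖resV β u θ g D‖ ≤ 6 + M := by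
  rw [resV]
  refine (norm_sub_le _ _).trans ?_
  rw [norm_smul, norm_smul, Real.norm_eq_abs, Real.norm_eq_abs, add_comm (6 : ℝ)]
  exact add_le_add ((mul_le_mul hb PsiLip.norm_one_le (norm_nonneg _) ((abs_nonneg _).trans hb)).trans_eq (mul_one _))
    ((mul_le_mul hu hW (norm_nonneg _) zero_le_two).trans_eq (by norm_num))

/-- the finite difference, uniform in `n`, the disorder, the time and the profile -/
theorem pure_step {β η c : ℝ} (hβ0 : 0 ≤ β) (hβ : β < 1) (hη : 0 < η) (hη' : η ≤ (1 - β ^ 2) / 2) (hc : 0 ≤ c) :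
    ∃ C e₀ : ℝ, 0 < C ∧ 0 < e₀ ∧ ∀ {n : ℕ} (g : Edge n → ℝ) (_ : ‖Matrix.of (cpl β g)‖ ≤ 3)
      {s : ℝ} (_ : s ∈ Set.Icc (0 : ℝ) 1) {m : Fin n → ℝ} (_ : ∀ i, |m i| < 1)
      (_ : Coer (2 * η) (resV β (1 - s) 0 g (prof m)) (prof m)),
      ‖resH β (1 - s) 0 g (prof m)‖ ≤ C ∧ Admissible β η (1 - s) 0 g (prof m) ∧
      ∀ {e : ℝ}, 0 < e → e ≤ e₀ →
        Admissible β η (1 - s + e) (-(e * pZero β c s (prof m))) g (prof m) ∧
        ‖resH β (1 - s + e) (-(e * pZero β c s (prof m))) g (prof m) - resH β (1 - s) 0 g (prof m)‖ ≤ C * e ∧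
        ‖(1 / e) • (resH β (1 - s + e) (-(e * pZero β c s (prof m))) g (prof m) - resH β (1 - s) 0 g (prof m))
            - pMat (Matrix.of (cpl β g) + c • 1) m (resH β (1 - s) 0 g (prof m))‖ ≤ C * e ∧
        (∀ j, |resPhi (-(e * pZero β c s (prof m))) (prof m) j / e - pZero β c s (prof m)| ≤ C * e) ∧
        ∀ j k, |(β ^ 2 * (1 - s + e) ^ 2 /
              (1 - β ^ 2 * (1 - s + e) ^ 2 * gamTwo (-(e * pZero β c s (prof m))) (prof m)) *
              resWeight (-(e * pZero β c s (prof m))) (prof m) j * resWeight (-(e * pZero β c s (prof m))) (prof m) k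
            - kOne β s (prof m)) / (2 * e)
            - (kTwo β c s (prof m) / 2 + pZero β c s (prof m) * kOne β s (prof m) * (prof m j + prof m k))| ≤ C * e := by
  obtain ⟨B, e₁, hB, he₁, hS⟩ := scalar_step hβ0 hβ hc
  have hb : β ^ 2 < 1 := pow_lt_one₀ hβ0 hβ two_ne_zero
  set L := (6 + B) + (6 + B) * (1 / η) * (6 + B)
  have hL : 0 ≤ L := by positivity
  set C0 := (1 + L) ^ 2 * (3 + c + B)
  have hC0 : 0 ≤ C0 := by positivity
  set C := L + C0 + (C0 * (3 + c) * (1 + L) + (1 + L) ^ 2 * B) + B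
  set e₀ := min (min 1 e₁) (η / (3 + c + B))
  have hC0' : 0 ≤ C0 * (3 + c) * (1 + L) + (1 + L) ^ 2 * B := by positivity
  refine ⟨C, e₀, by positivity, by positivity, fun {n} g hW {s} hs {m} hm hV0 => ?_⟩
  have hD : ∀ i, 0 < prof m i := fun i => by show 0 < 1 - m i ^ 2; nlinarith [abs_lt.1 (hm i)]
  have hm' : ∀ i, |m i| ≤ 1 := fun i => (hm i).le
  have hu : |1 - s| ≤ 1 := abs_le.2 ⟨by linarith [hs.2], by linarith [hs.1]⟩
  have hL' : ∀ {V : Matrix (Fin n) (Fin n) ℝ}, ‖V‖ ≤ 6 + B → ‖V‖ + ‖V‖ * (1 / η) * ‖V‖ ≤ L := fun {V} h =>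
    add_le_add h (mul_le_mul (mul_le_mul_of_nonneg_right h (by positivity)) h (norm_nonneg _) (by positivity))
  have hb0 : |resShift β (1 - s) 0 (prof m)| ≤ B := by
    rw [resShift_zero, abs_mul]
    exact (mul_le_one₀ (PsiLip.coef_bounds (by rw [abs_of_nonneg hβ0]; exact hβ.le) hs).2.1 (abs_nonneg _)
      (abs_avgv_le zero_le_one fun i => by
        rw [abs_of_nonneg (abs_prof hm' i).1]; exact (abs_prof hm' i).2)).trans hB
  obtain ⟨-, -, -, hH0⟩ := hOf_facts hη hD (resV_transpose β (1 - s) 0 g (prof m)) (coer_mono hV0 (by linarith))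
  have hH0L : ‖resH β (1 - s) 0 g (prof m)‖ ≤ L :=
    hH0.trans (hL' (norm_resV_le hW (by linarith) hb0))
  refine ⟨hH0L.trans (by simp only [C]; linarith), ⟨by linarith [hs.2], by linarith [hs.1], by norm_num,
    fun j => abs_prof hm' j, ?_, form_of_coer hD (coer_mono hV0 (by linarith))⟩, fun {e} he he0 => ?_⟩
  · rw [gamTwo_zero]
    show aCoef β s * rTwo (prof m) ≤ _
    linarith [(pZero_bound hβ0 hβ hc hs hm').2]
  have he1 : e ≤ 1 := he0.trans ((min_le_left _ _).trans (min_le_left _ _))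
  obtain ⟨hθ, hgam, hbs, hbd, hphi, hk⟩ := hS hs hm' he (he0.trans ((min_le_left _ _).trans (min_le_right _ _)))
  have heη : e * (3 + c + B) ≤ η := (le_div_iff₀ (by positivity)).1 (he0.trans (min_le_right _ _))
  set D := prof m
  set θ := -(e * pZero β c s D)
  set A0 := Matrix.of (cpl β g) + c • (1 : Matrix (Fin n) (Fin n) ℝ)
  set d := resShift β (1 - s + e) θ D - resShift β (1 - s) 0 D + e * c
  have hd : |d| ≤ B * e := hbd.trans (by
    rw [sq, ← mul_assoc]; exact mul_le_of_le_one_right (by positivity) he1)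
  have hA0 : ‖A0‖ ≤ 3 + c := (norm_add_le _ _).trans (add_le_add hW (by
    rw [norm_smul, Real.norm_eq_abs, abs_of_nonneg hc]; exact mul_le_of_le_one_right hc PsiLip.norm_one_le))
  have hdV : resV β (1 - s + e) θ g D - resV β (1 - s) 0 g D = d • 1 - e • A0 := by
    simp only [resV, d, A0]; module
  have hVe : Coer η (resV β (1 - s + e) θ g D) D := by
    refine coer_mono (coer_of_norm (δ := e * (3 + c + B)) hV0 ?_) (by linarith)
    rw [hdV]
    refine (norm_sub_le _ _).trans ?_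
    rw [norm_smul, norm_smul, Real.norm_eq_abs, Real.norm_eq_abs, abs_of_pos he]
    calc _ ≤ B * e * 1 + e * (3 + c) := add_le_add (mul_le_mul hd PsiLip.norm_one_le (norm_nonneg _)
          (by positivity)) (mul_le_mul_of_nonneg_left hA0 he.le)
      _ = e * (3 + c + B) := by ring
  obtain ⟨-, -, -, hHe⟩ := hOf_facts hη hD (resV_transpose β (1 - s + e) θ g D) hVe
  have hHeL : ‖resH β (1 - s + e) θ g D‖ ≤ L := hHe.trans (hL' (norm_resV_le hW
    (abs_le.2 ⟨by linarith [(abs_le.1 hu).1], by linarith [(abs_le.1 hu).2]⟩) hbs))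
  set He := resH β (1 - s + e) θ g D
  set H0 := resH β (1 - s) 0 g D
  have hsub : He - H0 = e • ((1 + He * diagonal D) * A0 * (1 + diagonal D * H0)) -
      d • ((1 + He * diagonal D) * (1 + diagonal D * H0)) := by
    have h := hOf_sub hη (show (0:ℝ) < 2 * η by linarith) hD (resV_transpose β (1 - s + e) θ g D)
      (resV_transpose β (1 - s) 0 g D) hVe hV0
    rw [← resH_eq, ← resH_eq, hdV] at h
    rw [h, Matrix.mul_sub, Matrix.sub_mul, Matrix.mul_smul, Matrix.mul_one, Matrix.smul_mul, Matrix.mul_smul,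
      Matrix.smul_mul, neg_sub]
  have hDn : ‖diagonal D‖ ≤ 1 := norm_diagonal_le zero_le_one fun i => by
    rw [abs_of_nonneg (abs_prof hm' i).1]; exact (abs_prof hm' i).2
  have q1 : ‖1 + He * diagonal D‖ ≤ 1 + L := (norm_add_le _ _).trans (add_le_add PsiLip.norm_one_le
    ((norm_mul_le _ _).trans ((mul_le_mul hHeL hDn (norm_nonneg _) hL).trans_eq (mul_one _))))
  have q2 : ‖1 + diagonal D * H0‖ ≤ 1 + L := (norm_add_le _ _).trans (add_le_add PsiLip.norm_one_le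
    ((norm_mul_le _ _).trans ((mul_le_mul hDn hH0L (norm_nonneg _) zero_le_one).trans_eq (one_mul _))))
  have hprod : ‖(1 + He * diagonal D) * (1 + diagonal D * H0)‖ ≤ (1 + L) ^ 2 := (norm_mul_le _ _).trans
    ((mul_le_mul q1 q2 (norm_nonneg _) (by positivity)).trans_eq (by ring))
  have hd1 : ‖He - H0‖ ≤ C0 * e := by
    rw [hsub]
    refine (norm_sub_le _ _).trans ?_
    rw [norm_smul, norm_smul, Real.norm_eq_abs, Real.norm_eq_abs, abs_of_pos he]
    calc _ ≤ e * ((1 + L) * (3 + c) * (1 + L)) + B * e * (1 + L) ^ 2 := add_le_add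
          (mul_le_mul_of_nonneg_left ((norm_mul_le _ _).trans (mul_le_mul ((norm_mul_le _ _).trans
            (mul_le_mul q1 hA0 (norm_nonneg _) (by positivity))) q2 (norm_nonneg _) (by positivity))) he.le)
          (mul_le_mul hd hprod (norm_nonneg _) (by positivity))
      _ = C0 * e := by simp only [C0]; ring
  have hCB : B * e ≤ C * e := mul_le_mul_of_nonneg_right (by simp only [C]; linarith) he.le
  refine ⟨⟨by linarith [(abs_le.1 hu).1, hs.2], by linarith [hs.1], hθ, fun j => abs_prof hm' j,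
      hgam.trans (by linarith), form_of_coer hD hVe⟩,
    hd1.trans (mul_le_mul_of_nonneg_right (by simp only [C]; linarith) he.le), ?_,
    fun j => (hphi j).trans hCB, fun j k => (hk j k).trans hCB⟩
  have key : (1 / e) • (He - H0) - pMat A0 m H0 =
      (He - H0) * diagonal D * A0 * (1 + diagonal D * H0) - (d / e) • ((1 + He * diagonal D) * (1 + diagonal D * H0)) := by
    have : (1 / e) • (He - H0) = (1 + He * diagonal D) * A0 * (1 + diagonal D * H0) -
        (d / e) • ((1 + He * diagonal D) * (1 + diagonal D * H0)) := by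
      rw [hsub, smul_sub, smul_smul, smul_smul, one_div_mul_cancel he.ne', one_smul, one_div_mul_eq_div]
    rw [this, pMat, show dMat m = diagonal D from rfl]
    noncomm_ring
  rw [key]
  refine (norm_sub_le _ _).trans ?_
  rw [norm_smul, Real.norm_eq_abs, abs_div, abs_of_pos he]
  refine (add_le_add (b := C0 * e * (3 + c) * (1 + L)) (d := B * (1 + L) ^ 2 * e) ?_ ?_).trans ?_
  · refine (norm_mul_le _ _).trans (mul_le_mul ((norm_mul_le _ _).trans (mul_le_mul ((norm_mul_le _ _).trans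
      ((mul_le_mul hd1 hDn (norm_nonneg _) (by positivity)).trans_eq (mul_one _))) hA0 (norm_nonneg _)
      (by positivity))) q2 (norm_nonneg _) (by positivity))
  · refine (mul_le_mul ((div_le_iff₀ he).2 (hbd.trans_eq (show B * e ^ 2 = B * e * e by ring))) hprod
      (norm_nonneg _) (by positivity)).trans_eq (by ring)
  · calc _ = (C0 * (3 + c) * (1 + L) + (1 + L) ^ 2 * B) * e := by ring
      _ ≤ C * e := mul_le_mul_of_nonneg_right (by simp only [C]; linarith) he.le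

end Vale.Agent.P150.High.Cert
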