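import Vale.Agent.P150.High.CertPure
import Vale.Agent.P150.High.AmpSpec

/-!
# P150, certificate: from the pure resolvents to the tilted couplings

The tilt adds three rank one terms and a small diagonal.  Their Frobenius norm is `O(1)`; in
operator norm they only enter through rows of the form `(H D u)_j / √n`, small by `BallMax`.
-/

open Matrix Vale.Agent.P150.Fast
open scoped Matrix.Norms.L2Operator

namespace Vale.Agent.P150.High.Cert

open Vale.Agent.P150.PartB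

variable {n : ℕ}

/-- the tilted couplings -/
noncomputable def tiltMat (β : ℝ) (g : Edge n → ℝ) (ξ : Fin n → ℝ) : Matrix (Fin n) (Fin n) ℝ :=
  Matrix.of (tiltCpl β g ξ)

/-- rows of norm at most `δ` -/
def RowLe (X : Matrix (Fin n) (Fin n) ℝ) (δ : ℝ) : Prop := ∀ i, nrm (fun j => X i j) ≤ δ

variable {X Y : Matrix (Fin n) (Fin n) ℝ} {δ δ' : ℝ}

lemma RowLe.mono (h : RowLe X δ) (hle : δ ≤ δ') : RowLe X δ' := fun i => (h i).trans hle

lemma RowLe.add (h : RowLe X δ) (h' : RowLe Y δ') : RowLe (X + Y) (δ + δ') := fun i =>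
  (nrm_add _ _).trans (add_le_add (h i) (h' i))

lemma RowLe.smul (h : RowLe X δ) (r : ℝ) : RowLe (r • X) (|r| * δ) := fun i =>
  (nrm_smul r fun j => X i j).le.trans (mul_le_mul_of_nonneg_left (h i) (abs_nonneg r))

lemma RowLe.neg (h : RowLe X δ) : RowLe (-X) δ := by simpa using h.smul (-1)

lemma RowLe.mul_right (h : RowLe X δ) (Y : Matrix (Fin n) (Fin n) ℝ) : RowLe (X * Y) (‖Y‖ * δ) := fun i => by
  have e : (fun j => (X * Y) i j) = Yᵀ *ᵥ fun j => X i j := by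
    funext j; simp [Matrix.mul_apply, Matrix.mulVec, dotProduct, mul_comm]
  rw [e]
  have hT : ‖Yᵀ‖ ≤ ‖Y‖ := OpNorm.opLe_iff_norm_le.1 (OpNorm.opLe_iff_norm_le.2 le_rfl).transpose
  exact (nrm_mulVec_le _ _).trans (mul_le_mul hT (h i) (nrm_nonneg _) (norm_nonneg _))

lemma rowLe_norm (X : Matrix (Fin n) (Fin n) ℝ) : RowLe X ‖X‖ := fun i => by
  rw [← Real.sqrt_sq (norm_nonneg X)]
  exact Real.sqrt_le_sqrt ((OpNorm.opLe_iff_norm_le.2 le_rfl).row i)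

lemma rowLe_vmv {a b : Fin n → ℝ} {τ : ℝ} (ha : ∀ i, |a i| ≤ τ) : RowLe (vecMulVec a b) (τ * nrm b) := fun i => by
  simp only [vecMulVec_apply]
  rw [nrm_smul]
  exact mul_le_mul_of_nonneg_right (ha i) (nrm_nonneg _)

lemma RowLe.diag (h : RowLe X δ) (i : Fin n) : |X i i| ≤ δ := by
  refine le_trans (Real.abs_le_sqrt ?_) (h i)
  exact Finset.single_le_sum (f := fun j => X i j ^ 2) (fun j _ => sq_nonneg _) (Finset.mem_univ i)

lemma RowLe.hadamard (h : RowLe X δ) (hδ : 0 ≤ δ) (Y : Matrix (Fin n) (Fin n) ℝ) : ‖X ⊙ Y‖ ≤ δ * ‖Y‖ :=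
  OpNorm.opLe_iff_norm_le.1 (OpNorm.opLe_hadamard_of_row_col hδ (norm_nonneg Y)
    (fun i => (Real.sqrt_le_iff.1 (h i)).2) (OpNorm.opLe_iff_norm_le.2 le_rfl).col)

lemma highOpLe_norm {M : Matrix (Fin n) (Fin n) ℝ} {L : ℝ} (hL : 0 ≤ L) (h : High.OpLe M L) : ‖M‖ ≤ L :=
  OpNorm.opLe_iff_norm_le.1 (OpNorm.opLe_of_bilin hL fun v w => by
    rw [OpNorm.nsq_eq_dot, OpNorm.nsq_eq_dot]; exact h v w)

/-! ### the tilt -/

/-- three rank one terms and a diagonal -/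
noncomputable def spikeMat (c₁ c₂ c₃ : ℝ) (ξ m d : Fin n → ℝ) : Matrix (Fin n) (Fin n) ℝ :=
  (c₁ / n) • vecMulVec (fun _ => 1) (fun _ => 1) + (c₂ / n) • vecMulVec ξ ξ + (c₃ / n) • vecMulVec m m
    + diagonal d

variable {β s : ℝ} {g : Edge n → ℝ} {ξ m : Fin n → ℝ}

lemma tiltMat_eq (β : ℝ) (g : Edge n → ℝ) (ξ m : Fin n → ℝ) :
    tiltMat β g ξ = Matrix.of (cpl β g) +
      spikeMat (β ^ 2) (-β ^ 2) 0 ξ m (fun i => -(β ^ 2 / n * (1 - ξ i ^ 2))) := by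
  ext i j
  rcases eq_or_ne i j with rfl | h
  · simp [tiltMat, tiltCpl, spikeMat, vecMulVec_apply]; ring
  · simp [tiltMat, tiltCpl, spikeMat, vecMulVec_apply, h]; ring

lemma vMat_eq_spike (hn : 0 < n) (β s : ℝ) (g : Edge n → ℝ) (ξ m : Fin n → ℝ) :
    vMat β s (tiltMat β g ξ) m = resV β (1 - s) 0 g (prof m) +
      spikeMat (-((1 - s) * β ^ 2)) ((1 - s) * β ^ 2) (-(2 * aCoef β s)) ξ m
        (fun i => (1 - s) * (β ^ 2 / n * (1 - ξ i ^ 2))) := by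
  rw [vMat, resV, resShift_zero, qv_eq hn, tiltMat_eq β g ξ m, spikeMat, spikeMat]
  ext i j
  simp only [Matrix.add_apply, Matrix.sub_apply, Matrix.smul_apply, smul_eq_mul, vecMulVec_apply,
    Matrix.diagonal_apply, Matrix.one_apply]
  split_ifs <;> ring

/-- size of the spikes -/
lemma spike_norms (hn : 0 < n) {c₁ c₂ c₃ : ℝ} (h₁ : |c₁| ≤ 2) (h₂ : |c₂| ≤ 2) (h₃ : |c₃| ≤ 2)
    (hξ : ∑ i, ξ i ^ 2 ≤ n) (hm : ∀ i, |m i| ≤ 1) {d : Fin n → ℝ} (hd : ∀ i, |d i| ≤ (1 + ξ i ^ 2) / n) :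
    ‖spikeMat c₁ c₂ c₃ ξ m d‖ ≤ 8 ∧ fnrm (spikeMat c₁ c₂ c₃ ξ m d) ≤ 8 := by
  have hn' : (0 : ℝ) < n := by exact_mod_cast hn
  have hn1 : (1 : ℝ) ≤ n := by exact_mod_cast hn
  have hsn : Real.sqrt n * Real.sqrt n = n := Real.mul_self_sqrt hn'.le
  have hone : nrm (fun _ : Fin n => (1 : ℝ)) ≤ Real.sqrt n :=
    (nrm_le_of_abs zero_le_one fun _ => abs_one.le).trans_eq (one_mul _)
  have hξn : nrm ξ ≤ Real.sqrt n := Real.sqrt_le_sqrt hξ
  have hmn : nrm m ≤ Real.sqrt n := (nrm_le_of_abs zero_le_one hm).trans_eq (one_mul _)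
  have t : ∀ {c : ℝ} {a : Fin n → ℝ}, |c| ≤ 2 → nrm a ≤ Real.sqrt n →
      ‖(c / n) • vecMulVec a a‖ ≤ 2 ∧ fnrm ((c / n) • vecMulVec a a) ≤ 2 := fun {c a} hc ha => by
    have hb : |c / n| * (Real.sqrt n * Real.sqrt n) ≤ 2 := by
      rw [hsn, abs_div, Nat.abs_cast, div_mul_cancel₀ _ hn'.ne']; exact hc
    rw [norm_smul, Real.norm_eq_abs, PsiLip.sem_fnrm.smul]
    exact ⟨(mul_le_mul_of_nonneg_left ((norm_vmv_le a a).1.trans (mul_le_mul ha ha (nrm_nonneg _)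
        (Real.sqrt_nonneg _))) (abs_nonneg _)).trans hb,
      (mul_le_mul_of_nonneg_left ((norm_vmv_le a a).2.trans (mul_le_mul ha ha (nrm_nonneg _)
        (Real.sqrt_nonneg _))) (abs_nonneg _)).trans hb⟩
  have td : ‖diagonal d‖ ≤ 2 ∧ fnrm (diagonal d) ≤ 2 := by
    have hmax : ∀ i, |d i| ≤ 2 := fun i => (hd i).trans (by
      rw [div_le_iff₀ hn']
      have := (Finset.single_le_sum (fun j _ => sq_nonneg (ξ j)) (Finset.mem_univ i)).trans hξ
      linarith)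
    refine ⟨norm_diagonal_le two_pos.le hmax, ?_⟩
    rw [PsiLip.fnrm_diagonal, nrm, ← Real.sqrt_sq (zero_le_two (α := ℝ))]
    refine Real.sqrt_le_sqrt ?_
    have hsum : ∑ i, |d i| ≤ 2 := (Finset.sum_le_sum fun i _ => hd i).trans (by
      rw [← Finset.sum_div, div_le_iff₀ hn', Finset.sum_add_distrib]
      simp; linarith)
    calc ∑ i, d i ^ 2 ≤ ∑ i, 2 * |d i| := Finset.sum_le_sum fun i _ => by
          rw [← sq_abs, sq]; exact mul_le_mul_of_nonneg_right (hmax i) (abs_nonneg _)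
      _ = 2 * ∑ i, |d i| := (Finset.mul_sum _ _ _).symm
      _ ≤ 2 ^ 2 := by linarith
  obtain ⟨u1, v1⟩ := t h₁ hone
  obtain ⟨u2, v2⟩ := t h₂ hξn
  obtain ⟨u3, v3⟩ := t h₃ hmn
  constructor
  · exact ((norm_add_le _ _).trans (add_le_add ((norm_add_le _ _).trans (add_le_add ((norm_add_le _ _).trans
      (add_le_add u1 u2)) u3)) td.1)).trans (by norm_num)
  · exact ((PsiLip.sem_fnrm.add _ _).trans (add_le_add ((PsiLip.sem_fnrm.add _ _).trans
      (add_le_add ((PsiLip.sem_fnrm.add _ _).trans (add_le_add v1 v2)) v3)) td.2)).trans (by norm_num)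

/-- rows of `X` times the spikes -/
lemma spike_rows (hn : 0 < n) {c₁ c₂ c₃ τ δd : ℝ} (h₁ : |c₁| ≤ 2) (h₂ : |c₂| ≤ 2) (h₃ : |c₃| ≤ 2)
    (hξ : ∑ i, ξ i ^ 2 ≤ n) (hm : ∀ i, |m i| ≤ 1) {d : Fin n → ℝ} (hd : ∀ i, |d i| ≤ δd) (hδd : 0 ≤ δd)
    (hX : ∀ u : Fin n → ℝ, (u = (fun _ => 1) ∨ u = m ∨ u = ξ) → ∀ i, |(X *ᵥ u) i| ≤ τ * Real.sqrt n) :
    RowLe (X * spikeMat c₁ c₂ c₃ ξ m d) (6 * τ + ‖X‖ * δd) := by
  have hn' : (0 : ℝ) < n := by exact_mod_cast hn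
  have hsn : Real.sqrt n * Real.sqrt n = n := Real.mul_self_sqrt hn'.le
  have hτ : 0 ≤ τ := nonneg_of_mul_nonneg_left ((abs_nonneg _).trans (hX m (Or.inr (Or.inl rfl)) ⟨0, hn⟩))
    (Real.sqrt_pos.2 hn')
  have t : ∀ {c : ℝ} {a : Fin n → ℝ}, |c| ≤ 2 → (a = (fun _ => 1) ∨ a = m ∨ a = ξ) →
      nrm a ≤ Real.sqrt n → RowLe ((c / n) • (X * vecMulVec a a)) (2 * τ) := fun {c a} hc ha hn0 => by
    rw [show X * vecMulVec a a = vecMulVec (X *ᵥ a) a from Matrix.mul_vecMulVec X a a]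
    refine ((rowLe_vmv (hX a ha)).smul _).mono ?_
    rw [abs_div, Nat.abs_cast, div_mul_eq_mul_div, div_le_iff₀ hn']
    refine (mul_le_mul hc (mul_le_mul_of_nonneg_left hn0 (by positivity))
      (mul_nonneg (by positivity) (nrm_nonneg _)) two_pos.le).trans_eq ?_
    linear_combination 2 * τ * hsn
  have u1 := t h₁ (Or.inl rfl) ((nrm_le_of_abs zero_le_one fun _ => abs_one.le).trans_eq (one_mul _))
  have u2 := t h₂ (Or.inr (Or.inr rfl)) (Real.sqrt_le_sqrt hξ)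
  have u3 := t h₃ (Or.inr (Or.inl rfl)) ((nrm_le_of_abs zero_le_one hm).trans_eq (one_mul _))
  have ud : RowLe (X * diagonal d) (δd * ‖X‖) :=
    ((rowLe_norm X).mul_right (diagonal d)).mono
      (mul_le_mul_of_nonneg_right (norm_diagonal_le hδd hd) (norm_nonneg _))
  rw [spikeMat, Matrix.mul_add, Matrix.mul_add, Matrix.mul_add, Matrix.mul_smul, Matrix.mul_smul, Matrix.mul_smul]
  exact (((u1.add u2).add u3).add ud).mono (by linarith [mul_comm δd ‖X‖])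

/-! ### the margin -/

lemma coer_of_margin {η : ℝ} (hm : ∀ i, |m i| < 1) (h : Margin β η s (tiltCpl β g ξ) m) :
    Coer η (vMat β s (tiltMat β g ξ) m) (prof m) := by
  have hD : ∀ i, 0 < prof m i := fun i => by show 0 < 1 - m i ^ 2; nlinarith [abs_lt.1 (hm i)]
  refine coer_of_form hD fun w => (h w).trans (le_of_eq ?_)
  simp only [vMat, Matrix.sub_mulVec, Matrix.smul_mulVec, Matrix.one_mulVec, dotProduct_sub, dotProduct_smul,
    smul_eq_mul]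
  have e1 : (fun j => prof m j * w j) ⬝ᵥ (fun j => prof m j * w j) = ∑ j, (prof m j * w j) ^ 2 :=
    Finset.sum_congr rfl fun j _ => by ring
  have e2 : (fun j => prof m j * w j) ⬝ᵥ (tiltMat β g ξ *ᵥ fun j => prof m j * w j) =
      ∑ j, ∑ k, prof m j * w j * tiltCpl β g ξ j k * (prof m k * w k) := by
    simp only [dotProduct, Matrix.mulVec, tiltMat, Matrix.of_apply, Finset.mul_sum]
    exact Finset.sum_congr rfl fun j _ => Finset.sum_congr rfl fun k _ => by ring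
  have e3 : (fun j => prof m j * w j) ⬝ᵥ (vecMulVec m m *ᵥ fun j => prof m j * w j) =
      (∑ j, m j * (prof m j * w j)) ^ 2 := by
    simp only [dotProduct, Matrix.mulVec, vecMulVec_apply, Finset.mul_sum]
    rw [sq, Finset.sum_mul_sum]
    exact Finset.sum_congr rfl fun j _ => Finset.sum_congr rfl fun k _ => by ring
  rw [e1, e2, e3, aCoef, qv, show profileOf m = prof m from rfl]
  ring

/-- the margin passes to the pure part -/
lemma coer_pure (hn : 0 < n) {η R : ℝ} (hβ : |β| ≤ 1) (hs : s ∈ Set.Icc (0 : ℝ) 1) (hξ : ∑ i, ξ i ^ 2 ≤ R * n)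
    (h : Coer η (vMat β s (tiltMat β g ξ) m) (prof m)) :
    Coer (η - (R + 1 / n)) (resV β (1 - s) 0 g (prof m)) (prof m) := fun v => by
  have hn' : (0 : ℝ) < n := by exact_mod_cast hn
  have h1 := h v
  rw [vMat_eq_spike hn, ← add_assoc, Matrix.add_mulVec, dotProduct_add] at h1
  obtain ⟨hu, -, -⟩ := PsiLip.coef_bounds hβ hs
  have hu0 : 0 ≤ 1 - s := by linarith [hs.2]
  have hb : β ^ 2 ≤ 1 := (sq_le_one_iff_abs_le_one β).2 hβ
  have hub : (1 - s) * β ^ 2 ≤ 1 := mul_le_one₀ (le_of_abs_le hu) (sq_nonneg _) hb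
  have hub0 : 0 ≤ (1 - s) * β ^ 2 := mul_nonneg hu0 (sq_nonneg _)
  have qv' : ∀ a : Fin n → ℝ, v ⬝ᵥ (vecMulVec a a *ᵥ v) = (∑ i, a i * v i) ^ 2 := fun a => by
    simp only [dotProduct, Matrix.mulVec, vecMulVec_apply, Finset.mul_sum]
    rw [sq, Finset.sum_mul_sum]
    exact Finset.sum_congr rfl fun j _ => Finset.sum_congr rfl fun k _ => by ring
  simp only [spikeMat, Matrix.add_mulVec, dotProduct_add, Matrix.smul_mulVec, dotProduct_smul, smul_eq_mul,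
    qv', quad_diag] at h1
  rw [Matrix.add_mulVec, dotProduct_add, quad_diag]
  have hN : 0 ≤ ∑ i, v i ^ 2 := Finset.sum_nonneg fun i _ => sq_nonneg _
  have t1 : -((1 - s) * β ^ 2) / n * (∑ i, 1 * v i) ^ 2 ≤ 0 :=
    mul_nonpos_of_nonpos_of_nonneg (div_nonpos_of_nonpos_of_nonneg (by linarith) hn'.le) (sq_nonneg _)
  have t3 : -(2 * aCoef β s) / n * (∑ i, m i * v i) ^ 2 ≤ 0 := by
    have : 0 ≤ aCoef β s := mul_nonneg (sq_nonneg _) (sq_nonneg _)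
    exact mul_nonpos_of_nonpos_of_nonneg (div_nonpos_of_nonpos_of_nonneg (by linarith) hn'.le) (sq_nonneg _)
  have t2 : (1 - s) * β ^ 2 / n * (∑ i, ξ i * v i) ^ 2 ≤ R * ∑ i, v i ^ 2 := by
    rw [div_mul_eq_mul_div, div_le_iff₀ hn']
    refine (mul_le_of_le_one_left (sq_nonneg _) hub).trans ?_
    refine ((Finset.sum_mul_sq_le_sq_mul_sq _ ξ v).trans (mul_le_mul_of_nonneg_right hξ hN)).trans_eq ?_
    ring
  have t4 : ∑ i, (1 - s) * (β ^ 2 / n * (1 - ξ i ^ 2)) * v i ^ 2 ≤ 1 / n * ∑ i, v i ^ 2 := by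
    rw [Finset.mul_sum]
    refine Finset.sum_le_sum fun i _ => mul_le_mul_of_nonneg_right ?_ (sq_nonneg _)
    rw [show (1 - s) * (β ^ 2 / n * (1 - ξ i ^ 2)) = (1 - s) * β ^ 2 * (1 - ξ i ^ 2) / n by ring]
    exact div_le_div_of_nonneg_right (le_trans (mul_le_mul_of_nonneg_left
      (show 1 - ξ i ^ 2 ≤ 1 by linarith [sq_nonneg (ξ i)]) hub0) (by linarith)) hn'.le
  linarith

end Vale.Agent.P150.High.Cert
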