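import Vale.Agent.P150.High.Defs
import Vale.Agent.P150.Mixing
import Vale.Agent.P150.Fast.Channel

/-!
# P150, all `β < 1`: interface between the covariance induction and the entropy contraction

`J` is the coupling matrix `cpl β g`, `B` a factor of `A = J + shift`, the observation at `t` is
`t² B x + t g` and the external field seen by the posterior is `Bᵀ` of it; the posterior is
`wt ((1 - t²) J)` at that field.
-/

open MeasureTheory Filter
open scoped Topology

namespace Vale.Agent.P150.High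

open Vale.Agent.P150 Ising

variable {n : ℕ}

/-- Variance of `v · x` under the Ising law with couplings `J` and field `b`. -/
noncomputable def covAt (J : Fin n → Fin n → ℝ) (b v : Fin n → ℝ) : ℝ :=
  ∑ x, wt J b x * (∑ i, v i * spin (x i) - ∑ y, wt J b y * ∑ i, v i * spin (y i)) ^ 2

/-- The covariance is at most `L` at all fields within `√(κ n)` of `b`. -/
def CovBall (L κ : ℝ) (J : Fin n → Fin n → ℝ) (b : Fin n → ℝ) : Prop :=
  ∀ w : Fin n → ℝ, ∑ i, w i ^ 2 ≤ κ * n →
    ∀ v : Fin n → ℝ, covAt J (b + w) v ≤ L * ∑ i, v i ^ 2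

/-- `Bᵀ z`. -/
def fieldOf (B : Fin n → Fin n → ℝ) (z : Fin n → ℝ) (i : Fin n) : ℝ := ∑ k, B k i * z k

/-- `B x`. -/
def signalOf (B : Fin n → Fin n → ℝ) (x : Cfg n) (k : Fin n) : ℝ := ∑ j, B k j * spin (x j)

/-- `B` is symmetric, `Bᵀ B = J + shift`, and `|B v|² ≤ 2 shift |v|²`. -/
def IsFactor (J : Fin n → Fin n → ℝ) (shift : ℝ) (B : Fin n → Fin n → ℝ) : Prop :=
  (∀ i j, B i j = B j i) ∧ (∀ i j, ∑ k, B k i * B k j = J i j + if i = j then shift else 0) ∧
    ∀ v : Fin n → ℝ, ∑ k, (∑ j, B k j * v j) ^ 2 ≤ 2 * shift * ∑ i, v i ^ 2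

/-- Planted probability, averaged over `t ∈ [0,1]`, of a field without a covariance bound around it. -/
noncomputable def badPlanted (β L κ : ℝ) (g : Edge n → ℝ) (B : Fin n → Fin n → ℝ) : ℝ :=
  ∫ t in (0 : ℝ)..1, ∑ x, gibbs β g x *
    ∫ z, {z | ¬ CovBall L κ (fun i j => (1 - t ^ 2) * cpl β g i j)
      (fieldOf B (Channel.obs (signalOf B x) t z))}.indicator (fun _ => (1 : ℝ)) z ∂gauss (Fin n)

/-- Output of the covariance induction. -/
def CovEvent (β : ℝ) : Prop :=
  ∃ shift L κ c : ℝ, 0 < shift ∧ 0 < L ∧ 0 < κ ∧ 0 < c ∧ Tendsto (fun n : ℕ => (disorder n).real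
    {g | ¬ ∃ B, IsFactor (cpl β g) shift B ∧ badPlanted β L κ g B ≤ Real.exp (-(c * n))}) atTop (𝓝 0)

/-- `Contract.lean`: the covariance bound gives the entropy contraction. -/
def ContractStatement : Prop := ∀ β : ℝ, 0 ≤ β → β < 1 → CovEvent β → WarmContraction β

end Vale.Agent.P150.High
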