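import Vale.Agent.P150.Stability
import Vale.Agent.P150.Semigroup

/-!
# P150, all `β < 1`: the two halves of fast mixing

`BurnIn`: after a constant time the law from every start is within `ε n` of `μ` in relative
entropy.  `WarmContraction`: a modified log-Sobolev inequality up to an exponentially small error
for bounded densities.
-/

open MeasureTheory Filter
open scoped Topology

namespace Vale.Agent.P150.High

open Vale.Agent.P150

variable {n : ℕ}

/-- The sum over sites of the mean entropy of a site given the others. -/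
noncomputable def siteEnt (β : ℝ) (g : Edge n → ℝ) (f : Cfg n → ℝ) : ℝ :=
  ∑ i, ∑ x, gibbs β g x * (f x * (Real.log (f x) - Real.log (heatBath β g i f x)))

/-- The density with respect to `μ` of the law at time `t` from the start `x`. -/
noncomputable def startDensity (β : ℝ) (g : Edge n → ℝ) (t : ℝ) (x : Cfg n) : Cfg n → ℝ :=
  flow β g (Pi.single x (gibbs β g x)⁻¹) t

/-- From every start the law is `ε n` close to `μ` in relative entropy after a constant time. -/
def BurnIn (β : ℝ) : Prop :=
  ∀ ε : ℝ, 0 < ε → ∃ T : ℝ, 0 < T ∧ Tendsto (fun n : ℕ => (disorder n).real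
    {g | ∃ x, ε * n < ent (gibbs β g) (startDensity β g T x)}) atTop (𝓝 0)

/-- Entropy contraction for bounded densities, up to an exponentially small error. -/
def WarmContraction (β : ℝ) : Prop :=
  ∃ K c : ℝ, 0 < K ∧ 0 < c ∧ Tendsto (fun n : ℕ => (disorder n).real
    {g | ∃ (f : Cfg n → ℝ) (B : ℝ), (∀ x, 0 < f x ∧ f x ≤ B) ∧ ∑ x, gibbs β g x * f x = 1 ∧
      K * siteEnt β g f + B * Real.exp (-(c * n)) < ent (gibbs β g) f}) atTop (𝓝 0)

/-- Mixing in logarithmic time. -/
def LogMixing (β : ℝ) : Prop :=
  ∃ C : ℝ, 0 < C ∧ Tendsto (fun n : ℕ => (disorder n).real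
    {g | ¬ MixedAt β g (C * Real.log n)}) atTop (𝓝 0)

end Vale.Agent.P150.High
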