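import Vale.Agent.P150.SKNorm

/-! # P150, all `β < 1`: the mean of `det (c + J)` for the SK coupling matrix

`E det (c + σ g)` satisfies the matching recursion `h (m+2) = c h (m+1) - σ² (m+1) h m` by Gaussian integration by
parts, and the exponential generating function bounds it by its saddle value up to a factor `n`.
-/

open MeasureTheory ProbabilityTheory Matrix Filter
open scoped Topology

namespace Vale.Agent.P150.High.Det

open Vale.Agent.P150

variable {n : ℕ}

/-! ### the mean of the determinant -/

/-- the matching recursion -/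
def hseq (c b : ℝ) : ℕ → ℝ
  | 0 => 1
  | 1 => c
  | m + 2 => c * hseq c b (m + 1) - b * (m + 1) * hseq c b m

lemma hseq_succ (c b : ℝ) : ∀ m : ℕ, hseq c b (m + 1) = c * hseq c b m - b * m * hseq c b (m - 1)
  | 0 => by simp [hseq]
  | m + 1 => by rw [hseq]; push_cast; rfl

/-- the matrix `c + σ g` on the sites of `S`, the identity on the other rows -/
noncomputable def matS (c σ : ℝ) (g : Edge n → ℝ) (S : Finset (Fin n)) : Matrix (Fin n) (Fin n) ℝ :=
  Matrix.of fun a b => if a ∈ S then (if b = a then c else 0) + σ * coupling g a b else if b = a then 1 else 0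

lemma continuous_coupling (a b : Fin n) : Continuous fun g : Edge n → ℝ => coupling g a b := by
  unfold coupling; split_ifs <;> fun_prop

lemma abs_coupling_le (g : Edge n → ℝ) (a b : Fin n) : |coupling g a b| ≤ l1 g := by
  unfold coupling
  split_ifs
  · exact abs_le_l1 g _
  · exact abs_le_l1 g _
  · rw [abs_zero]; exact l1_nonneg g

lemma abs_matS_le (c σ : ℝ) (g : Edge n → ℝ) (S : Finset (Fin n)) (a b : Fin n) :
    |matS c σ g S a b| ≤ (|c| + |σ| + 1) * Real.exp (l1 g) := by
  have h1 : 1 ≤ Real.exp (l1 g) := Real.one_le_exp (l1_nonneg g)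
  have h2 : |σ * coupling g a b| ≤ |σ| * Real.exp (l1 g) := by
    rw [abs_mul]
    exact mul_le_mul_of_nonneg_left ((abs_coupling_le g a b).trans
      ((le_add_of_nonneg_right zero_le_one).trans (Real.add_one_le_exp _))) (abs_nonneg _)
  have h3 := mul_le_mul_of_nonneg_left h1 (abs_nonneg c)
  have h4 := mul_nonneg (abs_nonneg σ) (Real.exp_pos (l1 g)).le
  simp only [matS, of_apply]
  split_ifs
  · exact (abs_add_le _ _).trans (by linarith)
  · rw [zero_add]; nlinarith [abs_nonneg c]
  · rw [abs_one]; nlinarith [abs_nonneg c]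
  · rw [abs_zero]; positivity

lemma abs_det_le {A : Matrix (Fin n) (Fin n) ℝ} {x : ℝ} (h : ∀ a b, |A a b| ≤ x) :
    |A.det| ≤ n.factorial * x ^ n := by
  have := Matrix.det_le (abv := (AbsoluteValue.abs : AbsoluteValue ℝ ℝ)) (A := A) (x := x) (fun a b => h a b)
  simpa using this

lemma det_eq_sum_rows (A : Matrix (Fin n) (Fin n) ℝ) (i : Fin n) :
    A.det = ∑ j, A i j * (A.updateRow i (Pi.single j 1)).det := by
  rw [det_eq_sum_mul_adjugate_row A i]
  simp only [adjugate_apply]

lemma integrable_minor (c σ : ℝ) (S : Finset (Fin n)) (i j : Fin n) (p : Fin n × Fin n) :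
    Integrable (fun g : Edge n → ℝ => coupling g p.1 p.2 * ((matS c σ g S).updateRow i (Pi.single j 1)).det)
      (gauss (Edge n)) := by
  refine integrable_of_bound (C := n.factorial * (|c| + |σ| + 1) ^ n) (M := n + 1)
    ((continuous_coupling _ _).mul (Continuous.matrix_det ?_)) fun g => ?_
  · exact Continuous.matrix_updateRow _ (continuous_matrix fun a b => by
      simp only [matS, of_apply]; have := continuous_coupling (n := n) a b; split_ifs <;> fun_prop)
      continuous_const
  · have hd := abs_det_le (A := (matS c σ g S).updateRow i (Pi.single j 1))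
      (x := (|c| + |σ| + 1) * Real.exp (l1 g)) fun a b => by
        rw [updateRow_apply]
        split_ifs
        · rw [Pi.single_apply]
          have : 1 ≤ (|c| + |σ| + 1) * Real.exp (l1 g) :=
            one_le_mul_of_one_le_of_one_le (by linarith [abs_nonneg c, abs_nonneg σ])
              (Real.one_le_exp (l1_nonneg g))
          split_ifs
          · rwa [abs_one]
          · rw [abs_zero]; linarith
        · exact abs_matS_le c σ g S a b
    rw [abs_mul]
    refine (mul_le_mul ((abs_coupling_le g _ _).trans ((le_add_of_nonneg_right zero_le_one).trans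
      (Real.add_one_le_exp _))) hd (abs_nonneg _) (Real.exp_pos _).le).trans (le_of_eq ?_)
    rw [mul_pow, ← Real.exp_nat_mul, add_mul, one_mul, Real.exp_add]
    ring

lemma integrable_det (c σ : ℝ) (S : Finset (Fin n)) :
    Integrable (fun g : Edge n → ℝ => (matS c σ g S).det) (gauss (Edge n)) := by
  refine integrable_of_bound (C := n.factorial * (|c| + |σ| + 1) ^ n) (M := n)
    (Continuous.matrix_det (continuous_matrix fun a b => by
      simp only [matS, of_apply]; have := continuous_coupling (n := n) a b; split_ifs <;> fun_prop))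
    fun g => (abs_det_le fun a b => abs_matS_le c σ g S a b).trans (le_of_eq ?_)
  rw [mul_pow, ← Real.exp_nat_mul]
  ring

/-- the unordered pair of two distinct sites -/
def edgeOf (i j : Fin n) (h : i ≠ j) : Edge n :=
  if h' : i < j then ⟨(i, j), h'⟩ else ⟨(j, i), lt_of_le_of_ne (not_lt.1 h') h.symm⟩

lemma coupling_edgeOf (g : Edge n → ℝ) (i j : Fin n) (h : i ≠ j) : coupling g i j = g (edgeOf i j h) := by
  unfold coupling edgeOf
  by_cases h' : i < j
  · simp [h']
  · simp [h', lt_of_le_of_ne (not_lt.1 h') h.symm]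

lemma coupling_update (g : Edge n → ℝ) (i j : Fin n) (h : i ≠ j) (t : ℝ) (a b : Fin n) :
    coupling (Function.update g (edgeOf i j h) t) a b =
      if (a = i ∧ b = j) ∨ (a = j ∧ b = i) then t else coupling g a b := by
  rcases lt_trichotomy i j with h' | h' | h'
  · unfold coupling edgeOf
    simp only [dif_pos h', Function.update_apply, Subtype.mk.injEq, Prod.mk.injEq]
    split_ifs <;> first | rfl | (exfalso; omega)
  · exact absurd h' h
  · unfold coupling edgeOf
    simp only [dif_neg h'.not_gt, Function.update_apply, Subtype.mk.injEq, Prod.mk.injEq]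
    split_ifs <;> first | rfl | (exfalso; omega)

/-- integration by parts in one cofactor -/
lemma ibp_minor (c σ : ℝ) (S : Finset (Fin n)) {i j : Fin n} (hi : i ∈ S) (hj : j ∈ S) (hij : j ≠ i) :
    ∫ g, coupling g i j * ((matS c σ g S).updateRow i (Pi.single j 1)).det ∂gauss (Edge n) =
      -(σ * ∫ g, (matS c σ g ((S.erase i).erase j)).det ∂gauss (Edge n)) := by
  set e := edgeOf i j hij.symm
  set φ := fun g : Edge n → ℝ => ((matS c σ g S).updateRow i (Pi.single j 1)).det
  set φ' := fun g : Edge n → ℝ => -(σ * (matS c σ g ((S.erase i).erase j)).det)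
  have hswap : ∀ g, (((matS c σ g S).updateRow i (Pi.single j 1)).updateRow j (Pi.single i 1)).det =
      -(matS c σ g ((S.erase i).erase j)).det := fun g => by
    have hm : ((matS c σ g S).updateRow i (Pi.single j 1)).updateRow j (Pi.single i 1) =
        (matS c σ g ((S.erase i).erase j)).submatrix (Equiv.swap i j) id := by
      ext a b
      simp only [updateRow_apply, submatrix_apply, id, matS, of_apply, Pi.single_apply]
      by_cases ha : a = j
      · subst ha
        simp
      · by_cases ha' : a = i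
        · subst ha'
          simp [hij.symm]
        · simp [ha, ha', Equiv.swap_apply_of_ne_of_ne ha' ha]
    rw [hm, det_permute, Equiv.Perm.sign_swap hij.symm]
    simp
  have hupd : ∀ g t, φ (Function.update g e t) = φ g + (t - g e) * φ' g := by
    intro g t
    set B := (matS c σ g S).updateRow i (Pi.single j 1)
    have hB : (matS c σ (Function.update g e t) S).updateRow i (Pi.single j 1) =
        B.updateRow j (B j + (σ * (t - g e)) • Pi.single i 1) := by
      ext a b
      simp only [B, updateRow_apply, matS, of_apply, e, coupling_update, Pi.add_apply, Pi.smul_apply,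
        Pi.single_apply, smul_eq_mul]
      by_cases ha : a = i
      · subst ha; simp [hij.symm]
      · by_cases ha' : a = j
        · subst ha'
          by_cases hb : b = i
          · subst hb
            simp [ha, hj, ← coupling_edgeOf g b a hij.symm, coupling_symm g a b, hij.symm]
            ring
          · simp [ha, hj, hb]
        · simp [ha, ha']
    show ((matS c σ (Function.update g e t) S).updateRow i (Pi.single j 1)).det = _
    rw [hB, det_updateRow_add, det_updateRow_smul, updateRow_eq_self, hswap]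
    simp only [φ, φ', B]
    ring
  have hbound : ∀ (T : Finset (Fin n)) g, |(matS c σ g T).det| ≤
      n.factorial * (|c| + |σ| + 1) ^ n * Real.exp (n * l1 g) := fun T g =>
    (abs_det_le fun a b => abs_matS_le c σ g T a b).trans (le_of_eq (by rw [mul_pow, ← Real.exp_nat_mul]; ring))
  have hcont : ∀ T : Finset (Fin n), Continuous fun g : Edge n → ℝ => matS c σ g T := fun T =>
    continuous_matrix fun a b => by
      simp only [matS, of_apply]; have := continuous_coupling (n := n) a b; split_ifs <;> fun_prop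
  set C := (|σ| + 1) * (n.factorial * (|c| + |σ| + 1) ^ n)
  have hC0 : (0:ℝ) ≤ n.factorial * (|c| + |σ| + 1) ^ n := by positivity
  have key := gauss_ibp e (φ := φ) (φ' := φ') (C := C) (M := n) (Nat.cast_nonneg n)
    (Continuous.matrix_det ((hcont S).matrix_updateRow i continuous_const))
    ((continuous_const.mul (Continuous.matrix_det (hcont _))).neg) (fun g => ?_) (fun g => ?_) fun g t => ?_
  · simp only [coupling_edgeOf _ i j hij.symm]
    rw [key]
    simp only [φ', integral_neg, integral_const_mul]
  · refine (abs_det_le (x := (|c| + |σ| + 1) * Real.exp (l1 g)) fun a b => ?_).trans ?_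
    · rw [updateRow_apply]
      split_ifs
      · have : 1 ≤ (|c| + |σ| + 1) * Real.exp (l1 g) := one_le_mul_of_one_le_of_one_le
          (by linarith [abs_nonneg c, abs_nonneg σ]) (Real.one_le_exp (l1_nonneg g))
        rw [Pi.single_apply]
        split_ifs
        · rwa [abs_one]
        · rw [abs_zero]; linarith
      · exact abs_matS_le c σ g S a b
    · rw [mul_pow, ← Real.exp_nat_mul, ← mul_assoc]
      exact mul_le_mul_of_nonneg_right (le_mul_of_one_le_left hC0 (by linarith [abs_nonneg σ])) (Real.exp_pos _).le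
  · rw [abs_neg, abs_mul]
    refine (mul_le_mul_of_nonneg_left (hbound _ g) (abs_nonneg σ)).trans ?_
    rw [← mul_assoc]
    exact mul_le_mul_of_nonneg_right (mul_le_mul_of_nonneg_right (le_add_of_nonneg_right zero_le_one) hC0)
      (Real.exp_pos _).le
  · have h0 : (fun s => φ (Function.update g e s)) = fun s =>
        φ (Function.update g e t) + (s - t) * φ' (Function.update g e t) := funext fun s => by
      have := hupd (Function.update g e t) s
      rwa [Function.update_idem, Function.update_self] at this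
    rw [h0]
    simpa using (((hasDerivAt_id t).sub_const t).mul_const (φ' (Function.update g e t))).const_add
      (φ (Function.update g e t))

/-- the mean determinant -/
theorem mean_det (c σ : ℝ) : ∀ S : Finset (Fin n),
    ∫ g, (matS c σ g S).det ∂gauss (Edge n) = hseq c (σ ^ 2) S.card := by
  intro S
  induction S using Finset.strongInduction with
  | H S ih =>
    rcases S.eq_empty_or_nonempty with rfl | ⟨i, hi⟩
    · have : ∀ g : Edge n → ℝ, matS c σ g ∅ = 1 := fun g => by
        ext a b; simp [matS, one_apply, eq_comm]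
      simp [this, hseq]
    have e1 : ∀ g, (matS c σ g S).det = c * (matS c σ g (S.erase i)).det +
        ∑ j ∈ S.erase i, σ * (coupling g i j * ((matS c σ g S).updateRow i (Pi.single j 1)).det) := fun g => by
      rw [det_eq_sum_rows _ i, ← Finset.add_sum_erase _ _ (Finset.mem_univ i)]
      congr 1
      · have hm : (matS c σ g S).updateRow i (Pi.single i 1) = matS c σ g (S.erase i) := by
          ext a b
          rw [updateRow_apply]
          by_cases ha : a = i
          · subst ha; simp [matS, Pi.single_apply]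
          · simp [matS, ha]
        rw [hm]
        simp [matS, hi, coupling_self]
      · refine (Finset.sum_subset (Finset.erase_subset_erase i (Finset.subset_univ S)) fun j hj hj' => ?_).symm.trans
          (Finset.sum_congr rfl fun j hj => ?_)
        · have hji : j ≠ i := Finset.ne_of_mem_erase hj
          have hjS : j ∉ S := fun h => hj' (Finset.mem_erase.2 ⟨hji, h⟩)
          rw [det_zero_of_row_eq hji.symm (M := (matS c σ g S).updateRow i (Pi.single j 1)), mul_zero]
          funext b
          simp [updateRow_apply, hji, matS, hjS, Pi.single_apply]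
        · simp [matS, hi, Finset.ne_of_mem_erase hj]
          ring
    have hint := fun j (_ : j ∈ S.erase i) => (integrable_minor c σ S i j (i, j)).const_mul σ
    rw [integral_congr_ae (Eventually.of_forall e1), integral_add ((integrable_det c σ _).const_mul c)
      (integrable_finsetSum _ hint), integral_const_mul, integral_finsetSum _ hint,
      ih _ (Finset.erase_ssubset hi)]
    have e2 : ∀ j ∈ S.erase i, ∫ g, σ * (coupling g i j * ((matS c σ g S).updateRow i (Pi.single j 1)).det)
        ∂gauss (Edge n) = -(σ ^ 2 * hseq c (σ ^ 2) (S.card - 1 - 1)) := fun j hj => by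
      rw [integral_const_mul, ibp_minor c σ S hi (Finset.mem_of_mem_erase hj) (Finset.ne_of_mem_erase hj),
        ih _ ((Finset.erase_ssubset hj).trans (Finset.erase_ssubset hi)), Finset.card_erase_of_mem hj,
        Finset.card_erase_of_mem hi]
      ring
    rw [Finset.sum_congr rfl e2, Finset.sum_const, Finset.card_erase_of_mem hi, nsmul_eq_mul]
    obtain ⟨k, hk⟩ : ∃ k, S.card = k + 1 := ⟨S.card - 1, by have := Finset.card_pos.2 ⟨i, hi⟩; omega⟩
    rw [hk, hseq_succ, Nat.add_sub_cancel]
    ring

/-! ### the saddle bound for the recursion -/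

lemma hseq_pos {c b w β : ℝ} {N : ℕ} (hw : 0 < w) (hb : 0 ≤ b) (hbN : b * N ≤ β ^ 2)
    (hc : 1 / w ≤ c - β ^ 2 * w) : ∀ m, m < N → 0 < hseq c b m ∧ hseq c b m ≤ w * hseq c b (m + 1) := by
  intro m
  induction m with
  | zero =>
    intro _
    simp only [hseq]
    refine ⟨one_pos, ?_⟩
    have h := mul_le_mul_of_nonneg_left hc hw.le
    rw [mul_one_div_cancel hw.ne'] at h
    nlinarith [mul_nonneg (mul_nonneg (sq_nonneg β) hw.le) hw.le]
  | succ m ih =>
    intro hm
    obtain ⟨h0, h1⟩ := ih (by omega)
    have hp : 0 < hseq c b (m + 1) := pos_of_mul_pos_right (h0.trans_le h1) hw.le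
    refine ⟨hp, ?_⟩
    have hq : b * ((m + 1 : ℕ) : ℝ) ≤ β ^ 2 :=
      (mul_le_mul_of_nonneg_left (by exact_mod_cast hm.le) hb).trans hbN
    have h2 : b * ((m + 1 : ℕ) : ℝ) * hseq c b m ≤ β ^ 2 * w * hseq c b (m + 1) := by
      rw [mul_assoc (β ^ 2)]
      exact mul_le_mul hq h1 h0.le (sq_nonneg β)
    have h3 : 1 / w * hseq c b (m + 1) ≤ hseq c b (m + 1 + 1) := by
      rw [hseq_succ c b (m + 1), Nat.add_sub_cancel]
      have := mul_le_mul_of_nonneg_right hc hp.le
      nlinarith
    rw [one_div, inv_mul_le_iff₀ hw] at h3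
    exact h3

/-- the truncated exponential generating function -/
noncomputable def genS (c b : ℝ) (k : ℕ) (r : ℝ) : ℝ :=
  ∑ m ∈ Finset.range k, hseq c b m * r ^ m / m.factorial

lemma genS_deriv (c b r : ℝ) : ∀ k : ℕ,
    ∑ m ∈ Finset.range (k + 1), hseq c b (m + 1) * r ^ m / m.factorial =
      c * genS c b (k + 1) r - b * r * genS c b k r
  | 0 => by simp [genS, hseq]
  | k + 1 => by
    rw [Finset.sum_range_succ, genS_deriv c b r k, genS, genS, genS,
      Finset.sum_range_succ (n := k + 1), Finset.sum_range_succ (n := k), hseq, Nat.factorial_succ]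
    push_cast
    have : ((k.factorial : ℕ) : ℝ) ≠ 0 := by positivity
    field_simp
    ring

lemma factorial_le : ∀ n : ℕ, 1 ≤ n →
    (n.factorial : ℝ) * Real.exp n ≤ Real.exp 1 * n * (n : ℝ) ^ n := by
  intro n hn
  induction n, hn using Nat.le_induction with
  | base => simp
  | succ k hk ih =>
    have hk0 : (0:ℝ) < k := by exact_mod_cast hk
    have h1 : Real.exp 1 ≤ (1 + 1 / (k:ℝ)) ^ (k + 1) := by
      rw [← Real.exp_log (show (0:ℝ) < (1 + 1 / (k:ℝ)) ^ (k + 1) by positivity), Real.exp_le_exp, Real.log_pow]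
      have := Real.one_sub_inv_le_log_of_pos (show (0:ℝ) < 1 + 1 / (k:ℝ) by positivity)
      rw [show 1 - (1 + 1 / (k:ℝ))⁻¹ = 1 / ((k:ℝ) + 1) by field_simp; ring, div_le_iff₀ (by positivity)] at this
      push_cast
      linarith
    rw [Nat.factorial_succ]
    push_cast
    rw [Real.exp_add]
    calc ((k:ℝ) + 1) * k.factorial * (Real.exp k * Real.exp 1)
        = ((k:ℝ) + 1) * (k.factorial * Real.exp k) * Real.exp 1 := by ring
      _ ≤ ((k:ℝ) + 1) * (Real.exp 1 * k * (k : ℝ) ^ k) * (1 + 1 / (k:ℝ)) ^ (k + 1) := by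
          gcongr
      _ = Real.exp 1 * ((k:ℝ) + 1) * ((k:ℝ) + 1) ^ (k + 1) := by
          rw [show 1 + 1 / (k:ℝ) = ((k:ℝ) + 1) / k by field_simp, div_pow, pow_succ (k:ℝ)]
          field_simp

/-- the saddle bound -/
theorem hseq_le {c c₀ b β v w : ℝ} {N : ℕ} (hN : 0 < N) (hb : b * N = β ^ 2) (hv : 0 < v) (hvw : v ≤ w)
    (hw1 : w ≤ 1) (hβ : β ^ 2 ≤ 1) (hc : 1 / w ≤ c - β ^ 2 * w) (hcc : c ≤ c₀)
    (hroot : c₀ * v = 1 + β ^ 2 * v ^ 2) :
    v ^ N * hseq c b N ≤ Real.exp 1 * N * Real.exp (N * (β ^ 2 * v ^ 2 / 2)) := by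
  have hw : 0 < w := hv.trans_le hvw
  have hN' : (0:ℝ) < N := by exact_mod_cast hN
  have hb0 : 0 ≤ b := nonneg_of_mul_nonneg_left (hb ▸ sq_nonneg β) hN'
  have hpos := hseq_pos hw hb0 hb.le hc
  obtain ⟨k, rfl⟩ : ∃ k, N = k + 1 := ⟨N - 1, by omega⟩
  set ψ := fun r : ℝ => genS c b (k + 1 + 1) r * Real.exp (-(c * r - b * r ^ 2 / 2))
  set d := fun r : ℝ => (c * genS c b (k + 1) r - b * r * genS c b k r - (c - b * r) * genS c b (k + 1 + 1) r) *
    Real.exp (-(c * r - b * r ^ 2 / 2))
  have hd : ∀ r, HasDerivAt ψ (d r) r := fun r => by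
    have h1 : HasDerivAt (genS c b (k + 1 + 1)) (∑ m ∈ Finset.range (k + 1),
        hseq c b (m + 1) * r ^ m / m.factorial) r := by
      unfold genS
      refine (HasDerivAt.fun_sum (u := Finset.range (k + 1 + 1)) fun m _ =>
        ((hasDerivAt_pow m r).const_mul (hseq c b m)).div_const (m.factorial : ℝ)).congr_deriv ?_
      rw [Finset.sum_range_succ']
      simp only [Nat.cast_zero, zero_mul, mul_zero, zero_div, add_zero]
      refine Finset.sum_congr rfl fun m _ => ?_
      rw [Nat.factorial_succ, Nat.add_sub_cancel]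
      push_cast
      field_simp
    refine (h1.mul ((((hasDerivAt_id r).const_mul c).sub
      (((hasDerivAt_pow 2 r).const_mul b).div_const 2)).neg.exp)).congr_deriv ?_
    rw [genS_deriv]
    simp only [d, id, Pi.sub_apply, Pi.neg_apply]
    push_cast
    ring
  set R := ((k + 1 : ℕ) : ℝ) * v with hR
  have hle : ∀ r ∈ Set.Icc (0:ℝ) R, d r ≤ 0 := by
    rintro r ⟨hr0, hr⟩
    refine mul_nonpos_of_nonpos_of_nonneg ?_ (Real.exp_pos _).le
    have hbr : b * r ≤ β ^ 2 * w := by
      refine (mul_le_mul_of_nonneg_left hr hb0).trans ?_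
      rw [hR, ← mul_assoc, hb]
      exact mul_le_mul_of_nonneg_left hvw (sq_nonneg β)
    have hcr : 1 / w ≤ c - b * r := by linarith
    obtain ⟨h0, h1⟩ := hpos k (by omega)
    have hp1 : 0 < hseq c b (k + 1) := pos_of_mul_pos_right (h0.trans_le h1) hw.le
    have e : c * genS c b (k + 1) r - b * r * genS c b k r - (c - b * r) * genS c b (k + 1 + 1) r =
        r ^ (k + 1) / (k + 1).factorial * (b * ((k + 1 : ℕ) : ℝ) * hseq c b k - (c - b * r) * hseq c b (k + 1)) := by
      simp only [genS, Finset.sum_range_succ, Nat.factorial_succ]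
      push_cast
      have : ((k.factorial : ℕ) : ℝ) ≠ 0 := by positivity
      field_simp
      ring
    rw [e, hb]
    refine mul_nonpos_of_nonneg_of_nonpos (by positivity) (sub_nonpos.2 ?_)
    calc β ^ 2 * hseq c b k ≤ 1 * (w * hseq c b (k + 1)) := mul_le_mul hβ h1 h0.le zero_le_one
      _ ≤ 1 / w * hseq c b (k + 1) := by
          rw [one_mul]
          exact mul_le_mul_of_nonneg_right (by rw [le_div_iff₀ hw]; nlinarith) hp1.le
      _ ≤ (c - b * r) * hseq c b (k + 1) := mul_le_mul_of_nonneg_right hcr hp1.le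
  have hanti : AntitoneOn ψ (Set.Icc 0 R) :=
    antitoneOn_of_hasDerivWithinAt_nonpos (convex_Icc _ _) (fun r _ => (hd r).continuousAt.continuousWithinAt)
      (fun r _ => (hd r).hasDerivWithinAt) fun r hr => hle r (interior_subset hr)
  have hR0 : 0 ≤ R := by positivity
  have h0 : ψ 0 = 1 := by
    simp [ψ, genS, Finset.sum_range_succ', hseq]
  have hS := hanti (Set.left_mem_Icc.2 hR0) (Set.right_mem_Icc.2 hR0) hR0
  rw [h0] at hS
  have hterm : hseq c b (k + 1) * R ^ (k + 1) / (k + 1).factorial ≤ genS c b (k + 1 + 1) R := by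
    refine Finset.single_le_sum (f := fun m => hseq c b m * R ^ m / (m.factorial : ℝ)) (fun m hm => ?_)
      (Finset.self_mem_range_succ _)
    rcases (Finset.mem_range_succ_iff.1 hm).lt_or_eq with h | rfl
    · have := (hpos m h).1; positivity
    · obtain ⟨h0, h1⟩ := hpos k (by omega)
      have := pos_of_mul_pos_right (h0.trans_le h1) hw.le
      positivity
  have hE : genS c b (k + 1 + 1) R ≤ Real.exp (c * R - b * R ^ 2 / 2) := by
    have := mul_le_mul_of_nonneg_right hS (Real.exp_pos (c * R - b * R ^ 2 / 2)).le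
    simp only [ψ, mul_assoc, ← Real.exp_add, neg_add_cancel, Real.exp_zero, mul_one, one_mul] at this
    exact this
  have hex : Real.exp (c * R - b * R ^ 2 / 2) ≤
      Real.exp ((k + 1 : ℕ) : ℝ) * Real.exp (((k + 1 : ℕ) : ℝ) * (β ^ 2 * v ^ 2 / 2)) := by
    rw [← Real.exp_add]
    refine Real.exp_le_exp.2 ?_
    have h2 : c * R ≤ ((k + 1 : ℕ) : ℝ) * (1 + β ^ 2 * v ^ 2) := by
      rw [← hroot, hR]; nlinarith [mul_nonneg hN'.le hv.le]
    rw [hR, mul_pow] at *
    rw [show b * ((((k + 1 : ℕ) : ℝ)) ^ 2 * v ^ 2) = b * ((k + 1 : ℕ) : ℝ) * (((k + 1 : ℕ) : ℝ) * v ^ 2) by ring, hb]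
    nlinarith
  have h3 := hterm.trans (hE.trans hex)
  rw [hR, mul_pow, div_le_iff₀ (by positivity)] at h3
  have hf := factorial_le (k + 1) (by omega)
  have hkk : (0:ℝ) < (((k + 1 : ℕ) : ℝ)) ^ (k + 1) := by positivity
  refine le_of_mul_le_mul_left ?_ hkk
  calc _ = hseq c b (k + 1) * ((((k + 1 : ℕ) : ℝ)) ^ (k + 1) * v ^ (k + 1)) := by ring
    _ ≤ _ := h3
    _ = (((k + 1).factorial : ℝ) * Real.exp ((k + 1 : ℕ) : ℝ)) *
        Real.exp (((k + 1 : ℕ) : ℝ) * (β ^ 2 * v ^ 2 / 2)) := by ring
    _ ≤ (Real.exp 1 * ((k + 1 : ℕ) : ℝ) * (((k + 1 : ℕ) : ℝ)) ^ (k + 1)) *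
        Real.exp (((k + 1 : ℕ) : ℝ) * (β ^ 2 * v ^ 2 / 2)) := mul_le_mul_of_nonneg_right hf (Real.exp_pos _).le
    _ = _ := by ring

end Vale.Agent.P150.High.Det
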