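import Vale.Agent.P150.High.ResCalc
import Vale.Agent.P150.Concentration
import Vale.Agent.P150.Resolvent

/-!
# P150, the mean of the diagonal of `H`

Gaussian integration by parts for the regularised resolvent, the stability of its fixed point,
and the per-index statement `|E H_jj - φ_j| ≤ ε`, for every profile with `β² u² Γ₂ ≤ 1 - η`.
-/

open MeasureTheory ProbabilityTheory Filter Matrix Finset
open scoped Matrix.Norms.L2Operator ComplexConjugate Topology

namespace Vale.Agent.P150.High.DiagMeanLaw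

open Vale.Agent.P150 Vale.Agent.P150.High.ResCalc

variable {n : ℕ}

/-! ### the scalar fixed point -/

/-- Stability of the fixed point: a small defect gives a small error on every site. -/
lemma stable {a θ τ η r : ℝ} {D : Fin n → ℝ} {h e : Fin n → ℂ} {mbar : ℂ}
    (ha : 0 ≤ a) (ha4 : a ≤ 4) (hθ : |θ| ≤ 1 / 2) (hτ : 0 < τ) (hη : 0 < η)
    (hD : ∀ j, 0 ≤ D j ∧ D j ≤ 1) (hΓ : a * gamTwo θ D ≤ 1 - η) (he : ∀ j, ‖e j‖ ≤ r) (hr : 0 ≤ r)
    (hsmall : 4 * (r / τ) ≤ τ) (hτη : τ + 2 * (τ + 4 * (r / τ)) / η ≤ 1 / 4)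
    (hm : mbar = (∑ j, ((D j : ℂ) + (D j : ℂ) ^ 2 * h j)) / n) (hmi : 0 ≤ mbar.im)
    (heq : ∀ j, h j = -(((θ : ℂ) + (a : ℂ) * (((∑ j, D j / (1 + θ * D j)) / n : ℝ) : ℂ) -
        (τ : ℂ) * Complex.I) - (a : ℂ) * mbar) * (1 + (D j : ℂ) * h j) + e j) (j : Fin n) :
    ‖h j - (resPhi θ D j : ℂ)‖ ≤ 8 * (τ + 2 * (τ + 4 * (r / τ)) / η + 2 * r) := by
  set m0 : ℝ := (∑ j, D j / (1 + θ * D j)) / n
  set ζ : ℂ := (θ : ℂ) + (a : ℂ) * (m0 : ℂ) - (τ : ℂ) * Complex.I - (a : ℂ) * mbar
  set den : Fin n → ℂ := fun j => 1 + (D j : ℂ) * ζ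
  set den0 : Fin n → ℝ := fun j => 1 + θ * D j
  have hd0 : ∀ j, 1 / 2 ≤ den0 j := fun j => (frac_bound hθ (hD j).1 (hD j).2).1
  set σ := τ + a * mbar.im
  have hσ : τ ≤ σ := le_add_of_nonneg_right (mul_nonneg ha hmi)
  have hζi : ζ.im = -σ := by simp [ζ, σ]; ring
  have hdeni : ∀ j, (den j).im = -(D j * σ) := fun j => by simp [den, hζi]
  have hden : ∀ j, den j ≠ 0 := fun j h0 => by
    have h1 := congrArg Complex.im h0
    rw [hdeni, Complex.zero_im, neg_eq_zero, mul_eq_zero] at h1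
    rcases h1 with h1 | h1
    · simp [den, h1] at h0
    · linarith
  have hdenτ : ∀ j, D j / ‖den j‖ ≤ 1 / τ := fun j => by
    rw [div_le_div_iff₀ (norm_pos_iff.2 (hden j)) hτ, one_mul]
    refine le_trans ?_ (Complex.abs_im_le_norm _)
    rw [hdeni, abs_neg, abs_of_nonneg (mul_nonneg (hD j).1 (hτ.le.trans hσ))]
    exact mul_le_mul_of_nonneg_left hσ (hD j).1
  have hh : ∀ j, h j * den j = -ζ + e j := fun j => by
    have := heq j
    linear_combination this
  set ρ := r / τ
  have hρ : 0 ≤ ρ := div_nonneg hr hτ.le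
  set q : ℂ := mbar - (∑ j, (D j : ℂ) / den j) / n
  have hq : ‖q‖ ≤ ρ := by
    have e1 : q = (∑ j, (D j : ℂ) ^ 2 * e j / den j) / n := by
      rw [show q = mbar - (∑ j, (D j : ℂ) / den j) / n from rfl, hm, ← sub_div, ← sum_sub_distrib]
      congr 1
      refine sum_congr rfl fun j _ => ?_
      have := hh j
      have := hden j
      field_simp
      simp only [den] at *
      linear_combination (D j : ℂ) ^ 2 * hh j
    rw [e1, norm_div, Complex.norm_natCast]
    refine div_le_of_le_mul₀ (Nat.cast_nonneg n) hρ ((norm_sum_le _ _).trans ((sum_le_sum (g := fun _ => ρ)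
      fun j _ => ?_).trans_eq (by simp [mul_comm])))
    rw [norm_div, norm_mul, norm_pow, Complex.norm_real, Real.norm_of_nonneg (hD j).1]
    calc D j ^ 2 * ‖e j‖ / ‖den j‖ = D j * ‖e j‖ * (D j / ‖den j‖) := by ring
      _ ≤ 1 * r * (1 / τ) := mul_le_mul (mul_le_mul (hD j).2 (he j) (norm_nonneg _) zero_le_one)
          (hdenτ j) (div_nonneg (hD j).1 (norm_nonneg _)) (by linarith)
      _ = ρ := by simp [ρ]; ring
  set X2 : ℝ := (∑ j, D j ^ 2 / ‖den j‖ ^ 2) / n
  have hX2 : 0 ≤ X2 := by positivity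
  have him : ((∑ j, (D j : ℂ) / den j) / n).im = X2 * σ := by
    simp only [X2]
    rw [Complex.div_natCast_im, Complex.im_sum, div_mul_eq_mul_div, sum_mul]
    congr 1
    refine sum_congr rfl fun j _ => ?_
    rw [Complex.div_im, hdeni, Complex.sq_norm]
    simp; ring
  have hX : a * X2 ≤ 1 := by
    by_contra hcon
    push Not at hcon
    have h1 : X2 * σ ≤ mbar.im + ρ := by
      have := (abs_le.1 ((Complex.abs_im_le_norm q).trans hq)).1
      simp only [q, Complex.sub_im] at this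
      linarith
    have h2 : X2 * τ ≤ ρ := by
      simp only [σ] at h1
      nlinarith [mul_nonneg (sub_nonneg.2 hcon.le) hmi]
    have h3 := mul_le_mul_of_nonneg_left h2 ha
    have h4 := mul_le_mul_of_nonneg_right ha4 hρ
    nlinarith
  set X : ℂ := (∑ j, (D j : ℂ) ^ 2 / (den j * (den0 j : ℂ))) / n
  have hd : (mbar - (m0 : ℂ)) * (1 - (a : ℂ) * X) = (τ : ℂ) * Complex.I * X + q := by
    have e1 : (∑ j, (D j : ℂ) / den j) / n - (m0 : ℂ) =
        ((τ : ℂ) * Complex.I + (a : ℂ) * (mbar - (m0 : ℂ))) * X := by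
      have e3 : ∀ j, den j = (den0 j : ℂ) -
          (D j : ℂ) * ((τ : ℂ) * Complex.I + (a : ℂ) * (mbar - (m0 : ℂ))) := fun j => by
        simp only [den, den0, ζ]; push_cast; ring
      generalize (τ : ℂ) * Complex.I + (a : ℂ) * (mbar - (m0 : ℂ)) = w at e3 ⊢
      have hm0c : (m0 : ℂ) = (∑ j, (D j : ℂ) / (den0 j : ℂ)) / n := by simp [m0, den0]
      rw [hm0c]
      simp only [X]
      rw [← sub_div, ← sum_sub_distrib, ← mul_div_assoc, mul_sum]
      congr 1
      refine sum_congr rfl fun j _ => ?_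
      have h1 := hden j
      have h2 : (den0 j : ℂ) ≠ 0 := by exact_mod_cast (by linarith [hd0 j] : den0 j ≠ 0)
      field_simp
      linear_combination (-(D j : ℂ)) * e3 j
    simp only [q]
    linear_combination e1
  have hXb : a * ‖X‖ ≤ 1 - η / 2 := by
    have h1 : ‖X‖ ≤ √(gamTwo θ D) * √X2 := by
      simp only [X, X2, gamTwo, resWeight]
      rw [norm_div, Complex.norm_natCast, Real.sqrt_div' _ (Nat.cast_nonneg n),
        Real.sqrt_div' _ (Nat.cast_nonneg n), div_mul_div_comm, Real.mul_self_sqrt (Nat.cast_nonneg n)]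
      refine div_le_div_of_nonneg_right ((norm_sum_le _ _).trans ?_) (Nat.cast_nonneg n)
      have := Real.sum_mul_le_sqrt_mul_sqrt univ (fun j => D j / den0 j) fun j => D j / ‖den j‖
      simp only [div_pow] at this
      simp only [mul_one_div]
      refine le_trans (le_of_eq (sum_congr rfl fun j _ => ?_)) this
      rw [norm_div, norm_mul, norm_pow, Complex.norm_real, Complex.norm_real,
        Real.norm_of_nonneg (hD j).1, Real.norm_of_nonneg (by linarith [hd0 j] : (0:ℝ) ≤ den0 j)]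
      field_simp
    have hg0 : 0 ≤ gamTwo θ D := by unfold gamTwo resWeight; positivity
    calc a * ‖X‖ ≤ a * (√(gamTwo θ D) * √X2) := mul_le_mul_of_nonneg_left h1 ha
      _ = √(a * gamTwo θ D) * √(a * X2) := by
          rw [Real.sqrt_mul ha, Real.sqrt_mul ha]
          linear_combination (-(√(gamTwo θ D) * √X2)) * Real.mul_self_sqrt ha
      _ ≤ (1 - η / 2) * 1 := by
          have hη1 : 0 ≤ 1 - η := (mul_nonneg ha hg0).trans hΓ
          refine mul_le_mul (Real.sqrt_le_iff.2 ⟨by linarith, ?_⟩) (Real.sqrt_le_one.2 hX)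
            (Real.sqrt_nonneg _) (by linarith)
          nlinarith [sq_nonneg η]
      _ = _ := mul_one _
  have had : a * ‖mbar - (m0 : ℂ)‖ ≤ 2 * (τ + 4 * ρ) / η := by
    have h1 : η / 2 ≤ ‖1 - (a : ℂ) * X‖ := by
      have := norm_sub_norm_le (1 : ℂ) ((a : ℂ) * X)
      rw [norm_one, norm_mul, Complex.norm_real, Real.norm_of_nonneg ha] at this
      linarith
    have h2 : a * ‖mbar - (m0 : ℂ)‖ * (η / 2) ≤ τ + 4 * ρ := by
      refine (mul_le_mul_of_nonneg_left h1 (mul_nonneg ha (norm_nonneg _))).trans ?_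
      rw [mul_assoc, ← norm_mul, hd]
      refine (mul_le_mul_of_nonneg_left (norm_add_le _ _) ha).trans ?_
      rw [mul_add, norm_mul, norm_mul, Complex.norm_real, Complex.norm_I, mul_one,
        Real.norm_of_nonneg hτ.le, mul_left_comm]
      refine add_le_add (mul_le_of_le_one_right hτ.le (hXb.trans (by linarith))) ?_
      exact mul_le_mul ha4 hq (norm_nonneg _) (by norm_num)
    rw [le_div_iff₀ hη]
    linarith
  set s := τ + 2 * (τ + 4 * ρ) / η
  have hζθ : ‖(θ : ℂ) - ζ‖ ≤ s := by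
    rw [show (θ : ℂ) - ζ = (τ : ℂ) * Complex.I + (a : ℂ) * (mbar - (m0 : ℂ)) by simp only [ζ]; ring]
    refine (norm_add_le _ _).trans (add_le_add (by simp [abs_of_pos hτ]) ?_)
    rw [norm_mul, Complex.norm_real, Real.norm_of_nonneg ha]
    exact had
  have hdl : 1 / 4 ≤ ‖den j‖ := by
    have h1 := norm_sub_norm_le ((den0 j : ℂ)) ((D j : ℂ) * ((θ : ℂ) - ζ))
    rw [show (den0 j : ℂ) - (D j : ℂ) * ((θ : ℂ) - ζ) = den j by simp only [den, den0]; push_cast; ring,
      Complex.norm_real, norm_mul, Complex.norm_real, Real.norm_of_nonneg (hD j).1,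
      Real.norm_of_nonneg (by linarith [hd0 j] : (0:ℝ) ≤ den0 j)] at h1
    have := (mul_le_of_le_one_left (norm_nonneg _) (hD j).2).trans (hζθ.trans hτη)
    linarith [hd0 j]
  have h0 : (den0 j : ℂ) ≠ 0 := by exact_mod_cast (by linarith [hd0 j] : den0 j ≠ 0)
  have key : h j - (resPhi θ D j : ℂ) = ((θ : ℂ) - ζ + e j * (den0 j : ℂ)) / (den j * (den0 j : ℂ)) := by
    rw [eq_div_iff (mul_ne_zero (hden j) h0)]
    have e2 : (resPhi θ D j : ℂ) * (den0 j : ℂ) = -(θ : ℂ) := by
      rw [← Complex.ofReal_mul, resPhi, div_mul_cancel₀ _ (by linarith [hd0 j] : den0 j ≠ 0), Complex.ofReal_neg]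
    have e3 : (den0 j : ℂ) = 1 + (θ : ℂ) * (D j : ℂ) := by simp [den0]
    simp only [den] at *
    linear_combination (den0 j : ℂ) * hh j - (1 + (D j : ℂ) * ζ) * e2 - ζ * e3
  rw [key, norm_div, norm_mul (den j)]
  have hden0 : ‖(den0 j : ℂ)‖ ≤ 2 ∧ 1 / 2 ≤ ‖(den0 j : ℂ)‖ := by
    rw [Complex.norm_real, Real.norm_of_nonneg (by linarith [hd0 j] : (0:ℝ) ≤ den0 j)]
    refine ⟨?_, hd0 j⟩
    have := mul_le_mul (abs_le.1 hθ).2 (hD j).2 (hD j).1 (by norm_num)
    simp only [den0]; linarith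
  rw [div_le_iff₀ (mul_pos (by linarith) (by linarith [hden0.2]))]
  have h8 : 1 ≤ 8 * (‖den j‖ * ‖(den0 j : ℂ)‖) := by nlinarith [hden0.2, hdl]
  refine (norm_add_le _ _).trans ((add_le_add hζθ ((norm_mul_le _ _).trans
    (mul_le_mul (he j) hden0.1 (norm_nonneg _) hr))).trans ?_)
  have h9 : 0 ≤ s + r * 2 := add_nonneg ((norm_nonneg _).trans hζθ) (by linarith)
  calc s + r * 2 ≤ (s + r * 2) * (8 * (‖den j‖ * ‖(den0 j : ℂ)‖)) := le_mul_of_one_le_right h9 h8
    _ = _ := by ring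

/-! ### Gaussian tools -/

/-- the edge between two distinct sites -/
def pairEdge {j k : Fin n} (h : j ≠ k) : Edge n :=
  if hlt : j < k then ⟨(j, k), hlt⟩ else ⟨(k, j), lt_of_le_of_ne (not_lt.1 hlt) (Ne.symm h)⟩

lemma coupling_pairEdge (g : Edge n → ℝ) {j k : Fin n} (h : j ≠ k) : coupling g j k = g (pairEdge h) := by
  unfold coupling pairEdge
  by_cases hlt : j < k
  · simp [hlt]
  · simp [hlt, lt_of_le_of_ne (not_lt.1 hlt) (Ne.symm h)]

lemma pairEdge_or {j k : Fin n} (h : j ≠ k) :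
    ((pairEdge h).1.1 = j ∧ (pairEdge h).1.2 = k) ∨ ((pairEdge h).1.1 = k ∧ (pairEdge h).1.2 = j) := by
  unfold pairEdge; split_ifs <;> simp

/-- integration by parts for complex functions of at most exponential growth -/
lemma ibp_complex {ι : Type*} [Fintype ι] [DecidableEq ι] (k : ι) {φ φ' : (ι → ℝ) → ℂ} {C M : ℝ}
    (hM : 0 ≤ M) (hφ : Continuous φ) (hφ' : Continuous φ') (hb : ∀ z, ‖φ z‖ ≤ C * Real.exp (M * l1 z))
    (hb' : ∀ z, ‖φ' z‖ ≤ C * Real.exp (M * l1 z))
    (hd : ∀ z t, HasDerivAt (fun s => φ (Function.update z k s)) (φ' (Function.update z k t)) t) :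
    ∫ z, (z k : ℂ) * φ z ∂gauss ι = ∫ z, φ' z ∂gauss ι := by
  have hC : 0 ≤ C := nonneg_of_mul_nonneg_left ((norm_nonneg _).trans (hb 0)) (Real.exp_pos _)
  have key : ∀ L : ℂ →L[ℝ] ℝ, (∀ w, ‖L w‖ ≤ ‖w‖) →
      ∫ z, z k * L (φ z) ∂gauss ι = ∫ z, L (φ' z) ∂gauss ι := fun L hL =>
    gauss_ibp k hM (L.continuous.comp hφ) (L.continuous.comp hφ') (fun z => (hL _).trans (hb z))
      (fun z => (hL _).trans (hb' z)) fun z t => L.hasFDerivAt.comp_hasDerivAt t (hd z t)
  have hi' : Integrable φ' (gauss ι) :=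
    ((integrable_exp_l1 M).const_mul C).mono' hφ'.aestronglyMeasurable (.of_forall hb')
  have hi : Integrable (fun z => (z k : ℂ) * φ z) (gauss ι) := by
    refine ((integrable_exp_l1 (M + 1)).const_mul C).mono' (by fun_prop) (.of_forall fun z => ?_)
    rw [norm_mul, Complex.norm_real, Real.norm_eq_abs, add_mul, one_mul, Real.exp_add, ← mul_assoc]
    calc |z k| * ‖φ z‖ ≤ Real.exp (l1 z) * (C * Real.exp (M * l1 z)) := mul_le_mul
          (((abs_le_l1 z k).trans (by linarith [Real.add_one_le_exp (l1 z)]))) (hb z) (norm_nonneg _) (Real.exp_pos _).le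
      _ = _ := by ring
  have hre := key Complex.reCLM fun w => Complex.abs_re_le_norm w
  have him := key Complex.imCLM fun w => Complex.abs_im_le_norm w
  refine Complex.ext ?_ ?_
  · rw [← Complex.reCLM_apply, ← Complex.reCLM_apply, ← ContinuousLinearMap.integral_comp_comm _ hi,
      ← ContinuousLinearMap.integral_comp_comm _ hi']
    simpa using hre
  · rw [← Complex.imCLM_apply, ← Complex.imCLM_apply, ← ContinuousLinearMap.integral_comp_comm _ hi,
      ← ContinuousLinearMap.integral_comp_comm _ hi']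
    simpa using him

/-- variance of a coordinatewise Lipschitz function -/
lemma variance_le {ι : Type*} [Fintype ι] {f : (ι → ℝ) → ℝ} {L : ι → ℝ} (hf : Continuous f)
    (hl : CoordLip L f) {v : ℝ} (hv : 0 < v) (hL : ∑ k, L k ^ 2 ≤ v) :
    Integrable (fun z => (f z - ∫ w, f w ∂gauss ι) ^ 2) (gauss ι) ∧
      ∫ z, (f z - ∫ w, f w ∂gauss ι) ^ 2 ∂gauss ι ≤ 8 * v := by
  set μ := ∫ w, f w ∂gauss ι
  set t := √(1 / (2 * v))
  have ht : 0 < t := Real.sqrt_pos.2 (by positivity)
  have ht2 : t ^ 2 * v = 1 / 2 := by rw [Real.sq_sqrt (by positivity)]; field_simp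
  have key : ∀ s : ℝ, s ^ 2 = t ^ 2 →
      Integrable (fun z => Real.exp (s * (f z - μ))) (gauss ι) ∧
        ∫ z, Real.exp (s * (f z - μ)) ∂gauss ι ≤ Real.exp (1 / 2) := fun s hs => by
    have hfc : Continuous fun z => s * (f z - μ) := by fun_prop
    have hl2 : CoordLip (fun k => |s| * L k) fun z => s * (f z - μ) := fun z w => by
      rw [← mul_sub, sub_sub_sub_cancel_right, abs_mul]
      refine (mul_le_mul_of_nonneg_left (hl z w) (abs_nonneg s)).trans_eq ?_
      rw [mul_sum]; exact sum_congr rfl fun k _ => by ring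
    refine ⟨(hl2.integrable hfc).2, (gauss_conc hfc hl2).trans (Real.exp_le_exp.2 ?_)⟩
    rw [integral_const_mul, integral_sub (hl.integrable hf).1 (integrable_const μ), integral_const]
    simp only [probReal_univ, one_smul, μ, sub_self, mul_zero, zero_add, mul_pow, sq_abs, ← mul_sum, hs]
    exact (mul_le_mul_of_nonneg_left hL (sq_nonneg t)).trans ht2.le
  obtain ⟨i1, b1⟩ := key t rfl
  obtain ⟨i2, b2⟩ := key (-t) (neg_sq t)
  have hpt : ∀ z, (f z - μ) ^ 2 ≤ 2 * (Real.exp (t * (f z - μ)) + Real.exp (-t * (f z - μ)) - 2) / t ^ 2 := fun z => by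
    rw [le_div_iff₀ (pow_pos ht 2), neg_mul, ← mul_pow, mul_comm (f z - μ) t]
    have h1 := Real.quadratic_le_exp_of_nonneg (abs_nonneg (t * (f z - μ)))
    have h2 := Real.add_one_le_exp (-|t * (f z - μ)|)
    rw [sq_abs] at h1
    rcases abs_cases (t * (f z - μ)) with ⟨e, _⟩ | ⟨e, _⟩ <;> rw [e] at h1 h2 <;>
      (try simp only [neg_neg] at h1 h2) <;> linarith [sq_nonneg (t * (f z - μ))]
  have hint : Integrable (fun z => 2 * (Real.exp (t * (f z - μ)) + Real.exp (-t * (f z - μ)) - 2) / t ^ 2) (gauss ι) :=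
    (((i1.add i2).sub (integrable_const 2)).const_mul 2).div_const _
  have hsq : Integrable (fun z => (f z - μ) ^ 2) (gauss ι) := hint.mono'
    ((hf.sub continuous_const).pow 2).aestronglyMeasurable
    (.of_forall fun z => by rw [Real.norm_of_nonneg (sq_nonneg _)]; exact hpt z)
  refine ⟨hsq, (integral_mono hsq hint hpt).trans ?_⟩
  rw [integral_div, integral_const_mul, integral_sub (i1.fun_add i2) (integrable_const 2), integral_add i1 i2, integral_const,
    probReal_univ, one_smul, div_le_iff₀ (pow_pos ht 2)]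
  have h3 : Real.exp (1 / 2) ≤ 2 := by
    have := Real.exp_one_lt_d9
    nlinarith [Real.exp_pos (1 / 2), Real.exp_add (1/2 : ℝ) (1/2), show Real.exp (1/2 + 1/2 : ℝ) = Real.exp 1 by norm_num]
  nlinarith

/-! ### integration by parts for the regularised resolvent -/

section IBP

variable {τ β u θ : ℝ} {D : Fin n → ℝ}

/-- `u β / √n` -/
noncomputable def rate (β u : ℝ) (n : ℕ) : ℝ := u * (β / √n)

/-- `b - iτ` -/
noncomputable def zsh (τ β u θ : ℝ) (D : Fin n → ℝ) : ℂ :=
  (resShift β u θ D : ℂ) - (τ : ℂ) * Complex.I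

lemma resW_apply (g : Edge n → ℝ) (i k : Fin n) :
    resW τ β u θ g D i k =
      (if i = k then zsh τ β u θ D else 0) - (rate β u n : ℂ) * (coupling g i k : ℂ) := by
  rw [resW_eq]
  simp only [Matrix.sub_apply, Matrix.smul_apply, cmat, Matrix.map_apply, Matrix.of_apply, cpl, rate,
    Matrix.one_apply, smul_eq_mul, zsh]
  split_ifs <;> push_cast <;> ring

lemma continuous_coupling (i k : Fin n) : Continuous fun g : Edge n → ℝ => coupling g i k := by
  unfold coupling; split_ifs <;> fun_prop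

lemma continuous_W : Continuous fun g : Edge n → ℝ => resW τ β u θ g D := by
  refine continuous_matrix fun i k => ?_
  simp only [resW_apply]
  exact continuous_const.sub (continuous_const.mul (Complex.continuous_ofReal.comp (continuous_coupling i k)))

lemma continuous_G (hτ : 0 < τ) : Continuous fun g : Edge n → ℝ => cG (resW τ β u θ g D) D := by
  refine continuous_iff_continuousAt.2 fun g => tendsto_iff_norm_sub_tendsto_zero.2 ?_
  have hW := tendsto_iff_norm_sub_tendsto_zero.1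
    ((continuous_W (τ := τ) (β := β) (u := u) (θ := θ) (D := D)).tendsto g)
  refine squeeze_zero (fun _ => norm_nonneg _) (fun w => ?_)
    (by simpa using (hW.const_mul (1 / τ * (1 / τ))))
  rw [(res_tau hτ β u θ g D).G_sub (res_tau hτ β u θ w D)]
  refine (norm_mul_le _ _).trans ((mul_le_mul ((norm_mul_le _ _).trans
    (mul_le_mul_of_nonneg_right (res_tau hτ β u θ w D).bd (norm_nonneg _))) (res_tau hτ β u θ g D).bd
    (norm_nonneg _) (mul_nonneg (by positivity) (norm_nonneg _))).trans_eq ?_)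
  rw [norm_sub_rev]; ring

lemma continuous_M (hτ : 0 < τ) : Continuous fun g : Edge n → ℝ => cM (resW τ β u θ g D) D :=
  continuous_const.sub ((continuous_G hτ).matrix_mul continuous_W)

lemma continuous_H (hτ : 0 < τ) : Continuous fun g : Edge n → ℝ => resHc τ β u θ g D :=
  continuous_W.neg.add ((continuous_W.matrix_mul (continuous_G hτ)).matrix_mul continuous_W)

lemma abs_coupling_le (g : Edge n → ℝ) (i k : Fin n) : |coupling g i k| ≤ l1 g := by
  unfold coupling
  split_ifs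
  · exact abs_le_l1 _ _
  · exact abs_le_l1 _ _
  · rw [abs_zero]; exact l1_nonneg g

lemma M_entry_le (hτ : 0 < τ) (g : Edge n → ℝ) (k j : Fin n) :
    ‖cM (resW τ β u θ g D) D k j‖ ≤
      (1 + n * (‖zsh τ β u θ D‖ + |rate β u n|) / τ) * Real.exp (l1 g) := by
  have hexp := Real.one_le_exp (l1_nonneg g)
  have hW : ∀ i, ‖resW τ β u θ g D i j‖ ≤ (‖zsh τ β u θ D‖ + |rate β u n|) * Real.exp (l1 g) := fun i => by
    rw [resW_apply]
    refine (norm_sub_le _ _).trans ?_
    rw [norm_mul, Complex.norm_real, Complex.norm_real, Real.norm_eq_abs, Real.norm_eq_abs, add_mul]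
    refine add_le_add ?_ (mul_le_mul_of_nonneg_left
      ((abs_coupling_le g i j).trans (by linarith [Real.add_one_le_exp (l1 g)])) (abs_nonneg _))
    split_ifs
    · exact le_mul_of_one_le_right (norm_nonneg _) hexp
    · rw [norm_zero]; positivity
  rw [cM, Matrix.sub_apply, Matrix.mul_apply, add_mul, one_mul]
  refine (norm_sub_le _ _).trans (add_le_add (le_trans ((entry_le _ k j).trans norm_one_le) hexp)
    ((norm_sum_le _ _).trans ((sum_le_sum (g := fun _ => 1 / τ *
      ((‖zsh τ β u θ D‖ + |rate β u n|) * Real.exp (l1 g))) fun i _ => ?_).trans_eq ?_)))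
  · rw [norm_mul]
    exact mul_le_mul ((entry_le _ k i).trans (res_tau hτ β u θ g D).bd) (hW i) (norm_nonneg _) (by positivity)
  · simp; ring

lemma hasDerivAt_M (hτ : 0 < τ) (g : Edge n → ℝ) (e : Edge n) (t : ℝ) (k j : Fin n) :
    HasDerivAt (fun s => cM (resW τ β u θ (Function.update g e s) D) D k j)
      ((rate β u n : ℂ) *
        (cG (resW τ β u θ (Function.update g e t) D) D k e.1.1 *
            cM (resW τ β u θ (Function.update g e t) D) D e.1.2 j +
          cG (resW τ β u θ (Function.update g e t) D) D k e.1.2 *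
            cM (resW τ β u θ (Function.update g e t) D) D e.1.1 j)) t := by
  rw [hasDerivAt_iff_tendsto_slope]
  set W := fun s => resW τ β u θ (Function.update g e s) D
  set F := fun s => (rate β u n : ℂ) * (cG (W s) D k e.1.1 * cM (W t) D e.1.2 j +
    cG (W s) D k e.1.2 * cM (W t) D e.1.1 j)
  have hF : Continuous F := by
    have hG : Continuous fun s => cG (W s) D :=
      (continuous_G hτ).comp (continuous_const.update e continuous_id)
    exact continuous_const.mul (((hG.matrix_elem k e.1.1).mul continuous_const).add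
      ((hG.matrix_elem k e.1.2).mul continuous_const))
  have key : ∀ s, cM (W s) D k j - cM (W t) D k j = ((s - t : ℝ) : ℂ) * F s := fun s => by
    have h1 : e.1.1 ≠ e.1.2 := e.2.ne
    have hD : ∀ p q, (W t - W s) p q = (rate β u n : ℂ) *
        ((if p = e.1.1 ∧ q = e.1.2 then ((s - t : ℝ) : ℂ) else 0) +
          if p = e.1.2 ∧ q = e.1.1 then ((s - t : ℝ) : ℂ) else 0) := fun p q => by
      have := congrArg Complex.ofReal (coupling_update g e t s p q)
      simp only [Matrix.sub_apply, W, resW_apply, sub_sub_sub_cancel_left, ← mul_sub]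
      rw [← Complex.ofReal_sub, coupling_update g e t s p q]
      split_ifs <;> push_cast <;> ring
    rw [← Matrix.sub_apply, (res_tau hτ β u θ (Function.update g e t) D).M_sub
      (res_tau hτ β u θ (Function.update g e s) D)]
    simp only [Matrix.mul_apply, F, W] at hD ⊢
    simp only [hD, mul_add, add_mul, Finset.sum_add_distrib, mul_ite, ite_mul, mul_zero, zero_mul, ite_and,
      Finset.sum_ite_eq', Finset.mem_univ, if_true]
    ring
  refine ((hF.tendsto t).mono_left nhdsWithin_le_nhds).congr' ?_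
  refine eventually_nhdsWithin_of_forall fun s hs => ?_
  have hne : ((s - t : ℝ) : ℂ) ≠ 0 := Complex.ofReal_ne_zero.2 (sub_ne_zero.2 hs)
  rw [slope_def_module, key s, Complex.real_smul, ← mul_assoc]
  push_cast at hne ⊢
  rw [inv_mul_cancel₀ hne, one_mul]

lemma coord_le_exp (t : ℝ) : |t| ≤ Real.exp |t| ∧ t ^ 2 ≤ 2 * Real.exp |t| ∧ |t| ^ 3 ≤ 6 * Real.exp |t| := by
  have h := Real.pow_div_factorial_le_exp |t| (abs_nonneg t)
  refine ⟨by simpa using h 1, ?_, ?_⟩
  · have := h 2; norm_num [Nat.factorial] at this; linarith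
  · have := h 3; norm_num [Nat.factorial] at this; linarith

/-- second and fourth moments of a coupling -/
lemma coupling_moments (i k : Fin n) :
    ∫ g, coupling g i k ^ 2 ∂gauss (Edge n) ≤ 1 ∧ ∫ g, coupling g i k ^ 4 ∂gauss (Edge n) ≤ 3 := by
  by_cases h : i = k
  · subst h; simp [coupling_self]
  simp only [coupling_pairEdge _ h]
  set e := pairEdge h
  have hexp : ∀ z : Edge n → ℝ, Real.exp |z e| ≤ Real.exp (1 * l1 z) := fun z => by
    rw [one_mul]; exact Real.exp_le_exp.2 (abs_le_l1 z e)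
  have hone : ∀ z : Edge n → ℝ, (1:ℝ) ≤ Real.exp (1 * l1 z) := fun z => by
    rw [one_mul]; exact Real.one_le_exp (l1_nonneg z)
  have h2 : ∫ z, z e ^ 2 ∂gauss (Edge n) = 1 := by
    have := gauss_ibp e (φ := fun z => z e) (φ' := fun _ => 1) (C := 1) zero_le_one (continuous_apply e)
      continuous_const (fun z => by rw [one_mul]; exact (coord_le_exp (z e)).1.trans (hexp z))
      (fun z => by rw [abs_one, one_mul]; exact hone z)
      fun z t => by simpa using hasDerivAt_id' t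
    simpa [sq] using this
  refine ⟨h2.le, le_of_eq ?_⟩
  have := gauss_ibp e (φ := fun z => z e ^ 3) (φ' := fun z => 3 * z e ^ 2) (C := 6) zero_le_one
    (by fun_prop) (by fun_prop)
    (fun z => by rw [abs_pow]; exact (coord_le_exp (z e)).2.2.trans (mul_le_mul_of_nonneg_left (hexp z) (by norm_num)))
    (fun z => by
      rw [abs_of_nonneg (by positivity)]
      linarith [(coord_le_exp (z e)).2.1, hexp z])
    fun z t => by simpa using hasDerivAt_pow 3 t
  rw [show (fun z : Edge n → ℝ => z e ^ 4) = fun z => z e * z e ^ 3 by funext z; ring, this,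
    integral_const_mul, h2, mul_one]

/-- squared norm of the `j`-th column of `W` -/
noncomputable def colW (τ β u θ : ℝ) (g : Edge n → ℝ) (D : Fin n → ℝ) (j : Fin n) : ℝ :=
  csq fun i => resW τ β u θ g D i j

lemma colW_eq (g : Edge n → ℝ) (j : Fin n) :
    colW τ β u θ g D j = ‖zsh τ β u θ D‖ ^ 2 + rate β u n ^ 2 * ∑ i, coupling g i j ^ 2 := by
  have e : ∀ i, ‖resW τ β u θ g D i j‖ ^ 2 =
      (if i = j then ‖zsh τ β u θ D‖ ^ 2 else 0) + rate β u n ^ 2 * coupling g i j ^ 2 := fun i => by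
    rw [resW_apply]
    by_cases h : i = j
    · subst h; simp [coupling_self]
    · simp [h, mul_pow, sq_abs]
  simp only [colW, csq, e, sum_add_distrib, mul_sum, Finset.sum_ite_eq', Finset.mem_univ, if_true]

lemma rate_sq (hn : 0 < n) (hβ : β ^ 2 ≤ 1) (hu : |u| ≤ 2) :
    rate β u n ^ 2 * n = β ^ 2 * u ^ 2 ∧ β ^ 2 * u ^ 2 ≤ 4 ∧ |rate β u n| ≤ 2 / √n := by
  have hn' : (0:ℝ) < n := by exact_mod_cast hn
  refine ⟨?_, ?_, ?_⟩
  · rw [rate, mul_pow, div_pow, Real.sq_sqrt hn'.le]; field_simp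
  · nlinarith [sq_abs u, abs_nonneg u, sq_nonneg β]
  · rw [rate, abs_mul, abs_div, abs_of_nonneg (Real.sqrt_nonneg _), ← mul_div_assoc]
    refine div_le_div_of_nonneg_right ?_ (Real.sqrt_nonneg _)
    have hb : |β| ≤ 1 := by nlinarith [sq_abs β, abs_nonneg β]
    calc |u| * |β| ≤ 2 * 1 := mul_le_mul hu hb (abs_nonneg _) zero_le_two
      _ = 2 := mul_one 2

lemma norm_zsh_le (hτ : 0 < τ) (hτ1 : τ ≤ 1) (hβ : β ^ 2 ≤ 1) (hu : |u| ≤ 2) (hθ : |θ| ≤ 1 / 2)
    (hD : ∀ j, 0 ≤ D j ∧ D j ≤ 1) : ‖zsh τ β u θ D‖ ≤ 10 := by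
  refine (norm_sub_le _ _).trans ?_
  rw [Complex.norm_real, norm_mul, Complex.norm_real, Complex.norm_I, mul_one, Real.norm_eq_abs,
    Real.norm_of_nonneg hτ.le]
  linarith [shift_le hβ hu hθ hD]

lemma colW_moments (hn : 0 < n) (hτ : 0 < τ) (hτ1 : τ ≤ 1) (hβ : β ^ 2 ≤ 1) (hu : |u| ≤ 2)
    (hθ : |θ| ≤ 1 / 2) (hD : ∀ j, 0 ≤ D j ∧ D j ≤ 1) (j : Fin n) :
    (Integrable (fun g => colW τ β u θ g D j) (gauss (Edge n)) ∧
      ∫ g, colW τ β u θ g D j ∂gauss (Edge n) ≤ 104) ∧
    (Integrable (fun g => colW τ β u θ g D j ^ 2) (gauss (Edge n)) ∧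
      ∫ g, colW τ β u θ g D j ^ 2 ∂gauss (Edge n) ≤ 20096) := by
  obtain ⟨hc, ha, -⟩ := rate_sq (n := n) hn hβ hu
  have hz : ‖zsh τ β u θ D‖ ^ 2 ≤ 100 :=
    (pow_le_pow_left₀ (norm_nonneg _) (norm_zsh_le hτ hτ1 hβ hu hθ hD) 2).trans_eq (by norm_num)
  have hi : ∀ p : ℕ, ∀ i, Integrable (fun g : Edge n → ℝ => coupling g i j ^ p) (gauss (Edge n)) := fun p i =>
    integrable_of_bound ((continuous_coupling i j).pow p) (C := 1) (M := p) fun g => by
      rw [one_mul, abs_pow, Real.exp_nat_mul]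
      exact pow_le_pow_left₀ (abs_nonneg _)
        ((abs_coupling_le g i j).trans (by linarith [Real.add_one_le_exp (l1 g)])) p
  have hs : Integrable (fun g => ∑ i, coupling g i j ^ 2) (gauss (Edge n)) :=
    integrable_finsetSum _ fun i _ => hi 2 i
  have h4 : Integrable (fun g => 2 * (10000:ℝ) + 2 * (rate β u n ^ 4 * ((n:ℝ) * ∑ i, coupling g i j ^ 4)))
      (gauss (Edge n)) := (integrable_const _).add ((((integrable_finsetSum _ fun i _ => hi 4 i).const_mul _).const_mul _).const_mul _)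
  have hpt : ∀ g, colW τ β u θ g D j ^ 2 ≤
      2 * (10000:ℝ) + 2 * (rate β u n ^ 4 * ((n:ℝ) * ∑ i, coupling g i j ^ 4)) := fun g => by
    rw [colW_eq]
    have h1 : (∑ i, coupling g i j ^ 2) ^ 2 ≤ (n:ℝ) * ∑ i, coupling g i j ^ 4 := by
      have := sq_sum_le_card_mul_sum_sq (s := univ) (f := fun i => coupling g i j ^ 2)
      simpa [← pow_mul] using this
    have h2 : (‖zsh τ β u θ D‖ ^ 2) ^ 2 ≤ 10000 :=
      (pow_le_pow_left₀ (sq_nonneg _) hz 2).trans_eq (by norm_num)
    refine add_sq_le.trans ?_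
    rw [mul_add, mul_pow (rate β u n ^ 2)]
    refine add_le_add (mul_le_mul_of_nonneg_left h2 zero_le_two) (mul_le_mul_of_nonneg_left ?_ zero_le_two)
    rw [← pow_mul (rate β u n)]
    exact mul_le_mul_of_nonneg_left h1 ((even_two_mul 2).pow_nonneg _)
  refine ⟨⟨?_, ?_⟩, ⟨?_, ?_⟩⟩
  · simp only [colW_eq]; exact (integrable_const _).add (hs.const_mul _)
  · simp only [colW_eq]
    rw [integral_add (integrable_const _) (hs.const_mul _), integral_const, integral_const_mul,
      probReal_univ, one_smul, integral_finsetSum _ fun i _ => hi 2 i]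
    have h1 : ∑ i, ∫ g, coupling g i j ^ 2 ∂gauss (Edge n) ≤ (n:ℝ) :=
      (sum_le_sum fun i _ => (coupling_moments i j).1).trans_eq (by simp)
    linarith [mul_le_mul_of_nonneg_left h1 (sq_nonneg (rate β u n))]
  · refine h4.mono' (by
      simp only [colW_eq]
      exact ((continuous_const.add (continuous_const.mul
        (continuous_finsetSum _ fun i _ => (continuous_coupling i j).pow 2))).pow 2).aestronglyMeasurable)
      (.of_forall fun g => by rw [Real.norm_of_nonneg (sq_nonneg _)]; exact hpt g)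
  · refine (integral_mono_of_nonneg (.of_forall fun g => sq_nonneg _) h4 (.of_forall hpt)).trans ?_
    rw [integral_add (integrable_const _) ((((integrable_finsetSum _ fun i _ => hi 4 i).const_mul _).const_mul _).const_mul _),
      integral_const, probReal_univ, one_smul, integral_const_mul, integral_const_mul, integral_const_mul,
      integral_finsetSum _ fun i _ => hi 4 i]
    have h1 : ∑ i, ∫ g, coupling g i j ^ 4 ∂gauss (Edge n) ≤ 3 * (n:ℝ) :=
      (sum_le_sum fun i _ => (coupling_moments i j).2).trans_eq (by simp [mul_comm])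
    have h2 : rate β u n ^ 4 * ((n:ℝ) * (3 * (n:ℝ))) ≤ 48 := by
      calc rate β u n ^ 4 * ((n:ℝ) * (3 * (n:ℝ))) = 3 * (rate β u n ^ 2 * n) ^ 2 := by ring
        _ ≤ 3 * 4 ^ 2 := mul_le_mul_of_nonneg_left
            (pow_le_pow_left₀ (by positivity) (hc.le.trans ha) 2) (by norm_num)
        _ = 48 := by norm_num
    have := mul_le_mul_of_nonneg_left (mul_le_mul_of_nonneg_left h1 (Nat.cast_nonneg n : (0:ℝ) ≤ n))
      (by positivity : (0:ℝ) ≤ rate β u n ^ 4)
    linarith

lemma csq_colM_le (hτ : 0 < τ) (g : Edge n → ℝ) (j : Fin n) :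
    csq (fun i => cM (resW τ β u θ g D) D i j) ≤ 2 + 2 / τ ^ 2 * colW τ β u θ g D j := by
  set W := resW τ β u θ g D
  set v := cG W D *ᵥ fun i => W i j
  have hv : csq v ≤ 1 / τ ^ 2 * colW τ β u θ g D j := by
    refine (csq_mulVec_le _ _).trans (mul_le_mul_of_nonneg_right ?_ (csq_nonneg _))
    exact (pow_le_pow_left₀ (norm_nonneg _) (res_tau hτ β u θ g D).bd 2).trans_eq (by rw [div_pow, one_pow])
  have e : ∀ i, cM W D i j = (1 : Matrix (Fin n) (Fin n) ℂ) i j - v i := fun i => by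
    simp [cM, v, Matrix.mul_apply, Matrix.mulVec, dotProduct]
  calc csq (fun i => cM W D i j)
      ≤ ∑ i, (2 * ‖(1 : Matrix (Fin n) (Fin n) ℂ) i j‖ ^ 2 + 2 * ‖v i‖ ^ 2) := sum_le_sum fun i _ => by
        show ‖cM W D i j‖ ^ 2 ≤ _
        rw [e, ← mul_add]
        exact (pow_le_pow_left₀ (norm_nonneg _) (norm_sub_le _ _) 2).trans add_sq_le
    _ = 2 + 2 * csq v := by
        rw [sum_add_distrib, ← mul_sum, ← mul_sum,
          show ∑ i, ‖(1 : Matrix (Fin n) (Fin n) ℂ) i j‖ ^ 2 = 1 by simp [Matrix.one_apply, apply_ite norm],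
          mul_one]
        rfl
    _ ≤ _ := by
        have e2 : 2 / τ ^ 2 * colW τ β u θ g D j = 2 * (1 / τ ^ 2 * colW τ β u θ g D j) := by ring
        linarith

lemma H_jj_bound (hτ : 0 < τ) (hτ1 : τ ≤ 1) (g : Edge n → ℝ) (j : Fin n) :
    ‖resHc τ β u θ g D j j‖ ≤ 1 + 2 / τ ^ 2 * colW τ β u θ g D j := by
  have hsym := (res_tau hτ β u θ g D).symm
  rw [resHc, Res.H_eq, Matrix.neg_apply, norm_neg, Matrix.mul_apply]
  refine (norm_sum_le _ _).trans ?_
  refine (sum_le_sum (g := fun i => (‖resW τ β u θ g D i j‖ ^ 2 + ‖cM (resW τ β u θ g D) D i j‖ ^ 2) / 2)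
    fun i _ => ?_).trans ?_
  · rw [norm_mul, show resW τ β u θ g D j i = resW τ β u θ g D i j from (congrFun (congrFun hsym i) j)]
    linarith [two_mul_le_add_sq ‖resW τ β u θ g D i j‖ ‖cM (resW τ β u θ g D) D i j‖]
  · rw [← sum_div, sum_add_distrib]
    have h1 := csq_colM_le (β := β) (u := u) (θ := θ) (D := D) hτ g j
    have h2 : 1 ≤ 1 / τ ^ 2 := by
      rw [le_div_iff₀ (by positivity), one_mul]; exact pow_le_one₀ hτ.le hτ1
    have h3 := mul_le_mul_of_nonneg_right h2 (csq_nonneg fun i => resW τ β u θ g D i j)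
    have e : 2 / τ ^ 2 * colW τ β u θ g D j = 2 * (1 / τ ^ 2 * colW τ β u θ g D j) := by ring
    simp only [colW, csq] at *
    have := mul_nonneg (by positivity : (0:ℝ) ≤ 1 / τ ^ 2)
      (sum_nonneg fun i _ => sq_nonneg ‖resW τ β u θ g D i j‖ : (0:ℝ) ≤ ∑ i, ‖resW τ β u θ g D i j‖ ^ 2)
    linarith

lemma integrable_H_jj (hn : 0 < n) (hτ : 0 < τ) (hτ1 : τ ≤ 1) (hβ : β ^ 2 ≤ 1) (hu : |u| ≤ 2)
    (hθ : |θ| ≤ 1 / 2) (hD : ∀ j, 0 ≤ D j ∧ D j ≤ 1) (j : Fin n) :
    Integrable (fun g => resHc τ β u θ g D j j) (gauss (Edge n)) :=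
  ((integrable_const 1).add ((colW_moments hn hτ hτ1 hβ hu hθ hD j).1.1.const_mul _)).mono'
    ((continuous_H hτ).matrix_elem j j).aestronglyMeasurable (.of_forall fun g => H_jj_bound hτ hτ1 g j)

/-- the normalised trace of `G` -/
noncomputable def trG (τ β u θ : ℝ) (g : Edge n → ℝ) (D : Fin n → ℝ) : ℂ :=
  (∑ i, cG (resW τ β u θ g D) D i i) / n

lemma continuous_trG (hτ : 0 < τ) : Continuous fun g : Edge n → ℝ => trG τ β u θ g D :=
  (continuous_finsetSum _ fun i _ => (continuous_G hτ).matrix_elem i i).div_const _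

lemma norm_trG_le (hτ : 0 < τ) (g : Edge n → ℝ) : ‖trG τ β u θ g D‖ ≤ 1 / τ := by
  rw [trG, norm_div, Complex.norm_natCast]
  refine div_le_of_le_mul₀ (Nat.cast_nonneg n) (by positivity) ((norm_sum_le _ _).trans
    ((sum_le_sum fun i _ => (entry_le _ i i).trans (res_tau hτ β u θ g D).bd).trans_eq ?_))
  simp [mul_comm]

lemma trG_lip (hτ : 0 < τ) (g w : Edge n → ℝ) :
    ‖trG τ β u θ g D - trG τ β u θ w D‖ ≤ ∑ e, 2 * |rate β u n| / (n * τ ^ 2) * |g e - w e| := by
  rw [trG, trG, ← sub_div, ← sum_sub_distrib, norm_div, Complex.norm_natCast]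
  have hg := res_tau hτ β u θ g D
  have hw := res_tau hτ β u θ w D
  set A := cG (resW τ β u θ g D) D
  set B := cG (resW τ β u θ w D) D
  set X := resW τ β u θ w D - resW τ β u θ g D
  have e1 : ∑ i, (A i i - B i i) = ∑ p, ∑ q, X p q * (B * A) q p := by
    show Matrix.trace (A - B) = Matrix.trace (X * (B * A))
    rw [hw.G_sub hg, Matrix.trace_mul_cycle, Matrix.trace_mul_comm]
  have e2 : ∀ p q, ‖X p q‖ = |rate β u n| * coupling (fun e => |g e - w e|) p q := fun p q => by
    simp only [X, Matrix.sub_apply, resW_apply, sub_sub_sub_cancel_left, ← mul_sub, norm_mul,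
      ← Complex.ofReal_sub, Complex.norm_real, Real.norm_eq_abs]
    congr 1
    unfold coupling; split_ifs <;> simp
  rw [e1]
  have h := quad_coupling (fun e => |g e - w e|) fun _ : Fin n => (1 : ℝ)
  simp only [mul_one, ← mul_sum] at h
  have hBA : ∀ q p, ‖(B * A) q p‖ ≤ 1 / τ ^ 2 := fun q p => (entry_le _ q p).trans
    ((norm_mul_le _ _).trans ((mul_le_mul hw.bd hg.bd (norm_nonneg _) (by positivity)).trans_eq (by ring)))
  refine (div_le_div_of_nonneg_right ((norm_sum_le _ _).trans (sum_le_sum fun p _ =>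
    (norm_sum_le _ _).trans (sum_le_sum (g := fun q => ‖X p q‖ * (1 / τ ^ 2)) fun q _ => ?_)))
    (Nat.cast_nonneg n)).trans (le_of_eq ?_)
  · rw [norm_mul]; exact mul_le_mul_of_nonneg_left (hBA q p) (norm_nonneg _)
  · simp only [e2, ← sum_mul, ← mul_sum, h]
    ring

lemma trG_variance (hn : 0 < n) (hτ : 0 < τ) (hβ : β ^ 2 ≤ 1) (hu : |u| ≤ 2) :
    Integrable (fun g => ‖trG τ β u θ g D - ∫ w, trG τ β u θ w D ∂gauss (Edge n)‖ ^ 2) (gauss (Edge n)) ∧
    ∫ g, ‖trG τ β u θ g D - ∫ w, trG τ β u θ w D ∂gauss (Edge n)‖ ^ 2 ∂gauss (Edge n) ≤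
      256 / (n * τ ^ 4) := by
  have hn' : (0:ℝ) < n := by exact_mod_cast hn
  have hi : Integrable (fun g => trG τ β u θ g D) (gauss (Edge n)) :=
    (integrable_const (1 / τ)).mono' (continuous_trG hτ).aestronglyMeasurable (.of_forall (norm_trG_le hτ))
  set m := ∫ w, trG τ β u θ w D ∂gauss (Edge n)
  set L := fun _ : Edge n => 2 * |rate β u n| / (n * τ ^ 2)
  have hL : ∑ e, L e ^ 2 ≤ 16 / (n * τ ^ 4) := by
    have hcard : (Fintype.card (Edge n) : ℝ) ≤ (n:ℝ) * n := by
      have := Fintype.card_subtype_le fun p : Fin n × Fin n => p.1 < p.2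
      simp only [Fintype.card_prod, Fintype.card_fin] at this
      exact_mod_cast this
    simp only [L, sum_const, nsmul_eq_mul, Finset.card_univ]
    obtain ⟨hc, ha, -⟩ := rate_sq (n := n) hn hβ hu
    refine (mul_le_mul_of_nonneg_right hcard (sq_nonneg _)).trans ?_
    rw [div_pow, mul_pow, sq_abs, mul_pow, ← mul_div_assoc, div_le_div_iff₀ (by positivity) (by positivity)]
    nlinarith [mul_le_mul_of_nonneg_left (hc.le.trans ha) (by positivity : (0:ℝ) ≤ 4 * (n:ℝ) ^ 2 * τ ^ 4)]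
  have key : ∀ P : ℂ →L[ℝ] ℝ, (∀ x, |P x| ≤ ‖x‖) →
      Integrable (fun g => (P (trG τ β u θ g D) - P m) ^ 2) (gauss (Edge n)) ∧
      ∫ g, (P (trG τ β u θ g D) - P m) ^ 2 ∂gauss (Edge n) ≤ 8 * (16 / (n * τ ^ 4)) := fun P hP => by
    have := variance_le (f := fun g => P (trG τ β u θ g D)) (L := L) (P.continuous.comp (continuous_trG hτ))
      (fun g w => by rw [← map_sub]; exact (hP _).trans (trG_lip hτ g w)) (by positivity) hL
    rwa [ContinuousLinearMap.integral_comp_comm _ hi] at this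
  obtain ⟨r1, r2⟩ := key Complex.reCLM fun x => Complex.abs_re_le_norm x
  obtain ⟨i1, i2⟩ := key Complex.imCLM fun x => Complex.abs_im_le_norm x
  have e : ∀ g, ‖trG τ β u θ g D - m‖ ^ 2 = (Complex.reCLM (trG τ β u θ g D) - Complex.reCLM m) ^ 2 +
      (Complex.imCLM (trG τ β u θ g D) - Complex.imCLM m) ^ 2 := fun g => by
    rw [Complex.sq_norm, Complex.normSq_apply]; simp; ring
  simp only [e]
  refine ⟨r1.fun_add i1, ?_⟩
  rw [integral_add r1 i1]
  have : (256:ℝ) / (n * τ ^ 4) = 8 * (16 / (n * τ ^ 4)) + 8 * (16 / (n * τ ^ 4)) := by ring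
  linarith

/-- The integrated Schwinger-Dyson equation for the diagonal of `H`. -/
lemma mean_eq (hn : 0 < n) (hτ : 0 < τ) (hτ1 : τ ≤ 1) (hβ : β ^ 2 ≤ 1) (hu : |u| ≤ 2)
    (hθ : |θ| ≤ 1 / 2) (hD : ∀ j, 0 ≤ D j ∧ D j ≤ 1) (j : Fin n) :
    ∃ e : ℂ, ‖e‖ ≤ 4000 / (τ ^ 4 * √n) ∧
      ∫ g, resHc τ β u θ g D j j ∂gauss (Edge n) =
        -(zsh τ β u θ D - ((β ^ 2 * u ^ 2 : ℝ) : ℂ) * ∫ g, trG τ β u θ g D ∂gauss (Edge n)) *
          (1 + (D j : ℂ) * ∫ g, resHc τ β u θ g D j j ∂gauss (Edge n)) + e := by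
  have hn' : (0:ℝ) < n := by exact_mod_cast hn
  obtain ⟨hc, ha, -⟩ := rate_sq (n := n) hn hβ hu
  set μ := gauss (Edge n)
  set c := rate β u n
  set G := fun g : Edge n → ℝ => cG (resW τ β u θ g D) D
  set M := fun g : Edge n → ℝ => cM (resW τ β u θ g D) D
  set mbar := ∫ g, trG τ β u θ g D ∂μ
  set C := 1 + (n:ℝ) * (‖zsh τ β u θ D‖ + |rate β u n|) / τ
  have hMi : ∀ k, Integrable (fun g => M g k j) μ := fun k =>
    ((integrable_exp_l1 1).const_mul C).mono' ((continuous_M hτ).matrix_elem k j).aestronglyMeasurable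
      (.of_forall fun g => by rw [one_mul]; exact M_entry_le hτ g k j)
  have hGM : ∀ a b k, Integrable (fun g => G g a b * M g k j) μ := fun a b k =>
    (hMi k).bdd_mul ((continuous_G hτ).matrix_elem a b).aestronglyMeasurable
      (.of_forall fun g => (entry_le _ a b).trans (res_tau hτ β u θ g D).bd)
  have hibp : ∀ k, k ≠ j → ∫ g, (coupling g j k : ℂ) * M g k j ∂μ =
      (c : ℂ) * ∫ g, G g k k * M g j j + G g k j * M g k j ∂μ := fun k hk => by
    simp only [coupling_pairEdge _ (Ne.symm hk)]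
    rw [← integral_const_mul]
    set e := pairEdge (Ne.symm hk)
    have he : ∀ g, G g k e.1.1 * M g e.1.2 j + G g k e.1.2 * M g e.1.1 j =
        G g k k * M g j j + G g k j * M g k j := fun g => by
      rcases pairEdge_or (Ne.symm hk) with ⟨h1, h2⟩ | ⟨h1, h2⟩ <;> simp only [e, h1, h2] <;> ring
    refine (ibp_complex e (φ := fun g => M g k j)
      (φ' := fun g => (c : ℂ) * (G g k e.1.1 * M g e.1.2 j + G g k e.1.2 * M g e.1.1 j))
      (C := C + |c| * (2 / τ) * C) zero_le_one ((continuous_M hτ).matrix_elem k j)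
      (continuous_const.mul ((((continuous_G hτ).matrix_elem k e.1.1).mul
        ((continuous_M hτ).matrix_elem e.1.2 j)).add (((continuous_G hτ).matrix_elem k e.1.2).mul
        ((continuous_M hτ).matrix_elem e.1.1 j))))
      (fun g => ?_) (fun g => ?_) fun g t => hasDerivAt_M hτ g e t k j).trans
      (integral_congr_ae (.of_forall fun g => congrArg _ (he g)))
    · rw [one_mul]
      exact (M_entry_le hτ g k j).trans (mul_le_mul_of_nonneg_right
        (le_add_of_nonneg_right (by positivity)) (Real.exp_pos _).le)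
    · rw [one_mul, norm_mul, Complex.norm_real, Real.norm_eq_abs]
      have h1 : ∀ p q, ‖G g k p * M g q j‖ ≤ 1 / τ * (C * Real.exp (l1 g)) := fun p q => by
        rw [norm_mul]
        exact mul_le_mul ((entry_le _ k p).trans (res_tau hτ β u θ g D).bd) (M_entry_le hτ g q j)
          (norm_nonneg _) (by positivity)
      refine (mul_le_mul_of_nonneg_left ((norm_add_le _ _).trans (add_le_add (h1 _ _) (h1 _ _))) (abs_nonneg c)).trans ?_
      have : 0 ≤ C * Real.exp (l1 g) := (norm_nonneg _).trans (M_entry_le hτ g j j)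
      rw [show |c| * (1 / τ * (C * Real.exp (l1 g)) + 1 / τ * (C * Real.exp (l1 g))) =
        |c| * (2 / τ) * C * Real.exp (l1 g) by ring, add_mul]
      exact le_add_of_nonneg_left this
  have hgM : ∀ k, Integrable (fun g : Edge n → ℝ => (coupling g j k : ℂ) * M g k j) μ := fun k => by
    refine ((integrable_exp_l1 2).const_mul C).mono' (((Complex.continuous_ofReal.comp
      (continuous_coupling j k)).mul ((continuous_M hτ).matrix_elem k j))).aestronglyMeasurable
      (.of_forall fun g => ?_)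
    rw [norm_mul, Complex.norm_real, Real.norm_eq_abs, two_mul (l1 g), Real.exp_add, mul_left_comm]
    exact mul_le_mul ((abs_coupling_le g j k).trans (by linarith [Real.add_one_le_exp (l1 g)]))
      (M_entry_le hτ g k j) (norm_nonneg _) (Real.exp_pos _).le
  set R := fun g => ∑ k, G g k j * M g k j - 2 * (G g j j * M g j j)
  have hRi : Integrable R μ := (integrable_finsetSum _ fun k _ => hGM k j k).sub ((hGM j j j).const_mul 2)
  have htM : Integrable (fun g => trG τ β u θ g D * M g j j) μ :=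
    (hMi j).bdd_mul (continuous_trG hτ).aestronglyMeasurable (.of_forall (norm_trG_le hτ))
  have hsum : ∑ k, ∫ g, (coupling g j k : ℂ) * M g k j ∂μ =
      (c : ℂ) * ((n : ℂ) * ∫ g, trG τ β u θ g D * M g j j ∂μ + ∫ g, R g ∂μ) := by
    have hk : ∀ k, ∫ g, (coupling g j k : ℂ) * M g k j ∂μ = (c : ℂ) *
        (∫ g, G g k k * M g j j + G g k j * M g k j ∂μ -
          if k = j then 2 * ∫ g, G g j j * M g j j ∂μ else 0) := fun k => by
      by_cases h : k = j
      · subst h; simp [coupling_self, integral_add (hGM k k k) (hGM k k k), two_mul]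
      · rw [hibp k h, if_neg h, sub_zero]
    simp only [hk, ← mul_sum, sum_sub_distrib, Finset.sum_ite_eq', Finset.mem_univ, if_true]
    congr 1
    rw [← integral_finsetSum _ fun k _ => (hGM k k j).fun_add (hGM k j k), ← integral_const_mul,
      ← integral_sub (integrable_finsetSum _ fun k _ => (hGM k k j).fun_add (hGM k j k)) ((hGM j j j).const_mul 2),
      ← integral_const_mul, ← integral_add (htM.const_mul _) hRi]
    refine integral_congr_ae (.of_forall fun g => ?_)
    have hne : (n:ℂ) ≠ 0 := Nat.cast_ne_zero.2 hn.ne'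
    simp only [R, trG, sum_add_distrib, ← sum_mul, G]
    field_simp
    ring
  have hH : ∀ g, resHc τ β u θ g D j j =
      -zsh τ β u θ D * M g j j + (c : ℂ) * ∑ k, (coupling g j k : ℂ) * M g k j := fun g => by
    rw [resHc, Res.H_eq, Matrix.neg_apply, Matrix.mul_apply]
    simp only [resW_apply, sub_mul, sum_sub_distrib, ite_mul, zero_mul, Finset.sum_ite_eq, Finset.mem_univ,
      if_true, mul_sum, M, c]
    rw [neg_sub, sub_eq_neg_add, neg_mul]
    congr 1
    exact sum_congr rfl fun k _ => by ring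
  have hEH : ∫ g, resHc τ β u θ g D j j ∂μ = -zsh τ β u θ D * ∫ g, M g j j ∂μ + (c : ℂ) * ((c : ℂ) *
      ((n : ℂ) * ∫ g, trG τ β u θ g D * M g j j ∂μ + ∫ g, R g ∂μ)) := by
    simp only [hH]
    rw [integral_add ((hMi j).const_mul _) ((integrable_finsetSum _ fun k _ => hgM k).const_mul _),
      integral_const_mul, integral_const_mul, integral_finsetSum _ fun k _ => hgM k, hsum]
  have hEM : ∫ g, M g j j ∂μ = 1 + (D j : ℂ) * ∫ g, resHc τ β u θ g D j j ∂μ := by
    have hMjj : ∀ g, M g j j = 1 + (D j : ℂ) * resHc τ β u θ g D j j := fun g => by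
      simp only [M, cM, (res_tau hτ β u θ g D).GW_eq, sub_neg_eq_add, Matrix.add_apply, Matrix.one_apply_eq,
        cdiag, Matrix.diagonal_mul, resHc]
    simp only [hMjj]
    rw [integral_add (integrable_const _) ((integrable_H_jj hn hτ hτ1 hβ hu hθ hD j).const_mul _),
      integral_const, integral_const_mul, probReal_univ, one_smul]
  set δ := fun g => trG τ β u θ g D - mbar
  have hδ : Integrable (fun g => δ g * M g j j) μ := by
    simp only [δ, sub_mul]; exact htM.sub ((hMi j).const_mul mbar)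
  have hsplit : ∫ g, trG τ β u θ g D * M g j j ∂μ = mbar * ∫ g, M g j j ∂μ + ∫ g, δ g * M g j j ∂μ := by
    rw [← integral_const_mul, ← integral_add ((hMi j).const_mul mbar) hδ]
    exact integral_congr_ae (.of_forall fun g => by simp only [δ]; ring)
  have hca : (c : ℂ) * (c : ℂ) * (n : ℂ) = ((β ^ 2 * u ^ 2 : ℝ) : ℂ) := by
    rw [← hc]; push_cast; ring
  refine ⟨((β ^ 2 * u ^ 2 : ℝ) : ℂ) * ((∫ g, δ g * M g j j ∂μ) + (∫ g, R g ∂μ) / n), ?_, ?_⟩
  swap
  · conv_lhs => rw [hEH, hsplit, hEM]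
    rw [← hca]
    have hne : (n:ℂ) ≠ 0 := Nat.cast_ne_zero.2 hn.ne'
    field_simp
    ring
  obtain ⟨⟨hX, hX1⟩, -⟩ := colW_moments hn hτ hτ1 hβ hu hθ hD j
  have hτ2 : (1:ℝ) ≤ 1 / τ ^ 2 := by
    rw [le_div_iff₀ (by positivity), one_mul]; exact pow_le_one₀ hτ.le hτ1
  set B := fun g => 2 + 2 / τ ^ 2 * colW τ β u θ g D j
  have hBi : Integrable B μ := (integrable_const _).add (hX.const_mul _)
  have hB : ∫ g, B g ∂μ ≤ 210 * (1 / τ ^ 2) := by
    rw [integral_add (integrable_const _) (hX.const_mul _), integral_const, integral_const_mul, probReal_univ,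
      one_smul]
    calc (2:ℝ) + 2 / τ ^ 2 * ∫ g, colW τ β u θ g D j ∂μ
        ≤ 2 * (1 / τ ^ 2) + 2 / τ ^ 2 * 104 := add_le_add (by linarith) (mul_le_mul_of_nonneg_left hX1 (by positivity))
      _ = _ := by ring
  set s := 1 / √(n:ℝ)
  have hs : 0 < s := by positivity
  have h1 : ‖∫ g, δ g * M g j j ∂μ‖ ≤ (128 / τ ^ 4 + 105 / τ ^ 2) / √n := by
    obtain ⟨hvi, hv⟩ := trG_variance (θ := θ) (D := D) hn hτ hβ hu
    refine (norm_integral_le_integral_norm _).trans ((integral_mono hδ.norm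
      ((hvi.div_const (2 * s)).fun_add ((hBi.const_mul (s / 2)))) fun g => ?_).trans ?_)
    · rw [norm_mul]
      have hM2 : ‖M g j j‖ ^ 2 ≤ B g := (single_le_sum (f := fun i => ‖M g i j‖ ^ 2)
        (fun i _ => sq_nonneg _) (mem_univ j)).trans (csq_colM_le hτ g j)
      have h0 : ‖δ g‖ * ‖M g j j‖ ≤ ‖δ g‖ ^ 2 / (2 * s) + s / 2 * ‖M g j j‖ ^ 2 := by
        rw [show ‖δ g‖ ^ 2 / (2 * s) + s / 2 * ‖M g j j‖ ^ 2 =
          (‖δ g‖ ^ 2 + (s * ‖M g j j‖) ^ 2) / (2 * s) by field_simp, le_div_iff₀ (by positivity)]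
        linarith [two_mul_le_add_sq ‖δ g‖ (s * ‖M g j j‖)]
      exact h0.trans (add_le_add le_rfl (mul_le_mul_of_nonneg_left hM2 (by positivity)))
    · rw [integral_add (hvi.div_const _) (hBi.const_mul _), integral_div, integral_const_mul]
      refine (add_le_add (div_le_div_of_nonneg_right hv (by positivity))
        (mul_le_mul_of_nonneg_left hB (by positivity))).trans (le_of_eq ?_)
      simp only [s]
      have := Real.sqrt_pos.2 hn'
      field_simp
      rw [Real.sq_sqrt hn'.le]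
      ring
  have h2 : ‖∫ g, R g ∂μ‖ ≤ 631 / τ ^ 2 := by
    refine (norm_integral_le_integral_norm _).trans ((integral_mono hRi.norm
      ((integrable_const (1 / τ ^ 2)).fun_add (hBi.const_mul 3)) fun g => ?_).trans ?_)
    · have hG2 := (col_le (G g) j).trans ((pow_le_pow_left₀ (norm_nonneg _) (res_tau hτ β u θ g D).bd 2).trans_eq
        (by rw [div_pow, one_pow] : _ = 1 / τ ^ 2))
      have hM := csq_colM_le (β := β) (u := u) (θ := θ) (D := D) hτ g j
      have hjj : ‖G g j j * M g j j‖ ≤ ∑ k, ‖G g k j * M g k j‖ :=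
        single_le_sum (f := fun k => ‖G g k j * M g k j‖) (fun k _ => norm_nonneg _) (mem_univ j)
      have hsum2 : ∑ k, ‖G g k j * M g k j‖ ≤ ∑ k, ((1 / 4) * ‖G g k j‖ ^ 2 + 1 * ‖M g k j‖ ^ 2) :=
        sum_le_sum fun k _ => by
          rw [norm_mul]; nlinarith [sq_nonneg (‖G g k j‖ - 2 * ‖M g k j‖)]
      rw [sum_add_distrib, ← mul_sum, ← mul_sum] at hsum2
      refine ((norm_sub_le _ _).trans (add_le_add (norm_sum_le _ _) ?_)).trans
        (b := ∑ k, ‖G g k j * M g k j‖ + 2 * ∑ k, ‖G g k j * M g k j‖) ?_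
      · rw [norm_mul, Complex.norm_two]; exact mul_le_mul_of_nonneg_left hjj zero_le_two
      · simp only [csq, B] at hM ⊢
        have : 0 ≤ 1 / τ ^ 2 := by positivity
        linarith [mul_nonneg (by positivity : (0:ℝ) ≤ 2 / τ ^ 2) (csq_nonneg fun i => resW τ β u θ g D i j)]
    · rw [integral_add (integrable_const _) (hBi.const_mul 3), integral_const, integral_const_mul, probReal_univ,
        one_smul]
      calc (1:ℝ) / τ ^ 2 + 3 * ∫ g, B g ∂μ ≤ 1 / τ ^ 2 + 3 * (210 * (1 / τ ^ 2)) :=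
            add_le_add le_rfl (mul_le_mul_of_nonneg_left hB (by norm_num))
        _ = _ := by ring
  rw [norm_mul, Complex.norm_real, Real.norm_of_nonneg (by positivity)]
  have h3 : ‖(∫ g, R g ∂μ) / (n : ℂ)‖ ≤ 631 / τ ^ 2 / n := by
    rw [norm_div, Complex.norm_natCast]; exact div_le_div_of_nonneg_right h2 hn'.le
  refine (mul_le_mul ha ((norm_add_le _ _).trans (add_le_add h1 h3)) (norm_nonneg _)
    (by norm_num)).trans ?_
  have h24 : 1 / τ ^ 2 ≤ 1 / τ ^ 4 :=
    one_div_le_one_div_of_le (by positivity) (pow_le_pow_of_le_one hτ.le hτ1 (by norm_num))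
  have hsn : 1 / (n:ℝ) ≤ 1 / √n := one_div_le_one_div_of_le (Real.sqrt_pos.2 hn')
    (Real.sqrt_le_iff.2 ⟨hn'.le, by nlinarith [(by exact_mod_cast hn : (1:ℝ) ≤ n)]⟩)
  calc 4 * ((128 / τ ^ 4 + 105 / τ ^ 2) / √n + 631 / τ ^ 2 / n)
      = 4 * ((128 * (1 / τ ^ 4) + 105 * (1 / τ ^ 2)) * (1 / √n) + 631 * (1 / τ ^ 2) * (1 / n)) := by ring
    _ ≤ 4 * ((128 * (1 / τ ^ 4) + 105 * (1 / τ ^ 4)) * (1 / √n) + 631 * (1 / τ ^ 4) * (1 / √n)) := by
        gcongr
    _ ≤ 4000 / (τ ^ 4 * √n) := by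
        rw [show 4000 / (τ ^ 4 * √(n:ℝ)) = 4000 * ((1 / τ ^ 4) * (1 / √n)) by ring]
        linarith [mul_nonneg (by positivity : (0:ℝ) ≤ 1 / τ ^ 4) hs.le]

end IBP

/-! ### the per-index statement -/

/-- For every profile with `β² u² Γ₂ ≤ 1 - η` the mean of every diagonal entry of the regularised
`H` is within `ε` of the prediction, for small `τ` and large `n`. -/
theorem mean_diag (η ε : ℝ) (hη : 0 < η) (hε : 0 < ε) :
    ∃ τ₀ : ℝ, 0 < τ₀ ∧ τ₀ ≤ 1 ∧ ∀ τ, 0 < τ → τ ≤ τ₀ → ∀ᶠ n : ℕ in atTop,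
      ∀ β u θ : ℝ, ∀ D : Fin n → ℝ, β ^ 2 ≤ 1 → |u| ≤ 2 → |θ| ≤ 1 / 2 → (∀ j, 0 ≤ D j ∧ D j ≤ 1) →
        β ^ 2 * u ^ 2 * gamTwo θ D ≤ 1 - η → ∀ j,
          ‖∫ g, resHc τ β u θ g D j j ∂disorder n - (resPhi θ D j : ℂ)‖ ≤ ε := by
  refine ⟨min 1 (min (1 / (4 * (1 + 4 / η))) (ε / (16 * (1 + 4 / η)))), by positivity, min_le_left _ _,
    fun τ hτ hle => ?_⟩
  have hτ1 : τ ≤ 1 := hle.trans (min_le_left _ _)
  have hη' : 0 < 1 + 4 / η := by positivity
  have hK1 : τ * (1 + 4 / η) ≤ 1 / 4 := by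
    have := (le_div_iff₀ (by positivity)).1 (hle.trans ((min_le_right _ _).trans (min_le_left _ _)))
    linarith
  have hK2 : τ * (1 + 4 / η) ≤ ε / 16 := by
    have := (le_div_iff₀ (by positivity)).1 (hle.trans ((min_le_right _ _).trans (min_le_right _ _)))
    linarith
  have hlim : Tendsto (fun n : ℕ => 4000 / (τ ^ 4 * √(n:ℝ))) atTop (𝓝 0) :=
    tendsto_const_nhds.div_atTop (Tendsto.const_mul_atTop (by positivity)
      (Real.tendsto_sqrt_atTop.comp tendsto_natCast_atTop_atTop))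
  filter_upwards [Filter.eventually_ge_atTop 1,
    hlim.eventually (eventually_le_nhds (show (0:ℝ) < min (τ ^ 2 / 4) (ε / 32) by positivity))]
    with n hn hr β u θ D hβ hu hθ hD hΓ j
  rw [disorder_eq_gauss]
  set r := 4000 / (τ ^ 4 * √(n:ℝ))
  have hn' : 0 < n := hn
  choose e he heq using fun k => mean_eq (n := n) hn' hτ hτ1 hβ hu hθ hD k
  set h := fun k => ∫ g, resHc τ β u θ g D k k ∂gauss (Edge n)
  have hG : ∀ g k, cG (resW τ β u θ g D) D k k = (D k : ℂ) + (D k : ℂ) ^ 2 * resHc τ β u θ g D k k := fun g k => by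
    rw [(res_tau hτ β u θ g D).G_eq, Matrix.add_apply, cdiag, Matrix.mul_diagonal, Matrix.diagonal_mul,
      Matrix.diagonal_apply_eq, resHc]
    ring
  have hGi : ∀ k, Integrable (fun g => cG (resW τ β u θ g D) D k k) (gauss (Edge n)) := fun k =>
    (integrable_const (1 / τ)).mono' ((continuous_G hτ).matrix_elem k k).aestronglyMeasurable
      (.of_forall fun g => (entry_le _ k k).trans (res_tau hτ β u θ g D).bd)
  have hm : ∫ g, trG τ β u θ g D ∂gauss (Edge n) = (∑ k, ((D k : ℂ) + (D k : ℂ) ^ 2 * h k)) / n := by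
    simp only [trG]
    rw [integral_div, integral_finsetSum _ fun k _ => hGi k]
    congr 1
    refine sum_congr rfl fun k _ => ?_
    simp only [hG]
    rw [integral_add (integrable_const _) ((integrable_H_jj hn' hτ hτ1 hβ hu hθ hD k).const_mul _),
      integral_const, integral_const_mul, probReal_univ, one_smul]
  have hmi : 0 ≤ (∫ g, trG τ β u θ g D ∂gauss (Edge n)).im := by
    rw [← Complex.imCLM_apply, ← ContinuousLinearMap.integral_comp_comm _
      ((integrable_const (1 / τ)).mono' (continuous_trG hτ).aestronglyMeasurable (.of_forall (norm_trG_le hτ)))]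
    refine integral_nonneg fun g => ?_
    simp only [Complex.imCLM_apply, trG, Complex.div_natCast_im, Complex.im_sum]
    refine div_nonneg (sum_nonneg fun k _ => ?_) (Nat.cast_nonneg n)
    set W := resW τ β u θ g D
    set y := cG W D *ᵥ (Pi.single k 1 : Fin n → ℂ)
    have hR := res_tau hτ β u θ g D
    have hy : ∀ i, y i = (D i : ℂ) * ((Pi.single k 1 : Fin n → ℂ) - W *ᵥ y) i := fun i => by
      have h1 : cdiag D *ᵥ ((Pi.single k 1 : Fin n → ℂ) - W *ᵥ y) = y := by
        rw [Matrix.mulVec_sub, Matrix.mulVec_mulVec, Matrix.mulVec_mulVec, hR.left_eq, Matrix.sub_mulVec, sub_sub_cancel]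
      conv_lhs => rw [← h1]
      rw [cdiag, Matrix.mulVec_diagonal]
    have h2 := (ResCalc.energy (resV_symm β u θ g D) hy (sub_add_cancel _ _).symm).1
    have e1 : (∑ i, conj (y i) * (Pi.single k 1 : Fin n → ℂ) i).im = -(cG W D k k).im := by
      rw [sum_eq_single k (fun i _ hi => by simp [hi]) (by simp)]
      simp [y]
    rw [e1] at h2
    nlinarith [csq_nonneg y]
  have hr' := le_min_iff.1 hr
  have hsm : 4 * (r / τ) ≤ τ := by
    rw [← mul_div_assoc, div_le_iff₀ hτ]
    nlinarith [hr'.1]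
  have hs : τ + 2 * (τ + 4 * (r / τ)) / η ≤ τ * (1 + 4 / η) := by
    rw [show τ * (1 + 4 / η) = τ + 2 * (τ + τ) / η by ring]
    exact add_le_add le_rfl (div_le_div_of_nonneg_right (by linarith) hη.le)
  refine (stable (a := β ^ 2 * u ^ 2) (h := h) (e := e) (r := r) (by positivity)
    ((rate_sq (n := n) hn' hβ hu).2.1) hθ hτ hη hD hΓ he (by positivity) hsm (hs.trans hK1)
    hm hmi (fun k => ?_) j).trans ?_
  · have := heq k
    simp only [zsh, resShift] at this
    push_cast at this ⊢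
    exact this
  · linarith [hr'.2]

/-- The same after composing with any continuous map into the ball that fixes the ball. -/
theorem mean_diag_proj (η ε : ℝ) (hη : 0 < η) (hε : 0 < ε) :
    ∃ τ₀ : ℝ, 0 < τ₀ ∧ τ₀ ≤ 1 ∧ ∀ τ, 0 < τ → τ ≤ τ₀ → ∀ᶠ n : ℕ in atTop,
      ∀ β u θ : ℝ, ∀ D : Fin n → ℝ, ∀ P : (Edge n → ℝ) → (Edge n → ℝ),
        β ^ 2 ≤ 1 → |u| ≤ 2 → |θ| ≤ 1 / 2 → (∀ j, 0 ≤ D j ∧ D j ≤ 1) →
        β ^ 2 * u ^ 2 * gamTwo θ D ≤ 1 - η → Continuous P → (∀ g, P g ∈ Ball β 3) →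
        (∀ g ∈ Ball β 3, P g = g) → ∀ j,
          ‖∫ g, resHc τ β u θ (P g) D j j ∂disorder n - (resPhi θ D j : ℂ)‖ ≤ ε := by
  obtain ⟨τ₀, hτ₀, hτ₀1, h⟩ := mean_diag η (ε / 2) hη (half_pos hε)
  refine ⟨τ₀, hτ₀, hτ₀1, fun τ hτ hle => ?_⟩
  have hτ1 := hle.trans hτ₀1
  obtain ⟨c, hc, hball⟩ := ball_prob
  set K := 16 * (1 + 1 / τ * 16)
  set K2 := 4 + 16 / τ ^ 4 * 20096 + 2 * K ^ 2
  have hK2 : 0 < K2 := by positivity
  set s := ε / (2 * K2)
  have hs : 0 < s := by positivity
  have hlim : Tendsto (fun n : ℕ => 2 * Real.exp (-(c * n))) atTop (𝓝 0) := by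
    simpa using ((Real.tendsto_exp_atBot.comp (tendsto_neg_atTop_atBot.comp
      (Tendsto.const_mul_atTop hc tendsto_natCast_atTop_atTop))).const_mul (2:ℝ))
  filter_upwards [h τ hτ hle, Filter.eventually_ge_atTop 1,
    hlim.eventually (eventually_le_nhds (show (0:ℝ) < ε * s / 2 by positivity))]
    with n hn hn1 hp β u θ D P hβ hu hθ hD hΓ hPc hP hfix j
  have hn' : 0 < n := hn1
  have hmain := hn β u θ D hβ hu hθ hD hΓ j
  rw [disorder_eq_gauss] at hmain ⊢
  set μ := gauss (Edge n)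
  set bad : Set (Edge n → ℝ) := {g | g ∉ Ball β 3}
  have hbm : MeasurableSet bad := (ball_closed β 3).measurableSet.compl
  have hPb : ∀ g, ‖resHc τ β u θ (P g) D j j‖ ≤ K := fun g => by
    have hW := (norm_resW_le (D := D) (abs_le.2 ⟨by linarith, hτ1⟩) hβ hu hθ hD (hP g)).trans
      (show (10:ℝ) + 2 * 3 ≤ 16 by norm_num)
    refine (entry_le _ j j).trans ((res_tau hτ β u θ (P g) D).norm_H_le.trans
      (mul_le_mul hW ?_ (by positivity) (by norm_num)))
    exact add_le_add le_rfl (mul_le_mul_of_nonneg_left hW (by positivity))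
  have hi1 := integrable_H_jj hn' hτ hτ1 hβ hu hθ hD j
  have hi2 : Integrable (fun g => resHc τ β u θ (P g) D j j) μ :=
    (integrable_const K).mono' ((((continuous_H hτ).comp hPc).matrix_elem j j)).aestronglyMeasurable (.of_forall hPb)
  obtain ⟨-, hX2, hX2'⟩ := colW_moments hn' hτ hτ1 hβ hu hθ hD j
  have hq : Integrable (fun g => 4 + 16 / τ ^ 4 * colW τ β u θ g D j ^ 2 + 2 * K ^ 2) μ :=
    ((integrable_const _).add (hX2.const_mul _)).add (integrable_const _)
  have hind : Integrable (fun g => bad.indicator (fun _ => (1:ℝ)) g) μ := (integrable_const _).indicator hbm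
  have hd : ‖∫ g, (resHc τ β u θ (P g) D j j - resHc τ β u θ g D j j) ∂μ‖ ≤ ε / 2 := by
    refine (norm_integral_le_integral_norm _).trans ((integral_mono (hi2.sub hi1).norm
      ((hind.div_const (2 * s)).fun_add (hq.const_mul (s / 2))) fun g => ?_).trans ?_)
    · have hX : 0 ≤ colW τ β u θ g D j := csq_nonneg _
      by_cases hg : g ∈ Ball β 3
      · show ‖resHc τ β u θ (P g) D j j - resHc τ β u θ g D j j‖ ≤ _
        rw [hfix g hg, sub_self, norm_zero]
        exact add_nonneg (div_nonneg (Set.indicator_nonneg (f := fun _ => (1:ℝ)) (fun _ _ => zero_le_one) g)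
          (by positivity)) (by positivity)
      · simp only [Set.indicator_of_mem (show g ∈ bad from hg)]
        set d := ‖resHc τ β u θ (P g) D j j - resHc τ β u θ g D j j‖
        have h1 : d ^ 2 ≤ 4 + 16 / τ ^ 4 * colW τ β u θ g D j ^ 2 + 2 * K ^ 2 := by
          have h2 := (norm_sub_le _ _).trans (add_le_add (hPb g) (H_jj_bound (β := β) (u := u) (θ := θ) (D := D) hτ hτ1 g j))
          refine (pow_le_pow_left₀ (norm_nonneg _) h2 2).trans (add_sq_le.trans ?_)
          have h3 := add_sq_le (a := (1:ℝ)) (b := 2 / τ ^ 2 * colW τ β u θ g D j)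
          have e : (2 / τ ^ 2 * colW τ β u θ g D j) ^ 2 = 4 / τ ^ 4 * colW τ β u θ g D j ^ 2 := by ring
          rw [e] at h3
          have e2 : 16 / τ ^ 4 * colW τ β u θ g D j ^ 2 = 4 * (4 / τ ^ 4 * colW τ β u θ g D j ^ 2) := by ring
          linarith
        have h0 : d ≤ 1 / (2 * s) + s / 2 * d ^ 2 := by
          rw [show 1 / (2 * s) + s / 2 * d ^ 2 = (1 + (s * d) ^ 2) / (2 * s) by field_simp,
            le_div_iff₀ (by positivity)]
          have := two_mul_le_add_sq (1:ℝ) (s * d)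
          linarith
        exact h0.trans (add_le_add le_rfl (mul_le_mul_of_nonneg_left h1 (by positivity)))
    · rw [integral_add (hind.div_const _) (hq.const_mul _), integral_div, integral_const_mul,
        integral_indicator_const _ hbm, integral_add ((integrable_const _).fun_add (hX2.const_mul _)) (integrable_const _),
        integral_add (integrable_const _) (hX2.const_mul _), integral_const, integral_const, integral_const_mul,
        probReal_univ, one_smul, one_smul, smul_eq_mul, mul_one]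
      have hb : μ.real bad ≤ ε * s / 2 := by
        have := hball n hn' β (by nlinarith [sq_abs β, abs_nonneg β])
        rw [disorder_eq_gauss] at this
        exact this.trans hp
      have h4 : s / 2 * (4 + 16 / τ ^ 4 * ∫ g, colW τ β u θ g D j ^ 2 ∂μ + 2 * K ^ 2) ≤ s / 2 * K2 :=
        mul_le_mul_of_nonneg_left (by
          have := mul_le_mul_of_nonneg_left hX2' (by positivity : (0:ℝ) ≤ 16 / τ ^ 4)
          simp only [K2]; linarith) (by positivity)
      have h5 : s / 2 * K2 = ε / 4 := by simp only [s]; field_simp; ring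
      have h6 : μ.real bad / (2 * s) ≤ ε / 4 := by
        rw [div_le_iff₀ (by positivity)]; linarith
      linarith
  rw [integral_sub hi2 hi1] at hd
  have := norm_sub_le_norm_sub_add_norm_sub (∫ g, resHc τ β u θ (P g) D j j ∂μ)
    (∫ g, resHc τ β u θ g D j j ∂μ) (resPhi θ D j : ℂ)
  linarith

end Vale.Agent.P150.High.DiagMeanLaw
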