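import Vale.Agent.P150.High.DiagMean

/-!
# P150, fourth powers of the off-diagonal entries of `H`, for all profiles at once

The entries have mean zero by gauge symmetry, the `ℓ⁴` norm concentrates at rate `n^(3/2)`, and the
net has exponential size.
-/

open MeasureTheory ProbabilityTheory Filter Matrix Finset
open scoped Matrix.Norms.L2Operator Topology ENNReal

namespace Vale.Agent.P150.High.FourMean

open Vale.Agent.P150 Vale.Agent.P150.High.ResCalc Vale.Agent.P150.High.DiagMeanLaw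

variable {n : ℕ}

local instance : Fact ((1 : ℝ≥0∞) ≤ 4) := ⟨by norm_num⟩

/-- the off-diagonal part as a vector -/
def off (A : Matrix (Fin n) (Fin n) ℂ) (p : Fin n × Fin n) : ℂ := if p.1 = p.2 then 0 else A p.1 p.2

/-- `ℓ⁴` norm of the off-diagonal entries -/
noncomputable def n4 (A : Matrix (Fin n) (Fin n) ℂ) : ℝ :=
  ‖(WithLp.toLp 4 (off A) : PiLp 4 fun _ : Fin n × Fin n => ℂ)‖

lemma n4_pow (A : Matrix (Fin n) (Fin n) ℂ) : n4 A ^ 4 = ∑ p, ‖off A p‖ ^ 4 := by
  rw [n4, PiLp.norm_eq_sum (by norm_num)]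
  simp only [show (4 : ℝ≥0∞).toReal = ((4:ℕ):ℝ) by norm_num, Real.rpow_natCast, one_div]
  rw [Real.rpow_inv_natCast_pow (sum_nonneg fun p _ => by positivity) (by norm_num)]

lemma n4_nonneg (A : Matrix (Fin n) (Fin n) ℂ) : 0 ≤ n4 A := norm_nonneg _

lemma off_sub (A B : Matrix (Fin n) (Fin n) ℂ) : off (A - B) = off A - off B := by
  funext p; simp only [off, Pi.sub_apply, Matrix.sub_apply]; split_ifs <;> simp

lemma n4_triangle (A B : Matrix (Fin n) (Fin n) ℂ) : n4 A ≤ n4 B + n4 (A - B) := by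
  simp only [n4, off_sub, WithLp.toLp_sub]
  exact norm_le_norm_add_norm_sub' _ _

lemma n4_neg_sub (A B : Matrix (Fin n) (Fin n) ℂ) : n4 (A - B) = n4 (B - A) := by
  simp only [n4, off_sub, WithLp.toLp_sub]
  exact norm_sub_rev _ _

lemma off_le (A : Matrix (Fin n) (Fin n) ℂ) (p : Fin n × Fin n) : ‖off A p‖ ≤ ‖A p.1 p.2‖ := by
  unfold off; split_ifs <;> simp

lemma n4_le_cfsq (A : Matrix (Fin n) (Fin n) ℂ) : n4 A ≤ √(cfsq A) := by
  refine (pow_le_pow_iff_left₀ (n4_nonneg A) (Real.sqrt_nonneg _) (show 4 ≠ 0 by norm_num)).1 ?_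
  rw [n4_pow, show √(cfsq A) ^ 4 = (√(cfsq A) ^ 2) ^ 2 by ring, Real.sq_sqrt (cfsq_nonneg A)]
  calc ∑ p, ‖off A p‖ ^ 4 ≤ ∑ p : Fin n × Fin n, ‖A p.1 p.2‖ ^ 4 :=
        sum_le_sum fun p _ => pow_le_pow_left₀ (norm_nonneg _) (off_le A p) 4
    _ = ∑ p : Fin n × Fin n, (‖A p.1 p.2‖ ^ 2) ^ 2 := by simp only [← pow_mul]
    _ ≤ (∑ p : Fin n × Fin n, ‖A p.1 p.2‖ ^ 2) ^ 2 := by
        rw [sq (∑ p : Fin n × Fin n, _), sum_mul]
        exact sum_le_sum fun p hp => by
          rw [sq]; exact mul_le_mul_of_nonneg_left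
            (single_le_sum (f := fun p : Fin n × Fin n => ‖A p.1 p.2‖ ^ 2) (fun _ _ => sq_nonneg _) hp) (sq_nonneg _)
    _ = _ := by rw [cfsq, Fintype.sum_prod_type]

lemma n4_le_norm (A : Matrix (Fin n) (Fin n) ℂ) : n4 A ≤ √√(n:ℝ) * ‖A‖ := by
  refine (pow_le_pow_iff_left₀ (n4_nonneg A) (mul_nonneg (Real.sqrt_nonneg _) (norm_nonneg _))
    (show 4 ≠ 0 by norm_num)).1 ?_
  rw [n4_pow, mul_pow, show √√(n:ℝ) ^ 4 = (√√(n:ℝ) ^ 2) ^ 2 by ring, Real.sq_sqrt (Real.sqrt_nonneg _),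
    Real.sq_sqrt (Nat.cast_nonneg n), Fintype.sum_prod_type_right]
  refine (sum_le_sum (g := fun _ => ‖A‖ ^ 4) fun j _ => ?_).trans_eq (by simp)
  calc ∑ i, ‖off A (i, j)‖ ^ 4 ≤ ∑ i, ‖A‖ ^ 2 * ‖A i j‖ ^ 2 := sum_le_sum fun i _ => by
        rw [show ‖off A (i, j)‖ ^ 4 = ‖off A (i, j)‖ ^ 2 * ‖off A (i, j)‖ ^ 2 by ring]
        exact mul_le_mul (pow_le_pow_left₀ (norm_nonneg _) ((off_le A _).trans (entry_le A i j)) 2)
          (pow_le_pow_left₀ (norm_nonneg _) (off_le A _) 2) (sq_nonneg _) (sq_nonneg _)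
    _ = ‖A‖ ^ 2 * ∑ i, ‖A i j‖ ^ 2 := (mul_sum _ _ _).symm
    _ ≤ ‖A‖ ^ 2 * ‖A‖ ^ 2 := mul_le_mul_of_nonneg_left (col_le A j) (sq_nonneg _)
    _ = ‖A‖ ^ 4 := by ring

/-! ### gauge symmetry -/

/-- the sign change at the site `k` -/
def sgn (k i : Fin n) : ℝ := if i = k then -1 else 1

/-- its action on the disorder -/
def flip (k : Fin n) (g : Edge n → ℝ) : Edge n → ℝ := fun e => sgn k e.1.1 * sgn k e.1.2 * g e

lemma sgn_sq (k i : Fin n) : sgn k i * sgn k i = 1 := by unfold sgn; split_ifs <;> norm_num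

lemma flip_flip (k : Fin n) (g : Edge n → ℝ) : flip k (flip k g) = g := by
  funext e
  simp only [flip]
  linear_combination (g e * (sgn k e.1.2 * sgn k e.1.2)) * sgn_sq k e.1.1 + g e * sgn_sq k e.1.2

lemma coupling_flip (k : Fin n) (g : Edge n → ℝ) (i j : Fin n) :
    coupling (flip k g) i j = sgn k i * sgn k j * coupling g i j := by
  unfold coupling flip; split_ifs <;> ring

/-- the sign matrix -/
def smat (k : Fin n) : Matrix (Fin n) (Fin n) ℂ := cdiag (sgn k)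

lemma smat_apply (k : Fin n) (A : Matrix (Fin n) (Fin n) ℂ) (i j : Fin n) :
    (smat k * A * smat k) i j = (sgn k i : ℂ) * A i j * (sgn k j : ℂ) := by
  rw [smat, cdiag, Matrix.mul_diagonal, Matrix.diagonal_mul]

lemma smat_mul_self (k : Fin n) : smat k * smat k = 1 := by
  rw [smat, cdiag, Matrix.diagonal_mul_diagonal, ← Matrix.diagonal_one]
  congr 1
  funext i
  exact_mod_cast sgn_sq k i

lemma norm_smat_le (k : Fin n) : ‖smat k‖ ≤ 1 := by
  rw [smat, cdiag, Matrix.l2_opNorm_diagonal]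
  exact (pi_norm_le_iff_of_nonneg zero_le_one).2 fun i => by unfold sgn; split_ifs <;> simp

lemma cmat_flip (β : ℝ) (k : Fin n) (g : Edge n → ℝ) :
    cmat (Matrix.of (cpl β (flip k g))) = smat k * cmat (Matrix.of (cpl β g)) * smat k := by
  ext i j
  rw [smat_apply]
  simp only [cmat, Matrix.map_apply, Matrix.of_apply, cpl, coupling_flip]
  push_cast
  ring

lemma flip_mem_ball {β Λ : ℝ} (k : Fin n) {g : Edge n → ℝ} (hg : g ∈ Ball β Λ) : flip k g ∈ Ball β Λ := by
  show ‖_‖ ≤ Λ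
  rw [cmat_flip]
  refine ((norm_mul_le _ _).trans (mul_le_of_le_one_right (norm_nonneg _) (norm_smat_le k))).trans ?_
  exact ((norm_mul_le _ _).trans (mul_le_of_le_one_left (norm_nonneg _) (norm_smat_le k))).trans hg

lemma resW_flip (τ β u θ : ℝ) (k : Fin n) (g : Edge n → ℝ) (D : Fin n → ℝ) :
    resW τ β u θ (flip k g) D = smat k * resW τ β u θ g D * smat k := by
  rw [resW_eq, resW_eq, cmat_flip, Matrix.mul_sub, Matrix.sub_mul, Matrix.mul_smul, Matrix.smul_mul,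
    Matrix.mul_one, smat_mul_self, Matrix.mul_smul, Matrix.smul_mul]

lemma resHc_flip {τ β u θ : ℝ} (hτ : 0 < τ) (k : Fin n) (g : Edge n → ℝ) (D : Fin n → ℝ) :
    resHc τ β u θ (flip k g) D = smat k * resHc τ β u θ g D * smat k := by
  have h := res_tau hτ β u θ g D
  have h' := res_tau hτ β u θ (flip k g) D
  have hW := resW_flip τ β u θ k g D
  set S := smat k
  set W := resW τ β u θ g D
  set W' := resW τ β u θ (flip k g) D
  have hS : S * S = 1 := smat_mul_self k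
  have hS2 : ∀ X : Matrix (Fin n) (Fin n) ℂ, S * (S * X) = X := fun X => by
    rw [← Matrix.mul_assoc, hS, Matrix.one_mul]
  have hSD : cdiag D * S = S * cdiag D := by
    simp only [S, smat, cdiag, Matrix.diagonal_mul_diagonal, mul_comm]
  have e : (1 + cdiag D * W') * (S * cG W D * S) = cdiag D := by
    have e0 : (1 + cdiag D * W') * (S * cG W D * S) = S * ((1 + cdiag D * W) * cG W D) * S := by
      rw [hW, Matrix.add_mul, Matrix.add_mul, Matrix.one_mul, Matrix.one_mul, Matrix.mul_add, Matrix.add_mul]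
      congr 1
      simp only [Matrix.mul_assoc, hS2]
      rw [← Matrix.mul_assoc (cdiag D) S, hSD, Matrix.mul_assoc]
    rw [e0, h.mul_G, ← hSD, Matrix.mul_assoc, hS, Matrix.mul_one]
  have hG : cG W' D = S * cG W D * S := by
    calc cG W' D = cM W' D * cdiag D := h'.M_mul_D.symm
      _ = cM W' D * ((1 + cdiag D * W') * (S * cG W D * S)) := by rw [e]
      _ = _ := by rw [← Matrix.mul_assoc, h'.M_mul, Matrix.one_mul]
  show cH W' D = S * cH W D * S
  rw [cH, cH, hG, hW, Matrix.mul_add, Matrix.add_mul, Matrix.mul_neg, Matrix.neg_mul]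
  congr 1
  simp only [Matrix.mul_assoc, hS2]

lemma measurePreserving_flip (k : Fin n) : MeasurePreserving (flip k) (gauss (Edge n)) (gauss (Edge n)) := by
  unfold flip gauss
  refine measurePreserving_pi (fun _ => gaussianReal 0 1) (fun _ => gaussianReal 0 1)
    (f := fun (e : Edge n) (x : ℝ) => sgn k e.1.1 * sgn k e.1.2 * x) fun e => ⟨by fun_prop, ?_⟩
  rw [gaussianReal_map_const_mul, mul_zero]
  congr 1
  apply NNReal.coe_injective
  simp only [NNReal.coe_mk, NNReal.coe_one, mul_one]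
  linear_combination (sgn k e.1.2 * sgn k e.1.2) * sgn_sq k e.1.1 + sgn_sq k e.1.2

lemma proj_flip {β Λ : ℝ} {P : (Edge n → ℝ) → (Edge n → ℝ)} (hP : ∀ g, P g ∈ Ball β Λ)
    (hin : ∀ g, ∀ w ∈ Ball β Λ, ∑ e, (g e - P g e) * (w e - P g e) ≤ 0) (k : Fin n) (g : Edge n → ℝ) :
    P (flip k g) = flip k (P g) := by
  set p := P (flip k g)
  set q := flip k (P g)
  have h1 := hin (flip k g) q (flip_mem_ball k (hP g))
  have h2 : ∑ e, (flip k g e - q e) * (p e - q e) ≤ 0 := by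
    refine le_trans (le_of_eq (sum_congr rfl fun e _ => ?_)) (hin g (flip k p) (flip_mem_ball k (hP _)))
    simp only [q, flip]
    have : sgn k e.1.1 * sgn k e.1.2 * (sgn k e.1.1 * sgn k e.1.2) = 1 := by
      linear_combination (sgn k e.1.2 * sgn k e.1.2) * sgn_sq k e.1.1 + sgn_sq k e.1.2
    linear_combination (-(g e * P g e) + P g e * P g e) * this
  have h3 : ∑ e, (p e - q e) ^ 2 ≤ 0 := by
    refine le_trans (le_of_eq ?_) (add_nonpos h1 h2)
    rw [← sum_add_distrib]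
    exact sum_congr rfl fun e _ => by simp only [p, q]; ring
  funext e
  exact sub_eq_zero.1 (sq_eq_zero_iff.1 (le_antisymm
    ((single_le_sum (f := fun e => (p e - q e) ^ 2) (fun _ _ => sq_nonneg _) (mem_univ e)).trans h3) (sq_nonneg _)))

/-- off-diagonal entries have mean zero -/
lemma mean_off_zero {τ β Λ u θ : ℝ} {D : Fin n → ℝ} {P : (Edge n → ℝ) → (Edge n → ℝ)} (hτ : 0 < τ)
    (hPc : Continuous P) (hP : ∀ g, P g ∈ Ball β Λ)
    (hin : ∀ g, ∀ w ∈ Ball β Λ, ∑ e, (g e - P g e) * (w e - P g e) ≤ 0) {j k : Fin n} (hjk : j ≠ k) :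
    ∫ g, resHc τ β u θ (P g) D j k ∂gauss (Edge n) = 0 := by
  set F := fun g => resHc τ β u θ (P g) D j k
  have hF : Continuous F := ((continuous_H hτ).comp hPc).matrix_elem j k
  have hneg : ∀ g, F (flip k g) = -F g := fun g => by
    simp only [F, proj_flip hP hin k g, resHc_flip hτ, smat_apply, sgn, if_neg hjk]
    simp
  have hmp := measurePreserving_flip (n := n) k
  have h1 : ∫ g, F g ∂gauss (Edge n) = ∫ g, F (flip k g) ∂gauss (Edge n) := by
    conv_lhs => rw [← hmp.map_eq]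
    exact integral_map hmp.measurable.aemeasurable hF.aestronglyMeasurable
  simp only [hneg, integral_neg] at h1
  linear_combination h1 / 2

/-- parameter Lipschitz bound in operator norm -/
lemma resHc_param_norm {τ β u u' θ θ' δ : ℝ} {g : Edge n → ℝ} {D D' : Fin n → ℝ} (hτ : 0 < τ) (hτ1 : τ ≤ 1)
    (hβ : β ^ 2 ≤ 1) (hu : |u| ≤ 2) (hu' : |u'| ≤ 2) (hθ : |θ| ≤ 1 / 2) (hθ' : |θ'| ≤ 1 / 2)
    (hD : ∀ j, 0 ≤ D j ∧ D j ≤ 1) (hD' : ∀ j, 0 ≤ D' j ∧ D' j ≤ 1) (hg : g ∈ Ball β 3)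
    (hdu : |u - u'| ≤ δ) (hdθ : |θ - θ'| ≤ δ) (hdD : ∀ j, |D j - D' j| ≤ δ) :
    ‖resHc τ β u' θ' g D' - resHc τ β u θ g D‖ ≤ (1 + 16 / τ) ^ 2 * 300 * δ := by
  have hδ : 0 ≤ δ := (abs_nonneg _).trans hdu
  have hW : ∀ w th (E : Fin n → ℝ), |w| ≤ 2 → |th| ≤ 1 / 2 → (∀ j, 0 ≤ E j ∧ E j ≤ 1) →
      ‖resW τ β w th g E‖ ≤ 16 ∧ 1 + 1 / τ * ‖resW τ β w th g E‖ ≤ 1 + 16 / τ := fun w th E hw hth hE => by
    have := (norm_resW_le (D := E) (abs_le.2 ⟨by linarith, hτ1⟩) hβ hw hth hE hg).trans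
      (show (10:ℝ) + 2 * 3 ≤ 16 by norm_num)
    exact ⟨this, add_le_add le_rfl (by rw [one_div_mul_eq_div]; exact div_le_div_of_nonneg_right this hτ.le)⟩
  obtain ⟨w1, w2⟩ := hW u θ D hu hθ hD
  obtain ⟨w1', w2'⟩ := hW u' θ' D' hu' hθ' hD'
  set K := 1 + 16 / τ
  have hK : 0 ≤ K := by positivity
  have h := res_tau hτ β u θ g D
  have h' := res_tau hτ β u' θ' g D'
  have hX : ‖resW τ β u θ g D - resW τ β u' θ' g D'‖ ≤ 44 * δ := by
    rw [resW_eq, resW_eq, show ∀ (a b c d : Matrix (Fin n) (Fin n) ℂ), (a - b) - (c - d) = (a - c) - (b - d)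
      from fun a b c d => by abel, ← sub_smul, ← sub_smul, sub_sub_sub_cancel_right]
    refine (norm_sub_le _ _).trans ?_
    rw [norm_smul, norm_smul, ← Complex.ofReal_sub, ← Complex.ofReal_sub, Complex.norm_real, Complex.norm_real,
      Real.norm_eq_abs, Real.norm_eq_abs]
    refine (add_le_add ((mul_le_of_le_one_right (abs_nonneg _) norm_one_le).trans
      (DiagMean.shift_lip hβ hu hu' hθ hθ' hD hD' hdu hdθ hdD)) (mul_le_mul hdu hg (norm_nonneg _) hδ)).trans ?_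
    linarith
  have hdiag : ‖cdiag D' - cdiag D‖ ≤ δ := by
    rw [cdiag, cdiag, Matrix.diagonal_sub, Matrix.l2_opNorm_diagonal]
    exact (pi_norm_le_iff_of_nonneg hδ).2 fun j => by
      show ‖(D' j : ℂ) - (D j : ℂ)‖ ≤ δ
      rw [← Complex.ofReal_sub, Complex.norm_real, Real.norm_eq_abs, abs_sub_comm]; exact hdD j
  have hMt : ‖(cM (resW τ β u θ g D) D)ᵀ‖ ≤ K := by rw [norm_transpose]; exact h.norm_M_le.trans w2
  have hM' : ‖cM (resW τ β u' θ' g D') D'‖ ≤ K := h'.norm_M_le.trans w2'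
  have hH : ‖cH (resW τ β u θ g D) D‖ ≤ 16 * K :=
    h.norm_H_le.trans (mul_le_mul w1 w2 (by positivity) (by norm_num))
  have hH' : ‖cH (resW τ β u' θ' g D') D'‖ ≤ 16 * K :=
    h'.norm_H_le.trans (mul_le_mul w1' w2' (by positivity) (by norm_num))
  show ‖cH (resW τ β u' θ' g D') D' - cH (resW τ β u θ g D) D‖ ≤ _
  rw [h.H_sub h']
  refine (norm_add_le _ _).trans ((add_le_add ((norm_mul_le _ _).trans (mul_le_mul ((norm_mul_le _ _).trans
      (mul_le_mul hMt hX (norm_nonneg _) hK)) hM' (norm_nonneg _) (by positivity)))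
    ((norm_mul_le _ _).trans (mul_le_mul ((norm_mul_le _ _).trans
      (mul_le_mul hH hdiag (norm_nonneg _) (by positivity))) hH' (norm_nonneg _) (by positivity)))).trans
    (le_of_eq ?_))
  ring

/-- `FourMeanStatement`: fourth powers off the diagonal, for all profiles at once. -/
theorem fourMean : FourMeanStatement := by
  intro β η ε Cexp hβ0 hβ1 hη hε
  have hβ : β ^ 2 ≤ 1 := pow_le_one₀ hβ0 hβ1.le
  set r := √√ε
  have hr : 0 < r := Real.sqrt_pos.2 (Real.sqrt_pos.2 hε)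
  have hr4 : r ^ 4 = ε := by
    rw [show r ^ 4 = (r ^ 2) ^ 2 by ring, Real.sq_sqrt (Real.sqrt_nonneg _), Real.sq_sqrt hε.le]
  set KE := (1 + 16 / η) ^ 2
  set τ := min 1 (r / (8 * KE))
  have hτ : 0 < τ := lt_min one_pos (by positivity)
  have hτ1 : τ ≤ 1 := min_le_left _ _
  have hτK : KE * τ ≤ r / 8 := by
    have := (le_div_iff₀ (by positivity)).1 (min_le_right 1 (r / (8 * KE)))
    linarith
  set K := 1 + 16 / τ
  have hK : 0 < K := by positivity
  obtain ⟨m, hm⟩ := exists_nat_gt (K ^ 2 * 300 / (r / 8))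
  have hm0 : (0:ℝ) < m := lt_of_le_of_lt (by positivity) hm
  set δ := 1 / (m:ℝ)
  have hδ : K ^ 2 * 300 * δ ≤ r / 8 := by
    have := (div_lt_iff₀ (by positivity : (0:ℝ) < r / 8)).1 hm
    rw [mul_one_div, div_le_iff₀ hm0]; linarith
  set A := Real.log (2 * (m:ℝ) + 1)
  set C0 := Real.sqrt 2 * Real.exp 1
  set γ := r ^ 2 / 16 / (Real.exp 1 * Real.pi ^ 2 * (3 * K ^ 2) ^ 2)
  have hγ : 0 < γ := by positivity
  set C1 := 16 * Real.sqrt 2 * Real.pi ^ 4 * (3 * K ^ 2) ^ 4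
  filter_upwards [Filter.eventually_ge_atTop 1,
    tendsto_natCast_atTop_atTop.eventually_ge_atTop (256 * C1 / ε),
    (Real.tendsto_sqrt_atTop.comp tendsto_natCast_atTop_atTop).eventually_ge_atTop
      ((|C0| + 3 * A + |Cexp|) / γ)] with n hn1 hnC hbig
  have hn : (0:ℝ) < n := by exact_mod_cast hn1
  set s := √√(n:ℝ)
  have hs : 0 < s := Real.sqrt_pos.2 (Real.sqrt_pos.2 hn)
  have hs2 : s ^ 2 = √(n:ℝ) := Real.sq_sqrt (Real.sqrt_nonneg _)
  have hs4 : s ^ 4 = n := by rw [show s ^ 4 = (s ^ 2) ^ 2 by ring, hs2, Real.sq_sqrt hn.le]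
  obtain ⟨P, hP, hfix, hlip, hin⟩ := exists_proj (n := n) β (show (0:ℝ) ≤ 3 by norm_num)
  have hPc : Continuous P := by
    refine continuous_pi fun e => continuous_iff_continuousAt.2 fun g => tendsto_iff_norm_sub_tendsto_zero.2 ?_
    have hc : Tendsto (fun w : Edge n → ℝ => √(∑ e, (w e - g e) ^ 2)) (𝓝 g) (𝓝 0) :=
      (by fun_prop : Continuous fun w : Edge n → ℝ => √(∑ e, (w e - g e) ^ 2)).tendsto' g 0 (by simp)
    refine squeeze_zero (fun _ => norm_nonneg _) (fun w => ?_) hc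
    rw [Real.norm_eq_abs]
    exact Real.abs_le_sqrt ((single_le_sum (f := fun e => (P w e - P g e) ^ 2) (fun _ _ => sq_nonneg _)
      (mem_univ e)).trans (hlip w g))
  set S : Set (ℝ × ℝ × (Fin n → ℝ)) := {p | (0 ≤ p.1 ∧ p.1 ≤ 2 ∧ |p.2.1| ≤ 1 / 2 ∧
    ∀ j, 0 ≤ p.2.2 j ∧ p.2.2 j ≤ 1) ∧ β ^ 2 * p.1 ^ 2 * gamTwo p.2.1 p.2.2 ≤ 1 - η}
  obtain ⟨N, hNS, hNcard, hN⟩ := exists_net n (Nat.cast_pos.1 hm0) S fun p hp => hp.1
  set t := s * (r / 4)
  have ht : 0 < t := by positivity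
  set L := 3 * K ^ 2 / √(n:ℝ)
  have hL : 0 < L := by positivity
  have hL2 : L ^ 2 = (3 * K ^ 2) ^ 2 / n := by simp only [L]; rw [div_pow, Real.sq_sqrt hn.le]
  set μ := gauss (Edge n)
  set X := fun (q : ℝ × ℝ × (Fin n → ℝ)) g => resHc τ β q.1 q.2.1 (P g) q.2.2
  have hXlip : ∀ q ∈ N, ∀ z w, √(cfsq (X q z - X q w)) ≤ L * √(∑ e, (z e - w e) ^ 2) := fun q hq z w => by
    obtain ⟨⟨hu0, hu2, hθ, hD⟩, -⟩ := hNS hq
    have h := resHc_lip (Λ := 3) hτ hτ1 hβ (abs_le.2 ⟨by linarith, hu2⟩) hθ hD (hP z) (hP w)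
    rw [show (10:ℝ) + 2 * 3 = 16 by norm_num] at h
    exact h.trans (mul_le_mul_of_nonneg_left (Real.sqrt_le_sqrt (hlip z w)) (by positivity))
  have htail : ∀ q ∈ N, μ.real {g | s * (r / 2) ≤ n4 (X q g)} ≤
      C0 * Real.exp (-(γ * n * √(n:ℝ))) := fun q hq => by
    set F := fun g => n4 (X q g)
    have hF : ∀ z w, |F z - F w| ≤ L * √(∑ e, (z e - w e) ^ 2) := fun z w => by
      refine le_trans (abs_le.2 ⟨?_, ?_⟩) ((n4_le_cfsq _).trans (hXlip q hq z w))
      · have h := n4_triangle (X q w) (X q z)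
        rw [n4_neg_sub] at h
        simp only [F]; linarith
      · have h := n4_triangle (X q z) (X q w)
        simp only [F]; linarith
    have hcoord : ∀ p : Fin n × Fin n, Integrable (fun g => ‖off (X q g) p‖ ^ 4) μ ∧
        ∫ g, ‖off (X q g) p‖ ^ 4 ∂μ ≤ 16 * Real.sqrt 2 * Real.pi ^ 4 * L ^ 4 := fun p => by
      by_cases hp : p.1 = p.2
      · simp only [off, if_pos hp, norm_zero, ne_eq, OfNat.ofNat_ne_zero, not_false_eq_true, zero_pow,
          integral_zero]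
        exact ⟨integrable_const 0, by positivity⟩
      simp only [off, if_neg hp]
      have hl : ∀ P' : ℂ →L[ℝ] ℝ, (∀ x, |P' x| ≤ ‖x‖) →
          ∀ z w, |P' (X q z p.1 p.2) - P' (X q w p.1 p.2)| ≤ L * √(∑ e, (z e - w e) ^ 2) := fun P' hP' z w => by
        rw [← map_sub]
        refine (hP' _).trans (le_trans ?_ (hXlip q hq z w))
        rw [← Real.sqrt_sq (norm_nonneg (X q z p.1 p.2 - X q w p.1 p.2))]
        refine Real.sqrt_le_sqrt (le_trans (le_of_eq (by rw [Matrix.sub_apply])) ((single_le_sum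
          (f := fun k => ‖(X q z - X q w) p.1 k‖ ^ 2) (fun _ _ => sq_nonneg _) (mem_univ p.2)).trans
          (single_le_sum (f := fun i => ∑ k, ‖(X q z - X q w) i k‖ ^ 2)
            (fun _ _ => sum_nonneg fun _ _ => sq_nonneg _) (mem_univ p.1))))
      obtain ⟨ri, rv, rV⟩ := LipConc.moment (k := 2) one_le_two hL.le (hl Complex.reCLM fun x => Complex.abs_re_le_norm x)
      obtain ⟨ii, iv, iV⟩ := LipConc.moment (k := 2) one_le_two hL.le (hl Complex.imCLM fun x => Complex.abs_im_le_norm x)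
      have hXc : Continuous fun g => X q g p.1 p.2 := ((continuous_H hτ).comp hPc).matrix_elem _ _
      have hXi : Integrable (fun g => X q g p.1 p.2) μ := by
        refine (ri.norm.add ii.norm).mono' hXc.aestronglyMeasurable (.of_forall fun g => ?_)
        simp only [Pi.add_apply, Complex.reCLM_apply, Complex.imCLM_apply, Real.norm_eq_abs]
        exact Complex.norm_le_abs_re_add_abs_im _
      have h0 : ∫ g, X q g p.1 p.2 ∂μ = 0 := mean_off_zero hτ hPc hP hin hp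
      rw [ContinuousLinearMap.integral_comp_comm _ hXi, h0, map_zero] at rv rV iv iV
      simp only [sub_zero, Nat.cast_ofNat, show 2 * 2 = 4 from rfl] at rv rV iv iV
      have hq2 := (rv.fun_add iv).const_mul 2
      have hpt : ∀ g, ‖X q g p.1 p.2‖ ^ 4 ≤
          2 * (Complex.reCLM (X q g p.1 p.2) ^ 4 + Complex.imCLM (X q g p.1 p.2) ^ 4) := fun g => by
        rw [show ‖X q g p.1 p.2‖ ^ 4 = (‖X q g p.1 p.2‖ ^ 2) ^ 2 by ring, Complex.sq_norm, Complex.normSq_apply]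
        refine add_sq_le.trans (le_of_eq ?_)
        simp only [Complex.reCLM_apply, Complex.imCLM_apply]; ring
      have hsq : Integrable (fun g => ‖X q g p.1 p.2‖ ^ 4) μ := hq2.mono' (hXc.norm.pow 4).aestronglyMeasurable
        (.of_forall fun g => by rw [Real.norm_of_nonneg (by positivity)]; exact hpt g)
      refine ⟨hsq, (integral_mono hsq hq2 hpt).trans ?_⟩
      rw [integral_const_mul, integral_add rv iv]
      linarith [(by ring : Real.sqrt 2 * (Real.pi ^ 2 * L ^ 2 * 2) ^ 2 = 4 * (Real.sqrt 2 * Real.pi ^ 4 * L ^ 4))]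
    have hF4i : Integrable (fun g => F g ^ 4) μ := by
      simp only [F, n4_pow]; exact integrable_finsetSum _ fun p _ => (hcoord p).1
    have hF4 : ∫ g, F g ^ 4 ∂μ ≤ t ^ 4 := by
      simp only [F, n4_pow]
      rw [integral_finsetSum _ fun p _ => (hcoord p).1]
      refine (sum_le_sum fun p _ => (hcoord p).2).trans ?_
      rw [sum_const, Finset.card_univ, Fintype.card_prod, Fintype.card_fin, nsmul_eq_mul]
      push_cast
      rw [show t ^ 4 = s ^ 4 * r ^ 4 / 256 by simp only [t]; ring, hs4, hr4,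
        show L ^ 4 = (L ^ 2) ^ 2 by ring, hL2]
      calc (n:ℝ) * n * (16 * Real.sqrt 2 * Real.pi ^ 4 * ((3 * K ^ 2) ^ 2 / n) ^ 2) = C1 := by
            simp only [C1]; field_simp
        _ ≤ n * ε / 256 := by
            have := (div_le_iff₀ hε).1 hnC
            linarith
    have hFi : Integrable F μ := (LipConc.moment (k := 1) le_rfl hL.le hF).1
    have hEF : ∫ g, F g ∂μ ≤ t := by
      refine (integral_mono hFi ((hF4i.fun_add (integrable_const (3 * t ^ 4))).div_const (4 * t ^ 3))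
        fun g => ?_).trans ?_
      · rw [le_div_iff₀ (by positivity)]
        nlinarith [mul_nonneg (sq_nonneg (F g - t))
          (add_nonneg (add_nonneg (sq_nonneg (F g)) (mul_nonneg (mul_nonneg zero_le_two ht.le) (n4_nonneg (X q g))))
            (mul_nonneg (by norm_num : (0:ℝ) ≤ 3) (sq_nonneg t)))]
      · rw [integral_div, integral_add hF4i (integrable_const _), integral_const, probReal_univ, one_smul,
          div_le_iff₀ (by positivity)]
        linarith [(by ring : t * (4 * t ^ 3) = t ^ 4 + 3 * t ^ 4)]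
    refine (measureReal_mono (s₂ := {g | t ≤ F g - ∫ w, F w ∂μ}) fun g hg => ?_).trans
      ((LipConc.tail hL hF ht).trans (le_of_eq ?_))
    · simp only [Set.mem_ofPred_eq] at hg ⊢
      simp only [t, F] at *
      linarith
    · congr 2
      rw [hL2, show t ^ 2 = s ^ 2 * r ^ 2 / 16 by simp only [t]; ring, hs2]
      simp only [γ]
      field_simp
  rw [disorder_eq_gauss]
  refine le_trans (measureReal_mono (μ := μ) (s₂ := ⋃ q ∈ N, {g | s * (r / 2) ≤ n4 (X q g)}) ?_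
    (measure_ne_top _ _)) ?_
  · rintro g ⟨hop, u, θ, D, hadm, hlt⟩
    have hg := DiagMean.mem_ball_of_opLe hop
    obtain ⟨hu0, hu2, hθ, hD, hΓ, hform⟩ := hadm
    obtain ⟨q, hqN, hdu, hdθ, hdD⟩ := hN (u, θ, D) ⟨⟨hu0, hu2, hθ, hD⟩, hΓ⟩
    obtain ⟨⟨hqu0, hqu2, hqθ, hqD⟩, -⟩ := hNS hqN
    simp only [Set.mem_iUnion, Set.mem_ofPred_eq, X]
    refine ⟨q, hqN, ?_⟩
    rw [hfix g hg]
    set H0 := cmat (resH β u θ g D)
    set H1 := resHc τ β u θ g D
    set H2 := resHc τ β q.1 q.2.1 g q.2.2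
    have hx : s * r < n4 H0 := by
      refine (pow_lt_pow_iff_left₀ (by positivity) (n4_nonneg _) (show 4 ≠ 0 by norm_num)).1 ?_
      rw [mul_pow, hs4, hr4, n4_pow, Fintype.sum_prod_type, mul_comm]
      refine hlt.trans_eq (sum_congr rfl fun i _ => sum_congr rfl fun k _ => ?_)
      simp only [off, H0, cmat, Matrix.map_apply]
      split_ifs with h
      · simp
      · rw [Complex.norm_real, Real.norm_eq_abs, Even.pow_abs (by decide)]
    have h1 : n4 (H0 - H1) ≤ s * (r / 8) := by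
      have h := (resH_approx (Λ := 3) ⟨hu0, hu2, hθ, hD, hΓ, hform⟩ hη hβ hg hτ.le hτ1).2
      rw [show (10:ℝ) + 2 * 3 = 16 by norm_num] at h
      rw [n4_neg_sub]
      exact (n4_le_norm _).trans (mul_le_mul_of_nonneg_left (h.trans hτK) hs.le)
    have h2 : n4 (H1 - H2) ≤ s * (r / 8) := by
      rw [n4_neg_sub]
      exact (n4_le_norm _).trans (mul_le_mul_of_nonneg_left ((resHc_param_norm hτ hτ1 hβ
        (abs_le.2 ⟨by linarith, hu2⟩) (abs_le.2 ⟨by linarith, hqu2⟩) hθ hqθ hD hqD hg hdu hdθ hdD).trans hδ) hs.le)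
    have e1 := n4_triangle H0 H1
    have e2 := n4_triangle H1 H2
    linarith [mul_pos hs hr]
  · refine (measureReal_biUnion_finset_le N _).trans ((sum_le_sum htail).trans ?_)
    rw [sum_const, nsmul_eq_mul]
    have h2m : (0:ℝ) < 2 * (m:ℝ) + 1 := by positivity
    have hA : 0 ≤ A := Real.log_nonneg (by linarith)
    have hcard : (N.card : ℝ) ≤ Real.exp ((n + 2 : ℕ) * A) := by
      rw [Real.exp_nat_mul, Real.exp_log h2m]
      exact_mod_cast hNcard
    have hC : C0 ≤ Real.exp |C0| := (le_abs_self _).trans (by linarith [Real.add_one_le_exp |C0|])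
    refine (mul_le_mul hcard (mul_le_mul_of_nonneg_right hC (Real.exp_pos _).le) (by positivity)
      (Real.exp_pos _).le).trans ?_
    rw [← Real.exp_add, ← Real.exp_add, Real.exp_le_exp]
    simp only [Function.comp_apply] at hbig
    have hb := mul_le_mul_of_nonneg_right ((div_le_iff₀ hγ).1 hbig) hn.le
    have hn1' : (1:ℝ) ≤ n := by exact_mod_cast hn1
    have h1 : |C0| ≤ |C0| * n := le_mul_of_one_le_right (abs_nonneg _) hn1'
    have h2 : A ≤ A * n := le_mul_of_one_le_right hA hn1'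
    have h3 : Cexp * n ≤ |Cexp| * n := mul_le_mul_of_nonneg_right (le_abs_self _) hn.le
    push_cast
    linarith

end Vale.Agent.P150.High.FourMean
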