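import Vale.Agent.P150.High.Assembly

/-!
# P150, all `β < 1`: the spectral gap from the two halves

A minimiser `h` of the Rayleigh quotient with `L h = -λ h` and `λ T ≤ 1` is bounded by
`6 exp (κ n / 2) ‖h‖₂` by the burn-in; the linearised warm contraction then gives `λ ≥ 1 / (16 K)`.
-/

open MeasureTheory Filter Finset
open scoped Topology

namespace Vale.Agent.P150.High

open Vale.Agent.P150 Ising

variable {n : ℕ} {β : ℝ} {g : Edge n → ℝ}

lemma continuous_ip {a b : (Cfg n → ℝ) → Cfg n → ℝ} (ha : Continuous a) (hb : Continuous b) :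
    Continuous fun f => ip β g (a f) (b f) :=
  continuous_finsetSum _ fun x _ =>
    continuous_const.mul (((continuous_apply x).comp ha).mul ((continuous_apply x).comp hb))

lemma ip_add_smul (f h v : Cfg n → ℝ) (t : ℝ) : ip β g f (h + t • v) = ip β g f h + t * ip β g f v := by
  simp only [ip, mul_sum, ← sum_add_distrib, Pi.add_apply, Pi.smul_apply, smul_eq_mul]
  exact sum_congr rfl fun x _ => by ring

lemma dirichlet_eq_ip (f : Cfg n → ℝ) : dirichlet β g f = -ip β g f (generator β g f) := rfl

lemma mean_generator (f : Cfg n → ℝ) : ip β g (fun _ => 1) (generator β g f) = 0 := by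
  rw [ip_selfAdjoint, generator_const]; simp [ip]

lemma proj_eq (i : Fin n) (f : Cfg n → ℝ) (x : Cfg n) :
    proj (cpl β g) 0 i f x = f x - heatBath β g i f x := by
  rw [heatBath_qb, qb]; ring

lemma cpl_symm' (i j : Fin n) : cpl β g i j = cpl β g j i := by simp only [cpl, coupling_symm g i j]

lemma cpl_diag (i : Fin n) : cpl β g i i = 0 := by simp only [cpl, coupling_self, mul_zero]

lemma dirichlet_sq (f : Cfg n → ℝ) :
    dirichlet β g f = ∑ i, ∑ x, gibbs β g x * (f x - heatBath β g i f x) ^ 2 := by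
  have h := inner_gen (J := cpl β g) (0 : Fin n → ℝ) cpl_symm' cpl_diag f f
  simp only [← wt_cpl, dirichlet, generator_gen, mul_neg, sum_neg_distrib, neg_neg, h]
  refine sum_congr rfl fun i _ => ?_
  simp only [← proj_eq, sq, site_sq (J := cpl β g) (0 : Fin n → ℝ) cpl_symm' cpl_diag i f]

lemma mean_proj (i : Fin n) (f : Cfg n → ℝ) :
    ∑ x, gibbs β g x * (f x - heatBath β g i f x) = 0 := by
  have h := site_mul (J := cpl β g) (0 : Fin n → ℝ) cpl_symm' cpl_diag i (fun _ => (1:ℝ)) f
  simp only [one_mul, dd, sub_self, zero_div, zero_mul, mul_zero, sum_const_zero] at h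
  simpa [← proj_eq, ← wt_cpl] using h

lemma heatBath_ge {f : Cfg n → ℝ} {m : ℝ} (hm : ∀ x, m ≤ f x) (i : Fin n) (x : Cfg n) :
    m ≤ heatBath β g i f x := by
  have h1 := Real.exp_pos (localField β g i x)
  have h2 := Real.exp_pos (-localField β g i x)
  rw [heatBath, le_div_iff₀ (by positivity), Real.cosh_eq]
  linarith [mul_le_mul_of_nonneg_left (hm (Function.update x i true)) h1.le,
    mul_le_mul_of_nonneg_left (hm (Function.update x i false)) h2.le]

lemma heatBath_add_const (c : ℝ) (f : Cfg n → ℝ) (i : Fin n) (x : Cfg n) :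
    heatBath β g i (fun y => c + f y) x = c + heatBath β g i f x := by
  have := Real.cosh_pos (localField β g i x)
  simp only [heatBath]
  rw [Real.cosh_eq] at this ⊢
  field_simp
  ring

lemma ent_lower {u : ℝ} (hu : |u| ≤ 1 / 2) : u + u ^ 2 / 4 ≤ (1 + u) * Real.log (1 + u) := by
  obtain ⟨h1, h2⟩ := abs_le.1 hu
  have hpos : 0 < 1 + u := by linarith
  rcases le_or_gt 0 u with h | h
  · have hl := Real.le_log_one_add_of_nonneg h
    rw [div_le_iff₀ (by linarith)] at hl
    nlinarith [mul_le_mul_of_nonneg_left hl hpos.le, mul_nonneg h (sub_nonneg.2 h2), sq_nonneg u]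
  · -- `log (1 + u) = 2 log s` with `s = √(1+u)` and `log s ≥ 1 - 1/s`
    set s := √(1 + u) with hs
    have hs0 : 0 < s := Real.sqrt_pos.2 hpos
    have hs2 : s * s = 1 + u := Real.mul_self_sqrt hpos.le
    have hl := Real.one_sub_inv_le_log_of_pos hs0
    have hs1 : s ≤ 1 := by nlinarith
    rw [← hs2, Real.log_mul hs0.ne' hs0.ne']
    have h3 : s * s * (1 - s⁻¹) = s * s - s := by field_simp
    nlinarith [mul_le_mul_of_nonneg_left hl (mul_self_nonneg s), mul_nonneg (sq_nonneg (1 - s)) (sq_nonneg (1 + s)),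
      mul_nonneg (sq_nonneg (1 - s)) (sub_nonneg.2 hs1)]

/-- The linearised warm contraction. -/
lemma variance_warm {K e R : ℝ} (hK : 0 < K) (hR : 0 < R)
    (hwc : ∀ (f : Cfg n → ℝ) (B : ℝ), (∀ x, 0 < f x ∧ f x ≤ B) → ∑ x, gibbs β g x * f x = 1 →
      ent (gibbs β g) f ≤ K * siteEnt β g f + B * e)
    {h : Cfg n → ℝ} (hmean : ip β g (fun _ => 1) h = 0) (hb : ∀ x, |h x| ≤ R) :
    ip β g h h ≤ 8 * K * dirichlet β g h + 32 * R ^ 2 * e := by
  set a := 1 / (2 * R)
  have ha : 0 < a := by positivity
  have hu : ∀ x, |a * h x| ≤ 1 / 2 := fun x => by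
    rw [abs_mul, abs_of_pos ha]
    refine (mul_le_mul_of_nonneg_left (hb x) ha.le).trans (le_of_eq ?_)
    simp only [a]; field_simp
  set f : Cfg n → ℝ := fun x => 1 + a * h x
  have hf : ∀ x, 1 / 2 ≤ f x ∧ f x ≤ 2 := fun x => by
    have := abs_le.1 (hu x); constructor <;> simp only [f] <;> linarith
  have hm0 : ∑ x, gibbs β g x * h x = 0 := by simpa [ip] using hmean
  have hfm : ∑ x, gibbs β g x * f x = 1 := by
    simp only [f, mul_add, mul_one, sum_add_distrib, gibbs_sum, mul_left_comm _ a, ← mul_sum, hm0, mul_zero, add_zero]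
  have hE : a ^ 2 / 4 * ip β g h h ≤ ent (gibbs β g) f := by
    rw [ent, hfm, Real.log_one, mul_zero, sub_zero]
    calc a ^ 2 / 4 * ip β g h h = ∑ x, gibbs β g x * (a * h x + (a * h x) ^ 2 / 4) := by
          simp only [ip, mul_add, sum_add_distrib, mul_left_comm _ a]
          rw [← mul_sum univ _ a, hm0, mul_zero, zero_add, mul_sum]
          exact sum_congr rfl fun x _ => by ring
      _ ≤ _ := sum_le_sum fun x _ => mul_le_mul_of_nonneg_left (ent_lower (hu x)) (gibbs_pos β g x).le
  have hS : siteEnt β g f ≤ 2 * (a ^ 2 * dirichlet β g h) := by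
    rw [dirichlet_sq, mul_sum, mul_sum, siteEnt]
    refine sum_le_sum fun i _ => ?_
    calc ∑ x, gibbs β g x * (f x * (Real.log (f x) - Real.log (heatBath β g i f x)))
        ≤ ∑ x, (gibbs β g x * (2 * (f x - heatBath β g i f x) ^ 2) + gibbs β g x * (f x - heatBath β g i f x)) := by
          refine sum_le_sum fun x _ => ?_
          rw [← mul_add]
          refine mul_le_mul_of_nonneg_left ?_ (gibbs_pos β g x).le
          have hq : 1 / 2 ≤ heatBath β g i f x := heatBath_ge (fun y => (hf y).1) i x
          set q := heatBath β g i f x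
          have hfx : 0 < f x := by linarith [(hf x).1]
          have hq0 : 0 < q := by linarith
          rw [← Real.log_div hfx.ne' hq0.ne']
          refine (mul_le_mul_of_nonneg_left (Real.log_le_sub_one_of_pos (div_pos hfx hq0)) hfx.le).trans ?_
          rw [show f x * (f x / q - 1) = (f x - q) ^ 2 / q + (f x - q) by field_simp; ring]
          refine add_le_add ((div_le_iff₀ hq0).2 ?_) le_rfl
          nlinarith [sq_nonneg (f x - q)]
      _ = 2 * (a ^ 2 * ∑ x, gibbs β g x * (h x - heatBath β g i h x) ^ 2) := by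
          rw [sum_add_distrib, mean_proj, add_zero, mul_sum, mul_sum]
          refine sum_congr rfl fun x _ => ?_
          have e1 : heatBath β g i (fun y => a * h y) x = a * heatBath β g i h x := by
            simp only [heatBath]; ring
          simp only [f, heatBath_add_const, e1]
          ring
      _ = _ := by rw [mul_sum, mul_sum]
  have hmain := hE.trans ((hwc f 2 (fun x => ⟨by linarith [(hf x).1], (hf x).2⟩) hfm).trans
    (add_le_add (mul_le_mul_of_nonneg_left hS hK.le) le_rfl))
  have ea : a ^ 2 * (4 * R ^ 2) = 1 := by simp only [a]; field_simp; ring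
  have := mul_le_mul_of_nonneg_left hmain (by positivity : (0:ℝ) ≤ 16 * R ^ 2)
  have e1 : 16 * R ^ 2 * (a ^ 2 / 4 * ip β g h h) = a ^ 2 * (4 * R ^ 2) * ip β g h h := by ring
  have e2 : 16 * R ^ 2 * (K * (2 * (a ^ 2 * dirichlet β g h)) + 2 * e) =
      8 * K * dirichlet β g h * (a ^ 2 * (4 * R ^ 2)) + 32 * R ^ 2 * e := by ring
  rw [e1, e2, ea, one_mul, mul_one] at this
  exact this

/-- A minimiser of the Rayleigh quotient. -/
lemma exists_minimiser {f : Cfg n → ℝ} (hf : f ≠ 0) (hmean : ip β g (fun _ => 1) f = 0) :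
    ∃ (h : Cfg n → ℝ) (lam : ℝ), ip β g (fun _ => 1) h = 0 ∧ ip β g h h = 1 ∧
      generator β g h = -lam • h ∧ lam = dirichlet β g h ∧ lam * ip β g f f ≤ dirichlet β g f := by
  set S : Set (Cfg n → ℝ) := {v | ip β g (fun _ => 1) v = 0 ∧ ip β g v v = 1}
  have hscale : ∀ v : Cfg n → ℝ, v ≠ 0 → ip β g (fun _ => 1) v = 0 →
      (√(ip β g v v))⁻¹ • v ∈ S ∧
        dirichlet β g ((√(ip β g v v))⁻¹ • v) = (ip β g v v)⁻¹ * dirichlet β g v := fun v hv hm => by
    have hp := ip_self_pos β g hv
    have e : ∀ c : ℝ, ip β g (c • v) (c • v) = c * c * ip β g v v := fun c => by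
      simp only [ip, mul_sum, Pi.smul_apply, smul_eq_mul]; exact sum_congr rfl fun x _ => by ring
    refine ⟨⟨?_, ?_⟩, ?_⟩
    · have := ip_add_smul (β := β) (g := g) (fun _ => 1) 0 v (√(ip β g v v))⁻¹
      rw [zero_add, hm, mul_zero, add_zero] at this
      exact this.trans (by simp [ip])
    · rw [e, ← mul_inv, Real.mul_self_sqrt hp.le, inv_mul_cancel₀ hp.ne']
    · have hh : ∀ c : ℝ, dirichlet β g (c • v) = c * c * dirichlet β g v := fun c => by
        rw [dirichlet_eq_ip, dirichlet_eq_ip, map_smul]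
        simp only [ip, mul_neg, mul_sum, Pi.smul_apply, smul_eq_mul]
        exact congrArg Neg.neg (sum_congr rfl fun x _ => by ring)
      rw [hh, ← mul_inv, Real.mul_self_sqrt hp.le]
  have hne : S.Nonempty := ⟨_, (hscale f hf hmean).1⟩
  have hcl : IsClosed S := (isClosed_eq (continuous_ip continuous_const continuous_id) continuous_const).inter
    (isClosed_eq (continuous_ip continuous_id continuous_id) continuous_const)
  have hbdd : Bornology.IsBounded S := by
    refine (Metric.isBounded_closedBall (x := (0 : Cfg n → ℝ)) (r := ∑ x, (√(gibbs β g x))⁻¹)).subset fun v hv => ?_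
    rw [Metric.mem_closedBall, dist_zero_right, pi_norm_le_iff_of_nonneg (sum_nonneg fun x _ => by positivity)]
    intro x
    refine le_trans ?_ (single_le_sum (f := fun x => (√(gibbs β g x))⁻¹) (fun _ _ => by positivity) (mem_univ x))
    have hx := gibbs_pos β g x
    have h1 : gibbs β g x * (v x * v x) ≤ 1 := hv.2 ▸ single_le_sum
      (f := fun x => gibbs β g x * (v x * v x)) (fun y _ => mul_nonneg (gibbs_pos β g y).le (mul_self_nonneg _)) (mem_univ x)
    rw [← Real.sqrt_inv, Real.norm_eq_abs]
    refine Real.abs_le_sqrt ?_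
    rw [inv_eq_one_div, le_div_iff₀ hx]; linarith
  have hcont : Continuous fun v => dirichlet β g v :=
    (continuous_ip continuous_id (generator β g).continuous).neg
  obtain ⟨h, hS, hmin⟩ := (Metric.isCompact_of_isClosed_isBounded hcl hbdd).exists_isMinOn hne hcont.continuousOn
  set lam := dirichlet β g h
  have hray : ∀ v : Cfg n → ℝ, ip β g (fun _ => 1) v = 0 → lam * ip β g v v ≤ dirichlet β g v := fun v hm => by
    by_cases hv : v = 0
    · subst hv; simp [ip, dirichlet]
    have hp := ip_self_pos β g hv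
    obtain ⟨h1, h2⟩ := hscale v hv hm
    have h3 : lam ≤ (ip β g v v)⁻¹ * dirichlet β g v := h2 ▸ hmin h1
    rwa [inv_mul_eq_div, le_div_iff₀ hp] at h3
  refine ⟨h, lam, hS.1, hS.2, ?_, rfl, hray f hmean⟩
  set r : Cfg n → ℝ := -generator β g h - lam • h
  have hr0 : ip β g (fun _ => 1) r = 0 := by
    have h1 := mean_generator (β := β) (g := g) h
    have h2 := hS.1
    simp only [ip, r, Pi.sub_apply, Pi.neg_apply, Pi.smul_apply, smul_eq_mul, one_mul, mul_sub, mul_neg,
      sum_sub_distrib, sum_neg_distrib, mul_left_comm _ lam, ← mul_sum] at h1 h2 ⊢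
    rw [h1, h2]; ring
  have hquad : ∀ t : ℝ, 0 ≤ (dirichlet β g r - lam * ip β g r r) * (t * t) + 2 * ip β g r r * t + 0 := fun t => by
    have hm : ip β g (fun _ => 1) (h + t • r) = 0 := by rw [ip_add_smul, hS.1, hr0]; ring
    have h1 := hray _ hm
    have hr : ip β g r r = -ip β g r (generator β g h) - lam * ip β g r h := by
      simp only [ip, r, Pi.sub_apply, Pi.neg_apply, Pi.smul_apply, smul_eq_mul, mul_sum, ← sum_neg_distrib, ← sum_sub_distrib]
      exact sum_congr rfl fun x _ => by ring
    have e1 : ip β g (h + t • r) (h + t • r) = 1 + 2 * t * ip β g r h + t * t * ip β g r r := by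
      rw [ip_add_smul, ip_symm β g (h + t • r), ip_symm β g (h + t • r) r, ip_add_smul, ip_add_smul,
        hS.2, ip_symm β g h r]
      ring
    have e2 : dirichlet β g (h + t • r) = lam - 2 * t * ip β g r (generator β g h) + t * t * dirichlet β g r := by
      simp only [lam, dirichlet_eq_ip, map_add, map_smul, ip_add_smul]
      rw [ip_symm β g (h + t • r), ip_symm β g (h + t • r) (generator β g r), ip_add_smul, ip_add_smul,
        ip_symm β g (generator β g h) h, ip_symm β g (generator β g h) r, ← ip_selfAdjoint β g r h,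
        ip_symm β g (generator β g r) r]
      ring
    rw [e1, e2] at h1
    linear_combination h1 + (-(2 * t)) * hr
  have hd := discrim_le_zero hquad
  simp only [discrim, mul_zero, sub_zero] at hd
  have h0 : ip β g r r = 0 := by nlinarith
  have hr : r = 0 := by
    by_contra hne0
    exact (ip_self_pos β g hne0).ne' h0
  funext x
  have := congrFun hr x
  simp only [r, Pi.sub_apply, Pi.neg_apply, Pi.smul_apply, smul_eq_mul, Pi.zero_apply] at this ⊢
  linarith

/-- An eigenfunction read off from the law at time `t` from the start `x`. -/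
lemma eigen_start {h : Cfg n → ℝ} {lam : ℝ} (he : generator β g h = -lam • h) (t : ℝ) (x : Cfg n) :
    ip β g (startDensity β g t x) h = Real.exp (-(lam * t)) * h x := by
  set a : Cfg n → ℝ := Pi.single x (gibbs β g x)⁻¹
  have hd : ∀ u, HasDerivAt (fun s => Real.exp (lam * s) * ip β g (flow β g a s) h) 0 u := fun u => by
    have h1 : HasDerivAt (fun s => ip β g (flow β g a s) h) (-lam * ip β g (flow β g a u) h) u := by
      have h0 : ip β g (flow β g a u) (0 : Cfg n → ℝ) = 0 := by simp [ip]
      refine (hasDerivAt_ip β g (hasDerivAt_flow β g a u) (hasDerivAt_const u h)).congr_deriv ?_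
      rw [← ip_selfAdjoint, he, h0, add_zero]
      simp only [ip, Pi.smul_apply, smul_eq_mul, mul_sum]
      exact sum_congr rfl fun y _ => by ring
    have h2 : HasDerivAt (fun s : ℝ => Real.exp (lam * s)) (Real.exp (lam * u) * lam) u := by
      simpa using ((hasDerivAt_id' u).const_mul lam).exp
    exact (h2.mul h1).congr_deriv (by ring)
  have hc := is_const_of_deriv_eq_zero (fun u => (hd u).differentiableAt) (fun u => (hd u).deriv) t 0
  simp only [mul_zero, Real.exp_zero, one_mul, flow_zero] at hc
  have e0 : ip β g a h = h x := by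
    simp [ip, a, Pi.single_apply, ← mul_assoc, (gibbs_pos β g x).ne']
  rw [e0] at hc
  show ip β g (flow β g a t) h = _
  rw [Real.exp_neg, ← hc, ← mul_assoc, inv_mul_cancel₀ (Real.exp_pos _).ne', one_mul]

/-- The gap for one disorder. -/
lemma gap_at {K c ε κ T δ : ℝ} (hK : 0 < K) (hκ : 0 < κ) (hT : 0 < T) (hn : 0 < n)
    (hwc : ∀ (f : Cfg n → ℝ) (B : ℝ), (∀ x, 0 < f x ∧ f x ≤ B) → ∑ x, gibbs β g x * f x = 1 →
      ent (gibbs β g) f ≤ K * siteEnt β g f + B * Real.exp (-(c * n)))
    (hbi : ∀ x, ent (gibbs β g) (startDensity β g T x) ≤ ε * n)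
    (h1 : (ε * n + 1) / (κ * n) ≤ 1 / 6) (hδT : δ * T ≤ 1) (hδK : δ * (16 * K) ≤ 1)
    (h2 : 2304 * Real.exp (κ * n) * Real.exp (-(c * n)) ≤ 1) :
    GapAtLeast β g δ := by
  intro f
  by_contra hcon
  push Not at hcon
  set m := ip β g (fun _ => 1) f
  set f' : Cfg n → ℝ := f + (-m) • (fun _ => (1:ℝ))
  have hone : ip β g (fun _ => (1:ℝ)) (fun _ => 1) = 1 := by simp [ip, gibbs_sum]
  have hm' : ip β g (fun _ => 1) f' = 0 := by
    simp only [f', ip_add_smul, hone, m]; ring
  have hvar : ip β g f' f' = gibbsVariance β g f := by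
    simp only [f', ip_add_smul]
    rw [ip_symm β g _ f, ip_symm β g _ (fun _ => 1), ip_add_smul, ip_add_smul, hone, ip_symm β g f (fun _ => 1)]
    simp only [gibbsVariance, m, ip, one_mul, sq]
    ring
  have hdir : dirichlet β g f' = dirichlet β g f := by
    have hg : generator β g f' = generator β g f := by
      simp only [f', map_add, map_smul, generator_const, smul_zero, add_zero]
    rw [dirichlet_eq_ip, dirichlet_eq_ip, hg, ip_symm β g f', ip_add_smul, ip_symm β g _ f,
      ip_symm β g _ (fun _ => (1:ℝ)), mean_generator]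
    ring
  have hf' : f' ≠ 0 := by
    intro h0
    rw [← hvar, h0] at hcon
    rw [← hdir, h0] at hcon
    simp [ip, dirichlet] at hcon
  obtain ⟨h, lam, hm, h11, he, hlam, hle⟩ := exists_minimiser hf' hm'
  rw [hdir] at hle
  rw [← hvar] at hcon
  have hlt : lam < δ := lt_of_mul_lt_mul_right (hle.trans_lt hcon) (ip_self_pos β g hf').le
  set E := Real.exp (κ * n)
  set R := ∑ x, |h x|
  have hne : (univ : Finset (Cfg n)).Nonempty := univ_nonempty
  obtain ⟨x, -, hx⟩ := exists_max_image univ (fun x => |h x|) hne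
  set S := |h x|
  have hbound : S ≤ 3 * (√E + S / 6) := by
    set F := startDensity β g T x
    have hF0 : ∀ y, 0 ≤ F y := startDensity_nonneg β g hT.le x
    have hFm : ∑ y, gibbs β g y * F y = 1 := startDensity_mean β g T x
    have htail := (tail_mass β g hF0 hFm (show 0 < κ * n by positivity)).trans
      ((div_le_div_of_nonneg_right (by linarith [hbi x]) (by positivity)).trans h1)
    have hhead : ∑ y, gibbs β g y * (min (F y) E * |h y|) ≤ √E := by
      have hcs := ip_cauchy β g (fun y => min (F y) E) fun y => |h y|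
      have e1 : ip β g (fun y => |h y|) (fun y => |h y|) = 1 := by
        simpa [ip, abs_mul_abs_self] using h11
      have e2 : ip β g (fun y => min (F y) E) (fun y => min (F y) E) ≤ E := by
        calc ip β g (fun y => min (F y) E) (fun y => min (F y) E) ≤ ∑ y, gibbs β g y * (F y * E) :=
              sum_le_sum fun y _ => mul_le_mul_of_nonneg_left (mul_le_mul (min_le_left _ _) (min_le_right _ _)
                (le_min (hF0 y) (Real.exp_pos _).le) (hF0 y)) (gibbs_pos β g y).le
          _ = E := by simp only [← mul_assoc, ← sum_mul, hFm, one_mul]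
      rw [e1, mul_one] at hcs
      exact (le_abs_self _).trans (Real.abs_le_sqrt (hcs.trans e2))
    have hip : |ip β g F h| ≤ √E + S / 6 := by
      refine (abs_sum_le_sum_abs _ _).trans ((sum_le_sum (g := fun y => gibbs β g y * (min (F y) E * |h y|) +
        gibbs β g y * (F y - min (F y) E) * S) fun y _ => ?_).trans ?_)
      · rw [abs_mul, abs_mul, abs_of_pos (gibbs_pos β g y), abs_of_nonneg (hF0 y)]
        have h3 := mul_le_mul_of_nonneg_left (hx y (mem_univ y))
          (mul_nonneg (gibbs_pos β g y).le (sub_nonneg.2 (min_le_left (F y) E)))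
        linarith
      · rw [sum_add_distrib, ← sum_mul]
        refine add_le_add hhead ?_
        have := mul_le_mul_of_nonneg_right htail (abs_nonneg (h x))
        linarith
    rw [eigen_start he, abs_mul, abs_of_pos (Real.exp_pos _)] at hip
    have h4 : 1 / 3 ≤ Real.exp (-(lam * T)) := by
      have h5 : lam * T ≤ 1 := (mul_le_mul_of_nonneg_right hlt.le hT.le).trans hδT
      refine le_trans ?_ (Real.exp_le_exp.2 (neg_le_neg h5))
      rw [Real.exp_neg, ← one_div]
      exact one_div_le_one_div_of_le (Real.exp_pos 1) (by linarith [Real.exp_one_lt_d9])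
    have := (mul_le_mul_of_nonneg_right h4 (abs_nonneg (h x))).trans hip
    linarith
  have hEp : 0 < √E := Real.sqrt_pos.2 (Real.exp_pos _)
  have hw := variance_warm hK (show (0:ℝ) < 6 * √E by positivity) hwc hm
    fun y => (hx y (mem_univ y)).trans (by linarith)
  rw [h11, mul_pow, Real.sq_sqrt (Real.exp_pos _).le, ← hlam] at hw
  have h16 := mul_lt_mul_of_pos_right hlt (show (0:ℝ) < 16 * K by positivity)
  linarith

/-- The spectral gap from the two halves. -/
theorem gap_of {β : ℝ} (hbi : BurnIn β) (hwc : WarmContraction β) : ∃ δ : ℝ, 0 < δ ∧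
    Tendsto (fun n : ℕ => (disorder n).real {g | ¬ GapAtLeast β g δ}) atTop (𝓝 0) := by
  obtain ⟨K, c, hK, hc, hW⟩ := hwc
  set κ := c / 2 with hκdef
  have hκ : 0 < κ := by positivity
  obtain ⟨T, hT, hB⟩ := hbi (κ / 12) (by positivity)
  refine ⟨min (1 / T) (1 / (16 * K)), by positivity, ?_⟩
  have hsum := hB.add hW
  rw [add_zero] at hsum
  refine squeeze_zero' (Eventually.of_forall fun _ => measureReal_nonneg) ?_ hsum
  have hlim : Tendsto (fun n : ℕ => 2304 * Real.exp (-(κ * n))) atTop (𝓝 0) := by
    simpa using (tendsto_exp_nat hκ).const_mul 2304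
  filter_upwards [hlim.eventually_le_const (show (0:ℝ) < 1 by norm_num), eventually_ge_atTop 1,
    tendsto_natCast_atTop_atTop.eventually_ge_atTop (12 / κ)] with n hsmall hn hnκ
  refine (measureReal_mono fun g hg => ?_).trans (measureReal_union_le _ _)
  by_contra hno
  simp only [Set.mem_union, Set.mem_ofPred_eq, not_or, not_exists, not_and, not_lt] at hno
  refine hg (gap_at hK hκ hT hn (fun f B hf hm => hno.2 f B hf hm) hno.1 ?_ ?_ ?_ ?_)
  · have hn' : (0:ℝ) < n := by exact_mod_cast hn
    rw [div_le_iff₀ (by positivity)]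
    have := (div_le_iff₀ hκ).1 hnκ
    linarith
  · exact (le_div_iff₀ hT).1 (min_le_left _ _)
  · exact (le_div_iff₀ (by positivity)).1 (min_le_right _ _)
  · rw [mul_assoc, ← Real.exp_add, show κ * n + -(c * n) = -(κ * n) by rw [hκdef]; ring]
    exact hsmall

end Vale.Agent.P150.High
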