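import Vale.Agent.P150.High.PlantedSpec
import Vale.Agent.P150.OverlapHigh

/-! # P150, all `β < 1`: gauge invariant planted bounds hold under the Gibbs law with high probability -/

open MeasureTheory ProbabilityTheory Filter
open scoped Topology

namespace Vale.Agent.P150.High

open Vale.Agent.P150

variable {n : ℕ}

/-- the gauge transformation of the disorder by a configuration -/
def flipG (x : Cfg n) (g : Edge n → ℝ) (e : Edge n) : ℝ := spin (x e.1.1) * spin (x e.1.2) * g e

lemma measurePreserving_flipG (x : Cfg n) : MeasurePreserving (flipG x) (disorder n) (disorder n) := by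
  unfold disorder
  refine measurePreserving_pi _ _ (f := fun (e : Edge n) (t : ℝ) => spin (x e.1.1) * spin (x e.1.2) * t)
    fun e => ⟨by fun_prop, ?_⟩
  rw [gaussianReal_map_const_mul, mul_zero]
  congr 1
  apply NNReal.coe_injective
  have h1 := spin_mul_self (x e.1.1)
  have h2 := spin_mul_self (x e.1.2)
  push_cast
  linear_combination (spin (x e.1.2) * spin (x e.1.2)) * h1 + h2

lemma gauged_cpl (hn : 0 < n) (β : ℝ) (x : Cfg n) (g : Edge n → ℝ) :
    (fun i j => spin (x i) * cpl β (g + fun e => β * coef x e) i j * spin (x j)) =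
      plantCpl β (flipG x g) := by
  have hs : Real.sqrt n * Real.sqrt n = n := Real.mul_self_sqrt (Nat.cast_nonneg n)
  have hs0 : 0 < Real.sqrt n := Real.sqrt_pos.2 (by exact_mod_cast hn)
  funext i j
  unfold plantCpl cpl
  rcases lt_trichotomy i j with h | rfl | h
  · simp only [coupling, dif_pos h, if_neg h.ne, Pi.add_apply, flipG, coef]
    have h1 := spin_mul_self (x i)
    have h2 := spin_mul_self (x j)
    field_simp
    linear_combination (β ^ 2 * n * (spin (x j) * spin (x j))) * h1 + β ^ 2 * n * h2 -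
      β ^ 2 * hs
  · simp [coupling_self]
  · simp only [coupling, dif_neg h.not_gt, dif_pos h, if_neg h.ne', Pi.add_apply, flipG, coef]
    have h1 := spin_mul_self (x i)
    have h2 := spin_mul_self (x j)
    field_simp
    linear_combination (β ^ 2 * n * (spin (x j) * spin (x j))) * h1 + β ^ 2 * n * h2 -
      β ^ 2 * hs

lemma gauge_identity (hn : 0 < n) (β : ℝ) {F : (Fin n → Fin n → ℝ) → Cfg n → ℝ}
    (hm : ∀ x, Measurable fun J => F J x) (hF : ∀ J x, 0 ≤ F J x ∧ F J x ≤ 1)
    (hinv : ∀ J x, F J x = F (fun i j => spin (x i) * J i j * spin (x j)) fun _ => true) (x : Cfg n) :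
    Integrable (fun g => Real.exp (β * energy g x) * F (cpl β g) x) (disorder n) ∧
    ∫ g, Real.exp (β * energy g x) * F (cpl β g) x ∂disorder n =
      Real.exp (β ^ 2 * ((n:ℝ) - 1) / 4) * ∫ g, F (plantCpl β g) (fun _ => true) ∂disorder n := by
  set a : Edge n → ℝ := fun e => β * coef x e
  have hc : Measurable fun g : Edge n → ℝ => F (cpl β g) x :=
    (hm x).comp (measurable_pi_lambda _ fun i => measurable_pi_lambda _ fun j => by
      unfold cpl coupling; split_ifs <;> fun_prop)
  have e1 : ∀ g : Edge n → ℝ, β * energy g x = dot a g := fun g => by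
    simp only [energy_coef, dot, a, Finset.mul_sum, mul_assoc]
  have ei : Integrable (fun g : Edge n → ℝ => Real.exp (β * energy g x)) (disorder n) := (mgf_energy hn β x).2
  refine ⟨ei.mono' ((((measurable_energy x).const_mul β).exp).mul hc).aestronglyMeasurable
    (Eventually.of_forall fun g => ?_), ?_⟩
  · rw [Real.norm_eq_abs, abs_mul, abs_of_pos (Real.exp_pos _), abs_of_nonneg (hF _ _).1]
    exact mul_le_of_le_one_right (Real.exp_pos _).le (hF _ _).2
  have hns : Channel.nsq a / 2 = β ^ 2 * ((n:ℝ) - 1) / 4 := by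
    have h := sum_coef_mul hn x x
    rw [qsq_self hn] at h
    simp only [Channel.nsq, a, mul_pow, ← Finset.mul_sum, sq (coef x _)]
    linear_combination (β ^ 2 / 4) * h
  have ht := Channel.translate a fun g => F (cpl β g) x
  have hp : ∀ g : Edge n → ℝ, F (cpl β (g + a)) x = F (plantCpl β (flipG x g)) fun _ => true := fun g => by
    rw [hinv, gauged_cpl hn β x g]
  have hmp : Measurable fun g : Edge n → ℝ => F (plantCpl β g) fun _ => true :=
    (hm _).comp (measurable_pi_lambda _ fun i => measurable_pi_lambda _ fun j => by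
      unfold plantCpl cpl coupling; split_ifs <;> fun_prop)
  have key : ∫ g, F (cpl β (g + a)) x ∂gauss (Edge n) = ∫ g, F (plantCpl β g) (fun _ => true) ∂disorder n := by
    simp only [hp]
    show ∫ g, F (plantCpl β (flipG x g)) _ ∂disorder n = _
    conv_rhs => rw [← (measurePreserving_flipG x).map_eq]
    exact (integral_map (measurePreserving_flipG x).measurable.aemeasurable hmp.aestronglyMeasurable).symm
  rw [← key, ht, ← integral_const_mul, ← hns]
  refine integral_congr_ae (Eventually.of_forall fun g => ?_)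
  simp only [e1]
  rw [← mul_assoc, ← Real.exp_add]
  ring_nf

/-- the partition function is rarely much smaller than its mean -/
lemma Zfun_lower {β d : ℝ} (hβ : 0 ≤ β) (hβ1 : β < 1) (hd : 0 < d) :
    ∃ γ : ℝ, 0 < γ ∧ ∀ᶠ n : ℕ in atTop, (disorder n).real
      {g | Real.log (Zfun β g) < n * Real.log 2 + β ^ 2 * ((n:ℝ) - 1) / 4 - d * n} ≤ Real.exp (-(γ * n)) := by
  rcases hβ.eq_or_lt with rfl | hb
  · refine ⟨1, one_pos, Eventually.of_forall fun n => ?_⟩
    rw [show {g : Edge n → ℝ | Real.log (Zfun 0 g) < n * Real.log 2 + (0:ℝ) ^ 2 * ((n:ℝ) - 1) / 4 - d * n} = ∅ from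
      Set.eq_empty_iff_forall_notMem.2 fun g hg => by
        simp [Zfun] at hg
        nlinarith [(Nat.cast_nonneg n : (0:ℝ) ≤ n)], measureReal_empty]
    exact (Real.exp_pos _).le
  refine ⟨(d / 2) ^ 2 / (4 * β ^ 2), by positivity, ?_⟩
  set K := 1 + 1 / (1 - β ^ 2)
  have h1 : ∀ᶠ n : ℕ in atTop, 1 ≤ n ∧ K + 1 ≤ d / 2 * Real.sqrt n := by
    refine (eventually_ge_atTop 1).and ?_
    have := ((Real.tendsto_sqrt_atTop.comp tendsto_natCast_atTop_atTop).const_mul_atTop (half_pos hd))
    exact this.eventually_ge_atTop (K + 1)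
  refine h1.mono fun n hn => ?_
  have hn0 : 0 < n := hn.1
  have hf := freeE_ge hβ hβ1 hn0
  have hs : (1:ℝ) ≤ Real.sqrt n := Real.one_le_sqrt.2 (by exact_mod_cast hn.1)
  have hk : Real.sqrt n * K + 1 ≤ d / 2 * n := by
    have h2 := mul_le_mul_of_nonneg_left hn.2 (Real.sqrt_nonneg (n:ℝ))
    rw [show Real.sqrt n * (d / 2 * Real.sqrt n) = d / 2 * (Real.sqrt n * Real.sqrt n) by ring,
      Real.mul_self_sqrt (Nat.cast_nonneg n)] at h2
    linarith
  refine (measureReal_mono fun g hg => ?_).trans (logZ_tail hn0 hb (Or.inr rfl) (half_pos hd))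
  simp only [Set.mem_ofPred_eq, freeE, K] at hg hf hk ⊢
  nlinarith [sq_nonneg β]

/-- **Gauge.** -/
theorem gauge : GaugeStatement := by
  intro β c₀ hβ hβ1 hc
  obtain ⟨γ, hγ, hZ⟩ := Zfun_lower hβ hβ1 (show 0 < c₀ / 4 by positivity)
  refine ⟨c₀ / 4, by positivity, fun ε hε => ?_⟩
  have t1 : Tendsto (fun n : ℕ => Real.exp (-(γ * n)) + Real.exp (-(c₀ / 2 * n))) atTop (𝓝 0) := by
    have ht : ∀ a : ℝ, 0 < a → Tendsto (fun n : ℕ => Real.exp (-(a * n))) atTop (𝓝 0) := fun a ha =>
      Real.tendsto_exp_atBot.comp (tendsto_neg_atTop_atBot.comp (tendsto_natCast_atTop_atTop.const_mul_atTop ha))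
    simpa using (ht γ hγ).add (ht (c₀ / 2) (by positivity))
  filter_upwards [hZ, eventually_gt_atTop 0, t1.eventually_le_const hε] with n hZn hn hsmall F hm hF hinv hP
  set K := n * Real.log 2 + β ^ 2 * ((n:ℝ) - 1) / 4 with hK
  set S := fun g : Edge n → ℝ => ∑ x, Real.exp (β * energy g x) * F (cpl β g) x
  have hS : Integrable S (disorder n) ∧ ∫ g, S g ∂disorder n ≤ Real.exp (K - c₀ * n) := by
    refine ⟨integrable_finsetSum _ fun x _ => (gauge_identity hn β hm hF hinv x).1, ?_⟩
    rw [integral_finsetSum _ fun x _ => (gauge_identity hn β hm hF hinv x).1,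
      Finset.sum_congr rfl fun x _ => (gauge_identity hn β hm hF hinv x).2, Finset.sum_const, Finset.card_univ,
      Fintype.card_fun, Fintype.card_bool, Fintype.card_fin, nsmul_eq_mul]
    refine (mul_le_mul_of_nonneg_left (mul_le_mul_of_nonneg_left hP (Real.exp_pos _).le) (Nat.cast_nonneg _)).trans
      (le_of_eq ?_)
    rw [show K - c₀ * n = n * Real.log 2 + (β ^ 2 * ((n:ℝ) - 1) / 4 + -(c₀ * n)) by rw [hK]; ring,
      Real.exp_add, Real.exp_add, Real.exp_nat_mul, Real.exp_log two_pos]
    push_cast; ring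
  have hS0 : ∀ g, 0 ≤ S g := fun g => Finset.sum_nonneg fun x _ => mul_nonneg (Real.exp_pos _).le (hF _ _).1
  set A := {g : Edge n → ℝ | Real.log (Zfun β g) < K - c₀ / 4 * n}
  set B := {g : Edge n → ℝ | Real.exp (K - c₀ / 2 * n) ≤ S g}
  have hB : (disorder n).real B ≤ Real.exp (-(c₀ / 2 * n)) := by
    have h := mul_meas_ge_le_integral_of_nonneg (Eventually.of_forall hS0) hS.1 (Real.exp (K - c₀ / 2 * n))
    rw [mul_comm, ← le_div_iff₀ (Real.exp_pos _)] at h
    refine h.trans ((div_le_div_of_nonneg_right hS.2 (Real.exp_pos _).le).trans (le_of_eq ?_))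
    rw [← Real.exp_sub]; ring_nf
  refine ((measureReal_mono (s₂ := A ∪ B) fun g hg => ?_).trans (measureReal_union_le A B)).trans
    ((add_le_add hZn hB).trans hsmall)
  by_contra hcon
  simp only [Set.mem_union, A, B, Set.mem_ofPred_eq, not_or, not_lt, not_le] at hcon
  obtain ⟨h1, h2⟩ := hcon
  have hpos : 0 < Zfun β g := partition_pos β g
  have h3 : Real.exp (K - c₀ / 4 * n) ≤ Zfun β g := by
    rw [← Real.exp_log hpos]; exact Real.exp_le_exp.2 h1
  have h4 : ∑ x, gibbs β g x * F (cpl β g) x = S g / Zfun β g := by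
    simp only [S, Finset.sum_div, gibbs, Zfun]
    exact Finset.sum_congr rfl fun x _ => by ring
  have h5 : S g / Zfun β g ≤ Real.exp (-(c₀ / 4 * n)) := by
    rw [div_le_iff₀ hpos]
    refine h2.le.trans (le_trans (le_of_eq ?_) (mul_le_mul_of_nonneg_left h3 (Real.exp_pos _).le))
    rw [← Real.exp_add]; ring_nf
  have h6 : Real.exp (-(c₀ / 4 * n)) < ∑ x, gibbs β g x * F (cpl β g) x := hg
  rw [h4] at h6
  linarith

end Vale.Agent.P150.High
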