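import Mathlib

/-!
# P150, all `β < 1`: the algebra of the margin certificate

Directions `x < k` stand for `d x` (`d 0 = a 0 + f/u`, `d x = a x - a (x-1)`), the index `k` for the
part `p` of `f` orthogonal to `d 0`.  `fM` is the limit of `⟨b x, U y⟩ - ⟨b x, R y⟩`, where
`u J (b y) = U y + R y`; `quad_eq` says that its quadratic form is `a S² + (a u/s) L²`.
-/

namespace Vale.Agent.P150.High.MinEigAlg

/-- The parameters of the limit: `q l = E tanh² z l`. -/
structure Par where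
  β : ℝ
  v : ℝ
  s : ℝ
  q : ℕ → ℝ
  k : ℕ

variable (P : Par)

/-- `u = 1 - s`. -/
def Par.u : ℝ := 1 - P.s
/-- `a = β² u²`. -/
def Par.a : ℝ := P.β ^ 2 * P.u ^ 2
/-- `u² |d 0|²`. -/
def Par.n0 : ℝ := P.q 0 * P.u ^ 2 + 2 * P.u * P.s + P.s ^ 2 + P.s * P.v
/-- `⟨f, d 0⟩ / |d 0|²`. -/
noncomputable def Par.kap : ℝ := P.u * P.s * (1 + P.v) / P.n0
/-- `|p|²`. -/
noncomputable def Par.pn : ℝ := P.s ^ 2 + P.s * P.v - P.kap * (P.s * (1 + P.v) / P.u)

/-- The overlap with the last magnetisation. -/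
noncomputable def Par.S (x : ℕ) : ℝ :=
  if x = P.k then P.s - P.kap * (P.q 0 + P.s / P.u)
  else if x = 0 then P.q 0 + P.s / P.u else P.q x - P.q (x - 1)

/-- The overlap with `f`, over `u`. -/
noncomputable def Par.L (x : ℕ) : ℝ :=
  if x = P.k then P.pn / P.u else if x = 0 then P.s * (1 + P.v) / P.u ^ 2 else 0

/-- `S + L`: the mean of the image over `a`. -/
noncomputable def Par.T (x : ℕ) : ℝ := P.S x + P.L x

/-- Limit of `⟨b x, m i⟩` with `m 0 = -f/u`, `m (i+1) = a i`. -/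
noncomputable def Par.A (x i : ℕ) : ℝ :=
  if i = 0 then -P.L x else if x = P.k ∨ x < i then P.S x else 0

/-- Limit of `⟨b x, U y⟩`. -/
noncomputable def Par.pU (x y : ℕ) : ℝ :=
  if y = P.k then 0
  else P.a * P.T y * (if x = P.k ∨ x ≤ y then P.S x else if x = y + 1 then 1 - P.q y else 0)

/-- The reaction coefficient of the first direction. -/
def Par.r0 : ℝ := P.a * (1 - P.q 0) + P.β ^ 2 * P.v * P.u

/-- Limit of `⟨b x, R y⟩`. -/
noncomputable def Par.pR (x y : ℕ) : ℝ :=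
  if y = P.k then (P.kap * P.r0 / P.u - P.β ^ 2 * P.v * P.u) * (P.u * P.L x)
  else if y = 0 then P.r0 * P.A x 0
  else P.a * ((1 - P.q y) * P.A x y - (1 - P.q (y - 1)) * P.A x (y - 1))

/-- The limit matrix. -/
noncomputable def Par.fM (x y : ℕ) : ℝ := P.pU x y - P.pR x y

variable {P}

lemma n0_pos (hq : 0 ≤ P.q 0) (hv : 0 < P.v) (hs : 0 < P.s) (hs1 : P.s < 1) : 0 < P.n0 := by
  have hu : 0 < P.u := by unfold Par.u; linarith
  unfold Par.n0; positivity

lemma pn_pos (hq : 0 < P.q 0) (hv : 0 < P.v) (hs : 0 < P.s) (hs1 : P.s < 1)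
    (hqs : P.s ^ 2 < P.q 0 * (P.s ^ 2 + P.s * P.v)) : 0 < P.pn := by
  have hu : 0 < P.u := by unfold Par.u; linarith
  have hn := n0_pos hq.le hv hs hs1
  have e : P.pn = P.u ^ 2 * (P.q 0 * (P.s ^ 2 + P.s * P.v) - P.s ^ 2) / P.n0 := by
    unfold Par.pn Par.kap
    field_simp
    simp only [Par.n0, Par.u]
    ring
  rw [e]
  exact div_pos (mul_pos (pow_pos hu 2) (by linarith)) hn

lemma T_last (hq : 0 ≤ P.q 0) (hv : 0 < P.v) (hs : 0 < P.s) (hs1 : P.s < 1) :
    P.T P.k = 0 := by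
  have hu : P.u ≠ 0 := by unfold Par.u; linarith
  have hn := (n0_pos hq hv hs hs1).ne'
  simp only [Par.T, Par.S, Par.L, if_pos, Par.pn, Par.kap]
  field_simp
  simp only [Par.n0, Par.u]
  ring

/-- `fM` symmetrises to a rank-two form. -/
lemma fM_add (hk : P.k ≠ 0) (hq : 0 ≤ P.q 0) (hv : 0 < P.v) (hs : 0 < P.s) (hs1 : P.s < 1)
    {x y : ℕ} (hx : x ≤ P.k) (hy : y ≤ P.k) :
    P.fM x y + P.fM y x = 2 * P.a * (P.S x * P.S y) + 2 * (P.a * P.u / P.s) * (P.L x * P.L y) := by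
  have hu : P.u ≠ 0 := by unfold Par.u; linarith
  have hn := (n0_pos hq hv hs hs1).ne'
  have hT := T_last hq hv hs hs1
  have hSp : P.S P.k = -P.L P.k := by unfold Par.T at hT; linarith
  have h0k : (0:ℕ) ≠ P.k := fun h => hk h.symm
  have hS0 : P.S 0 = P.q 0 + P.s / P.u := by simp [Par.S, h0k]
  have hL0 : P.L 0 = P.s * (1 + P.v) / P.u ^ 2 := by simp [Par.L, h0k]
  have hSx : ∀ x, x ≠ 0 → x ≠ P.k → P.S x = P.q x - P.q (x - 1) := fun x h h' => by simp [Par.S, h, h']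
  have hLx : ∀ x, x ≠ 0 → x ≠ P.k → P.L x = 0 := fun x h h' => by simp [Par.L, h, h']
  have hLk : P.L P.k = P.pn / P.u := by simp [Par.L]
  -- the diagonal and cross entries of the first direction and `p`
  have hpp : P.fM P.k P.k = P.a * P.S P.k ^ 2 + P.a * P.u / P.s * P.L P.k ^ 2 := by
    simp only [Par.fM, Par.pU, Par.pR, if_pos, hSp, hLk, Par.pn, Par.kap]
    field_simp
    simp only [Par.r0, Par.a, Par.n0, Par.u]
    ring
  have h00 : P.fM 0 0 = P.a * P.S 0 ^ 2 + P.a * P.u / P.s * P.L 0 ^ 2 := by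
    simp only [Par.fM, Par.pU, Par.pR, Par.A, Par.T, if_neg h0k, if_pos, le_refl, or_true, hS0, hL0]
    field_simp
    simp only [Par.r0, Par.a, Par.u]
    ring
  have hp0 : P.fM P.k 0 + P.fM 0 P.k =
      2 * P.a * (P.S P.k * P.S 0) + 2 * (P.a * P.u / P.s) * (P.L P.k * P.L 0) := by
    simp only [Par.fM, Par.pU, Par.pR, Par.A, Par.T, if_neg h0k, if_pos, true_or, hSp, hS0, hL0, hLk,
      Par.pn, Par.kap]
    field_simp
    simp only [Par.r0, Par.a, Par.n0, Par.u]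
    ring
  -- entries with two later directions
  have key : ∀ x y, y ≠ 0 → y ≠ P.k → x ≤ y → x ≠ P.k → P.fM x y + P.fM y x =
      2 * P.a * (P.S x * P.S y) + 2 * (P.a * P.u / P.s) * (P.L x * P.L y) := by
    intro x y hy0 hyk hxy hxk
    obtain ⟨z, rfl⟩ : ∃ z, y = z + 1 := ⟨y - 1, by omega⟩
    rw [hLx _ hy0 hyk]
    rcases eq_or_ne x (z + 1) with rfl | h1
    · simp [Par.fM, Par.pU, Par.pR, Par.A, Par.T, hxk, hLx _ hy0 hxk]
      ring
    rcases eq_or_ne x z with rfl | h2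
    · rcases eq_or_ne x 0 with rfl | h3
      · simp [Par.fM, Par.pU, Par.pR, Par.A, Par.T, hxk, hyk, hLx _ hy0 hyk, hSx _ hy0 hyk]
        ring
      · simp [Par.fM, Par.pU, Par.pR, Par.A, Par.T, hxk, hyk, hLx _ hy0 hyk, hSx _ hy0 hyk, hLx _ h3 hxk, h3,
          (show ¬ x + 1 < x - 1 by omega)]
        ring
    · have h4 : x < z := by omega
      rcases eq_or_ne x 0 with rfl | h3
      · simp [Par.fM, Par.pU, Par.pR, Par.A, Par.T, hxk, hyk, hLx _ hy0 hyk, hSx _ hy0 hyk, h4, h4.ne',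
          (show 0 < z + 1 by omega)]
        ring
      · simp [Par.fM, Par.pU, Par.pR, Par.A, Par.T, hxk, hyk, hLx _ hy0 hyk, hSx _ hy0 hyk,
          hLx _ h3 hxk, h3, h4, h4.ne', (show x ≤ z + 1 by omega), (show x < z + 1 by omega),
          (show ¬ z + 1 ≤ x by omega), (show ¬ z + 1 < x by omega), (show ¬ z + 1 < x - 1 by omega),
          (show z ≠ 0 by omega)]
        ring
  have keyp : ∀ y, y ≠ 0 → y ≠ P.k → P.fM P.k y + P.fM y P.k =
      2 * P.a * (P.S P.k * P.S y) + 2 * (P.a * P.u / P.s) * (P.L P.k * P.L y) := by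
    intro y hy0 hyk
    obtain ⟨z, rfl⟩ : ∃ z, y = z + 1 := ⟨y - 1, by omega⟩
    rw [hLx _ hy0 hyk]
    rcases eq_or_ne z 0 with rfl | hz
    · simp [Par.fM, Par.pU, Par.pR, Par.A, Par.T, hyk, hLx _ hy0 hyk, hSx _ hy0 hyk, hSp]
      ring
    · simp [Par.fM, Par.pU, Par.pR, Par.A, Par.T, hyk, hLx _ hy0 hyk, hSx _ hy0 hyk, hSp, hz]
      ring
  rcases eq_or_ne x P.k with rfl | hxk
  · rcases eq_or_ne y P.k with rfl | hyk
    · rw [hpp]; ring
    rcases eq_or_ne y 0 with rfl | hy0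
    · exact hp0
    exact keyp y hy0 hyk
  rcases eq_or_ne y P.k with rfl | hyk
  · rcases eq_or_ne x 0 with rfl | hx0
    · rw [add_comm, hp0]; ring
    rw [add_comm, keyp x hx0 hxk]; ring
  rcases le_total x y with h | h
  · rcases eq_or_ne y 0 with rfl | hy0
    · obtain rfl : x = 0 := by omega
      rw [h00]; ring
    exact key x y hy0 hyk h hxk
  · rcases eq_or_ne x 0 with rfl | hx0
    · obtain rfl : y = 0 := by omega
      rw [h00]; ring
    rw [add_comm, key y x hx0 hxk h hyk]; ring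

/-- The quadratic form of the limit. -/
theorem quad_eq (hk : P.k ≠ 0) (hq : 0 ≤ P.q 0) (hv : 0 < P.v) (hs : 0 < P.s) (hs1 : P.s < 1)
    (c : Fin (P.k + 1) → ℝ) :
    ∑ x, ∑ y, c x * c y * P.fM x y =
      P.a * (∑ x, c x * P.S x) ^ 2 + P.a * P.u / P.s * (∑ x, c x * P.L x) ^ 2 := by
  have h : 2 * ∑ x, ∑ y, c x * c y * P.fM x y = ∑ x, ∑ y, c x * c y *
      (2 * P.a * (P.S x * P.S y) + 2 * (P.a * P.u / P.s) * (P.L x * P.L y)) := by
    rw [two_mul]
    nth_rewrite 2 [Finset.sum_comm]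
    simp only [← Finset.sum_add_distrib]
    refine Finset.sum_congr rfl fun x _ => Finset.sum_congr rfl fun y _ => ?_
    rw [← fM_add hk hq hv hs hs1 (Nat.lt_succ_iff.1 x.isLt) (Nat.lt_succ_iff.1 y.isLt)]
    ring
  rw [sq, sq, Finset.sum_mul_sum, Finset.sum_mul_sum]
  refine mul_left_cancel₀ (two_ne_zero (α := ℝ)) (h.trans ?_)
  simp only [Finset.mul_sum, ← Finset.sum_add_distrib]
  exact Finset.sum_congr rfl fun x _ => Finset.sum_congr rfl fun y _ => by ring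

/-- The regularised Cauchy-Schwarz gain pays for the spike. -/
theorem gain_le {a k g r S L ε : ℝ} (ha : 0 ≤ a) (hrg : r ≤ g) (har : a * r < 1)
    (hcond : a ^ 2 * (g - 2 * r) ≤ k * (1 + a * (g - 2 * r))) (hε : 0 < ε) :
    let χ := g - 2 * r
    let X := S + a * χ * (S + L)
    let lam := X / (g - r + ε)
    ε / (g - r + ε) * (-a * S ^ 2 - a ^ 2 * χ * (S + L) ^ 2 + k * L ^ 2) ≤
      -a * S ^ 2 - a ^ 2 * χ * (S + L) ^ 2 + k * L ^ 2 + 2 * lam * X - lam ^ 2 * (g - r) := by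
  intro χ X lam
  set h := g - r
  have hh : 0 ≤ h := sub_nonneg.2 hrg
  set N := -a * S ^ 2 - a ^ 2 * χ * (S + L) ^ 2 + k * L ^ 2
  set A := (1 + a * χ) * (1 - a * r)
  have h1 : 0 < 1 + a * χ := by
    have : a * χ = a * h - a * r := by simp only [χ, h]; ring
    nlinarith [mul_nonneg ha hh]
  have hA : 0 < A := mul_pos h1 (by linarith)
  have e : A * (h * N + X ^ 2) = (A * S + a * χ * (1 - a * r) * L) ^ 2
      + (1 - a * r) * h * (k * (1 + a * χ) - a ^ 2 * χ) * L ^ 2 := by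
    simp only [A, N, X, χ, h]; ring
  have hmain : 0 ≤ h * N + X ^ 2 := by
    refine nonneg_of_mul_nonneg_right (e ▸ ?_) hA
    have : 0 ≤ (1 - a * r) * h * (k * (1 + a * χ) - a ^ 2 * χ) :=
      mul_nonneg (mul_nonneg (by linarith) hh) (by linarith)
    positivity
  have hd : 0 < h + ε := by linarith
  have h2 : X ^ 2 / (h + ε) ≤ 2 * lam * X - lam ^ 2 * h := by
    have e2 : 2 * lam * X - lam ^ 2 * h = X ^ 2 / (h + ε) + ε * X ^ 2 / (h + ε) ^ 2 := by
      rw [show lam = X / (h + ε) from rfl]; field_simp; ring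
    rw [e2]
    exact le_add_of_nonneg_right (by positivity)
  refine le_trans ?_ (show N + X ^ 2 / (h + ε) ≤ _ by linarith)
  rw [div_mul_eq_mul_div, div_le_iff₀ hd, add_mul, div_mul_cancel₀ _ hd.ne']
  linarith

/-- The condition of `gain_le`. -/
lemma cond_of_lt {β u s χ : ℝ} (hu : 0 < u) (hu1 : u ≤ 1) (hs : 0 < s) (hs1 : s ≤ 1) (hβ : β ^ 2 * χ < 1)
    (h0 : 0 ≤ 1 + β ^ 2 * u ^ 2 * χ) :
    (β ^ 2 * u ^ 2) ^ 2 * χ ≤ β ^ 2 * u ^ 2 * u / s * (1 + β ^ 2 * u ^ 2 * χ) := by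
  set a := β ^ 2 * u ^ 2
  have ha : 0 ≤ a := by positivity
  have key : a * χ * s ≤ u * (1 + a * χ) := by
    rcases le_total χ 0 with h | h
    · exact (mul_nonpos_of_nonpos_of_nonneg (mul_nonpos_of_nonneg_of_nonpos ha h) hs.le).trans
        (mul_nonneg hu.le h0)
    · have h' : a * χ ≤ u := by
        calc a * χ = β ^ 2 * χ * (u * u) := by simp only [a]; ring
          _ ≤ 1 * (u * u) := mul_le_mul_of_nonneg_right hβ.le (by positivity)
          _ ≤ u := by nlinarith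
      nlinarith [mul_le_mul h' hs1 hs.le hu.le, mul_nonneg hu.le (mul_nonneg ha h)]
  rw [div_mul_eq_mul_div, le_div_iff₀ hs]
  nlinarith [mul_le_mul_of_nonneg_left key ha]

end Vale.Agent.P150.High.MinEigAlg
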