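import Vale.Agent.P150.High.SEScalar
import Vale.Agent.P150.High.MinEigAlg

/-!
# P150, all `β < 1`: scalars of the margin certificate

With `D = 1 - tanh²` along the channel: `gS = E D`, `hS = E tanh² D`, `rS = E D²`, and the loss of the
regularised gain, uniformly in the time and the number of steps.
-/

open MeasureTheory ProbabilityTheory Filter
open scoped Topology

namespace Vale.Agent.P150.High.MinEigScalar

open Vale.Agent.P150 Vale.Agent.P150.High.Amp

/-- `1 - tanh²`. -/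
noncomputable def dFun (x : ℝ) : ℝ := 1 - Real.tanh x ^ 2

lemma dFun_mem (x : ℝ) : 0 < dFun x ∧ dFun x ≤ 1 :=
  ⟨by unfold dFun; linarith [(sq_lt_one_iff_abs_lt_one _).2 (Real.abs_tanh_lt_one x)],
   by unfold dFun; linarith [sq_nonneg (Real.tanh x)]⟩

lemma continuous_dFun : Continuous dFun := continuous_const.sub (PA.continuous_tanh'.pow 2)

/-- `E D`. -/
noncomputable def gS (γ : ℝ) : ℝ := PA.chanAvg dFun γ
/-- `E tanh² D`. -/
noncomputable def hS (γ : ℝ) : ℝ := PA.chanAvg (fun x => Real.tanh x ^ 2 * dFun x) γ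
/-- `E D²`. -/
noncomputable def rS (γ : ℝ) : ℝ := gS γ - hS γ

lemma abs_dFun (x : ℝ) : |dFun x| ≤ 1 := by rw [abs_of_pos (dFun_mem x).1]; exact (dFun_mem x).2

lemma abs_tsqD (x : ℝ) : |Real.tanh x ^ 2 * dFun x| ≤ 1 := by
  rw [abs_mul, abs_pow]
  exact mul_le_one₀ (pow_le_one₀ (abs_nonneg _) (PA.abs_tanh_le_one' x)) (abs_nonneg _) (abs_dFun x)

lemma continuous_tsqD : Continuous fun x => Real.tanh x ^ 2 * dFun x :=
  (PA.continuous_tanh'.pow 2).mul continuous_dFun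

lemma gS_eq (γ : ℝ) : gS γ = 1 - qSE γ := by
  unfold gS dFun
  rw [PA.chanAvg_sub (g := fun _ => (1:ℝ)) (h := fun x => Real.tanh x ^ 2) (C := 1) (D := 1) continuous_const
    (PA.continuous_tanh'.pow 2) (fun _ => by simp)
    (fun x => by rw [abs_pow]; exact pow_le_one₀ (abs_nonneg _) (PA.abs_tanh_le_one' x)), PA.chanAvg_one]
  rfl

lemma rS_eq (γ : ℝ) : rS γ = PA.chanAvg (fun x => dFun x ^ 2) γ := by
  rw [rS, gS, hS, ← PA.chanAvg_sub continuous_dFun continuous_tsqD abs_dFun abs_tsqD]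
  congr 1; funext x; unfold dFun; ring

/-- The Nishimori identity `E tanh D = E tanh² D`. -/
lemma tD_eq {γ : ℝ} (hγ : 0 ≤ γ) : PA.chanAvg (fun x => Real.tanh x * dFun x) γ = hS γ := by
  rw [hS, ← PA.nishimori (g := fun x => Real.tanh x * dFun x) (C := 1)
    (PA.continuous_tanh'.mul continuous_dFun) (fun x => by simp [dFun, Real.tanh_neg])
    (fun x => by rw [abs_mul]; exact mul_le_one₀ (PA.abs_tanh_le_one' x) (abs_nonneg _) (abs_dFun x)) hγ]
  congr 1; funext x; ring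

lemma hS_nonneg (γ : ℝ) : 0 ≤ hS γ :=
  integral_nonneg fun _ => mul_nonneg (sq_nonneg _) (dFun_mem _).1.le

lemma rS_nonneg (γ : ℝ) : 0 ≤ rS γ := by
  rw [rS_eq]; exact integral_nonneg fun _ => sq_nonneg _

lemma gS_le_one (γ : ℝ) : gS γ ≤ 1 := by rw [gS_eq]; linarith [qSE_nonneg γ]

lemma rS_le (γ : ℝ) : rS γ ≤ gS γ := by unfold rS; linarith [hS_nonneg γ]

lemma chanAvg_pos {G : ℝ → ℝ} (hc : Continuous G) (hb : ∀ x, |G x| ≤ 1) (h0 : ∀ x, 0 ≤ G x) {γ : ℝ}
    {S : Set ℝ} (hS : S.Subsingleton) (hG : ∀ t, t ∉ S → 0 < G (γ + Real.sqrt γ * t)) :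
    0 < PA.chanAvg G γ := by
  have := nullSingletonClass_gaussianReal (μ := 0) (v := 1) one_ne_zero
  unfold PA.chanAvg
  rw [integral_pos_iff_support_of_nonneg (fun t => h0 _) (PA.integrable_chan hc hb γ)]
  refine lt_of_lt_of_le ?_ (measure_mono (s := Sᶜ) fun t ht => (hG t ht).ne')
  rw [measure_compl hS.measurableSet (measure_ne_top _ _), measure_univ, hS.measure_zero]
  simp

lemma gS_lower (Γ : ℝ) : ∃ c : ℝ, 0 < c ∧ ∀ γ ∈ Set.Icc 0 Γ, c ≤ gS γ := by
  rcases (Set.Icc (0:ℝ) Γ).eq_empty_or_nonempty with h | h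
  · exact ⟨1, one_pos, by simp [h]⟩
  obtain ⟨x, hx, hmin⟩ := isCompact_Icc.exists_isMinOn h (PA.continuousOn_chanAvg continuous_dFun
    (C := 1) (fun u => (abs_dFun u).trans (by linarith [abs_nonneg u])) Γ)
  exact ⟨_, chanAvg_pos continuous_dFun abs_dFun (fun u => (dFun_mem u).1.le) Set.subsingleton_empty
    fun t _ => (dFun_mem _).1, fun γ hγ => hmin hγ⟩

lemma hS_lower {γ₀ Γ : ℝ} (h0 : 0 < γ₀) : ∃ c : ℝ, 0 < c ∧ ∀ γ ∈ Set.Icc γ₀ Γ, c ≤ hS γ := by
  rcases (Set.Icc γ₀ Γ).eq_empty_or_nonempty with h | h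
  · exact ⟨1, one_pos, by simp [h]⟩
  obtain ⟨x, hx, hmin⟩ := isCompact_Icc.exists_isMinOn h ((PA.continuousOn_chanAvg continuous_tsqD
    (C := 1) (fun u => (abs_tsqD u).trans (by linarith [abs_nonneg u])) Γ).mono
      (Set.Icc_subset_Icc_left h0.le))
  have hxp : 0 < x := lt_of_lt_of_le h0 hx.1
  refine ⟨_, chanAvg_pos continuous_tsqD abs_tsqD (fun u => mul_nonneg (sq_nonneg _) (dFun_mem u).1.le)
    (S := {-Real.sqrt x}) Set.subsingleton_singleton fun t ht => ?_, fun γ hγ => hmin hγ⟩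
  refine mul_pos (pow_two_pos_of_ne_zero fun h => ht ?_) (dFun_mem _).1
  have h2 : x + Real.sqrt x * t = 0 := by
    rw [Real.tanh_eq_sinh_div_cosh, div_eq_zero_iff] at h
    exact Real.sinh_eq_zero.1 (h.resolve_right (Real.cosh_pos _).ne')
  have hs := Real.mul_self_sqrt hxp.le
  have h3 : Real.sqrt x * (Real.sqrt x + t) = 0 := by rw [mul_add, hs]; exact h2
  have h4 := (mul_eq_zero.1 h3).resolve_left (Real.sqrt_pos.2 hxp).ne'
  simp only [Set.mem_singleton_iff]; linarith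

variable {β shift s : ℝ}

/-- The parameters of the limit along the iteration. -/
noncomputable def parOf (β shift s : ℝ) (k : ℕ) : MinEigAlg.Par :=
  { β := β, v := plantVar β shift, s := s, q := fun l => qSE (gamSE β shift s l), k := k }

lemma inv_plantVar_le (hβ : |β| ≤ 1) (hc : 4 ≤ shift) : 1 / plantVar β shift ≤ shift := by
  have h := inv_plantVar hβ hc
  have := mul_nonneg (sq_nonneg β) (plantVar_pos (β := β) hc).le
  linarith

lemma qSE_le_self {γ : ℝ} (hγ : 0 ≤ γ) : qSE γ ≤ γ := by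
  have := (qSE_sub_mem le_rfl hγ).2
  simpa [qSE_zero] using this

lemma gamSE_le (hβ : 0 ≤ β) (hβ1 : β < 1) (hc : 4 ≤ shift) (hs : s ∈ Set.Icc (0:ℝ) 1) (l : ℕ) :
    gamSE β shift s l ≤ (shift + 3) / (1 - β ^ 2) * s := by
  have hb : |β| ≤ 1 := by rw [abs_of_nonneg hβ]; exact hβ1.le
  have h1 : 0 < 1 - β ^ 2 := by nlinarith
  have hC : shift ≤ (shift + 3) / (1 - β ^ 2) := by
    rw [le_div_iff₀ h1]; nlinarith [sq_nonneg β]
  induction l with
  | zero =>
    show s / plantVar β shift ≤ _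
    rw [div_eq_mul_one_div, mul_comm]
    exact mul_le_mul_of_nonneg_right ((inv_plantVar_le hb hc).trans hC) hs.1
  | succ l ih =>
    have hγ := gamSE_nonneg (β := β) hc hs l
    have hq := (qSE_le_self hγ).trans ih
    have h2 : β ^ 2 * (1 - s) ^ 2 * qSE (gamSE β shift s l) ≤ β ^ 2 * ((shift + 3) / (1 - β ^ 2) * s) := by
      refine mul_le_mul ?_ hq (qSE_nonneg _) (sq_nonneg _)
      exact mul_le_of_le_one_right (sq_nonneg _) (pow_le_one₀ (by linarith [hs.2]) (by linarith [hs.1]))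
    have h3 : β ^ 2 * (1 - (1 - s) ^ 2) ≤ 3 * s := by
      have : 0 ≤ 1 - (1 - s) ^ 2 := by nlinarith [hs.1, hs.2]
      nlinarith [hs.1, hs.2]
    have e : (shift + 3) / (1 - β ^ 2) * s = (shift + 3) * s + β ^ 2 * ((shift + 3) / (1 - β ^ 2) * s) := by
      field_simp; ring
    simp only [gamSE]
    linarith

lemma le_gamSE (hc : 4 ≤ shift) (hs : s ∈ Set.Icc (0:ℝ) 1) (l : ℕ) : s ≤ gamSE β shift s l := by
  cases l with
  | zero =>
    show s ≤ s / plantVar β shift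
    rw [le_div_iff₀ (plantVar_pos hc)]
    exact mul_le_of_le_one_right hs.1 ((plantVar_le hc).trans (by norm_num))
  | succ l =>
    have h1 : 0 ≤ 1 - (1 - s) ^ 2 := by nlinarith [hs.1, hs.2]
    have h2 := qSE_nonneg (gamSE β shift s l)
    have h3 : s ≤ shift * s := le_mul_of_one_le_left hs.1 (by linarith)
    simp only [gamSE]
    have : 0 ≤ β ^ 2 * (1 - (1 - s) ^ 2) + β ^ 2 * (1 - s) ^ 2 * qSE (gamSE β shift s l) := by positivity
    linarith

/-- The regularised gain loses little, uniformly in time. -/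
theorem loss (hβ : 0 ≤ β) (hβ1 : β < 1) (hc : 4 ≤ shift) {δ : ℝ} (hδ0 : 0 ≤ δ) (hδ : δ ≤ 1 / 2) {η : ℝ}
    (hη : 0 < η) : ∃ ε σ : ℝ, 0 < ε ∧ 0 < σ ∧ ∀ s : ℝ, 0 < s → s < 1 → ∀ k : ℕ, ∀ S L : ℝ,
      |S| ≤ 2 → S ^ 2 ≤ 2 * qSE (gamSE β shift s k) + σ → |(1 - s) * L| ≤ 3 →
      -η ≤ ε / ((gS (gamSE β shift s k) - rS (gamSE β shift s k)) / (1 - δ) + ε) *
        (-(parOf β shift s k).a * S ^ 2 - (parOf β shift s k).a ^ 2 *
            ((gS (gamSE β shift s k) - 2 * rS (gamSE β shift s k)) / (1 - δ)) * (S + L) ^ 2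
          + (parOf β shift s k).a * (parOf β shift s k).u / s * L ^ 2) := by
  have h1 : 0 < 1 - β ^ 2 := by nlinarith
  set C := (shift + 3) / (1 - β ^ 2)
  have hC : 0 < C := div_pos (by linarith) h1
  set s₀ := min (1 / 5) (η / (20 * C))
  have hs₀ : 0 < s₀ := lt_min (by norm_num) (by positivity)
  obtain ⟨c, hc0, hlow⟩ := hS_lower (γ₀ := s₀) (Γ := C) hs₀
  refine ⟨η * c / 200, η / 10, by positivity, by positivity, fun s hs hs1 k S L hS2 hSq hL => ?_⟩
  have hI : s ∈ Set.Icc (0:ℝ) 1 := ⟨hs.le, hs1.le⟩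
  set γ := gamSE β shift s k
  set u := 1 - s
  have hu : 0 < u := sub_pos.2 hs1
  set a := (parOf β shift s k).a with ha_def
  have ea : a = β ^ 2 * u ^ 2 := rfl
  rw [show (parOf β shift s k).u = u from rfl]
  set χ := (gS γ - 2 * rS γ) / (1 - δ)
  have h1δ : 0 < 1 - δ := by linarith
  have hχ : |χ| ≤ 2 := by
    rw [abs_div, abs_of_pos h1δ, div_le_iff₀ h1δ, abs_le]
    constructor <;> linarith [rS_le γ, rS_nonneg γ, gS_le_one γ]
  have ha0 : 0 ≤ a := by rw [ea]; positivity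
  have hu1 : u ≤ 1 := by simp only [u]; linarith
  have hb2 : β ^ 2 ≤ 1 := by linarith
  have ha1 : a ≤ 1 := by rw [ea]; exact mul_le_one₀ hb2 (sq_nonneg _) (pow_le_one₀ hu.le hu1)
  have hh : hS γ / (1 - δ) = (gS γ - rS γ) / (1 - δ) := by unfold rS; ring
  rw [← hh]
  set N := -a * S ^ 2 - a ^ 2 * χ * (S + L) ^ 2 + a * u / s * L ^ 2
  have hhd : hS γ ≤ hS γ / (1 - δ) := by
    rw [le_div_iff₀ h1δ]; exact mul_le_of_le_one_right (hS_nonneg γ) (by linarith)
  set ε := η * c / 200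
  have hε : 0 < ε := by positivity
  have hh0 := hS_nonneg γ
  have hd : 0 < hS γ / (1 - δ) + ε := by linarith
  have hf0 : 0 ≤ ε / (hS γ / (1 - δ) + ε) := by positivity
  have hχT : -(2 * a ^ 2 * (2 * S ^ 2 + 2 * L ^ 2)) ≤ -a ^ 2 * χ * (S + L) ^ 2 := by
    have h2 : (S + L) ^ 2 ≤ 2 * S ^ 2 + 2 * L ^ 2 := by linarith [sq_nonneg (S - L)]
    have h3 : χ * (S + L) ^ 2 ≤ 2 * (2 * S ^ 2 + 2 * L ^ 2) :=
      (mul_le_mul_of_nonneg_right ((le_abs_self χ).trans hχ) (sq_nonneg _)).trans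
        (mul_le_mul_of_nonneg_left h2 two_pos.le)
    linarith [mul_le_mul_of_nonneg_left h3 (sq_nonneg a)]
  have haa : a ^ 2 ≤ 1 := pow_le_one₀ ha0 ha1
  have hk0 : 0 ≤ a * u / s * L ^ 2 := by positivity
  by_cases hcase : s ≤ s₀
  · have hs5 : s ≤ 1 / 5 := hcase.trans (min_le_left _ _)
    have h4 : 4 * a ^ 2 * L ^ 2 ≤ a * u / s * L ^ 2 := by
      refine mul_le_mul_of_nonneg_right ?_ (sq_nonneg L)
      rw [le_div_iff₀ hs]
      have : 4 * a * s ≤ u := by
        have := mul_le_of_le_one_left hs.le ha1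
        simp only [u]; linarith
      linarith [mul_le_mul_of_nonneg_left this ha0]
    have hN : -(5 * S ^ 2) ≤ N := by
      have h5 := mul_le_mul_of_nonneg_right haa (sq_nonneg S)
      have h6 := mul_le_mul_of_nonneg_right ha1 (sq_nonneg S)
      simp only [N]; linarith
    have hq : qSE γ ≤ η / 20 := by
      refine ((qSE_le_self (gamSE_nonneg hc hI k)).trans (gamSE_le hβ hβ1 hc hI k)).trans ?_
      calc C * s ≤ C * (η / (20 * C)) := mul_le_mul_of_nonneg_left (hcase.trans (min_le_right _ _)) hC.le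
        _ = η / 20 := by field_simp
    have hS5 : 5 * S ^ 2 ≤ η := by linarith
    have hf1 : ε / (hS γ / (1 - δ) + ε) ≤ 1 := by rw [div_le_one hd]; linarith
    have := mul_le_mul_of_nonneg_left hN hf0
    linarith [mul_le_of_le_one_left (show 0 ≤ 5 * S ^ 2 by positivity) hf1]
  · push Not at hcase
    have hlw : c ≤ hS γ :=
      hlow γ ⟨hcase.le.trans (le_gamSE hc hI k), (gamSE_le hβ hβ1 hc hI k).trans (mul_le_of_le_one_right hC.le hs1.le)⟩
    have hN : -200 ≤ N := by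
      have h5 : S ^ 2 ≤ 4 := by rw [← sq_abs]; nlinarith [abs_nonneg S]
      have h6 : a ^ 2 * L ^ 2 ≤ 9 := by
        rw [ea, show (β ^ 2 * u ^ 2) ^ 2 * L ^ 2 = (β ^ 2) ^ 2 * u ^ 2 * (u * L) ^ 2 by ring]
        have h7 : (u * L) ^ 2 ≤ 9 := by rw [← sq_abs]; nlinarith [abs_nonneg (u * L)]
        exact (mul_le_of_le_one_left (sq_nonneg _)
          (mul_le_one₀ (pow_le_one₀ (sq_nonneg _) hb2) (sq_nonneg _) (pow_le_one₀ hu.le hu1))).trans h7
      have h8 := mul_le_mul_of_nonneg_right haa (sq_nonneg S)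
      have h9 := mul_le_mul_of_nonneg_right ha1 (sq_nonneg S)
      simp only [N]; linarith
    have hf1 : ε / (hS γ / (1 - δ) + ε) ≤ η / 200 := by
      rw [div_le_iff₀ hd]
      calc ε = η / 200 * c := by simp only [ε]; ring
        _ ≤ _ := mul_le_mul_of_nonneg_left (by linarith) (by positivity)
    have := mul_le_mul_of_nonneg_left hN hf0
    linarith

end Vale.Agent.P150.High.MinEigScalar
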