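import Vale.Agent.P150.High.MinEigBoost
import Vale.Agent.P150.High.MinEigScalar

/-!
# P150, all `β < 1`: the margin at the degenerate parameters

At `β = 0` and at `s = 1` the couplings drop out; at `s = 0` the centre vanishes and the margin is read off
at a small positive time.
-/

open MeasureTheory ProbabilityTheory Filter Matrix
open scoped Topology

namespace Vale.Agent.P150.High.MinEigEnds

open Vale.Agent.P150 Vale.Agent.P150.Fast MinEigBoost

variable {n : ℕ}

/-- the profile is in `[0,1]` on the cube -/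
lemma profile_mem {m : Fin n → ℝ} (hm : ∀ i, |m i| ≤ 1) (i : Fin n) : 0 ≤ profileOf m i ∧ profileOf m i ≤ 1 := by
  unfold profileOf
  exact ⟨by linarith [(sq_le_one_iff_abs_le_one (m i)).2 (hm i)], by linarith [sq_nonneg (m i)]⟩

lemma profile_sq_le {m : Fin n → ℝ} (hm : ∀ i, |m i| ≤ 1) (w : Fin n → ℝ) :
    ∑ j, (profileOf m j * w j) ^ 2 ≤ ∑ j, profileOf m j * w j ^ 2 :=
  Finset.sum_le_sum fun j _ => by
    rw [mul_pow]
    exact mul_le_mul_of_nonneg_right (by rw [sq]; exact mul_le_of_le_one_left (profile_mem hm j).1 (profile_mem hm j).2)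
      (sq_nonneg _)

lemma margin_trivial {β η s : ℝ} (hη : η ≤ 1) {J : Fin n → Fin n → ℝ} {m : Fin n → ℝ} (hm : ∀ i, |m i| ≤ 1)
    (h : β = 0 ∧ J = 0 ∨ s = 1) : Margin β η s J m := by
  intro w
  have h1 := profile_sq_le hm w
  have h2 : η * ∑ j, (profileOf m j * w j) ^ 2 ≤ ∑ j, (profileOf m j * w j) ^ 2 :=
    mul_le_of_le_one_left (Finset.sum_nonneg fun j _ => sq_nonneg _) hη
  rcases h with ⟨rfl, rfl⟩ | rfl <;> simp <;> linarith

lemma tilt_zero (g : Edge n → ℝ) (ξ : Fin n → ℝ) : tiltCpl 0 g ξ = 0 := by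
  funext i j; simp [tiltCpl, cpl]

lemma centre_zero (β c : ℝ) (g : Edge n → ℝ) (z : Fin n → ℝ) (k : ℕ) : prodCentre β c 0 g z k = 0 := by
  have hf : prodF β c 0 z = 0 := by funext i; simp [prodF]
  have hy : prodY β c 0 g z = 0 := by rw [prodY, hf, Matrix.mulVec_zero]
  have h : ∀ l, ampZ β c 0 (tiltCpl β g (prodXi β c z)) 0 0 l = 0 := by
    intro l
    induction l using Nat.twoStepInduction with
    | zero => funext i; simp [ampZ]
    | one => funext i; simp [ampZ]
    | more l h1 h2 => funext i; rw [ampZ]; simp [h1, h2]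
  funext i
  simp [prodCentre, ampMag, hf, hy, h k]

/-- the margin at time `s` gives it at time `0`, up to `O(s)` -/
lemma margin_zero {β η s : ℝ} (hβ : 0 ≤ β) (hβ1 : β < 1) (hs : s ∈ Set.Icc (0 : ℝ) 1) (hsη : 18 * s ≤ η)
    {J : Fin n → Fin n → ℝ} (hJ : OpNorm.OpLe (Matrix.of J) 5) {m : Fin n → ℝ} (hm : ∀ i, |m i| ≤ 1)
    (h : Margin β η s J m) : Margin β (η / 2) 0 J m := by
  intro w
  have hw := h w
  set x := fun j => profileOf m j * w j
  have hX : 0 ≤ ∑ j, x j ^ 2 := Finset.sum_nonneg fun j _ => sq_nonneg _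
  have hQ : |∑ j, ∑ k, x j * J j k * x k| ≤ 5 * ∑ j, x j ^ 2 := by
    have e : x ⬝ᵥ (Matrix.of J *ᵥ x) = ∑ j, ∑ k, x j * J j k * x k := by
      simp only [dotProduct, mulVec, of_apply, Finset.mul_sum]
      exact Finset.sum_congr rfl fun j _ => Finset.sum_congr rfl fun k _ => by ring
    rw [← e]; exact hJ.quad x
  have hm2 : ∑ j, m j ^ 2 ≤ n :=
    (Finset.sum_le_sum fun j _ => (sq_le_one_iff_abs_le_one _).2 (hm j)).trans_eq (by simp)
  have hL : (∑ j, m j * x j) ^ 2 / n ≤ ∑ j, x j ^ 2 := by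
    rcases Nat.eq_zero_or_pos n with rfl | hn
    · simp
    rw [div_le_iff₀ (by exact_mod_cast hn)]
    refine (Finset.sum_mul_sq_le_sq_mul_sq _ m x).trans ?_
    rw [mul_comm (∑ j, x j ^ 2)]
    exact mul_le_mul_of_nonneg_right hm2 hX
  have hL0 : 0 ≤ (∑ j, m j * x j) ^ 2 / n := by positivity
  have hq : 0 ≤ 1 - (∑ j, m j ^ 2) / n := by
    linarith [div_le_one_of_le₀ hm2 (Nat.cast_nonneg n)]
  have hb : β ^ 2 ≤ 1 := by nlinarith
  have hu : 0 ≤ 1 - (1 - s) ^ 2 ∧ 1 - (1 - s) ^ 2 ≤ 2 * s := ⟨by nlinarith [hs.1, hs.2], by nlinarith [sq_nonneg s]⟩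
  have t1 : s * ∑ j, ∑ k, x j * J j k * x k ≤ 5 * s * ∑ j, x j ^ 2 :=
    (mul_le_mul_of_nonneg_left ((le_abs_self _).trans hQ) hs.1).trans_eq (by ring)
  have t2 : (1 - (1 - s) ^ 2) * (2 * β ^ 2 * ((∑ j, m j * x j) ^ 2 / n)) ≤ 4 * s * ∑ j, x j ^ 2 := by
    calc (1 - (1 - s) ^ 2) * (2 * β ^ 2 * ((∑ j, m j * x j) ^ 2 / n)) ≤ 2 * s * (2 * 1 * ∑ j, x j ^ 2) :=
          mul_le_mul hu.2 (mul_le_mul (by linarith) hL hL0 (by norm_num)) (by positivity) (by linarith [hs.1])
      _ = _ := by ring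
  have t3 : 0 ≤ (1 - (1 - s) ^ 2) * (β ^ 2 * (1 - (∑ j, m j ^ 2) / n) * ∑ j, x j ^ 2) :=
    mul_nonneg hu.1 (by positivity)
  have t4 := mul_le_mul_of_nonneg_right hsη hX
  simp only [x] at t1 t2 t3 t4
  rw [sub_zero, one_mul]
  linear_combination hw + t1 + t2 + t3 + t4 / 2

end MinEigEnds

open MinEigEnds MinEigBoost Vale.Agent.P150.Fast

/-- **The margin at all parameters.** -/
theorem marginEnds : MarginEndsStatement := by
  intro hint β hβ hβ1
  rcases hβ.eq_or_lt with rfl | hb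
  · refine ⟨1, one_pos, fun c _ => ⟨1, one_pos, 0, fun k _ s _ => ?_⟩⟩
    refine tendsto_const_nhds.congr fun n => ?_
    refine (measureReal_empty (μ := prodLaw n)).symm.trans (congrArg _ (Eq.symm ?_))
    refine Set.eq_empty_of_forall_notMem fun p ⟨m, hm, hn⟩ => hn ?_
    exact margin_trivial le_rfl hm.1 (Or.inl ⟨rfl, tilt_zero _ _⟩)
  obtain ⟨η, hη, hη1, hh⟩ := hint β hb hβ1
  refine ⟨η / 2, by positivity, fun c hc => ?_⟩
  obtain ⟨ρ, hρ, k₀, hk₀⟩ := hh c hc
  refine ⟨ρ / 4, by positivity, k₀, fun k hk s hs => ?_⟩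
  have hP : ∀ n, IsProbabilityMeasure (prodLaw n) := fun n => by unfold prodLaw; infer_instance
  rcases hs.2.eq_or_lt with rfl | hs1
  · refine tendsto_const_nhds.congr fun n => ?_
    refine (measureReal_empty (μ := prodLaw n)).symm.trans (congrArg _ (Eq.symm ?_))
    refine Set.eq_empty_of_forall_notMem fun p ⟨m, hm, hn⟩ => hn ?_
    exact margin_trivial (by linarith) hm.1 (Or.inr rfl)
  rcases hs.1.eq_or_lt with rfl | hs0
  swap
  · refine squeeze_zero (fun n => measureReal_nonneg) (fun n => measureReal_mono fun p hp => ?_)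
      (hk₀ k hk s ⟨hs0, hs1⟩).1
    obtain ⟨m, hm, hn⟩ := hp
    refine ⟨m, ⟨hm.1, hm.2.trans (mul_le_mul_of_nonneg_right (by linarith) (Nat.cast_nonneg n))⟩, fun hM => hn ?_⟩
    exact fun w => (mul_le_mul_of_nonneg_right (by linarith) (Finset.sum_nonneg fun j _ => sq_nonneg _)).trans (hM w)
  -- the time `0`
  set C := (c + 3) / (1 - β ^ 2)
  have hC : 0 < C := div_pos (by linarith) (by nlinarith)
  set s := min (η / 18) (ρ / (16 * C))
  have hspos : 0 < s := lt_min (by positivity) (by positivity)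
  have hsη : 18 * s ≤ η := by linarith [min_le_left (η / 18) (ρ / (16 * C))]
  have hslt : s < 1 := by linarith
  have hI : s ∈ Set.Icc (0:ℝ) 1 := ⟨hspos.le, hslt.le⟩
  obtain ⟨hbad, hsize⟩ := hk₀ k hk s ⟨hspos, hslt⟩
  have hq : qSE (gamSE β c s k) ≤ ρ / 16 := by
    refine ((MinEigScalar.qSE_le_self (AmpLip.gamSE_nonneg hc hI k)).trans
      (MinEigScalar.gamSE_le hβ hβ1 hc hI k)).trans ?_
    calc C * s ≤ C * (ρ / (16 * C)) := mul_le_mul_of_nonneg_left (min_le_right _ _) hC.le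
      _ = ρ / 16 := by field_simp
  have hsize' := hsize (ρ / 16) (by positivity)
  obtain ⟨cop, hcop, hop⟩ := Planted.normEvent_compl
  have hgood : Tendsto (fun n : ℕ => (prodLaw n).real (goodSet n)ᶜ) atTop (𝓝 0) := by
    have ht : ∀ a : ℝ, 0 < a → Tendsto (fun n : ℕ => Real.exp (-(a * n))) atTop (𝓝 0) := fun a ha =>
      Real.tendsto_exp_atBot.comp (tendsto_neg_atTop_atBot.comp (tendsto_natCast_atTop_atTop.const_mul_atTop ha))
    have h2 := ((ht cop hcop).const_mul 2).add (ht (1 / 40) (by norm_num))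
    rw [mul_zero, add_zero] at h2
    refine squeeze_zero' (Eventually.of_forall fun n => measureReal_nonneg) ?_ h2
    filter_upwards [eventually_gt_atTop 0] with n hn using goodSet_compl (hop n hn)
  refine squeeze_zero' (Eventually.of_forall fun n => measureReal_nonneg) ?_
    (by simpa using (hgood.add hsize').add hbad)
  filter_upwards [eventually_gt_atTop 0] with n hn
  refine le_trans (measureReal_mono fun p hp => ?_) ((measureReal_union_le _ _).trans (add_le_add (measureReal_union_le _ _) le_rfl))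
  obtain ⟨m, hm, hnm⟩ := hp
  by_contra hcon
  simp only [Set.mem_union, Set.mem_compl_iff, Set.mem_ofPred_eq, not_or, not_not, not_lt, not_exists, not_and] at hcon
  obtain ⟨⟨hG, hsz⟩, hM⟩ := hcon
  refine hnm (margin_zero hβ hβ1 hI hsη (tilt_opLe hn hβ hβ1 hc hG) hm.1 (hM m ?_))
  refine ⟨hm.1, ?_⟩
  set a := prodCentre β c s p.1 p.2 k
  have hm2 : ∑ i, m i ^ 2 ≤ ρ / 4 * n := by
    have := hm.2
    simpa [centre_zero] using this
  have hn' : (0:ℝ) < n := by exact_mod_cast hn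
  have ha : ∑ i, a i ^ 2 ≤ ρ / 8 * n := (div_le_iff₀ hn').1 (hsz.trans (by linarith))
  refine (Finset.sum_le_sum fun i _ => show (m i - a i) ^ 2 ≤ 2 * m i ^ 2 + 2 * a i ^ 2 by
    nlinarith [sq_nonneg (m i + a i)]).trans ?_
  rw [Finset.sum_add_distrib, ← Finset.mul_sum, ← Finset.mul_sum]
  nlinarith

end Vale.Agent.P150.High
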