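import Vale.Agent.P150.High.MinEigAlg
import Vale.Agent.P150.GaussCalc

/-!
# P150, all `β < 1`: the certificate, deterministic part

`ip` is the normalised scalar product.  From approximate Gram matrices of the span, of the images
`U` and of the test vectors, the comparison bound of the TAP Hessian is positive, uniformly in the
vector, whose parts in and off the span are `∑ c b` and `w`.
-/

namespace Vale.Agent.P150.High.MinEigCore

open Vale.Agent.P150 MinEigAlg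

variable {n : ℕ}

/-- The normalised scalar product. -/
noncomputable def ip (x y : Fin n → ℝ) : ℝ := dot x y / n

lemma ip_comm (x y : Fin n → ℝ) : ip x y = ip y x := by
  simp only [ip, dot, mul_comm]

lemma ip_add (x y z : Fin n → ℝ) : ip (x + y) z = ip x z + ip y z := by
  simp only [ip, dot, Pi.add_apply, add_mul, Finset.sum_add_distrib, add_div]

lemma ip_add' (x y z : Fin n → ℝ) : ip x (y + z) = ip x y + ip x z := by
  rw [ip_comm, ip_add, ip_comm y, ip_comm z]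

lemma ip_smul (c : ℝ) (x z : Fin n → ℝ) : ip (c • x) z = c * ip x z := by
  simp only [ip, dot, Pi.smul_apply, smul_eq_mul, mul_assoc, ← Finset.mul_sum, mul_div_assoc]

lemma ip_smul' (c : ℝ) (x z : Fin n → ℝ) : ip x (c • z) = c * ip x z := by
  rw [ip_comm, ip_smul, ip_comm]

lemma ip_sub (x y z : Fin n → ℝ) : ip (x - y) z = ip x z - ip y z := by
  simp only [ip, dot, Pi.sub_apply, sub_mul, Finset.sum_sub_distrib, sub_div]

lemma ip_sum {κ : Type*} (s : Finset κ) (x : κ → Fin n → ℝ) (z : Fin n → ℝ) :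
    ip (∑ j ∈ s, x j) z = ∑ j ∈ s, ip (x j) z := by
  classical
  induction s using Finset.induction with
  | empty => simp [ip, dot]
  | insert j s hj ih => rw [Finset.sum_insert hj, Finset.sum_insert hj, ip_add, ih]

lemma ip_self_nonneg (x : Fin n → ℝ) : 0 ≤ ip x x :=
  div_nonneg (Finset.sum_nonneg fun _ _ => mul_self_nonneg _) (Nat.cast_nonneg n)

lemma ip_sq_le (x y : Fin n → ℝ) : ip x y ^ 2 ≤ ip x x * ip y y := by
  rw [ip, ip, ip, div_pow, div_mul_div_comm, ← sq]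
  refine div_le_div_of_nonneg_right ?_ (sq_nonneg _)
  have h := Finset.sum_mul_sq_le_sq_mul_sq Finset.univ x y
  simpa [dot, sq] using h

lemma abs_ip_le {x y : Fin n → ℝ} {A B : ℝ} (hA : 0 ≤ A) (hB : 0 ≤ B) (hx : ip x x ≤ A ^ 2)
    (hy : ip y y ≤ B ^ 2) : |ip x y| ≤ A * B := by
  refine abs_le_of_sq_le_sq ?_ (mul_nonneg hA hB)
  rw [mul_pow]
  exact (ip_sq_le x y).trans (mul_le_mul hx hy (ip_self_nonneg y) (sq_nonneg A))

lemma ip_comb {κ : Type*} [Fintype κ] (c : κ → ℝ) (x : κ → Fin n → ℝ) (z : Fin n → ℝ) :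
    ip (∑ j, c j • x j) z = ∑ j, c j * ip (x j) z := by
  simp only [ip_sum, ip_smul]

lemma comb_err {κ : Type*} [Fintype κ] {c : κ → ℝ} {M N : κ → ℝ} {e : ℝ} (h : ∀ j, |M j - N j| ≤ e) :
    |∑ j, c j * M j - ∑ j, c j * N j| ≤ e * ∑ j, |c j| := by
  rw [← Finset.sum_sub_distrib, Finset.mul_sum]
  refine (Finset.abs_sum_le_sum_abs _ _).trans (Finset.sum_le_sum fun j _ => ?_)
  rw [← mul_sub, abs_mul, mul_comm e]
  exact mul_le_mul_of_nonneg_left (h j) (abs_nonneg _)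

lemma form_err {κ : Type*} [Fintype κ] {c : κ → ℝ} {M N : κ → κ → ℝ} {e : ℝ}
    (h : ∀ i j, |M i j - N i j| ≤ e) :
    |∑ i, ∑ j, c i * c j * M i j - ∑ i, ∑ j, c i * c j * N i j| ≤ e * (∑ j, |c j|) ^ 2 := by
  rw [← Finset.sum_sub_distrib, sq, Finset.sum_mul_sum, Finset.mul_sum]
  refine (Finset.abs_sum_le_sum_abs _ _).trans (Finset.sum_le_sum fun i _ => ?_)
  rw [← Finset.sum_sub_distrib, Finset.mul_sum]
  refine (Finset.abs_sum_le_sum_abs _ _).trans (Finset.sum_le_sum fun j _ => ?_)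
  rw [← mul_sub, abs_mul, abs_mul, mul_comm e]
  exact mul_le_mul_of_nonneg_left (h i j) (by positivity)

lemma comb_comb {κ : Type*} [Fintype κ] (c : κ → ℝ) (x y : κ → Fin n → ℝ) :
    ip (∑ j, c j • x j) (∑ j, c j • y j) = ∑ i, ∑ j, c i * c j * ip (x i) (y j) := by
  rw [ip_comb]
  refine Finset.sum_congr rfl fun i _ => ?_
  rw [ip_comm, ip_comb, Finset.mul_sum]
  exact Finset.sum_congr rfl fun j _ => by rw [ip_comm (y j)]; ring

/-- `v²/D ≥ δ v² + 2 v Y - D Y²/(1-δ)` for a profile in `(0,1]`. -/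
lemma bessel {δ : ℝ} (hδ0 : 0 ≤ δ) (hδ : δ < 1) {D : Fin n → ℝ} (hD : ∀ i, 0 < D i ∧ D i ≤ 1)
    (v Y : Fin n → ℝ) :
    δ * ip v v + 2 * ip v Y - ip (D * Y) Y / (1 - δ) ≤ ip v (v / D) := by
  have h1 : 0 < 1 - δ := sub_pos.2 hδ
  have h : ∀ i, δ * (v i * v i) + 2 * (v i * Y i) - D i * Y i * Y i / (1 - δ) ≤ v i * (v i / D i) := fun i => by
    obtain ⟨hp, h1'⟩ := hD i
    have e : v i * (v i / D i) - (δ * (v i * v i) + 2 * (v i * Y i) - D i * Y i * Y i / (1 - δ)) =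
        δ * v i ^ 2 * ((1 - D i) / D i) + ((1 - δ) * v i - D i * Y i) ^ 2 / ((1 - δ) * D i) := by
      field_simp; ring
    have : 0 ≤ (1 - D i) / D i := div_nonneg (by linarith) hp.le
    have : 0 ≤ δ * v i ^ 2 * ((1 - D i) / D i) + ((1 - δ) * v i - D i * Y i) ^ 2 / ((1 - δ) * D i) := by positivity
    linarith
  have hs := div_le_div_of_nonneg_right (Finset.sum_le_sum (s := Finset.univ) fun i _ => h i) (Nat.cast_nonneg (α := ℝ) n)
  simp only [Finset.sum_sub_distrib, Finset.sum_add_distrib, ← Finset.mul_sum, ← Finset.sum_div] at hs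
  simp only [ip, dot, Pi.mul_apply, Pi.div_apply]
  refine le_trans (le_of_eq ?_) hs
  ring

/-- The quadratic form of the test vector, from its entries. -/
lemma quad_bound {r h g Q p e K Λ E oo aa gg UU V1 Va Vg oa og ag l1 l2 l3 : ℝ}
    (hl1 : |l1| ≤ Λ) (hl2 : |l2| ≤ Λ) (hl3 : |l3| ≤ Λ) (hoo : |oo - r| ≤ e) (haa : |aa - h| ≤ e)
    (hgg : |gg - g| ≤ e) (hUU : |UU - Q| ≤ K) (hV1 : |V1| ≤ E) (hVa : |Va + p| ≤ E) (hVg : |Vg| ≤ E)
    (hoa : |oa| ≤ e) (hog : |og| ≤ e) (hag : |ag| ≤ e) (hE : Λ * E ≤ K) (he : Λ * (Λ * e) ≤ K) :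
    UU + l1 ^ 2 * oo + l2 ^ 2 * aa + l3 ^ 2 * gg + 2 * l1 * V1 + 2 * l2 * Va + 2 * l3 * Vg
      + 2 * l1 * l2 * oa + 2 * l1 * l3 * og + 2 * l2 * l3 * ag ≤
    r * l1 ^ 2 + h * l2 ^ 2 + g * l3 ^ 2 + Q - 2 * l2 * p + 16 * K := by
  have one : ∀ {l z E : ℝ}, |l| ≤ Λ → |z| ≤ E → |l * z| ≤ Λ * E := fun hl hz => by
    rw [abs_mul]; exact mul_le_mul hl hz (abs_nonneg _) ((abs_nonneg _).trans hl)
  have t4 := abs_le.1 (one hl1 hV1)
  have t5 := abs_le.1 (one hl2 hVa)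
  have t6 := abs_le.1 (one hl3 hVg)
  have t7 := abs_le.1 (one hl1 (one hl1 hoo))
  have t8 := abs_le.1 (one hl2 (one hl2 haa))
  have t9 := abs_le.1 (one hl3 (one hl3 hgg))
  have t10 := abs_le.1 (one hl1 (one hl2 hoa))
  have t11 := abs_le.1 (one hl1 (one hl3 hog))
  have t12 := abs_le.1 (one hl2 (one hl3 hag))
  have t13 := abs_le.1 hUU
  linarith

/-- The leading terms and the errors, as scalars. -/
lemma assemble {a δ g rt gt χ β2 kL ηl eρ ek e1 K Λ vD z1 z2 z3 pV VR DY av ψψ B S T W1 G l1 l2 l3 : ℝ}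
    (hl1 : |l1| ≤ Λ) (hl2 : |l2| ≤ Λ) (hl3 : |l3| ≤ Λ) (hz1 : |z1 - W1| ≤ 2 * e1)
    (hz2 : |z2 - S| ≤ e1) (hz3 : |z3 - G| ≤ e1)
    (hB : δ * 1 + 2 * (pV + l1 * z1 + l2 * z2 + l3 * z3) - DY / (1 - δ) ≤ vD)
    (hDY : DY / (1 - δ) ≤ rt * l1 ^ 2 + (gt - rt) * l2 ^ 2 + gt * l3 ^ 2
      + (a * g / (1 - δ) * B + a ^ 2 * χ * T ^ 2) - 2 * l2 * a * χ * T + 2 * (16 * K + eρ))
    (hVR : |VR - (a * S ^ 2 + kL)| ≤ K) (hav : 2 * a * av ^ 2 ≤ 2 * a * S ^ 2 + 6 * e1)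
    (hψψ : a * g / (1 - δ) * B - 2 * K ≤ a * g / (1 - δ) * ψψ)
    (hl1W : l1 * W1 = a * W1 ^ 2) (hl1r : rt * l1 ^ 2 = a * W1 ^ 2 * (a * rt))
    (hW : 0 ≤ a * W1 ^ 2 * (1 - a * rt))
    (hG2 : (1 - δ) / g * G ^ 2 = l3 * G) (hG3 : gt * l3 ^ 2 = l3 * G)
    (hbase : δ * (1 - β2 / (1 - δ)) ≤ δ + a * g - a * g / (1 - δ))
    (hgain : -ηl ≤ -a * S ^ 2 - a ^ 2 * χ * T ^ 2 + kL + 2 * l2 * (S + a * χ * T) - l2 ^ 2 * (gt - rt))
    (he1 : Λ * e1 ≤ Λ * ek + K) (he1' : e1 ≤ Λ * e1) :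
    δ * (1 - β2 / (1 - δ)) - ηl - 2 * eρ - 20 * Λ * ek - 200 * K ≤
      vD + a * g + VR - 2 * pV - a * W1 ^ 2 - 2 * a * av ^ 2
        - a * g / (1 - δ) * (1 - ψψ) - (1 - δ) / g * G ^ 2 := by
  have one : ∀ {l z E : ℝ}, |l| ≤ Λ → |z| ≤ E → |l * z| ≤ Λ * E := fun hl hz => by
    rw [abs_mul]; exact mul_le_mul hl hz (abs_nonneg _) ((abs_nonneg _).trans hl)
  have t1 := abs_le.1 (one hl1 hz1)
  have t2 := abs_le.1 (one hl2 hz2)
  have t3 := abs_le.1 (one hl3 hz3)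
  have t14 := abs_le.1 hVR
  have hK : 0 ≤ K := (abs_nonneg _).trans hVR
  linarith

variable (P : Par)

/-- `|b x|²`. -/
noncomputable def nb (x : ℕ) : ℝ := if x = P.k then P.pn else P.T x

/-- The test vector. -/
def testVec {κ : Type*} [Fintype κ] (c : κ → ℝ) (U : κ → Fin n → ℝ) (l1 l2 l3 : ℝ) (a gv : Fin n → ℝ) :
    Fin n → ℝ :=
  (∑ x, c x • U x) + l1 • (1 - a) + l2 • a + l3 • gv

/-- The approximate Gram data of the certificate at tolerance `e`. -/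
structure Data (g r : ℝ) (e : ℝ) (b U R : Fin (P.k + 1) → Fin n → ℝ) (f a D0 gv : Fin n → ℝ) : Prop where
  bb : ∀ x y : Fin (P.k + 1), |ip (b x) (b y) - if x = y then nb P x else 0| ≤ e
  bF : ∀ x y : Fin (P.k + 1), |ip (b x) (U y) - ip (b x) (R y) - P.fM x y| ≤ e
  b1 : ∀ x : Fin (P.k + 1), |ip (b x) 1 - P.S x| ≤ e
  ba : ∀ x : Fin (P.k + 1), |ip (b x) a - P.S x| ≤ e
  bf : ∀ x : Fin (P.k + 1), |ip (b x) f - P.u * P.L x| ≤ e
  bg : ∀ x : Fin (P.k + 1), |ip (b x) gv| ≤ e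
  uu : ∀ x y : Fin (P.k + 1), |ip (D0 * U x) (U y) -
    (P.a * g * (if x = y then nb P x else 0) + P.a ^ 2 * (g - 2 * r) * (P.T x * P.T y))| ≤ e
  u1 : ∀ x : Fin (P.k + 1), |ip (U x) (D0 * (1 - a))| ≤ e
  ua : ∀ x : Fin (P.k + 1), |ip (U x) (D0 * a) + P.a * (g - 2 * r) * P.T x| ≤ e
  ug : ∀ x : Fin (P.k + 1), |ip (U x) (D0 * gv)| ≤ e
  oo : |ip (D0 * (1 - a)) (1 - a) - r| ≤ e
  aa : |ip (D0 * a) a - (g - r)| ≤ e
  gg : |ip (D0 * gv) gv - g| ≤ e
  oa : |ip (D0 * (1 - a)) a| ≤ e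
  og : |ip (D0 * (1 - a)) gv| ≤ e
  ag : |ip (D0 * a) gv| ≤ e
  nf : ip f f ≤ 4
  ng : ip gv gv ≤ 4

/-- The comparison bound is positive. -/
theorem core {P : Par} (hk : P.k ≠ 0) (hq : 0 ≤ P.q 0) (hv0 : 0 < P.v) (hs : 0 < P.s) (hs1 : P.s < 1)
    {δ g r e ek eρ ε ηl Λ C Qa : ℝ} (hβ : P.β ^ 2 ≤ 1) (hδ0 : 0 ≤ δ) (hδ : δ ≤ 1 / 2) (hβδ : P.β ^ 2 < 1 - δ)
    (hr : 0 ≤ r) (hrg : r ≤ g) (hg : 0 < g) (hg1 : g ≤ 1) (hε : 0 < ε)
    (hΛ : 16 / ε ≤ Λ) (hΛg : 2 / g ≤ Λ) (hΛ1 : 1 ≤ Λ) (he : 0 ≤ e) (hek : 0 ≤ ek) (heρ : 0 ≤ eρ) (hek1 : ek + e * C ≤ 1)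
    (hQ1 : Qa ≤ 1) (hQ0 : 0 ≤ Qa) (hloss : ∀ S L : ℝ, |S| ≤ Qa + (e * C + ek) → |P.u * L| ≤ 3 →
      -ηl ≤ ε / ((g - r) / (1 - δ) + ε) *
        (-P.a * S ^ 2 - P.a ^ 2 * ((g - 2 * r) / (1 - δ)) * (S + L) ^ 2 + P.a * P.u / P.s * L ^ 2))
    {b U R : Fin (P.k + 1) → Fin n → ℝ} {f a D0 gv : Fin n → ℝ} (H : Data P g r e b U R f a D0 gv)
    (hQa : ip a a ≤ Qa ^ 2)
    {v w D : Fin n → ℝ} {c : Fin (P.k + 1) → ℝ} (hC : ∑ x, |c x| ≤ C)
    (hv : v = (∑ x, c x • b x) + w) (hw : ∀ x, ip (b x) w = 0) (hwa : |ip a w| ≤ ek) (hv1 : ip v v = 1)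
    (hD : ∀ i, 0 < D i ∧ D i ≤ 1)
    (hDY : ∀ l1 l2 l3 : ℝ, |l1| ≤ Λ → |l2| ≤ Λ → |l3| ≤ Λ →
      ip (D * testVec c U l1 l2 l3 a gv) (testVec c U l1 l2 l3 a gv) ≤
        ip (D0 * testVec c U l1 l2 l3 a gv) (testVec c U l1 l2 l3 a gv) + eρ) :
    δ * (1 - P.β ^ 2 / (1 - δ)) - ηl - 2 * eρ - 20 * Λ * ek - 200 * e * (C + Λ) ^ 2 ≤
      ip v (v / D) + P.a * g + (ip (∑ x, c x • b x) (∑ x, c x • U x) - ip (∑ x, c x • b x) (∑ x, c x • R x))
        - 2 * ip v (∑ x, c x • U x) - P.a * ip 1 w ^ 2 - 2 * P.a * ip a v ^ 2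
        - P.a * g / (1 - δ) * ip w w - (1 - δ) / g * ip gv w ^ 2 := by
  have h1δ : 0 < 1 - δ := by linarith
  have hinv : 1 / (1 - δ) ≤ 2 := by rw [div_le_iff₀ h1δ]; linarith
  have hu : 0 < P.u := by unfold Par.u; linarith
  have hu1 : P.u ≤ 1 := by unfold Par.u; linarith
  have ha : 0 ≤ P.a := mul_nonneg (sq_nonneg _) (sq_nonneg _)
  have hu2 : P.u ^ 2 ≤ 1 := pow_le_one₀ hu.le hu1
  have haβ : P.a ≤ P.β ^ 2 := mul_le_of_le_one_right (sq_nonneg _) hu2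
  have ha1 : P.a ≤ 1 := haβ.trans hβ
  set ψ := ∑ x, c x • b x
  set V := ∑ x, c x • U x
  set C1 := ∑ x, |c x|
  set S := ∑ x, c x * P.S x
  set L := ∑ x, c x * P.L x
  have hT : ∑ x, c x * P.T x = S + L := by simp only [Par.T, mul_add, Finset.sum_add_distrib]; rfl
  have hC0 : 0 ≤ C1 := Finset.sum_nonneg fun _ _ => abs_nonneg _
  have lin : ∀ {M N : Fin (P.k + 1) → ℝ}, (∀ j, |M j - N j| ≤ e) →
      |∑ j, c j * M j - ∑ j, c j * N j| ≤ e * C := fun h =>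
    (comb_err h).trans (mul_le_mul_of_nonneg_left hC he)
  have lin0 : ∀ {M : Fin (P.k + 1) → ℝ}, (∀ j, |M j| ≤ e) → |∑ j, c j * M j| ≤ e * C := fun {M} h => by
    have := lin (M := M) (N := fun _ => 0) fun j => by simpa using h j
    simpa using this
  have form : ∀ {M N : Fin (P.k + 1) → Fin (P.k + 1) → ℝ}, (∀ i j, |M i j - N i j| ≤ e) →
      |∑ i, ∑ j, c i * c j * M i j - ∑ i, ∑ j, c i * c j * N i j| ≤ e * C ^ 2 := fun h =>
    (form_err h).trans (mul_le_mul_of_nonneg_left (pow_le_pow_left₀ hC0 hC 2) he)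
  -- the part in the span
  set B := ∑ x : Fin (P.k + 1), c x * c x * nb P x
  have hdelta : ∀ M : Fin (P.k + 1) → ℝ, ∑ x, ∑ y, c x * c y * (if x = y then M x else 0) = ∑ x, c x * c x * M x :=
    fun M => by simp [mul_ite]
  have hψψ : |ip ψ ψ - B| ≤ e * C ^ 2 := by
    rw [show ip ψ ψ = _ from comb_comb c b b, show B = _ from (hdelta fun x => nb P x).symm]
    exact form H.bb
  have hwψ : ip ψ w = 0 := by
    rw [show ip ψ w = _ from ip_comb c b w]; simp [hw]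
  have hww : ip w w = 1 - ip ψ ψ := by
    have e1 : ip v v = ip ψ ψ + ip ψ w + (ip w ψ + ip w w) := by rw [hv, ip_add, ip_add', ip_add']
    rw [hv1, ip_comm w ψ, hwψ] at e1
    linarith
  have hw1 : ip w w ≤ 1 := by linarith [ip_self_nonneg ψ]
  have hψ1 : ip ψ ψ ≤ 1 := by linarith [ip_self_nonneg w]
  have hF : |ip ψ V - ip ψ (∑ x, c x • R x) - (P.a * S ^ 2 + P.a * P.u / P.s * L ^ 2)| ≤ e * C ^ 2 := by
    rw [show ip ψ V = _ from comb_comb c b U, show ip ψ (∑ x, c x • R x) = _ from comb_comb c b R,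
      ← quad_eq hk hq hv0 hs hs1 c, ← Finset.sum_sub_distrib]
    have h := form (M := fun x y => ip (b x) (U y) - ip (b x) (R y)) (N := fun x y => P.fM x y) H.bF
    simp only [mul_sub, Finset.sum_sub_distrib] at h
    simp only [Finset.sum_sub_distrib]
    exact h
  -- linear functionals of `v`
  set W1 := ip 1 w
  set G := ip gv w
  have split : ∀ z, ip z v = ∑ x, c x * ip (b x) z + ip z w := fun z => by
    rw [hv, ip_add', ip_comm z ψ, show ip ψ z = _ from ip_comb c b z]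
  have hav : |ip a v - S| ≤ e * C + ek := by
    rw [split, show ∀ A B : ℝ, A + B - S = A - S + B from fun A B => by ring]
    exact (abs_add_le _ _).trans (add_le_add (lin H.ba) hwa)
  have h1v : |ip (1 - a) v - W1| ≤ 2 * (e * C) + ek := by
    rw [ip_sub, split 1, split a, show ∀ A B E : ℝ, A + W1 - (B + E) - W1 = (A - S) - (B - S) - E from
      fun A B E => by ring]
    have := lin H.b1
    have := lin H.ba
    exact (abs_sub _ _).trans (add_le_add ((abs_sub _ _).trans (by linarith)) hwa)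
  have hgv : |ip gv v - G| ≤ e * C := by
    rw [split, add_sub_cancel_right]; exact lin0 H.bg
  -- sizes
  have one_le : ip (1 : Fin n → ℝ) 1 ≤ 1 ^ 2 := by
    rcases Nat.eq_zero_or_pos n with h | h
    · subst h; simp [ip, dot]
    · simp [ip, dot, (Nat.cast_pos (α := ℝ)).2 h |>.ne']
  have hW1 : |W1| ≤ 1 := by simpa using abs_ip_le zero_le_one zero_le_one one_le (by simpa using hw1)
  have hG : |G| ≤ 2 := by simpa using abs_ip_le two_pos.le zero_le_one (by linarith [H.ng] : ip gv gv ≤ 2 ^ 2) (by simpa using hw1)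
  have havQ : |ip a v| ≤ Qa := by
    simpa using abs_ip_le hQ0 zero_le_one hQa (by simp [hv1] : ip v v ≤ 1 ^ 2)
  have hav1 : |ip a v| ≤ 1 := havQ.trans hQ1
  have hSQ : |S| ≤ Qa + (e * C + ek) := by
    have := abs_sub_abs_le_abs_sub S (ip a v)
    rw [abs_sub_comm] at this
    linarith
  have hS : |S| ≤ 2 := by linarith
  have hL : |P.u * L| ≤ 3 := by
    have h := lin H.bf
    rw [show ∑ j : Fin (P.k + 1), c j * (P.u * P.L j) = P.u * L by
      simp only [L, Finset.mul_sum]; exact Finset.sum_congr rfl fun j _ => by ring,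
      ← show ip ψ f = _ from ip_comb c b f] at h
    have hf : |ip ψ f| ≤ 1 * 2 := abs_ip_le zero_le_one two_pos.le (by simpa using hψ1) (by linarith [H.nf])
    have := abs_sub_abs_le_abs_sub (P.u * L) (ip ψ f)
    rw [abs_sub_comm] at this
    linarith
  set gt := g / (1 - δ)
  set rt := r / (1 - δ)
  have hgt : 0 < gt := div_pos hg h1δ
  set χ := (g - 2 * r) / (1 - δ)
  have hχeq : gt - 2 * rt = χ := by simp only [gt, rt, χ]; ring
  set X := S + P.a * χ * (S + L)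
  have hX : |X| ≤ 16 := by
    have hχ : |χ| ≤ 2 := by
      rw [abs_div, abs_of_pos h1δ, div_le_iff₀ h1δ, abs_le]; constructor <;> linarith
    have hL' : |P.a * L| ≤ 3 := by
      rw [show P.a * L = (P.β ^ 2 * P.u) * (P.u * L) by simp only [Par.a]; ring, abs_mul]
      have : |P.β ^ 2 * P.u| ≤ 1 := by
        rw [abs_of_nonneg (mul_nonneg (sq_nonneg _) hu.le)]; exact mul_le_one₀ hβ hu.le hu1
      exact (mul_le_of_le_one_left (abs_nonneg _) this).trans hL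
    have haS : |P.a * S| ≤ 2 := by
      rw [abs_mul, abs_of_nonneg ha]; exact (mul_le_of_le_one_left (abs_nonneg _) ha1).trans hS
    have e1 : X = S + χ * (P.a * S + P.a * L) := by simp only [X]; ring
    have h5 : |χ * (P.a * S + P.a * L)| ≤ 2 * 5 := by
      rw [abs_mul]; exact mul_le_mul hχ ((abs_add_le _ _).trans (by linarith)) (abs_nonneg _) two_pos.le
    rw [e1]
    linarith [abs_add_le S (χ * (P.a * S + P.a * L))]
  -- the multipliers
  set l1 := P.a * W1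
  set l2 := X / (gt - rt + ε)
  set l3 := G / gt
  have hl1 : |l1| ≤ Λ := by
    rw [abs_mul, abs_of_nonneg ha]; exact ((mul_le_of_le_one_left (abs_nonneg _) ha1).trans hW1).trans hΛ1
  have hgr : 0 ≤ gt - rt := sub_nonneg.2 (div_le_div_of_nonneg_right hrg h1δ.le)
  have hl2 : |l2| ≤ Λ := by
    rw [abs_div, abs_of_pos (show 0 < gt - rt + ε by linarith)]
    exact (div_le_div₀ (by norm_num) hX hε (by linarith)).trans hΛ
  have hl3 : |l3| ≤ Λ := by
    rw [abs_div, abs_of_pos hgt]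
    refine (div_le_div₀ two_pos.le hG hg ?_).trans hΛg
    rw [le_div_iff₀ h1δ]; linarith [mul_nonneg hg.le hδ0]
  set Y := testVec c U l1 l2 l3 a gv
  have hB := bessel hδ0 (by linarith : δ < 1) hD v Y
  have hY := hDY l1 l2 l3 hl1 hl2 hl3
  have evY : ip v Y = ip v V + l1 * ip (1 - a) v + l2 * ip a v + l3 * ip gv v := by
    simp only [Y, testVec, ip_add', ip_smul', ip_comm v (1 - a), ip_comm v a, ip_comm v gv]; rfl
  have eYY : ip (D0 * Y) Y = ip (D0 * V) V + l1 ^ 2 * ip (D0 * (1 - a)) (1 - a) + l2 ^ 2 * ip (D0 * a) a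
      + l3 ^ 2 * ip (D0 * gv) gv + 2 * l1 * ip V (D0 * (1 - a)) + 2 * l2 * ip V (D0 * a)
      + 2 * l3 * ip V (D0 * gv) + 2 * l1 * l2 * ip (D0 * (1 - a)) a + 2 * l1 * l3 * ip (D0 * (1 - a)) gv
      + 2 * l2 * l3 * ip (D0 * a) gv := by
    simp only [Y, testVec, ip, dot, ← mul_div_assoc, ← add_div, Finset.mul_sum, ← Finset.sum_add_distrib,
      Pi.mul_apply, Pi.add_apply, Pi.smul_apply, smul_eq_mul]
    congr 1
    exact Finset.sum_congr rfl fun i _ => by ring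
  have hUU : |ip (D0 * V) V - (P.a * g * B + P.a ^ 2 * (g - 2 * r) * (S + L) ^ 2)| ≤ e * C ^ 2 := by
    have e1 : D0 * V = ∑ x, c x • (D0 * U x) := by
      simp only [V, Finset.mul_sum, mul_smul_comm]
    have e2 : P.a * g * B + P.a ^ 2 * (g - 2 * r) * (S + L) ^ 2 = ∑ i : Fin (P.k + 1), ∑ j : Fin (P.k + 1), c i * c j *
        (P.a * g * (if i = j then nb P i else 0) + P.a ^ 2 * (g - 2 * r) * (P.T i * P.T j)) := by
      rw [show B = _ from (hdelta fun x => nb P x).symm, ← hT, sq (∑ x : Fin (P.k + 1), c x * P.T x),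
        Finset.sum_mul_sum, Finset.mul_sum, Finset.mul_sum, ← Finset.sum_add_distrib]
      refine Finset.sum_congr rfl fun i _ => ?_
      rw [Finset.mul_sum, Finset.mul_sum, ← Finset.sum_add_distrib]
      exact Finset.sum_congr rfl fun j _ => by ring
    rw [e1, show ip (∑ x, c x • (D0 * U x)) V = _ from comb_comb c (fun x => D0 * U x) U, e2]
    exact form H.uu
  have hV : ∀ z, ip V z = ∑ x, c x * ip (U x) z := fun z => ip_comb c U z
  have hV1 : |ip V (D0 * (1 - a))| ≤ e * C := by rw [hV]; exact lin0 H.u1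
  have hVa : |ip V (D0 * a) + P.a * (g - 2 * r) * (S + L)| ≤ e * C := by
    rw [hV, ← hT, Finset.mul_sum, ← Finset.sum_add_distrib]
    have h := lin0 (M := fun x => ip (U x) (D0 * a) + P.a * (g - 2 * r) * P.T x) H.ua
    refine le_trans (le_of_eq (congrArg abs (Finset.sum_congr rfl fun x _ => ?_))) h
    ring
  have hVg : |ip V (D0 * gv)| ≤ e * C := by rw [hV]; exact lin0 H.ug
  -- assembly
  have gain := gain_le (a := P.a) (k := P.a * P.u / P.s) (g := gt) (r := rt) (S := S) (L := L) ha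
    (div_le_div_of_nonneg_right hrg h1δ.le)
    (by
      have h1 : P.a * rt ≤ P.β ^ 2 * (1 / (1 - δ)) := by
        refine mul_le_mul haβ ?_ (div_nonneg hr h1δ.le) (sq_nonneg _)
        exact div_le_div_of_nonneg_right (hrg.trans hg1) h1δ.le
      have h2 : P.β ^ 2 * (1 / (1 - δ)) < 1 := by rw [mul_one_div, div_lt_one h1δ]; exact hβδ
      linarith)
    (by
      rw [hχeq]
      refine cond_of_lt hu hu1 hs hs1.le ?_ ?_
      · refine lt_of_le_of_lt (mul_le_mul_of_nonneg_left ?_ (sq_nonneg _))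
          (show P.β ^ 2 * (1 / (1 - δ)) < 1 by rw [mul_one_div, div_lt_one h1δ]; exact hβδ)
        exact div_le_div_of_nonneg_right (by linarith) h1δ.le
      · have h1 : -1 / (1 - δ) ≤ χ := div_le_div_of_nonneg_right (by linarith) h1δ.le
        have h2 := mul_le_mul_of_nonneg_left h1 ha
        have h3 : P.a * (1 / (1 - δ)) ≤ 1 := by
          rw [mul_one_div, div_le_one h1δ]; linarith
        rw [show P.β ^ 2 * P.u ^ 2 = P.a from rfl]
        rw [neg_div, mul_neg] at h2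
        linarith) hε
  rw [hχeq] at gain
  simp only at gain
  have hl := (hloss S L hSQ hL).trans (le_of_le_of_eq (le_of_eq_of_le (by
    rw [show gt - rt = (g - r) / (1 - δ) by simp only [gt, rt]; ring]) gain) rfl)
  set K := C + Λ
  have hC0' : 0 ≤ C := hC0.trans hC
  have hCK : C ≤ K := le_add_of_nonneg_right (by linarith)
  have hΛK : Λ ≤ K := le_add_of_nonneg_left hC0'
  have hK2 : e * C ^ 2 ≤ e * K ^ 2 := mul_le_mul_of_nonneg_left (pow_le_pow_left₀ hC0' hCK 2) he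
  have hKC : Λ * (e * C) ≤ e * K ^ 2 := by
    rw [sq, show Λ * (e * C) = e * (Λ * C) by ring]
    exact mul_le_mul_of_nonneg_left (mul_le_mul hΛK hCK hC0' (by linarith)) he
  have hKL : Λ * (Λ * e) ≤ e * K ^ 2 := by
    rw [sq, show Λ * (Λ * e) = e * (Λ * Λ) by ring]
    exact mul_le_mul_of_nonneg_left (mul_le_mul hΛK hΛK (by linarith) (by linarith)) he
  have hq := quad_bound hl1 hl2 hl3 H.oo H.aa H.gg (hUU.trans hK2) hV1 hVa hVg H.oa H.og H.ag hKC hKL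
  rw [← eYY] at hq
  have hdiv : ip (D * Y) Y / (1 - δ) ≤ rt * l1 ^ 2 + (gt - rt) * l2 ^ 2 + gt * l3 ^ 2
      + (P.a * g / (1 - δ) * B + P.a ^ 2 * χ * (S + L) ^ 2) - 2 * l2 * P.a * χ * (S + L)
      + 2 * (16 * (e * K ^ 2) + eρ) := by
    refine (div_le_div_of_nonneg_right (hY.trans (add_le_add hq le_rfl)) h1δ.le).trans ?_
    rw [add_div, add_div]
    have h0 : (16 * (e * K ^ 2)) / (1 - δ) + eρ / (1 - δ) ≤ 2 * (16 * (e * K ^ 2) + eρ) := by
      have h2 : 0 ≤ 16 * (e * K ^ 2) + eρ := by positivity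
      rw [← add_div, div_le_iff₀ h1δ]
      linarith [mul_le_mul_of_nonneg_left hδ h2]
    refine le_trans (le_of_eq ?_) (add_le_add le_rfl h0)
    simp only [rt, gt, χ]; field_simp; ring
  have hav2 : 2 * P.a * ip a v ^ 2 ≤ 2 * P.a * S ^ 2 + 6 * (e * C + ek) := by
    have h3 : |ip a v + S| ≤ 3 := (abs_add_le _ _).trans (by linarith)
    have h4 : (ip a v - S) * (ip a v + S) ≤ (e * C + ek) * 3 :=
      (le_abs_self _).trans (by rw [abs_mul]; exact mul_le_mul hav h3 (abs_nonneg _) ((abs_nonneg _).trans hav))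
    have h5 : ip a v ^ 2 ≤ S ^ 2 + 3 * (e * C + ek) := by
      rw [show ip a v ^ 2 = S ^ 2 + (ip a v - S) * (ip a v + S) by ring]; linarith
    have h0 : 0 ≤ e * C + ek := (abs_nonneg _).trans hav
    linarith [mul_le_mul_of_nonneg_left h5 ha, mul_le_of_le_one_left h0 ha1]
  have hψB : P.a * g / (1 - δ) * B - 2 * (e * K ^ 2) ≤ P.a * g / (1 - δ) * ip ψ ψ := by
    have h1 : P.a * g / (1 - δ) ≤ 2 := by
      rw [div_le_iff₀ h1δ]; linarith [mul_le_one₀ ha1 hg.le hg1]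
    have h2 : P.a * g / (1 - δ) * (B - ip ψ ψ) ≤ 2 * (e * K ^ 2) :=
      (mul_le_mul_of_nonneg_left ((le_abs_self _).trans ((abs_sub_comm _ _).le.trans (hψψ.trans hK2))) (by positivity)).trans
        (mul_le_mul_of_nonneg_right h1 (by positivity))
    linarith
  have hW : 0 ≤ P.a * W1 ^ 2 * (1 - P.a * rt) := by
    refine mul_nonneg (mul_nonneg ha (sq_nonneg _)) ?_
    have : P.a * rt ≤ P.a * (1 / (1 - δ)) :=
      mul_le_mul_of_nonneg_left (div_le_div_of_nonneg_right (hrg.trans hg1) h1δ.le) ha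
    rw [mul_one_div] at this
    linarith [(div_le_one h1δ).2 (show P.a ≤ 1 - δ by linarith)]
  have hbase : δ * (1 - P.β ^ 2 / (1 - δ)) ≤ δ + P.a * g - P.a * g / (1 - δ) := by
    have h1 : P.a * g / (1 - δ) * δ ≤ P.β ^ 2 / (1 - δ) * δ :=
      mul_le_mul_of_nonneg_right (div_le_div_of_nonneg_right ((mul_le_of_le_one_right ha hg1).trans haβ) h1δ.le) hδ0
    have h2 : P.a * g - P.a * g / (1 - δ) = -(P.a * g / (1 - δ) * δ) := by field_simp; ring
    linarith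
  rw [evY, hv1] at hB
  rw [hww]
  have he1 : Λ * (e * C + ek) ≤ Λ * ek + e * K ^ 2 := by rw [mul_add]; linarith
  have h1v' : |ip (1 - a) v - W1| ≤ 2 * (e * C + ek) := by linarith
  have hgv' : |ip gv v - G| ≤ e * C + ek := by linarith
  have h := assemble (kL := P.a * P.u / P.s * L ^ 2) (β2 := P.β ^ 2) (ek := ek) hl1 hl2 hl3 h1v' hav hgv' hB hdiv
    (hF.trans hK2) hav2 hψB (show l1 * W1 = P.a * W1 ^ 2 by simp only [l1]; ring)
    (show rt * l1 ^ 2 = P.a * W1 ^ 2 * (P.a * rt) by simp only [l1]; ring) hW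
    (show (1 - δ) / g * G ^ 2 = l3 * G by simp only [l3, gt]; field_simp)
    (show gt * l3 ^ 2 = l3 * G by simp only [l3]; field_simp) hbase hl he1
    (le_mul_of_one_le_left ((abs_nonneg _).trans hav) hΛ1)
  rw [mul_assoc 200]
  exact h

end Vale.Agent.P150.High.MinEigCore
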