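import Vale.Agent.P150.High.MinEigSlepian
import Vale.Agent.P150.High.MinEigCore
import Vale.Agent.P150.High.VecLim

/-!
# P150, all `β < 1`: the auxiliary Gaussian vector of the comparison

With probability tending to one it is nearly orthogonal to finitely many given vectors and has the
expected weighted norms; the comparison functional then has a uniform sign.
-/

open MeasureTheory ProbabilityTheory Filter Finset
open scoped Topology

namespace Vale.Agent.P150.High.MinEigGauss

open Vale.Agent.P150 Vale.Agent.P150.High.Amp MinEigSlepian MinEigCore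

variable {n : ℕ}

/-- The fourth moment of a standard variable. -/
noncomputable def fourth : ℝ := ∫ t, t ^ 4 ∂gaussianReal 0 1

lemma fourth_nonneg : 0 ≤ fourth := integral_nonneg fun t => by positivity

/-- A typical vector for given test vectors and weights. -/
structure GoodG {ι : Type*} (x : ι → Fin n → ℝ) (d : Fin n → ℝ) (e : ℝ) (g : Fin n → ℝ) : Prop where
  lin : ∀ j, |MinEigCore.ip (x j) g| ≤ e
  wq : |MinEigCore.ip (d * g) g - MinEigCore.ip d 1| ≤ e
  sq : MinEigCore.ip g g ≤ 4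
  four : MinEigCore.ip (g * g) (g * g) ≤ fourth + 1

lemma measurableSet_goodG {ι : Type*} [Fintype ι] (x : ι → Fin n → ℝ) (d : Fin n → ℝ) (e : ℝ) :
    MeasurableSet {g | GoodG x d e g} := by
  have h : {g | GoodG x d e g} = (⋂ j, {g | |MinEigCore.ip (x j) g| ≤ e}) ∩
      ({g | |MinEigCore.ip (d * g) g - MinEigCore.ip d 1| ≤ e} ∩
        ({g | MinEigCore.ip g g ≤ 4} ∩ {g | MinEigCore.ip (g * g) (g * g) ≤ fourth + 1})) := by
    ext g
    simp only [Set.mem_inter_iff, Set.mem_iInter, Set.mem_ofPred_eq]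
    exact ⟨fun h => ⟨h.lin, h.wq, h.sq, h.four⟩, fun h => ⟨h.1, h.2.1, h.2.2.1, h.2.2.2⟩⟩
  rw [h]
  refine MeasurableSet.inter (MeasurableSet.iInter fun j => ?_) (MeasurableSet.inter ?_ (MeasurableSet.inter ?_ ?_)) <;>
    exact measurableSet_le (by simp only [MinEigCore.ip, dot, Pi.mul_apply]; fun_prop) measurable_const

/-- Chebyshev for a weighted average. -/
lemma cheb {φ : ℝ → ℝ} (hφ : MemLp φ 2 (gaussianReal 0 1)) (c : Fin n → ℝ) {e : ℝ} (he : 0 < e) :
    (gauss (Fin n)).real {g | e < |(∑ i, c i * φ (g i)) / n - (∑ i, c i * ∫ t, φ t ∂gaussianReal 0 1) / n|} ≤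
      variance φ (gaussianReal 0 1) * MinEigCore.ip c c / (n * e ^ 2) := by
  rcases Nat.eq_zero_or_pos n with rfl | hn
  · simp [not_lt.2 he.le, MinEigCore.ip]
  have hn' : (0:ℝ) < n := Nat.cast_pos.2 hn
  set S : (Fin n → ℝ) → ℝ := ∑ i, fun g => c i * φ (g i)
  have hS : MemLp S 2 (gauss (Fin n)) :=
    memLp_finsetSum' _ fun i _ => (hφ.comp_measurePreserving (measurePreserving_eval _ i)).const_mul (c i)
  have hE : ∫ g, S g ∂gauss (Fin n) = ∑ i, c i * ∫ t, φ t ∂gaussianReal 0 1 := by
    simp only [S, Finset.sum_apply]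
    have hp := fun i => measurePreserving_eval (fun _ : Fin n => gaussianReal 0 1) i
    rw [integral_finsetSum _ fun i _ => ?_]
    · refine Finset.sum_congr rfl fun i _ => ?_
      rw [integral_const_mul]
      congr 1
      rw [← (hp i).map_eq, integral_map (hp i).measurable.aemeasurable (by rw [(hp i).map_eq]; exact hφ.1)]
      rfl
    · exact ((hp i).integrable_comp_of_integrable (hφ.integrable one_le_two)).const_mul (c i)
  have hV : variance S (gauss (Fin n)) = (∑ i, c i * c i) * variance φ (gaussianReal 0 1) := by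
    show variance (∑ i, fun g : Fin n → ℝ => c i * φ (g i)) (Measure.pi fun _ : Fin n => gaussianReal 0 1) = _
    rw [variance_sum_pi (X := fun i t => c i * φ t) fun i => hφ.const_mul (c i), Finset.sum_mul]
    exact Finset.sum_congr rfl fun i _ => by rw [variance_const_mul, pow_two]
  have h := meas_ge_le_variance_div_sq hS (mul_pos he hn')
  rw [hE, hV] at h
  have h2 : (gauss (Fin n)).real {g | e * n ≤ |S g - ∑ i, c i * ∫ t, φ t ∂gaussianReal 0 1|} ≤
      (∑ i, c i * c i) * variance φ (gaussianReal 0 1) / (e * n) ^ 2 := by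
    rw [measureReal_def]
    exact (ENNReal.toReal_mono ENNReal.ofReal_ne_top h).trans (le_of_eq (ENNReal.toReal_ofReal
      (div_nonneg (mul_nonneg (Finset.sum_nonneg fun i _ => mul_self_nonneg _) (variance_nonneg _ _)) (sq_nonneg _))))
  refine (measureReal_mono fun g hg => ?_).trans (h2.trans (le_of_eq ?_))
  · simp only [Set.mem_ofPred_eq, S, Finset.sum_apply] at hg ⊢
    rw [← sub_div, abs_div, abs_of_pos hn', lt_div_iff₀ hn'] at hg
    exact hg.le
  · simp only [MinEigCore.ip, dot]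
    field_simp

lemma memLp_pow (m : ℕ) : MemLp (fun t : ℝ => t ^ m) 2 (gaussianReal 0 1) :=
  (memLp_two_iff_integrable_sq (by fun_prop)).2 (by
    simp only [← pow_mul]
    exact integrable_pow_of_mem_interior_integrableExpSet (by simp) (m * 2))

lemma int_pow_one : ∫ t : ℝ, t ∂gaussianReal 0 1 = 0 := by simp

lemma int_pow_two : ∫ t : ℝ, t ^ 2 ∂gaussianReal 0 1 = 1 := by
  have h := variance_id_gaussianReal (μ := 0) (v := 1)
  rw [variance_eq_integral (by fun_prop)] at h
  simpa using h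

/-- Good vectors are typical. -/
theorem prob_not_goodG : ∃ V : ℝ, 0 ≤ V ∧ ∀ {n : ℕ} {ι : Type} [Fintype ι] (x : ι → Fin n → ℝ) (d : Fin n → ℝ)
    (C e : ℝ), 0 < e → e ≤ 1 → (∀ j, MinEigCore.ip (x j) (x j) ≤ C) → (∀ i, |d i| ≤ 1) → 0 < n →
    (gauss (Fin n)).real {g | ¬ GoodG x d e g} ≤ ((Fintype.card ι : ℝ) * C + 3) * V / (n * e ^ 2) := by
  set V1 := variance (fun t : ℝ => t ^ 1) (gaussianReal 0 1)
  set V2 := variance (fun t : ℝ => t ^ 2) (gaussianReal 0 1)
  set V4 := variance (fun t : ℝ => t ^ 4) (gaussianReal 0 1)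
  have h1 : 0 ≤ V1 := variance_nonneg _ _
  have h2 : 0 ≤ V2 := variance_nonneg _ _
  have h4 : 0 ≤ V4 := variance_nonneg _ _
  refine ⟨V1 + V2 + V4, by positivity, fun {n} {ι} _ x d C e he he1 hx hd hn => ?_⟩
  have hn' : (0:ℝ) < n := Nat.cast_pos.2 hn
  set V := V1 + V2 + V4
  have hden : (0:ℝ) < n * e ^ 2 := by positivity
  have hsub : {g | ¬ GoodG x d e g} ⊆
      (⋃ j, {g | e < |(∑ i, x j i * g i ^ 1) / n - (∑ i, x j i * ∫ t, t ^ 1 ∂gaussianReal 0 1) / n|}) ∪
      {g | e < |(∑ i, d i * g i ^ 2) / n - (∑ i, d i * ∫ t, t ^ 2 ∂gaussianReal 0 1) / n|} ∪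
      {g | e < |(∑ i : Fin n, (1:ℝ) * g i ^ 2) / n - (∑ i : Fin n, (1:ℝ) * ∫ t, t ^ 2 ∂gaussianReal 0 1) / n|} ∪
      {g | e < |(∑ i : Fin n, (1:ℝ) * g i ^ 4) / n - (∑ i : Fin n, (1:ℝ) * ∫ t, t ^ 4 ∂gaussianReal 0 1) / n|} := by
    intro g hg
    by_contra hcon
    simp only [Set.mem_union, Set.mem_iUnion, Set.mem_ofPred_eq, not_or, not_exists, not_lt, int_pow_one,
      int_pow_two, mul_zero, one_mul, mul_one, Finset.sum_const_zero, zero_div, sub_zero, pow_one] at hcon
    obtain ⟨⟨⟨c1, c2⟩, c3⟩, c4⟩ := hcon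
    have hsum : ∀ r : ℝ, (∑ _i : Fin n, r) / n = r := fun r => by simp [hn'.ne']
    rw [hsum] at c3 c4
    refine hg ⟨fun j => c1 j, ?_, ?_, ?_⟩
    · refine le_trans (le_of_eq ?_) c2
      simp only [MinEigCore.ip, dot, Pi.mul_apply, Pi.one_apply, mul_one, sq, mul_assoc]
    · have := (abs_le.1 c3).2
      simp only [MinEigCore.ip, dot, ← sq]
      linarith
    · have := (abs_le.1 c4).2
      have e4 : MinEigCore.ip (g * g) (g * g) = (∑ i, g i ^ 4) / n := by
        simp only [MinEigCore.ip, dot, Pi.mul_apply]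
        congr 1; exact Finset.sum_congr rfl fun i _ => by ring
      rw [e4]
      show (∑ i, g i ^ 4) / n ≤ (∫ t, t ^ 4 ∂gaussianReal 0 1) + 1
      linarith
  have ones : MinEigCore.ip (fun _ : Fin n => (1:ℝ)) (fun _ => 1) ≤ 1 := by simp [MinEigCore.ip, dot, hn'.ne']
  have dd : MinEigCore.ip d d ≤ 1 := by
    simp only [MinEigCore.ip, dot]
    rw [div_le_one hn']
    refine (Finset.sum_le_card_nsmul _ _ 1 fun i _ => ?_).trans (by simp)
    have := abs_le.1 (hd i); nlinarith
  refine (measureReal_mono hsub).trans ?_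
  refine (measureReal_union_le _ _).trans (le_trans (b := Finset.univ.card • (V * C / (n * e ^ 2)) +
    V / (n * e ^ 2) + V / (n * e ^ 2) + V / (n * e ^ 2)) (add_le_add ((measureReal_union_le _ _).trans (add_le_add
    ((measureReal_union_le _ _).trans (add_le_add ((measureReal_iUnion_fintype_le _).trans
      (Finset.sum_le_card_nsmul _ _ (V * C / (n * e ^ 2)) fun j _ => ?_)) ?_)) ?_)) ?_) (le_of_eq ?_))
  rotate_left 1
  · exact (cheb (memLp_pow 2) d he).trans (div_le_div_of_nonneg_right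
      ((mul_le_mul_of_nonneg_left dd h2).trans (by linarith : V2 * 1 ≤ V)) hden.le)
  · exact (cheb (memLp_pow 2) _ he).trans (div_le_div_of_nonneg_right
      ((mul_le_mul_of_nonneg_left ones h2).trans (by linarith : V2 * 1 ≤ V)) hden.le)
  · exact (cheb (memLp_pow 4) _ he).trans (div_le_div_of_nonneg_right
      ((mul_le_mul_of_nonneg_left ones h4).trans (by linarith : V4 * 1 ≤ V)) hden.le)
  · simp only [Finset.card_univ, nsmul_eq_mul]; ring
  · refine (cheb (memLp_pow 1) (x j) he).trans (div_le_div_of_nonneg_right ?_ hden.le)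
    exact mul_le_mul (by linarith : V1 ≤ V) (hx j) (MinEigCore.ip_self_nonneg _) (by linarith)

variable {α : Type} [Fintype α] [Nonempty α]

/-- The comparison when the functional is negative on a typical set. -/
theorem prob_le {σ c K M γ : ℝ} (hσ : 0 < σ) (hM : 0 < M) (hn : 8 * σ ≤ n) (hn0 : 0 < n)
    (v : α → Fin n → ℝ) (F : α → ℝ) (S : Set (Fin n → ℝ)) (hS : MeasurableSet S)
    (hgood : ∀ g ∈ S, cmpMax γ v F g ≤ -c)
    (hall : ∀ g, cmpMax γ v F g ≤ K + MinEigCore.ip g g) :
    (gauss (Fin n × Fin n)).real {X | ∃ x, 0 < γ / Real.sqrt n * goeForm X (v x) + F x} ≤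
      Real.exp (-(σ * c)) + Real.exp (σ * K) * (M * (gauss (Fin n)).real Sᶜ + Real.exp (8 * σ) / M) := by
  have hn' : (0:ℝ) < n := Nat.cast_pos.2 hn0
  have hs : 2 * σ / n < 1 / 2 := by rw [div_lt_iff₀ hn']; linarith
  obtain ⟨hI, hint⟩ := exp_sumsq (ι := Fin n) hs
  have hbound : ∫ g : Fin n → ℝ, Real.exp (2 * σ / n * ∑ i, g i ^ 2) ∂gauss (Fin n) ≤ Real.exp (8 * σ) := by
    rw [hint, Fintype.card_fin]
    have hx : 2 * (2 * σ / n) ≤ 1 / 2 := by
      rw [mul_div_assoc', div_le_iff₀ hn']; linarith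
    have hx0 : 0 ≤ 2 * (2 * σ / n) := by positivity
    have h1 : (Real.sqrt (1 - 2 * (2 * σ / n)))⁻¹ ≤ Real.exp (2 * (2 * (2 * σ / n))) := by
      refine le_trans ?_ (Real.add_one_le_exp _)
      have hp : 0 < 1 - 2 * (2 * σ / n) := by linarith
      have : 1 - 2 * (2 * σ / n) ≤ Real.sqrt (1 - 2 * (2 * σ / n)) := by
        refine Real.le_sqrt_of_sq_le ?_
        rw [sq]; exact mul_le_of_le_one_left hp.le (by linarith)
      refine (inv_anti₀ hp this).trans ?_
      rw [inv_le_iff_one_le_mul₀ hp]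
      nlinarith
    refine (pow_le_pow_left₀ (inv_nonneg.2 (Real.sqrt_nonneg _)) h1 n).trans (le_of_eq ?_)
    rw [← Real.exp_nat_mul]; congr 1; field_simp; ring
  have hexp : ∀ g : Fin n → ℝ, Real.exp (σ * MinEigCore.ip g g) * Real.exp (σ * MinEigCore.ip g g) =
      Real.exp (2 * σ / n * ∑ i, g i ^ 2) := fun g => by
    rw [← Real.exp_add]; congr 1; simp only [MinEigCore.ip, dot, sq]; ring
  set R : (Fin n → ℝ) → ℝ := fun g => Real.exp (-(σ * c)) +
    Real.exp (σ * K) * (M * Sᶜ.indicator (fun _ => (1:ℝ)) g + Real.exp (2 * σ / n * ∑ i, g i ^ 2) / M)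
  have hind : Integrable (fun g => Sᶜ.indicator (fun _ => (1:ℝ)) g) (gauss (Fin n)) :=
    (integrable_const (1:ℝ)).indicator hS.compl
  have hR : Integrable R (gauss (Fin n)) :=
    (integrable_const _).fun_add (((hind.const_mul M).fun_add (hI.div_const M)).const_mul _)
  have hle : ∀ g, Real.exp (σ * cmpMax γ v F g) ≤ R g := fun g => by
    by_cases hg : g ∈ S
    · refine (Real.exp_le_exp.2 (mul_le_mul_of_nonneg_left (hgood g hg) hσ.le)).trans ?_
      simp only [R, mul_neg, Set.indicator_of_notMem (show g ∉ Sᶜ from fun h => h hg), mul_zero, zero_add]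
      exact le_add_of_nonneg_right (by positivity)
    · refine (Real.exp_le_exp.2 (mul_le_mul_of_nonneg_left (hall g) hσ.le)).trans ?_
      simp only [R, Set.indicator_of_mem (show g ∈ Sᶜ from hg), mul_one]
      rw [mul_add σ, Real.exp_add]
      refine le_add_of_nonneg_of_le (Real.exp_pos _).le (mul_le_mul_of_nonneg_left ?_ (Real.exp_pos _).le)
      set h := Real.exp (σ * MinEigCore.ip g g)
      rw [← hexp g]
      have e1 : M + h * h / M - 2 * h = (M - h) ^ 2 / M := by field_simp; ring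
      have : 0 ≤ (M - h) ^ 2 / M := by positivity
      linarith [Real.exp_pos (σ * MinEigCore.ip g g)]
  have hi : Integrable (fun g => Real.exp (σ * cmpMax γ v F g)) (gauss (Fin n)) :=
    hR.mono' ((continuous_cmpMax γ v F).const_mul σ).rexp.aestronglyMeasurable
      (Eventually.of_forall fun g => by rw [Real.norm_eq_abs, Real.abs_exp]; exact hle g)
  refine (quad_compare γ v F hσ hi).trans ((integral_mono hi hR hle).trans ?_)
  simp only [R]
  rw [integral_add (integrable_const _) (((hind.const_mul M).fun_add (hI.div_const M)).const_mul _),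
    integral_const, probReal_univ, one_smul, integral_const_mul,
    integral_add (hind.const_mul M) (hI.div_const M), integral_const_mul, integral_div,
    integral_indicator_const (1:ℝ) hS.compl, smul_eq_mul, mul_one]
  gcongr

end Vale.Agent.P150.High.MinEigGauss
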