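import Vale.Agent.P150.High.MinEigData
import Vale.Agent.P150.High.MinEigGauss

/-!
# P150, all `β < 1`: the comparison functional is negative

Given the data of the history and a typical auxiliary vector, the comparison functional of the TAP
Hessian is negative by a fixed amount, at every vector of the sphere and for every small exceptional
set of the profile.
-/

open MeasureTheory ProbabilityTheory Filter Finset
open scoped Topology

namespace Vale.Agent.P150.High.MinEigDet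

open Vale.Agent.P150 Vale.Agent.P150.High.Amp MinEigScalar MinEigMoments MinEigLim MinEigData MinEigCore
  MinEigGauss

variable {n : ℕ}

/-- A profile above `D0` by at most `2ε`, off a small set. -/
lemma profile_err {a Y Y' : Fin n → ℝ} {B : Finset (Fin n)} {ε Q R : ℝ} (ha : ∀ i, |a i| ≤ 1) (hε : 0 ≤ ε)
    (hB : (B.card : ℝ) ≤ ε ^ 2 * n) (hQ : MinEigCore.ip (Y' * Y') (Y' * Y') ≤ Q)
    (hR : MinEigCore.ip (Y - Y') (Y - Y') ≤ R) :
    MinEigCore.ip ((fun i => if i ∈ B then 1 else min 1 (1 - a i ^ 2 + 2 * ε)) * Y) Y ≤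
      MinEigCore.ip ((1 - a * a) * Y) Y + (6 * ε * Real.sqrt Q + 2 * R) := by
  rcases Nat.eq_zero_or_pos n with rfl | hn
  · have hR0 : 0 ≤ R := (ip_self_nonneg _).trans hR
    have : 0 ≤ 6 * ε * Real.sqrt Q := by positivity
    simp [MinEigCore.ip, dot] at hR ⊢
    linarith
  have hn' : (0:ℝ) < n := Nat.cast_pos.2 hn
  set ind : Fin n → ℝ := fun i => if i ∈ B then 1 else 0
  have hs : Real.sqrt Q ^ 2 = Q := Real.sq_sqrt ((ip_self_nonneg _).trans hQ)
  have hQ' : MinEigCore.ip (Y' * Y') (Y' * Y') ≤ Real.sqrt Q ^ 2 := by rw [hs]; exact hQ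
  have h1 : MinEigCore.ip (1 : Fin n → ℝ) (Y' * Y') ≤ 1 * Real.sqrt Q :=
    le_of_abs_le (abs_ip_le zero_le_one (Real.sqrt_nonneg _) (by simp [MinEigCore.ip, dot, hn'.ne']) hQ')
  have h2 : MinEigCore.ip ind (Y' * Y') ≤ ε * Real.sqrt Q :=
    le_of_abs_le (abs_ip_le hε (Real.sqrt_nonneg _) (by
      have e : ∑ i, ind i * ind i = B.card := by simp [ind, mul_ite]
      rw [MinEigCore.ip, dot, e, div_le_iff₀ hn']; exact hB) hQ')
  have key : MinEigCore.ip ((fun i => if i ∈ B then 1 else min 1 (1 - a i ^ 2 + 2 * ε)) * Y) Y ≤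
      MinEigCore.ip ((1 - a * a) * Y) Y + 2 * (2 * ε * MinEigCore.ip 1 (Y' * Y') + MinEigCore.ip ind (Y' * Y'))
        + 2 * MinEigCore.ip (Y - Y') (Y - Y') := by
    simp only [MinEigCore.ip, dot, ← mul_div_assoc, ← add_div, Finset.mul_sum, ← Finset.sum_add_distrib,
      Pi.mul_apply, Pi.sub_apply, Pi.one_apply]
    refine div_le_div_of_nonneg_right (Finset.sum_le_sum fun i _ => ?_) hn'.le
    have hai : a i * a i ≤ 1 := by rw [← sq]; exact (sq_le_one_iff_abs_le_one _).2 (ha i)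
    set d := (if i ∈ B then 1 else min 1 (1 - a i ^ 2 + 2 * ε)) - (1 - a i * a i) with hd
    have hd0 : 0 ≤ d := by
      simp only [hd, sq]
      split_ifs
      · linarith [mul_self_nonneg (a i)]
      · have : 1 - a i * a i ≤ min 1 (1 - a i * a i + 2 * ε) :=
          le_min (by linarith [mul_self_nonneg (a i)]) (by linarith)
        linarith
    have hd1 : d ≤ 2 * ε + ind i ∧ d ≤ 1 := by
      simp only [hd, ind, sq]
      split_ifs
      · constructor <;> linarith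
      · have h1 := min_le_left 1 (1 - a i * a i + 2 * ε)
        have h2 := min_le_right 1 (1 - a i * a i + 2 * ε)
        constructor <;> linarith
    have hy : Y i * Y i ≤ 2 * (Y' i * Y' i) + 2 * ((Y i - Y' i) * (Y i - Y' i)) := by
      nlinarith [sq_nonneg (Y i - 2 * Y' i)]
    have t1 := mul_le_mul_of_nonneg_left hy hd0
    have t2 := mul_le_mul_of_nonneg_right hd1.1 (mul_self_nonneg (Y' i))
    have t3 := mul_le_mul_of_nonneg_right hd1.2 (mul_self_nonneg (Y i - Y' i))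
    have e : (if i ∈ B then 1 else min 1 (1 - a i ^ 2 + 2 * ε)) * Y i * Y i =
        (1 - a i * a i) * Y i * Y i + d * (Y i * Y i) := by rw [hd]; ring
    rw [e]
    linarith
  have : 2 * ε * MinEigCore.ip 1 (Y' * Y') ≤ 2 * ε * (1 * Real.sqrt Q) :=
    mul_le_mul_of_nonneg_left h1 (by positivity)
  linarith

variable {β shift s : ℝ} {k : ℕ}

/-- The vectors to which the auxiliary vector must be orthogonal. -/
noncomputable def testFam (β shift s : ℝ) (k n : ℕ) (ω : Fin n → Fin (k + 2) → ℝ) :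
    Fin (k + 1) ⊕ (Fin (k + 1) ⊕ Bool) → Fin n → ℝ :=
  Sum.elim (fun x => cB β shift s k n ω x)
    (Sum.elim (fun x => cD β shift s k n ω * cU β shift s k n ω x)
      fun b => if b then cD β shift s k n ω * (1 - cA β shift s k n ω) else cD β shift s k n ω * cA β shift s k n ω)

/-- A bound on the test vectors. -/
noncomputable def capFam (β shift s : ℝ) (k : ℕ) : ℝ :=
  capU β shift s k + (∑ x : Fin (k + 1), |nb (parOf β shift s k) x|) + 5

lemma abs_cA (ω : Fin n → Fin (k + 2) → ℝ) (i : Fin n) : |cA β shift s k n ω i| ≤ 1 :=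
  (Real.abs_tanh_lt_one _).le

lemma cD_mem (ω : Fin n → Fin (k + 2) → ℝ) (i : Fin n) :
    0 ≤ cD β shift s k n ω i ∧ cD β shift s k n ω i ≤ 1 := by
  have h := (sq_le_one_iff_abs_le_one _).2 (abs_cA (β := β) (shift := shift) (s := s) ω i)
  simp only [cD, Pi.sub_apply, Pi.one_apply, Pi.mul_apply]
  constructor <;> nlinarith

lemma ip_mul_le {d : Fin n → ℝ} (hd : ∀ i, |d i| ≤ 1) (x : Fin n → ℝ) :
    MinEigCore.ip (d * x) (d * x) ≤ MinEigCore.ip x x := by
  simp only [MinEigCore.ip, dot, Pi.mul_apply]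
  refine div_le_div_of_nonneg_right (Finset.sum_le_sum fun i _ => ?_) (Nat.cast_nonneg n)
  have h := (sq_le_one_iff_abs_le_one _).2 (hd i)
  nlinarith [mul_le_mul_of_nonneg_right h (mul_self_nonneg (x i))]

lemma ip_le_of_abs_le {x : Fin n → ℝ} {c : ℝ} (hc : 0 ≤ c) (h : ∀ i, |x i| ≤ c) : MinEigCore.ip x x ≤ c ^ 2 := by
  rcases Nat.eq_zero_or_pos n with rfl | hn
  · simp [MinEigCore.ip, dot, sq_nonneg]
  rw [MinEigCore.ip, div_le_iff₀ (Nat.cast_pos.2 hn)]
  refine (Finset.sum_le_card_nsmul _ _ (c ^ 2) fun i _ => ?_).trans (by simp [mul_comm])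
  rw [← sq, ← sq_abs]
  exact pow_le_pow_left₀ (abs_nonneg _) (h i) 2

lemma fam_bound {e : ℝ} (he : e ≤ 1) {ω : Fin n → Fin (k + 2) → ℝ} (H : Hist β shift s k e n ω) (j) :
    MinEigCore.ip (testFam β shift s k n ω j) (testFam β shift s k n ω j) ≤ capFam β shift s k := by
  have hd : ∀ i, |cD β shift s k n ω i| ≤ 1 := fun i => by
    rw [abs_of_nonneg (cD_mem ω i).1]; exact (cD_mem ω i).2
  have hU0 : 0 ≤ capU β shift s k := by
    have := Finset.sum_nonneg (s := Finset.univ) (f := fun x : Fin (k + 1) =>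
      ∫ w : Fin (k + 2) → ℝ, iU β shift s k x w * iU β shift s k x w ∂gauss (Fin (k + 2)))
      fun y _ => integral_nonneg fun w => mul_self_nonneg _
    unfold capU; linarith
  have hs0 : 0 ≤ ∑ x : Fin (k + 1), |nb (parOf β shift s k) x| := Finset.sum_nonneg fun _ _ => abs_nonneg _
  unfold capFam
  rcases j with x | x | b
  · have h := (abs_le.1 (H.bb x x)).2
    rw [if_pos rfl] at h
    have := Finset.single_le_sum (f := fun y : Fin (k + 1) => |nb (parOf β shift s k) y|)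
      (fun y _ => abs_nonneg _) (Finset.mem_univ x)
    simp only [testFam, Sum.elim_inl] at h ⊢
    linarith [le_abs_self (nb (parOf β shift s k) x)]
  · simp only [testFam, Sum.elim_inr, Sum.elim_inl]
    linarith [(ip_mul_le hd (cU β shift s k n ω x)).trans (H.capU x)]
  · simp only [testFam, Sum.elim_inr]
    cases b
    · have := (ip_mul_le hd (cA β shift s k n ω)).trans (ip_le_of_abs_le zero_le_one (abs_cA ω))
      simp only [Bool.false_eq_true, if_false]; linarith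
    · have h2 : ∀ i, |(1 - cA β shift s k n ω) i| ≤ 2 := fun i =>
        (abs_sub _ _).trans (by have := abs_cA (β := β) (shift := shift) (s := s) ω i; simp only [Pi.one_apply, abs_one]; linarith)
      have := (ip_mul_le hd (1 - cA β shift s k n ω)).trans (ip_le_of_abs_le two_pos.le h2)
      simp only [if_true]; linarith

/-- The data of the certificate. -/
lemma data_of {e : ℝ} (he : 0 ≤ e) {ω : Fin n → Fin (k + 2) → ℝ} {g : Fin n → ℝ} (H : Hist β shift s k e n ω)
    (G : GoodG (testFam β shift s k n ω) (cD β shift s k n ω) e g) :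
    Data (parOf β shift s k) (gS (gamSE β shift s k)) (rS (gamSE β shift s k)) (2 * e)
      (fun x => cB β shift s k n ω x) (fun x => cU β shift s k n ω x) (fun x => cR β shift s k n ω x)
      (fF β shift s k n ω) (cA β shift s k n ω) (cD β shift s k n ω) g := by
  have up : ∀ {x : ℝ}, x ≤ e → x ≤ 2 * e := fun h => by linarith
  have hcomm : ∀ x y z : Fin n → ℝ, MinEigCore.ip x (y * z) = MinEigCore.ip (y * x) z := fun x y z => by
    simp only [MinEigCore.ip, dot, Pi.mul_apply]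
    congr 1; exact Finset.sum_congr rfl fun i _ => by ring
  exact
    { bb := fun x y => up (H.bb x y)
      bF := fun x y => up (H.bF x y)
      b1 := fun x => up (H.b1 x)
      ba := fun x => up (H.ba x)
      bf := fun x => up (H.bf x)
      bg := fun x => up (G.lin (Sum.inl x))
      uu := fun x y => up (H.uu x y)
      u1 := fun x => up (H.u1 x)
      ua := fun x => up (H.ua x)
      ug := fun x => up (by rw [hcomm]; exact G.lin (Sum.inr (Sum.inl x)))
      oo := up H.oo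
      aa := up H.aa
      gg := (abs_sub_le _ _ _).trans (by linarith [G.wq, H.dg])
      oa := up H.oa
      og := up (by simpa [testFam] using G.lin (Sum.inr (Sum.inr true)))
      ag := up (by simpa [testFam] using G.lin (Sum.inr (Sum.inr false)))
      nf := H.ff
      ng := G.sq }

/-- The bound on the quartic norm of the test vectors. -/
noncomputable def quartCap (Λ : ℝ) : ℝ := 64 * (8 * (625 + 4 * fourth) + 1 + Λ ^ 4 * (18 + fourth))

section

variable (hβ0 : 0 < β) (hβ1 : β < 1) (hc : 4 ≤ shift) (hs0 : 0 < s) (hs1 : s < 1) (hk : k ≠ 0)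
include hβ0 hβ1 hc hs0 hs1 hk

/-- Sizes of the coefficients of a vector of the sphere in the span. -/
lemma coeff_bound {e C m : ℝ} (he : 0 ≤ e) (hm0 : 0 < m) (hm : ∀ x : Fin (k + 1), m ≤ nb (parOf β shift s k) x)
    (hem : e * (k + 1) ≤ m / 2) (hC : Real.sqrt ((k + 1) * (2 / m)) ≤ C) (heC : e * C ^ 2 ≤ 1) (heC1 : e * C ≤ 1)
    {ω : Fin n → Fin (k + 2) → ℝ} (H : Hist β shift s k e n ω) {v w : Fin n → ℝ} {c : Fin (k + 1) → ℝ}
    (hv : v = (∑ x, c x • cB β shift s k n ω x) + w) (hw : ∀ x : Fin (k + 1), MinEigCore.ip (cB β shift s k n ω x) w = 0)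
    (hv1 : MinEigCore.ip v v = 1) :
    ∑ x, |c x| ≤ C ∧ MinEigCore.ip w w ≤ 1 ∧ |∑ x, c x * (parOf β shift s k).S x| ≤ 2 ∧
      |(1 - s) * ∑ x, c x * (parOf β shift s k).L x| ≤ 3 ∧ ∑ x, (c x * sdU β shift s k x) ^ 2 ≤ 2 := by
  set ψ := ∑ x, c x • cB β shift s k n ω x
  set C1 := ∑ x, |c x|
  have hC0 : 0 ≤ C1 := Finset.sum_nonneg fun _ _ => abs_nonneg _
  have hwψ : MinEigCore.ip ψ w = 0 := by rw [show MinEigCore.ip ψ w = _ from ip_comb c _ w]; simp [hw]
  have e1 : MinEigCore.ip v v = MinEigCore.ip ψ ψ + MinEigCore.ip w w := by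
    rw [hv, ip_add, ip_add', ip_add', hwψ, ip_comm w ψ, hwψ]; ring
  have hψ1 : MinEigCore.ip ψ ψ ≤ 1 := by linarith [ip_self_nonneg w]
  have hw1 : MinEigCore.ip w w ≤ 1 := by linarith [ip_self_nonneg ψ]
  have hB : |MinEigCore.ip ψ ψ - ∑ x : Fin (k + 1), c x * c x * nb (parOf β shift s k) x| ≤ e * C1 ^ 2 := by
    rw [show MinEigCore.ip ψ ψ = _ from comb_comb c (fun x => cB β shift s k n ω x) (fun x => cB β shift s k n ω x)]
    have h := form_err (c := c) H.bb
    simpa [mul_ite] using h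
  have hcs : C1 ^ 2 ≤ (k + 1) * ∑ x, c x * c x := by
    have h := sq_sum_le_card_mul_sum_sq (s := Finset.univ) (f := fun x => |c x|)
    simp only [sq_abs, Finset.card_univ, Fintype.card_fin, Nat.cast_add, Nat.cast_one] at h
    simpa [sq] using h
  have hlow : m * ∑ x, c x * c x ≤ ∑ x : Fin (k + 1), c x * c x * nb (parOf β shift s k) x := by
    rw [Finset.mul_sum]
    exact Finset.sum_le_sum fun x _ => by rw [mul_comm m]; exact mul_le_mul_of_nonneg_left (hm x) (mul_self_nonneg _)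
  have hc2 : ∑ x, c x * c x ≤ 2 / m := by
    rw [le_div_iff₀ hm0]
    have h1 := (mul_le_mul_of_nonneg_left hcs he)
    have h2 : e * ((k + 1) * ∑ x, c x * c x) ≤ m / 2 * ∑ x, c x * c x := by
      rw [← mul_assoc]; exact mul_le_mul_of_nonneg_right hem (Finset.sum_nonneg fun _ _ => mul_self_nonneg _)
    linarith [(abs_le.1 hB).1]
  have hC1 : C1 ≤ C := by
    refine le_trans ?_ hC
    refine Real.le_sqrt_of_sq_le (hcs.trans ?_)
    exact mul_le_mul_of_nonneg_left hc2 (by positivity)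
  have heC' : e * C1 ^ 2 ≤ 1 := (mul_le_mul_of_nonneg_left (pow_le_pow_left₀ hC0 hC1 2) he).trans heC
  have lin : ∀ {M N : Fin (k + 1) → ℝ}, (∀ j, |M j - N j| ≤ e) → |∑ j, c j * M j - ∑ j, c j * N j| ≤ 1 :=
    fun h => ((comb_err h).trans (mul_le_mul_of_nonneg_left hC1 he)).trans heC1
  refine ⟨hC1, hw1, ?_, ?_, ?_⟩
  · have h := lin H.ba
    rw [← show MinEigCore.ip ψ (cA β shift s k n ω) = _ from ip_comb c _ _] at h
    have h2 := abs_ip_le zero_le_one zero_le_one (x := ψ) (y := cA β shift s k n ω) (by simpa using hψ1)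
      (ip_le_of_abs_le zero_le_one (abs_cA ω))
    have := abs_sub_abs_le_abs_sub (∑ x, c x * (parOf β shift s k).S x) (MinEigCore.ip ψ (cA β shift s k n ω))
    rw [abs_sub_comm] at this
    linarith
  · have h := lin H.bf
    rw [← show MinEigCore.ip ψ (fF β shift s k n ω) = _ from ip_comb c _ _,
      show ∑ j : Fin (k + 1), c j * ((parOf β shift s k).u * (parOf β shift s k).L j) =
        (1 - s) * ∑ x : Fin (k + 1), c x * (parOf β shift s k).L x by
        rw [Finset.mul_sum]; exact Finset.sum_congr rfl fun j _ => by simp only [MinEigAlg.Par.u, parOf]; ring] at h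
    have h2 := abs_ip_le zero_le_one two_pos.le (x := ψ) (y := fF β shift s k n ω) (by simpa using hψ1)
      (H.ff.trans (by norm_num))
    have := abs_sub_abs_le_abs_sub ((1 - s) * ∑ x, c x * (parOf β shift s k).L x) (MinEigCore.ip ψ (fF β shift s k n ω))
    rw [abs_sub_comm] at this
    linarith
  · have ha : (parOf β shift s k).a ≤ 1 :=
      mul_le_one₀ (pow_le_one₀ hβ0.le hβ1.le) (sq_nonneg _) (pow_le_one₀ (by simp [MinEigAlg.Par.u, parOf]; linarith)
        (by simp [MinEigAlg.Par.u, parOf]; linarith))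
    have ha0 : 0 ≤ (parOf β shift s k).a := mul_nonneg (sq_nonneg _) (sq_nonneg _)
    have e2 : ∑ x : Fin (k + 1), (c x * sdU β shift s k x) ^ 2 =
        (parOf β shift s k).a * ∑ x : Fin (k + 1), c x * c x * nb (parOf β shift s k) x := by
      rw [Finset.mul_sum]
      exact Finset.sum_congr rfl fun x _ => by
        rw [mul_pow, sdU_sq hβ0 hβ1 hc hs0 hs1 hk (Nat.lt_succ_iff.1 x.2) (pn_pos hβ0 hβ1 hc hs0 hs1 hk).le]; ring
    rw [e2]
    have h0 : 0 ≤ ∑ x : Fin (k + 1), c x * c x * nb (parOf β shift s k) x := le_trans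
      (mul_nonneg hm0.le (Finset.sum_nonneg fun _ _ => mul_self_nonneg _)) hlow
    refine (mul_le_of_le_one_left h0 ha).trans ?_
    linarith [(abs_le.1 hB).1]

/-- The images are spread out. -/
lemma image_four {e C : ℝ} (he : 0 ≤ e) (heC : e * C ^ 4 ≤ 1) {ω : Fin n → Fin (k + 2) → ℝ}
    (H : Hist β shift s k e n ω) {c : Fin (k + 1) → ℝ} (hC : ∑ x, |c x| ≤ C)
    (hS : |∑ x, c x * (parOf β shift s k).S x| ≤ 2) (hL : |(1 - s) * ∑ x, c x * (parOf β shift s k).L x| ≤ 3)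
    (hsd : ∑ x, (c x * sdU β shift s k x) ^ 2 ≤ 2) :
    MinEigCore.ip ((∑ x, c x • cV β shift s k n ω x) * ∑ x, c x • cV β shift s k n ω x)
      ((∑ x, c x • cV β shift s k n ω x) * ∑ x, c x • cV β shift s k n ω x) ≤ 8 * (625 + 4 * fourth) + 1 := by
  set cc : Fin (k + 1) × Fin (k + 1) → ℝ := fun p => c p.1 * c p.2
  have e1 : (∑ x, c x • cV β shift s k n ω x) * ∑ x, c x • cV β shift s k n ω x =
      ∑ p : Fin (k + 1) × Fin (k + 1), cc p • (cV β shift s k n ω p.1 * cV β shift s k n ω p.2) := by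
    rw [Finset.sum_mul_sum, Fintype.sum_prod_type]
    exact Finset.sum_congr rfl fun x _ => Finset.sum_congr rfl fun y _ => by
      funext i; simp only [cc, Pi.mul_apply, Pi.smul_apply, smul_eq_mul]; ring
  have hcc : ∑ p, |cc p| = (∑ x, |c x|) ^ 2 := by
    rw [sq, Finset.sum_mul_sum, Fintype.sum_prod_type]
    exact Finset.sum_congr rfl fun x _ => Finset.sum_congr rfl fun y _ => abs_mul _ _
  set M := fun p q : Fin (k + 1) × Fin (k + 1) => ∫ w : Fin (k + 2) → ℝ, iU β shift s k p.1 w * iU β shift s k p.2 w *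
    (iU β shift s k q.1 w * iU β shift s k q.2 w) ∂gauss (Fin (k + 2))
  have hE : ∑ p, ∑ q, cc p * cc q * M p q = ∫ w : Fin (k + 2) → ℝ,
      (∑ x, c x * iU β shift s k x w) ^ 4 ∂gauss (Fin (k + 2)) := by
    have nU : ∀ x : Fin (k + 1), Nice (iU β shift s k x) := fun x => nice_iU β shift s k x
    have nn : ∀ p q : Fin (k + 1) × Fin (k + 1), Integrable (fun w => cc p * cc q * (iU β shift s k p.1 w * iU β shift s k p.2 w *
        (iU β shift s k q.1 w * iU β shift s k q.2 w))) (gauss (Fin (k + 2))) := fun p q =>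
      (((nU p.1).mul (nU p.2)).mul ((nU q.1).mul (nU q.2))).integrable.const_mul _
    simp only [M, ← integral_const_mul]
    rw [Finset.sum_congr rfl fun p _ => (integral_finsetSum _ fun q _ => nn p q).symm,
      ← integral_finsetSum _ fun p _ => integrable_finsetSum _ fun q _ => nn p q]
    refine integral_congr_ae (Eventually.of_forall fun w => ?_)
    simp only
    rw [show (∑ x, c x * iU β shift s k x w) ^ 4 =
      ((∑ x, c x * iU β shift s k x w) * ∑ x, c x * iU β shift s k x w) *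
        ((∑ x, c x * iU β shift s k x w) * ∑ x, c x * iU β shift s k x w) by ring, Finset.sum_mul_sum,
      ← Fintype.sum_prod_type (f := fun p : Fin (k + 1) × Fin (k + 1) =>
        c p.1 * iU β shift s k p.1 w * (c p.2 * iU β shift s k p.2 w)), Finset.sum_mul_sum]
    exact Finset.sum_congr rfl fun p _ => Finset.sum_congr rfl fun q _ => by simp only [cc]; ring
  have hm : |∑ x, c x * muU β shift s k x| ≤ 5 := by
    set S := ∑ x, c x * (parOf β shift s k).S x
    set L := ∑ x, c x * (parOf β shift s k).L x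
    have e2 : ∑ x, c x * muU β shift s k x = β ^ 2 * (1 - s) * ((1 - s) * S + (1 - s) * L) := by
      simp only [S, L, Finset.mul_sum, ← Finset.sum_add_distrib]
      exact Finset.sum_congr rfl fun x _ => by
        rw [muU_eq hβ0 hβ1 hc hs0 hs1 hk (Nat.lt_succ_iff.1 x.2)]
        simp only [MinEigAlg.Par.T, MinEigAlg.Par.a, MinEigAlg.Par.u, parOf]; ring
    rw [e2, abs_mul]
    have hu0 : 0 ≤ 1 - s := by linarith
    have h1 : |β ^ 2 * (1 - s)| ≤ 1 := by
      rw [abs_of_nonneg (mul_nonneg (sq_nonneg _) hu0)]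
      exact mul_le_one₀ (pow_le_one₀ hβ0.le hβ1.le) hu0 (by linarith)
    have h2 : |(1 - s) * S| ≤ 2 := by
      rw [abs_mul, abs_of_nonneg hu0]; exact (mul_le_of_le_one_left (abs_nonneg _) (by linarith)).trans hS
    exact (mul_le_of_le_one_left (abs_nonneg _) h1).trans ((abs_add_le _ _).trans (by linarith))
  have h4 : ∫ w : Fin (k + 2) → ℝ, (∑ x, c x * iU β shift s k x w) ^ 4 ∂gauss (Fin (k + 2)) ≤
      8 * (625 + 4 * fourth) := by
    refine (int_U_four c).trans ?_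
    have a1 : (∑ x, c x * muU β shift s k x) ^ 4 ≤ 625 := by
      have := pow_le_pow_left₀ (abs_nonneg _) hm 4
      rw [Even.pow_abs (show Even 4 by decide)] at this
      linarith
    have a2 : (∑ x, (c x * sdU β shift s k x) ^ 2) ^ 2 ≤ 4 := by
      have := pow_le_pow_left₀ (Finset.sum_nonneg fun _ _ => sq_nonneg _) hsd 2
      linarith
    have := mul_le_mul_of_nonneg_left a2 fourth_nonneg
    simp only [fourth] at this ⊢
    linarith
  have h := form_err (c := cc) (M := fun p q => MinEigCore.ip (cV β shift s k n ω p.1 * cV β shift s k n ω p.2)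
    (cV β shift s k n ω q.1 * cV β shift s k n ω q.2)) (N := M) H.quart
  rw [← comb_comb cc (fun p => cV β shift s k n ω p.1 * cV β shift s k n ω p.2)
    (fun p => cV β shift s k n ω p.1 * cV β shift s k n ω p.2), ← e1, hE, hcc] at h
  have h5 : e * ((∑ x, |c x|) ^ 2) ^ 2 ≤ 1 := by
    rw [← pow_mul]
    exact (mul_le_mul_of_nonneg_left (pow_le_pow_left₀ (Finset.sum_nonneg fun _ _ => abs_nonneg _) hC 4) he).trans heC
  linarith [(abs_le.1 h).2]

/-- The profile error of the test vectors. -/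
lemma testVec_err {e C Λ ε1 : ℝ} (he : 0 ≤ e) (heC : e * C ^ 4 ≤ 1) (hε1 : 0 ≤ ε1)
    {ω : Fin n → Fin (k + 2) → ℝ} (H : Hist β shift s k e n ω) {c : Fin (k + 1) → ℝ} (hC : ∑ x, |c x| ≤ C)
    (hS : |∑ x, c x * (parOf β shift s k).S x| ≤ 2) (hL : |(1 - s) * ∑ x, c x * (parOf β shift s k).L x| ≤ 3)
    (hsd : ∑ x, (c x * sdU β shift s k x) ^ 2 ≤ 2) {B : Finset (Fin n)} (hB : (B.card : ℝ) ≤ ε1 ^ 2 * n)
    {g : Fin n → ℝ} (hg : MinEigCore.ip (g * g) (g * g) ≤ fourth + 1)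
    {l1 l2 l3 : ℝ} (h1 : |l1| ≤ Λ) (h2 : |l2| ≤ Λ) (h3 : |l3| ≤ Λ) :
    let Y := testVec c (fun x => cU β shift s k n ω x) l1 l2 l3 (cA β shift s k n ω) g
    MinEigCore.ip ((fun i => if i ∈ B then 1 else min 1 (1 - cA β shift s k n ω i ^ 2 + 2 * ε1)) * Y) Y ≤
      MinEigCore.ip (cD β shift s k n ω * Y) Y + (6 * ε1 * Real.sqrt (quartCap Λ) + 2 * (e * C ^ 2)) := by
  intro Y
  set a := cA β shift s k n ω
  set V' := ∑ x, c x • cV β shift s k n ω x
  set Y' : Fin n → ℝ := V' + l1 • (1 - a) + l2 • a + l3 • g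
  refine profile_err (Y' := Y') (abs_cA ω) hε1 hB ?_ ?_
  · have hV := image_four hβ0 hβ1 hc hs0 hs1 hk he heC H hC hS hL hsd
    have hΛ : 0 ≤ Λ := (abs_nonneg _).trans h1
    have p4 : ∀ {l x b : ℝ}, |l| ≤ Λ → x ^ 4 ≤ b → (l * x) ^ 4 ≤ Λ ^ 4 * b := by
      intro l x b hl hx
      rw [mul_pow]
      refine mul_le_mul ?_ hx (by positivity) (by positivity)
      rw [← Even.pow_abs (show Even 4 by decide) l]; exact pow_le_pow_left₀ (abs_nonneg _) hl 4
    have pt : ∀ i, (Y' * Y') i * (Y' * Y') i ≤ 64 * ((V' * V') i * (V' * V') i + 17 * Λ ^ 4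
        + Λ ^ 4 * ((g * g) i * (g * g) i)) := fun i => by
      have hai := abs_le.1 (abs_cA (β := β) (shift := shift) (s := s) ω i)
      have t1 : (l1 * (1 - a i)) ^ 4 ≤ Λ ^ 4 * 16 := p4 h1 (by
        have := pow_le_pow_left₀ (a := 1 - a i) (b := 2) (by linarith) (by linarith) 4
        linarith)
      have t2 : (l2 * a i) ^ 4 ≤ Λ ^ 4 * 1 := p4 h2 (by
        rw [← Even.pow_abs (show Even 4 by decide)]; exact pow_le_one₀ (abs_nonneg _) (abs_cA ω i))
      have t3 : (l3 * g i) ^ 4 ≤ Λ ^ 4 * g i ^ 4 := p4 h3 le_rfl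
      have two : ∀ x y : ℝ, (x + y) ^ 4 ≤ 8 * (x ^ 4 + y ^ 4) := fun x y => by
        nlinarith [sq_nonneg (x - y), sq_nonneg (x + y), mul_nonneg (sq_nonneg (x - y)) (sq_nonneg (x + y)),
          sq_nonneg (x ^ 2 - y ^ 2)]
      have u1 := two (V' i + l1 * (1 - a i)) (l2 * a i + l3 * g i)
      have u2 := two (V' i) (l1 * (1 - a i))
      have u3 := two (l2 * a i) (l3 * g i)
      simp only [Y', Pi.mul_apply, Pi.add_apply, Pi.smul_apply, Pi.sub_apply, Pi.one_apply, smul_eq_mul]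
      rw [show ∀ y : ℝ, y * y * (y * y) = y ^ 4 from fun y => by ring,
        show ∀ y : ℝ, y * y * (y * y) = y ^ 4 from fun y => by ring,
        show ∀ y : ℝ, y * y * (y * y) = y ^ 4 from fun y => by ring,
        show V' i + l1 * (1 - a i) + l2 * a i + l3 * g i = (V' i + l1 * (1 - a i)) + (l2 * a i + l3 * g i) by ring]
      linarith
    rcases Nat.eq_zero_or_pos n with rfl | hn
    · simp [MinEigCore.ip, dot, quartCap]
      have := fourth_nonneg
      positivity
    have hn' : (0:ℝ) < n := Nat.cast_pos.2 hn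
    have hsum := div_le_div_of_nonneg_right (Finset.sum_le_sum (s := Finset.univ) fun i _ => pt i) hn'.le
    simp only [← Finset.mul_sum, Finset.sum_add_distrib, Finset.sum_const, Finset.card_univ, Fintype.card_fin,
      nsmul_eq_mul] at hsum
    refine hsum.trans ?_
    simp only [MinEigCore.ip, dot] at hV hg
    rw [mul_div_assoc, add_div, add_div, show 17 * ((n:ℝ) * Λ ^ 4) / n = 17 * Λ ^ 4 by field_simp, mul_div_assoc (Λ ^ 4)]
    have := mul_le_mul_of_nonneg_left hg (pow_nonneg hΛ 4)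
    unfold quartCap
    linarith
  · have e1 : Y - Y' = ∑ x, c x • (cU β shift s k n ω x - cV β shift s k n ω x) := by
      simp only [Y, Y', testVec, smul_sub, Finset.sum_sub_distrib, V', a]; abel
    rw [e1, comb_comb]
    have h := form_err (c := c) (N := fun _ _ => 0) (e := e)
      (M := fun x y => MinEigCore.ip (cU β shift s k n ω x - cV β shift s k n ω x)
        (cU β shift s k n ω y - cV β shift s k n ω y)) fun x y => by
      rw [sub_zero, ← Real.mul_self_sqrt he]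
      exact abs_ip_le (Real.sqrt_nonneg _) (Real.sqrt_nonneg _) ((H.near x).trans_eq (Real.sq_sqrt he).symm)
        ((H.near y).trans_eq (Real.sq_sqrt he).symm)
    simp only [mul_zero, Finset.sum_const_zero, sub_zero] at h
    exact (le_abs_self _).trans (h.trans (mul_le_mul_of_nonneg_left
      (pow_le_pow_left₀ (Finset.sum_nonneg fun _ _ => abs_nonneg _) hC 2) he))

end

/-- The smallness conditions on the tolerances. -/
structure Small (β shift s : ℝ) (k : ℕ) (η0 σ Λ ε1 C m e : ℝ) : Prop where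
  e0 : 0 ≤ e
  e1 : e ≤ 1
  em : e * (k + 1) ≤ m / 2
  c1 : e * C ≤ 1
  c2 : e * C ^ 2 ≤ 1
  c4 : e * C ^ 4 ≤ 1
  lin : Real.sqrt ((β ^ 2) ^ (k - 1) * ((shift + 3) / (1 - β ^ 2)) + e) + 2 * e * C ≤ 1
  sq : 2 * (Real.sqrt ((β ^ 2) ^ (k - 1) * ((shift + 3) / (1 - β ^ 2)) + e) + 2 * e * C) ^ 2 + 2 * e ≤ σ
  total : η0 / 8 + 2 * (6 * ε1 * Real.sqrt (quartCap Λ) + 2 * (e * C ^ 2))
      + 20 * Λ * Real.sqrt ((β ^ 2) ^ (k - 1) * ((shift + 3) / (1 - β ^ 2)) + e)
      + 200 * (2 * e) * (C + Λ) ^ 2 ≤ η0 / 2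

/-- A bound on the functional off the typical set. -/
noncomputable def capCmp (β shift s : ℝ) (k : ℕ) (C : ℝ) : ℝ :=
  ((∑ x : Fin (k + 1), ∑ y : Fin (k + 1), |(parOf β shift s k).fM x y|) + 1) * C ^ 2
    + 2 * C * Real.sqrt (capU β shift s k) + 5

/-- The part of the margin form that is fixed by the history. -/
noncomputable def fixPart (β shift s : ℝ) (k n : ℕ) (ω : Fin n → Fin (k + 2) → ℝ) (ε1 : ℝ) (B : Finset (Fin n))
    (v w : Fin n → ℝ) (c : Fin (k + 1) → ℝ) : ℝ :=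
  MinEigCore.ip v (v / fun i => if i ∈ B then 1 else min 1 (1 - cA β shift s k n ω i ^ 2 + 2 * ε1))
    + (parOf β shift s k).a * gS (gamSE β shift s k) * MinEigCore.ip v v
    + (MinEigCore.ip (∑ x, c x • cB β shift s k n ω x) (∑ x, c x • cU β shift s k n ω x) -
        MinEigCore.ip (∑ x, c x • cB β shift s k n ω x) (∑ x, c x • cR β shift s k n ω x))
    - 2 * MinEigCore.ip v (∑ x, c x • cU β shift s k n ω x)
    - (parOf β shift s k).a * MinEigCore.ip 1 w ^ 2
    - 2 * (parOf β shift s k).a * MinEigCore.ip (cA β shift s k n ω) v ^ 2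

/-- The comparison functional is negative at typical auxiliary vectors. -/
theorem cmp_good (hβ0 : 0 < β) (hβ1 : β < 1) (hc : 4 ≤ shift) (hs0 : 0 < s) (hs1 : s < 1) (hk : k ≠ 0)
    {δ η0 ε σ Λ ε1 C m e η' : ℝ} (hδ : δ = (1 - β ^ 2) / 2) (hη0 : η0 = δ * (1 - β ^ 2 / (1 - δ)))
    (hε : 0 < ε) (hε1 : 0 < ε1) (hΛ : 16 / ε ≤ Λ) (hΛg : 2 / gS (gamSE β shift s k) ≤ Λ) (hΛ1 : 1 ≤ Λ)
    (hloss : ∀ S L : ℝ, |S| ≤ 2 → S ^ 2 ≤ 2 * qSE (gamSE β shift s k) + σ → |(1 - s) * L| ≤ 3 →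
      -(η0 / 8) ≤ ε / ((gS (gamSE β shift s k) - rS (gamSE β shift s k)) / (1 - δ) + ε) *
        (-(parOf β shift s k).a * S ^ 2 - (parOf β shift s k).a ^ 2 *
            ((gS (gamSE β shift s k) - 2 * rS (gamSE β shift s k)) / (1 - δ)) * (S + L) ^ 2
          + (parOf β shift s k).a * (parOf β shift s k).u / s * L ^ 2))
    (hm0 : 0 < m) (hm : ∀ x : Fin (k + 1), m ≤ nb (parOf β shift s k) x)
    (hC : Real.sqrt ((k + 1) * (2 / m)) ≤ C) (hη' : η' ≤ η0 / 4) (hsm : Small β shift s k η0 σ Λ ε1 C m e)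
    {ω : Fin n → Fin (k + 2) → ℝ} (H : Hist β shift s k e n ω) {v w : Fin n → ℝ} {c : Fin (k + 1) → ℝ}
    (hv : v = (∑ x, c x • cB β shift s k n ω x) + w) (hw : ∀ x : Fin (k + 1), MinEigCore.ip (cB β shift s k n ω x) w = 0)
    (hwa : MinEigCore.ip (fun i => Real.tanh (zF β shift s k n ω (k - 1) i)) w = 0) (hv1 : MinEigCore.ip v v = 1)
    {B : Finset (Fin n)} (hB : (B.card : ℝ) ≤ ε1 ^ 2 * n) {g : Fin n → ℝ}
    (hgood : GoodG (testFam β shift s k n ω) (cD β shift s k n ω) e g) :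
    2 * (1 - s) * β * Real.sqrt (MinEigCore.ip w w) * MinEigCore.ip w g
      + (η' - fixPart β shift s k n ω ε1 B v w c) ≤ -(η0 / 4) := by
  obtain ⟨hC1, hw1, hS, hL, hsd⟩ := coeff_bound hβ0 hβ1 hc hs0 hs1 hk hsm.e0 hm0 hm hsm.em hC hsm.c2 hsm.c1 H hv hw hv1
  obtain ⟨hb, hs⟩ := mem_ranges hβ0 hβ1 hs0 hs1
  set P := parOf β shift s k
  set γ := gamSE β shift s k
  set a := cA β shift s k n ω
  have hb2 : β ^ 2 ≤ 1 := pow_le_one₀ hβ0.le hβ1.le
  have hδ0 : 0 ≤ δ := by rw [hδ]; linarith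
  have hδ2 : δ ≤ 1 / 2 := by rw [hδ]; linarith [sq_nonneg β]
  have hβδ : β ^ 2 < 1 - δ := by rw [hδ]; nlinarith
  have hu0 : 0 < 1 - s := by linarith
  have ha0 : 0 ≤ P.a := mul_nonneg (sq_nonneg _) (sq_nonneg _)
  have ha1 : P.a ≤ 1 := mul_le_one₀ hb2 (sq_nonneg _) (pow_le_one₀ hu0.le (by show 1 - s ≤ 1; linarith))
  have hη1 : η0 ≤ 1 := by
    rw [hη0]
    have : 0 ≤ β ^ 2 / (1 - δ) := div_nonneg (sq_nonneg _) (by linarith)
    refine mul_le_one₀ (by linarith) ?_ (by linarith)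
    rw [sub_nonneg, div_le_one (by linarith)]; exact hβδ.le
  set D : Fin n → ℝ := fun i => if i ∈ B then 1 else min 1 (1 - a i ^ 2 + 2 * ε1)
  have hD : ∀ i, 0 < D i ∧ D i ≤ 1 := fun i => by
    have h := (sq_le_one_iff_abs_le_one _).2 (abs_cA (β := β) (shift := shift) (s := s) ω i)
    simp only [D]
    split_ifs
    · exact ⟨one_pos, le_rfl⟩
    · exact ⟨lt_min one_pos (by simp only [a]; linarith), min_le_left _ _⟩
  set G := MinEigCore.ip w g
  set r := Real.sqrt (MinEigCore.ip w w)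
  have hr : r * r = MinEigCore.ip w w := Real.mul_self_sqrt (ip_self_nonneg _)
  set ek := Real.sqrt ((β ^ 2) ^ (k - 1) * ((shift + 3) / (1 - β ^ 2)) + e)
  have hek : 0 ≤ ek := Real.sqrt_nonneg _
  have hgap : |MinEigCore.ip a w| ≤ ek * 1 := by
    have e1 : MinEigCore.ip a w =
        MinEigCore.ip (a - fun i => Real.tanh (zF β shift s k n ω (k - 1) i)) w := by
      rw [ip_sub, hwa, sub_zero]
    rw [e1]
    have h := H.gap.trans (by linarith [q_gap_le hβ0 hβ1 hc hs0 hs1 hk] :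
      _ ≤ (β ^ 2) ^ (k - 1) * ((shift + 3) / (1 - β ^ 2)) + e)
    exact abs_ip_le hek zero_le_one (h.trans_eq (Real.sq_sqrt ((ip_self_nonneg _).trans h)).symm) (by simpa using hw1)
  rw [mul_one] at hgap
  set Qa := Real.sqrt (min 1 (qSE γ + e))
  have hq0 : 0 ≤ min 1 (qSE γ + e) := le_min zero_le_one (by linarith [qSE_nonneg γ, hsm.e0])
  have hQ2 : Qa ^ 2 = min 1 (qSE γ + e) := Real.sq_sqrt hq0
  have hQa : MinEigCore.ip a a ≤ Qa ^ 2 := by
    rw [hQ2]
    exact le_min ((ip_le_of_abs_le zero_le_one (abs_cA ω)).trans_eq (one_pow 2)) (by linarith [(abs_le.1 H.aq).2])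
  have hQ1 : Qa ≤ 1 := Real.sqrt_le_one.2 (min_le_left _ _)
  have hgpos : 0 < gS γ := by
    obtain ⟨c', hc', hlow⟩ := gS_lower γ
    exact hc'.trans_le (hlow γ ⟨gamSE_nonneg hc hs k, le_rfl⟩)
  have hsm' := hsm.sq
  have hlin : ek + 2 * e * C ≤ 1 := hsm.lin
  have key := MinEigCore.core (P := P) hk (qSE_nonneg _) (plantVar_pos hc) hs0 hs1 hb2 hδ0 hδ2 hβδ (rS_nonneg γ)
    (rS_le γ) hgpos (gS_le_one γ) hε hΛ hΛg hΛ1 (by linarith [hsm.e0] : (0:ℝ) ≤ 2 * e) hek
    (eρ := 6 * ε1 * Real.sqrt (quartCap Λ) + 2 * (e * C ^ 2))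
    (by have := hsm.e0; positivity) hlin hQ1 (Real.sqrt_nonneg _)
    (ηl := η0 / 8) (fun S L h1 h2 => hloss S L (by linarith) (by
      have h3 : S ^ 2 ≤ (Qa + (2 * e * C + ek)) ^ 2 := by
        rw [← sq_abs]; exact pow_le_pow_left₀ (abs_nonneg _) h1 2
      have h4 : Qa ^ 2 ≤ qSE γ + e := by rw [hQ2]; exact min_le_right _ _
      nlinarith [sq_nonneg (Qa - (2 * e * C + ek))]) h2)
    (data_of hsm.e0 H hgood) hQa hC1 hv hw hgap hv1 hD
    (fun l1 l2 l3 h1 h2 h3 => testVec_err hβ0 hβ1 hc hs0 hs1 hk hsm.e0 hsm.c4 hε1.le H hC1 hS hL hsd hB hgood.four h1 h2 h3)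
  rw [show P.β = β from rfl, ← hη0, ip_comm g w] at key
  have am : 2 * (1 - s) * β * r * G ≤
      P.a * gS γ / (1 - δ) * MinEigCore.ip w w + (1 - δ) / gS γ * G ^ 2 := by
    rw [← hr, show P.a = β ^ 2 * (1 - s) ^ 2 from rfl]
    have h1δ : 0 < 1 - δ := by linarith
    have e2 : β ^ 2 * (1 - s) ^ 2 * gS γ / (1 - δ) * (r * r) + (1 - δ) / gS γ * G ^ 2 - 2 * (1 - s) * β * r * G =
        ((1 - s) * β * r * gS γ - (1 - δ) * G) ^ 2 / (gS γ * (1 - δ)) := by field_simp; ring
    have : 0 ≤ ((1 - s) * β * r * gS γ - (1 - δ) * G) ^ 2 / (gS γ * (1 - δ)) := by positivity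
    linarith
  have ht : η0 / 8 + 2 * (6 * ε1 * Real.sqrt (quartCap Λ) + 2 * (e * C ^ 2)) + 20 * Λ * ek
      + 200 * (2 * e) * (C + Λ) ^ 2 ≤ η0 / 2 := hsm.total
  have key' : η0 - η0 / 8 - 2 * (6 * ε1 * Real.sqrt (quartCap Λ) + 2 * (e * C ^ 2)) - 20 * Λ * ek
      - 200 * (2 * e) * (C + Λ) ^ 2 ≤ fixPart β shift s k n ω ε1 B v w c
        - P.a * gS γ / (1 - δ) * MinEigCore.ip w w - (1 - δ) / gS γ * G ^ 2 := by
    simp only [fixPart, hv1, mul_one]
    exact key
  linear_combination am + key' + ht + hη'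

/-- The comparison functional is bounded. -/
theorem cmp_all (hβ0 : 0 < β) (hβ1 : β < 1) (hc : 4 ≤ shift) (hs0 : 0 < s) (hs1 : s < 1) (hk : k ≠ 0)
    {ε1 C m e η' : ℝ} (hε1 : 0 < ε1) (hm0 : 0 < m) (hm : ∀ x : Fin (k + 1), m ≤ nb (parOf β shift s k) x)
    (hC : Real.sqrt ((k + 1) * (2 / m)) ≤ C) (hη' : η' ≤ 1) (he : 0 ≤ e) (he1 : e ≤ 1) (hem : e * (k + 1) ≤ m / 2)
    (hec : e * C ≤ 1) (hec2 : e * C ^ 2 ≤ 1)
    {ω : Fin n → Fin (k + 2) → ℝ} (H : Hist β shift s k e n ω) {v w : Fin n → ℝ} {c : Fin (k + 1) → ℝ}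
    (hv : v = (∑ x, c x • cB β shift s k n ω x) + w) (hw : ∀ x : Fin (k + 1), MinEigCore.ip (cB β shift s k n ω x) w = 0)
    (hv1 : MinEigCore.ip v v = 1) (B : Finset (Fin n)) (g : Fin n → ℝ) :
    2 * (1 - s) * β * Real.sqrt (MinEigCore.ip w w) * MinEigCore.ip w g
      + (η' - fixPart β shift s k n ω ε1 B v w c) ≤ capCmp β shift s k C + MinEigCore.ip g g := by
  obtain ⟨hC1, hw1, hS, hL, hsd⟩ := coeff_bound hβ0 hβ1 hc hs0 hs1 hk he hm0 hm hem hC hec2 hec H hv hw hv1
  set P := parOf β shift s k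
  set γ := gamSE β shift s k
  set a := cA β shift s k n ω
  have hb2 : β ^ 2 ≤ 1 := pow_le_one₀ hβ0.le hβ1.le
  have hu0 : 0 < 1 - s := by linarith
  have ha0 : 0 ≤ P.a := mul_nonneg (sq_nonneg _) (sq_nonneg _)
  have ha1 : P.a ≤ 1 := mul_le_one₀ hb2 (sq_nonneg _) (pow_le_one₀ hu0.le (by show 1 - s ≤ 1; linarith))
  set D : Fin n → ℝ := fun i => if i ∈ B then 1 else min 1 (1 - a i ^ 2 + 2 * ε1)
  have hD : ∀ i, 0 < D i ∧ D i ≤ 1 := fun i => by
    have h := (sq_le_one_iff_abs_le_one _).2 (abs_cA (β := β) (shift := shift) (s := s) ω i)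
    simp only [D]
    split_ifs
    · exact ⟨one_pos, le_rfl⟩
    · exact ⟨lt_min one_pos (by simp only [a]; linarith), min_le_left _ _⟩
  have hG : |MinEigCore.ip w g| ≤ Real.sqrt (MinEigCore.ip w w) * Real.sqrt (MinEigCore.ip g g) :=
    abs_ip_le (Real.sqrt_nonneg _) (Real.sqrt_nonneg _) (Real.sq_sqrt (ip_self_nonneg _)).ge
      (Real.sq_sqrt (ip_self_nonneg _)).ge
  set G := MinEigCore.ip w g
  set r := Real.sqrt (MinEigCore.ip w w)
  have hr : r * r = MinEigCore.ip w w := Real.mul_self_sqrt (ip_self_nonneg _)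
  have h1 : 2 * (1 - s) * β * r * G ≤ MinEigCore.ip g g + 1 := by
    have hr1 : r ≤ 1 := Real.sqrt_le_one.2 hw1
    have hsg := Real.mul_self_sqrt (ip_self_nonneg g)
    have h0 : |(1 - s) * β * r * G| ≤ Real.sqrt (MinEigCore.ip g g) := by
      rw [abs_mul, abs_of_nonneg (mul_nonneg (mul_nonneg hu0.le hβ0.le) (Real.sqrt_nonneg _))]
      have hur : (1 - s) * β * r ≤ 1 :=
        mul_le_one₀ (mul_le_one₀ (by linarith) hβ0.le hβ1.le) (Real.sqrt_nonneg _) hr1
      exact (mul_le_of_le_one_left (abs_nonneg _) hur).trans (hG.trans (mul_le_of_le_one_left (Real.sqrt_nonneg _) hr1))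
    nlinarith [le_abs_self ((1 - s) * β * r * G), sq_nonneg (Real.sqrt (MinEigCore.ip g g) - 1)]
  have h2 : 0 ≤ MinEigCore.ip v (v / D) := by
    refine div_nonneg (Finset.sum_nonneg fun i _ => ?_) (Nat.cast_nonneg n)
    rw [Pi.div_apply, ← mul_div_assoc]; exact div_nonneg (mul_self_nonneg _) (hD i).1.le
  have h3 : 0 ≤ P.a * gS γ := mul_nonneg ha0 ((rS_nonneg γ).trans (rS_le γ))
  set Kf := ∑ x : Fin (k + 1), ∑ y : Fin (k + 1), |P.fM x y|
  have hKf : 0 ≤ Kf := Finset.sum_nonneg fun _ _ => Finset.sum_nonneg fun _ _ => abs_nonneg _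
  have h4 : |MinEigCore.ip (∑ x, c x • cB β shift s k n ω x) (∑ x, c x • cU β shift s k n ω x) -
      MinEigCore.ip (∑ x, c x • cB β shift s k n ω x) (∑ x, c x • cR β shift s k n ω x)| ≤ (Kf + 1) * C ^ 2 := by
    rw [comb_comb, comb_comb, ← Finset.sum_sub_distrib]
    have h := form_err (c := c) (N := fun _ _ => 0) (e := Kf + 1)
      (M := fun x y : Fin (k + 1) => MinEigCore.ip (cB β shift s k n ω x) (cU β shift s k n ω y) -
        MinEigCore.ip (cB β shift s k n ω x) (cR β shift s k n ω y)) fun x y => by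
      have hxy : |P.fM x y| ≤ Kf :=
        (Finset.single_le_sum (f := fun y : Fin (k + 1) => |P.fM x y|) (fun _ _ => abs_nonneg _) (Finset.mem_univ y)).trans
          (Finset.single_le_sum (f := fun x : Fin (k + 1) => ∑ y : Fin (k + 1), |P.fM x y|)
            (fun _ _ => Finset.sum_nonneg fun _ _ => abs_nonneg _) (Finset.mem_univ x))
      rw [sub_zero]
      have := abs_sub_abs_le_abs_sub (MinEigCore.ip (cB β shift s k n ω x) (cU β shift s k n ω y) -
        MinEigCore.ip (cB β shift s k n ω x) (cR β shift s k n ω y)) (P.fM x y)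
      linarith [H.bF x y, he1]
    simp only [mul_zero, Finset.sum_const_zero, sub_zero, mul_sub, Finset.sum_sub_distrib] at h
    simp only [Finset.sum_sub_distrib]
    exact h.trans (mul_le_mul_of_nonneg_left
      (pow_le_pow_left₀ (Finset.sum_nonneg fun _ _ => abs_nonneg _) hC1 2) (by linarith))
  have hU0 : 0 ≤ capU β shift s k := (ip_self_nonneg _).trans (H.capU 0)
  have h5 : |MinEigCore.ip v (∑ x, c x • cU β shift s k n ω x)| ≤ C * Real.sqrt (capU β shift s k) := by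
    rw [ip_comm, ip_comb]
    refine (Finset.abs_sum_le_sum_abs _ _).trans (le_trans (Finset.sum_le_sum fun x _ => ?_)
      (le_of_eq_of_le (Finset.sum_mul _ _ _).symm (mul_le_mul_of_nonneg_right hC1 (Real.sqrt_nonneg _))))
    rw [abs_mul]
    refine mul_le_mul_of_nonneg_left ?_ (abs_nonneg _)
    have := abs_ip_le (Real.sqrt_nonneg _) zero_le_one ((H.capU x).trans_eq (Real.sq_sqrt hU0).symm)
      (by simp [hv1] : MinEigCore.ip v v ≤ 1 ^ 2)
    rwa [mul_one] at this
  have one1 : MinEigCore.ip (1 : Fin n → ℝ) 1 ≤ 1 ^ 2 := ip_le_of_abs_le zero_le_one fun i => by simp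
  have h6 : MinEigCore.ip 1 w ^ 2 ≤ 1 := by
    rw [sq_le_one_iff_abs_le_one]
    simpa using abs_ip_le zero_le_one zero_le_one one1 (by simpa using hw1)
  have h7 : MinEigCore.ip a v ^ 2 ≤ 1 := by
    rw [sq_le_one_iff_abs_le_one]
    simpa using abs_ip_le zero_le_one zero_le_one (ip_le_of_abs_le zero_le_one (abs_cA ω))
      (by simp [hv1] : MinEigCore.ip v v ≤ 1 ^ 2)
  have h8 := mul_le_mul ha1 h6 (sq_nonneg _) zero_le_one
  have h9 := mul_le_mul ha1 h7 (sq_nonneg _) zero_le_one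
  simp only [fixPart, hv1, mul_one, capCmp]
  linarith [(abs_le.1 h4).1, (abs_le.1 h5).2]

end Vale.Agent.P150.High.MinEigDet
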