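import Vale.Agent.P150.High.MinEigSpanSpec

/-!
# P150, all `β < 1`: the quadratic form on the representation

On the representation the fields are those of the history, and the form of the couplings splits along
the span of the history and its orthogonal complement.
-/

open MeasureTheory ProbabilityTheory Filter Finset Matrix
open scoped Topology

namespace Vale.Agent.P150.High.MinEigSpan

open Vale.Agent.P150 Vale.Agent.P150.High.Amp MinEigScalar MinEigExact MinEigLim MinEigData

variable {n : ℕ}

/-- The matrix fixed by the images has no quadratic form off the frame. -/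
lemma low_form {e G : ℕ → Fin n → ℝ} {L : ℕ} {w : Fin n → ℝ} (hw : ∀ m < L, dot w (e m) = 0) :
    w ⬝ᵥ (Matrix.of (low e G L) *ᵥ w) = 0 := by
  have hsplit : Matrix.of (low e G L) = ∑ l ∈ range L, (vecMulVec (G l) (e l) + vecMulVec (e l) (G l))
      - ∑ l ∈ range L, ∑ m ∈ range L, dot (e l) (G m) • vecMulVec (e l) (e m) := by
    ext i j
    simp [low, Matrix.sum_apply, vecMulVec_apply]
  rw [hsplit, sub_mulVec, dotProduct_sub, sum_mulVec, sum_mulVec, dotProduct_sum, dotProduct_sum]
  have h1 : ∀ m < L, e m ⬝ᵥ w = 0 := fun m hm => by rw [dotProduct_comm]; exact hw m hm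
  rw [Finset.sum_eq_zero fun l hl => ?_, Finset.sum_eq_zero fun l hl => ?_, sub_zero]
  · rw [sum_mulVec, dotProduct_sum]
    refine Finset.sum_eq_zero fun m hm => ?_
    rw [smul_mulVec, vecMulVec_mulVec, h1 m (mem_range.1 hm)]
    simp
  · have h2 : w ⬝ᵥ e l = 0 := hw l (mem_range.1 hl)
    rw [add_mulVec, dotProduct_add, vecMulVec_mulVec, vecMulVec_mulVec, h1 l (mem_range.1 hl)]
    simp [h2]

lemma proj_symm (e : ℕ → Fin n → ℝ) (L : ℕ) (i j : Fin n) : proj e L i j = proj e L j i := by
  simp only [proj, eq_comm (a := i) (b := j)]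
  exact congrArg _ (Finset.sum_congr rfl fun l _ => mul_comm _ _)

/-- The representation is symmetric. -/
lemma repMat_symm {e G : ℕ → Fin n → ℝ} {L : ℕ} {W' : Fin n → Fin n → ℝ}
    (hs : ∀ l < L, ∀ m < L, dot (e l) (G m) = dot (e m) (G l)) (hW : ∀ i j, W' i j = W' j i) (i j : Fin n) :
    repMat e G L W' i j = repMat e G L W' j i := by
  simp only [repMat, low]
  congr 1
  · congr 1
    · exact Finset.sum_congr rfl fun l _ => by ring
    · rw [Finset.sum_comm]
      exact Finset.sum_congr rfl fun l hl => Finset.sum_congr rfl fun m hm => by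
        rw [hs m (mem_range.1 hm) l (mem_range.1 hl)]; ring
  · rw [Finset.sum_comm]
    exact Finset.sum_congr rfl fun a _ => Finset.sum_congr rfl fun b _ => by
      rw [proj_symm e L i b, proj_symm e L a j, hW b a]; ring

/-- The form of the representation off the frame is that of the fresh block. -/
lemma repMat_form {e G : ℕ → Fin n → ℝ} {L : ℕ} (h : IsFrame e) {W' : Fin n → Fin n → ℝ} {w : Fin n → ℝ}
    (hw : ∀ m < L, dot w (e m) = 0) :
    w ⬝ᵥ (Matrix.of (repMat e G L W') *ᵥ w) = w ⬝ᵥ (Matrix.of W' *ᵥ w) := by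
  set P : Matrix (Fin n) (Fin n) ℝ := Matrix.of (proj e L) with hP
  have hsplit : Matrix.of (repMat e G L W') = Matrix.of (low e G L) + P * Matrix.of W' * P := by
    ext i j; rw [Matrix.of_apply, repMat_eq]; rfl
  have hPw : P *ᵥ w = w := by
    rw [hP, proj_mulVec h, Finset.sum_eq_zero fun l hl => ?_, sub_zero]
    rw [show dot (e l) w = dot w (e l) from dotProduct_comm _ _, hw l (mem_range.1 hl), zero_smul]
  have hPt : Pᵀ = P := by ext a b; exact proj_symm e L b a
  rw [hsplit, add_mulVec, dotProduct_add, low_form hw, zero_add, ← mulVec_mulVec, hPw, ← mulVec_mulVec,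
    dotProduct_mulVec, ← mulVec_transpose, hPt, hPw]

variable {β shift s : ℝ} {k : ℕ}

/-- The directions of the extended iteration are orthogonalised in turn. -/
lemma finState_dir (ω : Fin n → Fin (k + 2) → ℝ) {l : ℕ} (hl : l ≤ k) :
    (finState β shift s k n ω).1 l = gsStep (finState β shift s k n ω).1 l
      (finRule β shift s k (noiseZ ω) l (finState β shift s k n ω).1 (finState β shift s k n ω).2) := by
  refine state_dir _ _ (Nat.lt_succ_of_le hl) ?_
  simp only [finRule]
  by_cases h : l = k
  · simp [h]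
  · simp only [if_neg h]
    exact ampRule_congr _ (fun m hm => by
        rw [(state_stable _ _ hm).1, (state_stable _ _ (show m < k + 1 by omega)).1])
      fun m hm => by rw [(state_stable _ _ hm).2, (state_stable _ _ (show m < k + 1 by omega)).2]

/-- On the representation the fields are those of the history. -/
lemma fullAt_rep (ω : Fin n → Fin (k + 2) → ℝ) (W' : Fin n → Fin n → ℝ) (hW : ∀ i j, W' i j = W' j i)
    {j : ℕ} (hj : j ≤ k) :
    fullAt β shift s (repW β shift s k n ω W') (noiseZ ω) j = zF β shift s k n ω j := by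
  set W := repW β shift s k n ω W'
  set x := finRule β shift s k (noiseZ ω) with hx
  have hS : state x (matResp W) (k + 1) = finState β shift s k n ω :=
    stateStatement n (k + 1) x (noiseEta ω) W' hW
  have hm : ∀ m < k, (state (ampRule β shift s (noiseZ ω)) (matResp W) k).1 m = (finState β shift s k n ω).1 m ∧
      (state (ampRule β shift s (noiseZ ω)) (matResp W) k).2 m = (finState β shift s k n ω).2 m := by
    intro m hm
    have hc : state x (matResp W) (m + 1) = state (ampRule β shift s (noiseZ ω)) (matResp W) (m + 1) :=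
      state_congr_rule _ fun l hl => by funext e G; simp [hx, finRule, show l ≠ k by omega]
    rw [← hS, (state_stable _ _ hm).1, (state_stable _ _ hm).2, (state_stable x _ (show m < k + 1 by omega)).1,
      (state_stable x _ (show m < k + 1 by omega)).2, hc]
    exact ⟨rfl, rfl⟩
  rw [← histZ_eq_fullAt β shift s W (noiseZ ω) k j hj]
  exact histZ_congr _ (fun m h => (hm m (by omega)).1) fun m h => (hm m (by omega)).2

/-- On the representation the observation is that of the history. -/
lemma shift_rep (ω : Fin n → Fin (k + 2) → ℝ) (W' : Fin n → Fin n → ℝ) :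
    shiftMat shift (fullCpl β (repW β shift s k n ω W') (prodXi β shift (noiseZ ω))) *ᵥ fF β shift s k n ω =
      yF β shift s k n ω := by
  set f := fF β shift s k n ω
  set e := (finState β shift s k n ω).1 with he
  set W := repW β shift s k n ω W'
  set ξ := prodXi β shift (noiseZ ω)
  have h : IsFrame e := state_frame _ _ _
  have hf : spanProj e (k + 1) f = f := spanProj_of_gsStep h (finState_last ω).1
  have hW : ∀ i, (Matrix.of W *ᵥ f) i = ∑ m ∈ range (k + 1), dot f (e m) * (finState β shift s k n ω).2 m i := by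
    intro i
    conv_lhs => rw [← hf]
    simp only [spanProj, mulVec_sum, mulVec_smul, Finset.sum_apply, Pi.smul_apply, smul_eq_mul]
    refine Finset.sum_congr rfl fun m hm => ?_
    rw [show Matrix.of W *ᵥ e m = (finState β shift s k n ω).2 m from
      repMat_mulVec _ _ W' (mem_range.1 hm)]
  funext i
  have hJ : (Matrix.of (fullCpl β W ξ) *ᵥ f) i = β / Real.sqrt n * (Matrix.of W *ᵥ f) i + rankTwo β ξ f i := by
    simp only [mulVec, dotProduct, Matrix.of_apply, fullCpl, rankTwo, dot, Finset.mul_sum, Finset.sum_mul,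
      Finset.sum_div, ← Finset.sum_sub_distrib, ← Finset.sum_add_distrib]
    exact Finset.sum_congr rfl fun j _ => by ring
  simp only [shiftMat, add_mulVec, Pi.add_apply, smul_mulVec, one_mulVec, Pi.smul_apply, smul_eq_mul, hJ, hW]
  rfl

section span

variable (β shift s) (hs1 : s < 1) (hk : k ≠ 0) (ω : Fin n → Fin (k + 2) → ℝ)
include hs1 hk

/-- The first direction. -/
lemma dir_zero :
    finRule β shift s k (noiseZ ω) 0 (finState β shift s k n ω).1 (finState β shift s k n ω).2 =
      (1 - s) • cB β shift s k n ω 0 := by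
  have hu : (1:ℝ) - s ≠ 0 := by linarith
  funext i
  simp only [finRule, if_neg (Ne.symm hk), ampRule, cB, bV, show (parOf β shift s k).k = k from rfl,
    show (parOf β shift s k).s = s from rfl, mV, Pi.smul_apply, Pi.sub_apply, smul_eq_mul]
  rw [show zF β shift s k n ω 0 i = prodF β shift s (noiseZ ω) i / plantVar β shift from rfl,
    show fF β shift s k n ω i = prodF β shift s (noiseZ ω) i from rfl]
  field_simp
  ring

omit hs1 hk in
/-- The later directions. -/
lemma dir_succ {l : ℕ} (hl : l + 1 < k) :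
    finRule β shift s k (noiseZ ω) (l + 1) (finState β shift s k n ω).1 (finState β shift s k n ω).2 =
      cB β shift s k n ω (l + 1) := by
  funext i
  simp only [finRule, if_neg hl.ne, ampRule, cB, bV, show (parOf β shift s k).k = k from rfl, mV, Pi.sub_apply]
  rfl

omit hs1 in
/-- `f` in the span. -/
lemma f_eq : fF β shift s k n ω = cB β shift s k n ω k + (parOf β shift s k).kap • cB β shift s k n ω 0 := by
  simp only [cB, bV, show (parOf β shift s k).k = k from rfl, if_pos, if_neg (Ne.symm hk), zero_add]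
  exact (sub_add_cancel _ _).symm

/-- The frame lies in the span. -/
lemma frame_mem (m : ℕ) (hm : m ≤ k) : (finState β shift s k n ω).1 m ∈
    Submodule.span ℝ (Set.range fun x : Fin (k + 1) => cB β shift s k n ω x) := by
  have hB : ∀ x ≤ k, cB β shift s k n ω x ∈
      Submodule.span ℝ (Set.range fun x : Fin (k + 1) => cB β shift s k n ω x) := fun x hx =>
    Submodule.subset_span ⟨⟨x, Nat.lt_succ_of_le hx⟩, rfl⟩
  induction m using Nat.strong_induction_on with
  | _ m ih =>
    rw [finState_dir ω hm, gsStep]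
    refine Submodule.smul_mem _ _ (Submodule.sub_mem _ ?_ (Submodule.sum_mem _ fun l hl =>
      Submodule.smul_mem _ _ (ih l (mem_range.1 hl) (by have := mem_range.1 hl; omega))))
    by_cases h : m = k
    · simp only [finRule, if_pos h]
      rw [show prodF β shift s (noiseZ ω) = fF β shift s k n ω from rfl, f_eq β shift s hk ω]
      exact Submodule.add_mem _ (hB k le_rfl) (Submodule.smul_mem _ _ (hB 0 (Nat.zero_le _)))
    · rcases m with _ | l
      · rw [dir_zero β shift s hs1 hk ω]
        exact Submodule.smul_mem _ _ (hB 0 (Nat.zero_le _))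
      · rw [dir_succ β shift s ω (by omega)]
        exact hB _ hm

/-- Off the frame means orthogonal to `f`, to the magnetisations and to the span. -/
lemma orth {w : Fin n → ℝ} (hw : ∀ m < k + 1, dot ((finState β shift s k n ω).1 m) w = 0) :
    fF β shift s k n ω ⬝ᵥ w = 0 ∧
      (∀ l < k, (fun i => Real.tanh (zF β shift s k n ω l i)) ⬝ᵥ w = 0) ∧
      (∀ l ≤ k, mV s (zF β shift s k n ω) (fF β shift s k n ω) l ⬝ᵥ w = 0) ∧
      ∀ x ≤ k, cB β shift s k n ω x ⬝ᵥ w = 0 := by
  have hu : (1:ℝ) - s ≠ 0 := by linarith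
  have hd : ∀ l ≤ k,
      finRule β shift s k (noiseZ ω) l (finState β shift s k n ω).1 (finState β shift s k n ω).2 ⬝ᵥ w = 0 := by
    intro l hl
    have hfr : IsFrame (finState β shift s k n ω).1 := state_frame _ _ _
    rw [← spanProj_of_gsStep hfr (finState_dir ω hl)]
    simp only [spanProj, sum_dotProduct, smul_dotProduct, smul_eq_mul]
    refine Finset.sum_eq_zero fun m hm => ?_
    have := mem_range.1 hm
    rw [show (finState β shift s k n ω).1 m ⬝ᵥ w = 0 from hw m (by omega), mul_zero]
  have hf : fF β shift s k n ω ⬝ᵥ w = 0 := by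
    have := hd k le_rfl
    simp only [finRule, if_pos] at this
    exact this
  have ha : ∀ l < k, (fun i => Real.tanh (zF β shift s k n ω l i)) ⬝ᵥ w = 0 := by
    intro l hl
    induction l with
    | zero =>
      have h0 := hd 0 (Nat.zero_le _)
      have e : finRule β shift s k (noiseZ ω) 0 (finState β shift s k n ω).1 (finState β shift s k n ω).2 =
          fF β shift s k n ω + (1 - s) • fun i => Real.tanh (zF β shift s k n ω 0 i) := by
        simp only [finRule, if_neg (Ne.symm hk)]
        rfl
      rw [e, add_dotProduct, smul_dotProduct, hf, zero_add, smul_eq_mul] at h0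
      exact (mul_eq_zero.1 h0).resolve_left hu
    | succ l ih =>
      have h0 := hd (l + 1) hl.le
      have e : finRule β shift s k (noiseZ ω) (l + 1) (finState β shift s k n ω).1 (finState β shift s k n ω).2 =
          (fun i => Real.tanh (zF β shift s k n ω (l + 1) i)) - fun i => Real.tanh (zF β shift s k n ω l i) := by
        simp only [finRule, if_neg hl.ne]
        rfl
      rw [e, sub_dotProduct, ih (by omega), sub_zero] at h0
      exact h0
  have hm : ∀ l ≤ k, mV s (zF β shift s k n ω) (fF β shift s k n ω) l ⬝ᵥ w = 0 := by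
    intro l hl
    rcases l with _ | l
    · rw [show mV s (zF β shift s k n ω) (fF β shift s k n ω) 0 = (-(1 / (1 - s))) • fF β shift s k n ω from
        funext fun i => by simp only [mV, Pi.smul_apply, smul_eq_mul]; ring,
        smul_dotProduct, hf, smul_zero]
    · exact ha l hl
  refine ⟨hf, ha, hm, fun x hx => ?_⟩
  simp only [cB, bV, show (parOf β shift s k).k = k from rfl, show (parOf β shift s k).s = s from rfl]
  by_cases h : x = k
  · rw [if_pos h, sub_dotProduct, smul_dotProduct, sub_dotProduct, hf, hm 1 (Nat.pos_of_ne_zero hk),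
      hm 0 (Nat.zero_le _)]
    simp
  · rw [if_neg h, sub_dotProduct, hm (x + 1) (by omega), hm x hx, sub_zero]

end span

theorem spanStatement : SpanStatement := by
  intro β shift s hβ0 hβ1 hc hs0 hs1 k hk n ω
  refine ⟨fun W' hW j hj => fullAt_rep ω W' hW hj, fun v => ?_⟩
  set e := (finState β shift s k n ω).1 with he
  have hfr : IsFrame e := state_frame _ _ _
  set w := v - spanProj e (k + 1) v with hwdef
  have hew : ∀ m < k + 1, dot (e m) w = 0 := by
    intro m hm
    simp only [w, spanProj, dot_eq, dotProduct_sub, dotProduct_sum, dotProduct_smul, smul_eq_mul]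
    simp only [← dot_eq]
    rw [Finset.sum_eq_single m (fun l _ hl => by rw [hfr.1 m l (Ne.symm hl), mul_zero])
      (fun h => absurd (mem_range.2 hm) h), mul_comm, show dot v (e m) = dot (e m) v from dotProduct_comm _ _,
      hfr.unit_mul, sub_self]
  obtain ⟨c, hcs⟩ := Submodule.mem_span_range_iff_exists_fun ℝ |>.1
    (show spanProj e (k + 1) v ∈ Submodule.span ℝ (Set.range fun x : Fin (k + 1) => cB β shift s k n ω x) from
      Submodule.sum_mem _ fun m hm => Submodule.smul_mem _ _
        (frame_mem β shift s hs1 hk ω m (Nat.lt_succ_iff.1 (mem_range.1 hm))))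
  obtain ⟨hf, ha, hm, hB⟩ := orth β shift s hs1 hk ω hew
  set ψ := ∑ x, c x • cB β shift s k n ω x with hψ
  have hv : v = ψ + w := by rw [show ψ = spanProj e (k + 1) v from hcs, hwdef]; abel
  refine ⟨c, w, hv, fun x => ?_, ?_, fun W' hW => ?_⟩
  · simp [MinEigCore.ip, dot_eq, hB x (Nat.lt_succ_iff.1 x.isLt)]
  · simp [MinEigCore.ip, dot_eq, ha (k - 1) (by omega)]
  set V := ∑ x, c x • cU β shift s k n ω x with hV
  set R := ∑ x, c x • cR β shift s k n ω x with hR
  set W := repW β shift s k n ω W' with hWdef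
  set ξ := prodXi β shift (noiseZ ω) with hξdef
  set J := fullCpl β W ξ with hJdef
  -- the couplings on the span
  have hz : ∀ l ≤ k, ampZ β shift s J (yF β shift s k n ω) (fF β shift s k n ω) l = zF β shift s k n ω l := by
    intro l hl
    rw [← fullAt_rep ω W' hW hl, ← shift_rep ω W']
    rfl
  have hJb : ∀ x : Fin (k + 1), (1 - s) • (Matrix.of J *ᵥ cB β shift s k n ω x) =
      cU β shift s k n ω x + cR β shift s k n ω x := by
    intro x
    have hx := Nat.lt_succ_iff.1 x.isLt
    have h := uJ_b (β := β) (shift := shift) (s := s) (k := k) (x := (x : ℕ)) (J := J)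
      (y := yF β shift s k n ω) (f := fF β shift s k n ω) (abs_le.2 ⟨by linarith, hβ1.le⟩) hc hs1
      (shift_rep ω W')
    set z' := ampZ β shift s J (yF β shift s k n ω) (fF β shift s k n ω)
    have hmv : ∀ l ≤ k + 1, mV s z' (fF β shift s k n ω) l =
        mV s (zF β shift s k n ω) (fF β shift s k n ω) l := by
      intro l hl
      rcases l with _ | l
      · rfl
      · funext i; simp only [mV]; rw [hz l (by omega)]
    have hP : (parOf β shift s k).k = k ∧ (parOf β shift s k).s = s := ⟨rfl, rfl⟩
    have eB : bV (parOf β shift s k) z' (fF β shift s k n ω) x = cB β shift s k n ω x := by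
      simp only [cB, bV, hP.1, hP.2, hmv 1 (by omega), hmv 0 (by omega), hmv ((x : ℕ) + 1) (by omega),
        hmv x (by omega)]
    have eU : uV (parOf β shift s k) z' (yF β shift s k n ω) x = cU β shift s k n ω x := by
      by_cases hxk : (x : ℕ) = k
      · simp only [cU, uV, hP.1, if_pos hxk, hz 0 (Nat.zero_le _), hz 1 (Nat.pos_of_ne_zero hk)]
      · simp only [cU, uV, hP.1, if_neg hxk, hz ((x : ℕ) + 1) (by omega), hz x hx]
    have eR : rV (parOf β shift s k) z' (fF β shift s k n ω) x = cR β shift s k n ω x := by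
      simp only [cR, rV, hP.1, hP.2, hmv 0 (by omega), hmv x (by omega), hmv ((x : ℕ) - 1) (by omega)]
    rwa [eB, eU, eR] at h
  have hJψ : (1 - s) • (Matrix.of J *ᵥ ψ) = V + R := by
    rw [hψ, hV, hR, mulVec_sum, Finset.smul_sum, ← Finset.sum_add_distrib]
    refine Finset.sum_congr rfl fun x _ => ?_
    rw [mulVec_smul, smul_comm, hJb x, smul_add]
  have hwR : w ⬝ᵥ R = 0 := by
    rw [hR, dotProduct_sum]
    refine Finset.sum_eq_zero fun x _ => ?_
    have hx := Nat.lt_succ_iff.1 x.isLt
    rw [dotProduct_smul, dotProduct_comm]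
    simp only [cR, rV, show (parOf β shift s k).k = k from rfl, show (parOf β shift s k).s = s from rfl]
    split_ifs
    · rw [smul_dotProduct, hf]; simp
    · rw [smul_dotProduct, hm 0 (Nat.zero_le _)]; simp
    · rw [smul_dotProduct, sub_dotProduct, smul_dotProduct, smul_dotProduct, hm x hx, hm ((x : ℕ) - 1) (by omega)]
      simp
  -- symmetry
  have hWs : ∀ i j, W i j = W j i := repMat_symm
    (fun l hl m hm' => dot_image_symm _ _ hl hm') hW
  have hJt : (Matrix.of J)ᵀ = Matrix.of J := by
    ext i j
    simp only [transpose_apply, Matrix.of_apply, J, fullCpl, hWs j i]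
    ring
  have hsym : ψ ⬝ᵥ (Matrix.of J *ᵥ w) = w ⬝ᵥ (Matrix.of J *ᵥ ψ) := by
    rw [dotProduct_mulVec, ← mulVec_transpose, hJt, dotProduct_comm]
  -- off the span
  have hξw : ξ ⬝ᵥ w = -(Real.sqrt s * ∑ i, w i) := by
    have h0 : s * (∑ i, w i) + Real.sqrt s * (ξ ⬝ᵥ w) = 0 := by
      rw [← hf]
      simp only [dotProduct, Finset.mul_sum, ← Finset.sum_add_distrib, fF, prodF, ξ]
      exact Finset.sum_congr rfl fun i _ => by ring
    have hs := Real.mul_self_sqrt hs0.le
    have h' : Real.sqrt s * (ξ ⬝ᵥ w + Real.sqrt s * ∑ i, w i) = 0 := by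
      linear_combination h0 + (∑ i, w i) * hs
    linarith [(mul_eq_zero.1 h').resolve_left (Real.sqrt_pos.2 hs0).ne']
  have hwJw : w ⬝ᵥ (Matrix.of J *ᵥ w) = β / Real.sqrt n * (w ⬝ᵥ (Matrix.of W' *ᵥ w))
      + β ^ 2 * (1 - s) * (∑ i, w i) ^ 2 / n := by
    have e1 : Matrix.of J *ᵥ w = (β / Real.sqrt n) • (Matrix.of W *ᵥ w) + rankTwo β ξ w := by
      funext i
      simp only [J, mulVec, dotProduct, Matrix.of_apply, fullCpl, rankTwo, dot, Pi.add_apply, Pi.smul_apply,
        smul_eq_mul, Finset.mul_sum, Finset.sum_mul, Finset.sum_div, ← Finset.sum_sub_distrib,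
        ← Finset.sum_add_distrib]
      exact Finset.sum_congr rfl fun j _ => by ring
    have e2 : w ⬝ᵥ rankTwo β ξ w =
        β ^ 2 * ((∑ j, w j) / n) * (∑ i, w i) - β ^ 2 * ((ξ ⬝ᵥ w) / n) * (ξ ⬝ᵥ w) := by
      simp only [dotProduct, rankTwo, dot, mul_sub, Finset.sum_sub_distrib]
      congr 1 <;> rw [Finset.mul_sum] <;> exact Finset.sum_congr rfl fun i _ => by ring
    have e3 : w ⬝ᵥ (Matrix.of W *ᵥ w) = w ⬝ᵥ (Matrix.of W' *ᵥ w) :=
      repMat_form hfr fun m hm' => by rw [dot_eq, dotProduct_comm]; exact hew m hm'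
    have hs := Real.mul_self_sqrt hs0.le
    rw [e1, dotProduct_add, dotProduct_smul, e2, e3, hξw, smul_eq_mul]
    linear_combination (-(β ^ 2 * (∑ i, w i) ^ 2 / n)) * hs
  have key : (1 - s) * (v ⬝ᵥ (Matrix.of J *ᵥ v)) = -(ψ ⬝ᵥ V - ψ ⬝ᵥ R) + 2 * (v ⬝ᵥ V)
      + β ^ 2 * (1 - s) ^ 2 * (∑ i, w i) ^ 2 / n
      + (1 - s) * (β / Real.sqrt n) * (w ⬝ᵥ (Matrix.of W' *ᵥ w)) := by
    have hψJ : ∀ u : Fin n → ℝ, (1 - s) * (u ⬝ᵥ (Matrix.of J *ᵥ ψ)) = u ⬝ᵥ V + u ⬝ᵥ R := fun u => by
      rw [← dotProduct_add, ← hJψ, dotProduct_smul, smul_eq_mul]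
    rw [hv]
    simp only [mulVec_add, dotProduct_add, add_dotProduct, hsym]
    linear_combination hψJ ψ + 2 * hψJ w + (1 - s) * hwJw + 2 * hwR
  simp only [MinEigCore.ip, dot_eq, show ((1 : Fin n → ℝ) ⬝ᵥ w) = ∑ i, w i from one_dotProduct w,
    show (parOf β shift s k).a = β ^ 2 * (1 - s) ^ 2 from rfl]
  linear_combination key / (n : ℝ)

end Vale.Agent.P150.High.MinEigSpan
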