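import Vale.Agent.P150.High.MinEigHalfSpec
import Vale.Agent.P150.High.MinEigDet
import Vale.Agent.P150.High.MinEigSpan
import Vale.Agent.P150.High.AmpLimit

/-!
# P150, all `β < 1`: the margin away from the degenerate parameters

By conditioning on the iteration the bad event becomes a supremum of a GOE form off the span; the
Slepian comparison and the certificate make it unlikely.
-/

open MeasureTheory ProbabilityTheory Filter Finset Matrix
open scoped Topology

namespace Vale.Agent.P150.High.MinEigHalf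

open Vale.Agent.P150 Vale.Agent.P150.High.Amp MinEigScalar MinEigLim MinEigData MinEigGauss MinEigSlepian MinEigDet

variable {n : ℕ} {β shift s : ℝ} {k : ℕ}

/-- The GOE form from independent entries. -/
lemma sym_form (X : Fin n × Fin n → ℝ) (w : Fin n → ℝ) :
    MinEigCore.ip w (Matrix.of (sym X) *ᵥ w) = goeForm X w / n := by
  have h2 : Real.sqrt 2 ≠ 0 := by positivity
  simp only [MinEigCore.ip, dot, goeForm, mulVec, dotProduct, Matrix.of_apply, sym, Finset.mul_sum,
    Fintype.sum_prod_type]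
  congr 1
  have e : ∀ i j : Fin n, w i * ((X (i, j) + X (j, i)) / Real.sqrt 2 * w j) =
      w i * (X (i, j) / Real.sqrt 2 * w j) + w i * (X (j, i) / Real.sqrt 2 * w j) := fun i j => by ring
  simp only [e, Finset.sum_add_distrib]
  rw [Finset.sum_comm (f := fun i j => w i * (X (j, i) / Real.sqrt 2 * w j)), ← Finset.sum_add_distrib]
  refine Finset.sum_congr rfl fun i _ => ?_
  rw [← Finset.sum_add_distrib]
  refine Finset.sum_congr rfl fun j _ => ?_
  have hs := Real.mul_self_sqrt (two_pos (α := ℝ)).le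
  field_simp
  linear_combination (-(w i * w j * X (i, j))) * hs

lemma measurable_finRule (β shift s : ℝ) (k l : ℕ) :
    Measurable fun p : (Fin n → ℝ) × (ℕ → Fin n → ℝ) × (ℕ → Fin n → ℝ) =>
      finRule β shift s k p.1 l p.2.1 p.2.2 := by
  simp only [finRule]
  split_ifs
  · exact (continuous_prodF β shift s).measurable.comp measurable_fst
  · exact measurable_ampRule β shift s l

lemma measurableSet_netEvent (β shift s : ℝ) (k : ℕ) (κ ε η : ℝ) (N : Finset (Fin n → ℝ)) :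
    MeasurableSet (netEvent β shift s k κ ε η N) := by
  have ha : ∀ i, Measurable fun p : (Fin n → ℝ) × (Fin n → Fin n → ℝ) => fullCentre β shift s k p i := fun i =>
    PA.continuous_tanh'.measurable.comp ((measurable_pi_apply i).comp (continuous_fullAt β shift s k).measurable)
  have hξ : ∀ i, Measurable fun p : (Fin n → ℝ) × (Fin n → Fin n → ℝ) => prodXi β shift p.1 i := fun i =>
    (measurable_pi_apply i).comp ((continuous_prodXi β shift).measurable.comp measurable_fst)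
  have e : netEvent β shift s k κ ε η N = ⋃ B ∈ {B : Finset (Fin n) | (B.card : ℝ) ≤ κ * n}, ⋃ v ∈ (N : Set (Fin n → ℝ)),
      {p | formQ β s (1 - qSE (gamSE β shift s k)) (fullCpl β p.2 (prodXi β shift p.1)) (fullCentre β shift s k p)
        (capD ε (fullCentre β shift s k p) B) v < η} := by
    ext p
    simp [netEvent]
  rw [e]
  refine MeasurableSet.biUnion (Set.toFinite _).countable fun B _ =>
    MeasurableSet.biUnion N.finite_toSet.countable fun v _ => measurableSet_lt ?_ measurable_const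
  have hD : ∀ i, Measurable fun p : (Fin n → ℝ) × (Fin n → Fin n → ℝ) => capD ε (fullCentre β shift s k p) B i :=
    fun i => by
      simp only [capD]
      split_ifs
      · exact measurable_const
      · exact measurable_const.min ((measurable_const.sub ((ha i).pow_const 2)).add measurable_const)
  simp only [formQ, MinEigCore.ip, dot, mulVec, dotProduct, Matrix.of_apply, fullCpl, Pi.div_apply]
  fun_prop

/-- The bad event on the noise space. -/
lemma prob_le_of_section (E : Set ((Fin n → ℝ) × (Fin n → Fin n → ℝ))) (hE : MeasurableSet E)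
    (A : Set (Fin n → Fin (k + 2) → ℝ)) {b : ℝ} (hb0 : 0 ≤ b)
    (hb : ∀ ω ∈ A, (gauss (Fin n × Fin n)).real
      {X | (noiseZ ω, repW β shift s k n ω (sym X)) ∈ E} ≤ b) :
    ((gauss (Fin n)).prod (goe n)).real E ≤ (noise (k + 1) n).real Aᶜ + b := by
  have hx := fun l => measurable_finRule (n := n) β shift s k l
  have hlaw : (gauss (Fin n)).prod (goe n) =
      (((gauss (Fin n)).prod (Measure.pi fun _ : Fin (k + 1) => gauss (Fin n))).prod (goe n)).map
        (repMap (fun z => finRule β shift s k z) (k + 1)) :=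
    lawStatement n (k + 1) (Fin n → ℝ) (gauss (Fin n)) (fun z => finRule β shift s k z) hx
  have hm := measurable_repMap (fun z => finRule β shift s k z) hx (k + 1)
  have hprob : IsProbabilityMeasure (noise (k + 1) n) := instNoiseProb (k + 1) n
  have hprob' : SFinite (noise (k + 1) n) := inferInstance
  have hsym : MeasurePreserving sym (gauss (Fin n × Fin n)) (goe n) := ⟨measurable_sym, rfl⟩
  have hsp := (measurePreserving_noiseSplit (k + 1) n).prod hsym
  set Φ := repMap (fun z => finRule β shift s k z) (k + 1) ∘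
    Prod.map (fun ω : Fin n → Fin (k + 1 + 1) → ℝ => (noiseZ ω, fun (l : Fin (k + 1)) i => ω i l.succ)) sym
  have hΦm : Measurable Φ := hm.comp hsp.measurable
  have hΦ : ∀ ω X, Φ (ω, X) = (noiseZ ω, repW β shift s k n ω (sym X)) := fun ω X => by
    have hη : extZero (fun (l : Fin (k + 1)) i => ω i l.succ) = noiseEta ω := by
      funext l i
      simp only [extZero, noiseEta]
      by_cases h : l < k + 1
      · rw [dif_pos h, dif_pos (by omega)]; rfl
      · rw [dif_neg h, dif_neg (by omega)]; rfl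
    simp only [Φ, Function.comp, Prod.map, repMap, repW, finState, hη]
  rw [hlaw, ← hsp.map_eq, Measure.map_map hm hsp.measurable, map_measureReal_apply hΦm hE]
  set T := toMeasurable (noise (k + 1) n) Aᶜ
  have hTm : MeasurableSet T := measurableSet_toMeasurable _ _
  set S := Φ ⁻¹' E ∩ (Tᶜ ×ˢ Set.univ)
  have hS : MeasurableSet S := (hΦm hE).inter (hTm.compl.prod MeasurableSet.univ)
  have h1 : ((noise (k + 1) n).prod (gauss (Fin n × Fin n))) S ≤ ENNReal.ofReal b := by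
    rw [Measure.prod_apply hS]
    refine le_trans (lintegral_mono (g := fun _ => ENNReal.ofReal b) fun ω => ?_) (by simp)
    by_cases hω : ω ∈ T
    · rw [show Prod.mk ω ⁻¹' S = ∅ by ext X; simp [S, hω]]; simp
    · have hA : ω ∈ A := by
        by_contra h
        exact hω (subset_toMeasurable _ _ h)
      refine (measure_mono fun X hX => ?_).trans
        ((ENNReal.le_ofReal_iff_toReal_le (measure_ne_top _ _) hb0).2 (hb ω hA))
      have : Φ (ω, X) ∈ E := hX.1
      rwa [hΦ] at this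
  refine (measureReal_mono (s₂ := T ×ˢ Set.univ ∪ S) fun p hp => ?_).trans ((measureReal_union_le _ _).trans
    (add_le_add (le_of_eq ?_) ?_))
  · by_cases h : p.1 ∈ T
    · exact Or.inl ⟨h, trivial⟩
    · exact Or.inr ⟨hp, h, trivial⟩
  · rw [measureReal_prod_prod, probReal_univ, mul_one, measureReal_def, measureReal_def, measure_toMeasurable]
  · rw [measureReal_def]
    exact (ENNReal.toReal_mono ENNReal.ofReal_ne_top h1).trans_eq (ENNReal.toReal_ofReal hb0)

section

variable (hβ0 : 0 < β) (hβ1 : β < 1) (hc : 4 ≤ shift) (hs0 : 0 < s) (hs1 : s < 1) (hk : k ≠ 0)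
include hβ0 hβ1 hc hs0 hs1 hk

/-- Given a history with the limiting data, the bad event is unlikely. -/
lemma section_le {δ η0 ε σ Λ ε1 C m e η' : ℝ} (hδ : δ = (1 - β ^ 2) / 2) (hη0 : η0 = δ * (1 - β ^ 2 / (1 - δ)))
    (hε : 0 < ε) (hε1 : 0 < ε1) (hΛ : 16 / ε ≤ Λ) (hΛg : 2 / gS (gamSE β shift s k) ≤ Λ) (hΛ1 : 1 ≤ Λ)
    (hloss : ∀ S L : ℝ, |S| ≤ 2 → S ^ 2 ≤ 2 * qSE (gamSE β shift s k) + σ → |(1 - s) * L| ≤ 3 →
      -(η0 / 8) ≤ ε / ((gS (gamSE β shift s k) - rS (gamSE β shift s k)) / (1 - δ) + ε) *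
        (-(parOf β shift s k).a * S ^ 2 - (parOf β shift s k).a ^ 2 *
            ((gS (gamSE β shift s k) - 2 * rS (gamSE β shift s k)) / (1 - δ)) * (S + L) ^ 2
          + (parOf β shift s k).a * (parOf β shift s k).u / s * L ^ 2))
    (hm0 : 0 < m) (hm : ∀ x : Fin (k + 1), m ≤ MinEigCore.nb (parOf β shift s k) x)
    (hC : Real.sqrt ((k + 1) * (2 / m)) ≤ C) (hη' : η' ≤ η0 / 4) (hη'1 : η' ≤ 1)
    (hsm : Small β shift s k η0 σ Λ ε1 C m e) {κ : ℝ} (hκ : κ ≤ ε1 ^ 2) (hn : 0 < n)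
    {ω : Fin n → Fin (k + 2) → ℝ} (H : Hist β shift s k e n ω) (N : Finset (Fin n → ℝ))
    (hN : ∀ v ∈ N, MinEigCore.ip v v = 1) {t M P : ℝ} (ht : 0 < t) (hM : 0 < M) (hnt : 8 * t ≤ n)
    (hP : (gauss (Fin n)).real {g | GoodG (testFam β shift s k n ω) (cD β shift s k n ω) e g}ᶜ ≤ P) :
    (gauss (Fin n × Fin n)).real
        {X | (noiseZ ω, repW β shift s k n ω (sym X)) ∈ netEvent β shift s k κ ε1 η' N} ≤
      Real.exp (-(t * (η0 / 4))) + Real.exp (t * capCmp β shift s k C) * (M * P + Real.exp (8 * t) / M) := by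
  obtain ⟨hfull, hsplit⟩ := MinEigSpan.spanStatement β shift s hβ0 hβ1 hc hs0 hs1 k hk n ω
  choose c w hv hw hwa hform using hsplit
  have hP0 : 0 ≤ P := measureReal_nonneg.trans hP
  set α := {q : Finset (Fin n) × (Fin n → ℝ) // (q.1.card : ℝ) ≤ κ * n ∧ q.2 ∈ N}
  have hfin : Finite α := by
    refine Finite.of_injective (fun q : α => ((q.1.1, ⟨q.1.2, q.2.2⟩) : Finset (Fin n) × N)) fun a b hab => ?_
    simp only [Prod.mk.injEq, Subtype.mk.injEq] at hab
    exact Subtype.ext (Prod.ext hab.1 hab.2)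
  rcases isEmpty_or_nonempty α with hα | hα
  · rw [show {X | (noiseZ ω, repW β shift s k n ω (sym X)) ∈ netEvent β shift s k κ ε1 η' N} = ∅ from
      Set.eq_empty_iff_forall_notMem.2 fun X hX => by
        obtain ⟨B, hB, v, hv, -⟩ := hX
        exact hα.false ⟨(B, v), hB, hv⟩, measureReal_empty]
    have : 0 ≤ M * P + Real.exp (8 * t) / M := by positivity
    positivity
  have := Fintype.ofFinite α
  set vv : α → Fin n → ℝ := fun q => w q.1.2
  set F : α → ℝ := fun q => η' - fixPart β shift s k n ω ε1 q.1.1 q.1.2 (w q.1.2) (c q.1.2)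
  set γ : ℝ := (1 - s) * β / n
  have hn' : (0:ℝ) < n := Nat.cast_pos.2 hn
  have hsub : {X | (noiseZ ω, repW β shift s k n ω (sym X)) ∈ netEvent β shift s k κ ε1 η' N} ⊆
      {X | ∃ x, 0 < γ / Real.sqrt n * goeForm X (vv x) + F x} := by
    rintro X ⟨B, hB, v, hvN, hQ⟩
    refine ⟨⟨(B, v), hB, hvN⟩, ?_⟩
    have hsy : ∀ i j, sym X i j = sym X j i := fun i j => by simp [sym, add_comm]
    have ecentre : fullCentre β shift s k (noiseZ ω, repW β shift s k n ω (sym X)) = cA β shift s k n ω := by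
      funext i; simp only [fullCentre, cA, hfull _ hsy k le_rfl]
    rw [ecentre] at hQ
    simp only [formQ, ← gS_eq] at hQ
    have hf := hform v _ hsy
    rw [sym_form X (w v)] at hf
    rw [hf, hN v hvN] at hQ
    simp only [F, vv, fixPart, hN v hvN, show (parOf β shift s k).a = β ^ 2 * (1 - s) ^ 2 from rfl] at hQ ⊢
    have e : (1 - s) * β / n / Real.sqrt n * goeForm X (w v) =
        (1 - s) * (β / Real.sqrt n) * (goeForm X (w v) / n) := by ring
    simp only [γ]
    rw [e]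
    unfold capD at hQ
    linarith
  have hcmp : ∀ g (x : α), 2 * γ / Real.sqrt n * (Real.sqrt (∑ i, vv x i ^ 2) * dot (vv x) g) + F x =
      2 * (1 - s) * β * Real.sqrt (MinEigCore.ip (w x.1.2) (w x.1.2)) * MinEigCore.ip (w x.1.2) g + F x := fun g x => by
    have hs' : Real.sqrt n ≠ 0 := (Real.sqrt_pos.2 hn').ne'
    simp only [γ, vv, MinEigCore.ip, sq]
    rw [show dot (w x.1.2) (w x.1.2) = ∑ i, w x.1.2 i * w x.1.2 i from rfl, Real.sqrt_div' _ hn'.le]
    field_simp
  refine (measureReal_mono hsub).trans ((prob_le (c := η0 / 4) (K := capCmp β shift s k C) ht hM hnt hn vv F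
    {g | GoodG (testFam β shift s k n ω) (cD β shift s k n ω) e g} (measurableSet_goodG _ _ e) ?_ ?_).trans ?_)
  · intro g hg
    refine Finset.sup'_le _ _ fun x _ => ?_
    rw [hcmp]
    exact cmp_good hβ0 hβ1 hc hs0 hs1 hk hδ hη0 hε hε1 hΛ hΛg hΛ1 hloss hm0 hm hC hη' hsm H (hv _) (hw _) (hwa _)
      (hN _ x.2.2) (x.2.1.trans (mul_le_mul_of_nonneg_right hκ hn'.le)) hg
  · intro g
    refine Finset.sup'_le _ _ fun x _ => ?_
    rw [hcmp]
    exact cmp_all hβ0 hβ1 hc hs0 hs1 hk hε1 hm0 hm hC hη'1 hsm.e0 hsm.e1 hsm.em hsm.c1 hsm.c2 H (hv _) (hw _)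
      (hN _ x.2.2) x.1.1 g
  · gcongr

/-- Every family of nets is good. -/
lemma nets_good {δ η0 ε σ Λ ε1 C m e η' : ℝ} (hδ : δ = (1 - β ^ 2) / 2) (hη0 : η0 = δ * (1 - β ^ 2 / (1 - δ)))
    (hη0p : 0 < η0) (hε : 0 < ε) (hε1 : 0 < ε1) (hΛ : 16 / ε ≤ Λ) (hΛg : 2 / gS (gamSE β shift s k) ≤ Λ) (hΛ1 : 1 ≤ Λ)
    (hloss : ∀ S L : ℝ, |S| ≤ 2 → S ^ 2 ≤ 2 * qSE (gamSE β shift s k) + σ → |(1 - s) * L| ≤ 3 →
      -(η0 / 8) ≤ ε / ((gS (gamSE β shift s k) - rS (gamSE β shift s k)) / (1 - δ) + ε) *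
        (-(parOf β shift s k).a * S ^ 2 - (parOf β shift s k).a ^ 2 *
            ((gS (gamSE β shift s k) - 2 * rS (gamSE β shift s k)) / (1 - δ)) * (S + L) ^ 2
          + (parOf β shift s k).a * (parOf β shift s k).u / s * L ^ 2))
    (hm0 : 0 < m) (hm : ∀ x : Fin (k + 1), m ≤ MinEigCore.nb (parOf β shift s k) x)
    (hC : Real.sqrt ((k + 1) * (2 / m)) ≤ C) (hη' : η' ≤ η0 / 4) (hη'1 : η' ≤ 1)
    (hsm : Small β shift s k η0 σ Λ ε1 C m e) (he : 0 < e) {κ : ℝ} (hκ : κ ≤ ε1 ^ 2)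
    (N : (n : ℕ) → Finset (Fin n → ℝ)) (hN : ∀ n, ∀ v ∈ N n, MinEigCore.ip v v = 1) :
    Tendsto (fun n => ((gauss (Fin n)).prod (goe n)).real (netEvent β shift s k κ ε1 η' (N n))) atTop (𝓝 0) := by
  obtain ⟨V, hV0, hV⟩ := prob_not_goodG
  have hH : Whp (k + 1) (Hist β shift s k e) := hist_whp hβ0 hβ1 hc hs0 hs1 hk he
  set P : ℕ → ℝ := fun n =>
    ((Fintype.card (Fin (k + 1) ⊕ (Fin (k + 1) ⊕ Bool)) : ℝ) * |capFam β shift s k| + 3) * V / (n * e ^ 2)
  have hP0 : ∀ n, 0 ≤ P n := fun n => by positivity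
  have hP : Tendsto P atTop (𝓝 0) :=
    tendsto_const_nhds.div_atTop ((tendsto_natCast_atTop_atTop (R := ℝ)).atTop_mul_const (pow_pos he 2))
  rw [Metric.tendsto_atTop]
  intro τ hτ
  obtain ⟨t, ht, ht1⟩ : ∃ t : ℝ, 0 < t ∧ Real.exp (-(t * (η0 / 4))) < τ / 4 := by
    have h : Tendsto (fun t : ℝ => Real.exp (-(t * (η0 / 4)))) atTop (𝓝 0) :=
      Real.tendsto_exp_neg_atTop_nhds_zero.comp (tendsto_id.atTop_mul_const (by positivity))
    exact ((eventually_gt_atTop 0).and (h.eventually (gt_mem_nhds (by positivity)))).exists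
  set E := Real.exp (t * capCmp β shift s k C)
  set M := 8 * E * Real.exp (8 * t) / τ
  have hM : 0 < M := by positivity
  have hM1 : E * (Real.exp (8 * t) / M) ≤ τ / 4 := by
    rw [show E * (Real.exp (8 * t) / M) = τ / 8 by simp only [M]; field_simp; exact div_self (Real.exp_pos _).ne']
    linarith
  have hev : ∀ᶠ n : ℕ in atTop, 8 * t ≤ n ∧ 0 < n ∧ E * (M * P n) < τ / 4 ∧
      (noise (k + 1) n).real {ω | ¬ Hist β shift s k e n ω} < τ / 4 := by
    have hP' : Tendsto (fun n => E * (M * P n)) atTop (𝓝 0) := by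
      simpa using (hP.const_mul M).const_mul E
    filter_upwards [tendsto_natCast_atTop_atTop.eventually_ge_atTop (8 * t), eventually_gt_atTop 0,
      hP'.eventually (gt_mem_nhds (by positivity : (0:ℝ) < τ / 4)),
      hH.eventually (gt_mem_nhds (by positivity : (0:ℝ) < τ / 4))] with n h1 h2 h3 h4
    exact ⟨h1, h2, h3, h4⟩
  obtain ⟨n₀, hn₀⟩ := eventually_atTop.1 hev
  refine ⟨n₀, fun n hn => ?_⟩
  obtain ⟨h1, h2, h3, h4⟩ := hn₀ n hn
  rw [Real.dist_eq, sub_zero, abs_of_nonneg measureReal_nonneg]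
  refine lt_of_le_of_lt (prob_le_of_section (β := β) (shift := shift) (s := s) (k := k) _
    (measurableSet_netEvent β shift s k κ ε1 η' (N n)) {ω | Hist β shift s k e n ω}
    (b := Real.exp (-(t * (η0 / 4))) + E * (M * P n + Real.exp (8 * t) / M))
    (by have := hP0 n; positivity) fun ω hω => ?_) ?_
  · refine section_le hβ0 hβ1 hc hs0 hs1 hk hδ hη0 hε hε1 hΛ hΛg hΛ1 hloss hm0 hm hC hη' hη'1 hsm hκ h2 hω
      (N n) (hN n) ht hM h1 ?_
    refine hV (testFam β shift s k n ω) (cD β shift s k n ω) _ e he hsm.e1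
      (fun j => (fam_bound hsm.e1 hω j).trans (le_abs_self _)) (fun i => ?_) h2
    rw [abs_of_nonneg (cD_mem ω i).1]; exact (cD_mem ω i).2
  · rw [Set.compl_ofPred, mul_add]
    linarith

end

/-- The margin away from the degenerate parameters, from the reduction to nets. -/
theorem interior_of_net (hnet : NetStatement) : InteriorStatement := by
  intro β hβ0 hβ1
  set δ := (1 - β ^ 2) / 2
  set η0 := δ * (1 - β ^ 2 / (1 - δ))
  have hb2 : β ^ 2 < 1 := by nlinarith
  have hδ0 : 0 < δ := by simp only [δ]; linarith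
  have hδ2 : δ ≤ 1 / 2 := by simp only [δ]; linarith [sq_nonneg β]
  have hq : β ^ 2 / (1 - δ) < 1 := by
    rw [div_lt_one (by linarith)]; simp only [δ]; linarith
  have hη0 : 0 < η0 := mul_pos hδ0 (by linarith)
  have hη01 : η0 ≤ 1 := mul_le_one₀ (by linarith) (by linarith)
    (by linarith [div_nonneg (sq_nonneg β) (show (0:ℝ) ≤ 1 - δ by linarith)])
  refine ⟨η0 / 8, by linarith, by linarith, fun shift hc => ?_⟩
  obtain ⟨ε, σ, hε, hσ, hloss⟩ := loss hβ0.le hβ1 hc hδ0.le hδ2 (show 0 < η0 / 8 by linarith)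
  set Γ := (shift + 3) / (1 - β ^ 2)
  have hΓ : 0 < Γ := div_pos (by linarith) (by linarith)
  obtain ⟨gl, hgl, hglow⟩ := gS_lower Γ
  set Λ := max 1 (max (16 / ε) (2 / gl))
  have hΛ1 : (1:ℝ) ≤ Λ := le_max_left _ _
  set Q := Real.sqrt (quartCap Λ)
  have hQ : 0 ≤ Q := Real.sqrt_nonneg _
  set ε1 := min 1 (η0 / (96 * Q + 1))
  have hε1 : 0 < ε1 := lt_min one_pos (by positivity)
  have hε1Q : 12 * ε1 * Q ≤ η0 / 8 := by
    have h1 : ε1 ≤ η0 / (96 * Q + 1) := min_le_right _ _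
    rw [le_div_iff₀ (by positivity)] at h1
    nlinarith
  set ρ := min (ε1 ^ 4 / 4) ((η0 / 120) ^ 2)
  have hρ : 0 < ρ := lt_min (by positivity) (by positivity)
  have hρs : 12 * Real.sqrt ρ ≤ η0 / 10 := by
    have := Real.sqrt_le_sqrt (min_le_right (ε1 ^ 4 / 4) ((η0 / 120) ^ 2))
    rw [Real.sqrt_sq (by positivity)] at this
    linarith
  have hρκ : 4 * ρ / ε1 ^ 2 ≤ ε1 ^ 2 := by
    rw [div_le_iff₀ (pow_pos hε1 2), ← pow_add]
    norm_num
    linarith [min_le_left (ε1 ^ 4 / 4) ((η0 / 120) ^ 2)]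
  refine ⟨ρ, hρ, ?_⟩
  have hx : Tendsto (fun k : ℕ => (β ^ 2) ^ (k - 1) * Γ) atTop (𝓝 0) := by
    simpa using ((tendsto_pow_atTop_nhds_zero_of_lt_one (sq_nonneg β) hb2).comp (tendsto_sub_atTop_nat 1)).mul_const Γ
  have hr : Tendsto (fun k : ℕ => Real.sqrt ((β ^ 2) ^ (k - 1) * Γ)) atTop (𝓝 0) := by
    simpa [Function.comp_def] using (Real.continuous_sqrt.tendsto 0).comp hx
  obtain ⟨k₀, hk₀⟩ := eventually_atTop.1 ((hr.eventually (gt_mem_nhds one_pos)).and
    (((hr.pow 2).const_mul 2).eventually (gt_mem_nhds (by simpa using hσ)) |>.and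
      ((hr.const_mul (20 * Λ)).eventually (gt_mem_nhds (show 20 * Λ * 0 < η0 / 8 by linarith)))))
  refine ⟨k₀ + 1, fun k hk s hs => ?_⟩
  have hk' : k ≠ 0 := by omega
  obtain ⟨hk1, hk2, hk3⟩ := hk₀ k (by omega)
  obtain ⟨hs0, hs1⟩ := hs
  obtain ⟨m, hm0, hm⟩ : ∃ m : ℝ, 0 < m ∧ ∀ x : Fin (k + 1), m ≤ MinEigCore.nb (parOf β shift s k) x := by
    obtain ⟨x, -, hx⟩ := Finset.exists_min_image Finset.univ
      (fun x : Fin (k + 1) => MinEigCore.nb (parOf β shift s k) x) Finset.univ_nonempty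
    exact ⟨_, nb_pos hβ0 hβ1 hc hs0 hs1 hk' (Nat.lt_succ_iff.1 x.2), fun y => hx y (Finset.mem_univ y)⟩
  set C := Real.sqrt ((k + 1) * (2 / m))
  set X := (β ^ 2) ^ (k - 1) * Γ
  have lim : ∀ (f : ℝ → ℝ), Continuous f → ∀ b, f 0 < b → ∀ᶠ e in 𝓝[>] (0:ℝ), f e ≤ b := fun f hf b hb =>
    ((hf.tendsto 0).eventually (gt_mem_nhds hb) |>.filter_mono nhdsWithin_le_nhds).mono fun e he => he.le
  have hX0 : 0 ≤ X := by positivity
  obtain ⟨e, he0, hsm⟩ : ∃ e : ℝ, 0 < e ∧ Small β shift s k η0 σ Λ ε1 C m e := by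
    have h : ∀ᶠ e in 𝓝[>] (0:ℝ), Small β shift s k η0 σ Λ ε1 C m e := by
      filter_upwards [self_mem_nhdsWithin, lim id continuous_id 1 one_pos,
        lim (fun e => e * (k + 1)) (by fun_prop) (m / 2) (by simp; linarith),
        lim (fun e => e * C) (by fun_prop) 1 (by simp), lim (fun e => e * C ^ 2) (by fun_prop) 1 (by simp),
        lim (fun e => e * C ^ 4) (by fun_prop) 1 (by simp),
        lim (fun e => Real.sqrt (X + e) + 2 * e * C) (by fun_prop) 1 (by simpa using hk1),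
        lim (fun e => 2 * (Real.sqrt (X + e) + 2 * e * C) ^ 2 + 2 * e) (by fun_prop) σ (by simpa using hk2),
        lim (fun e => η0 / 8 + 2 * (6 * ε1 * Q + 2 * (e * C ^ 2)) + 20 * Λ * Real.sqrt (X + e)
          + 200 * (2 * e) * (C + Λ) ^ 2) (by fun_prop) (η0 / 2) (by
            simp only [zero_mul, mul_zero, add_zero]; linarith)] with e h0 h1 h2 h3 h4 h5 h6 h7 h8
      exact ⟨le_of_lt h0, h1, h2, h3, h4, h5, h6, h7, h8⟩
    exact (eventually_mem_nhdsWithin.and h).exists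
  have hgam : gamSE β shift s k ∈ Set.Icc 0 Γ :=
    ⟨gamSE_nonneg hc ⟨hs0.le, hs1.le⟩ k, (gamSE_le hβ0.le hβ1 hc ⟨hs0.le, hs1.le⟩ k).trans
      (mul_le_of_le_one_right hΓ.le hs1.le)⟩
  have hΛg : 2 / gS (gamSE β shift s k) ≤ Λ :=
    ((div_le_div_of_nonneg_left two_pos.le hgl (hglow _ hgam)).trans (le_max_right _ _)).trans (le_max_right _ _)
  refine ⟨?_, fun τ hτ => ?_⟩
  · exact hnet β shift s hβ0 hβ1 hc hs0 hs1 k hk' (η0 / 8) (η0 / 4) ρ ε1 (by linarith) hρ hε1 (by linarith)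
      fun N hN => nets_good hβ0 hβ1 hc hs0 hs1 hk' rfl rfl hη0 hε hε1 ((le_max_left _ _).trans (le_max_right _ _))
        hΛg hΛ1 (hloss s hs0 hs1 k) hm0 hm le_rfl le_rfl (by change η0 / 4 ≤ 1; linarith) hsm he0 hρκ N hN
  · refine squeeze_zero' (Eventually.of_forall fun _ => measureReal_nonneg)
      (Eventually.of_forall fun n => measureReal_mono fun p hp => ?_) (generic_ov hβ0 hβ1 hc hs0 hs1 k hτ)
    simp only [Set.mem_ofPred_eq] at hp ⊢
    refine lt_of_lt_of_le ?_ (le_abs_self _)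
    rw [lt_sub_iff_add_lt, add_comm]
    exact hp

end Vale.Agent.P150.High.MinEigHalf
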