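import Vale.Agent.P150.High.MinEigHalfSpec
import Vale.Agent.P150.High.AmpLimit

/-!
# P150, all `β < 1`: the margin from finitely many test vectors

A failure of the margin near the centre gives a bad vector for the form with the profile `capD` and the
centre with the diagonal kept; that form is Lipschitz on the sphere uniformly in `n`.
-/

open MeasureTheory ProbabilityTheory Filter Matrix
open scoped Topology

namespace Vale.Agent.P150.High.MinEigNet

open Vale.Agent.P150 Vale.Agent.P150.High.Amp MinEigCore Vale.Agent.P150.Fast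
open Vale.Agent.P150.PartB (nrm)

variable {n : ℕ}

lemma abs_dot_le (u v : Fin n → ℝ) : |∑ i, u i * v i| ≤ nrm u * nrm v := OpNorm.abs_dot_le u v

lemma nrm_of_box {v : Fin n → ℝ} (h : ∀ i, |v i| ≤ 1) : nrm v ≤ Real.sqrt n :=
  (AmpLip.nrm_le_const zero_le_one h).trans_eq (one_mul _)

lemma ip_eq (x y : Fin n → ℝ) : MinEigCore.ip x y = (∑ i, x i * y i) / n := rfl

/-- `|u|² - |v|²` for close vectors -/
lemma sq_diff_le (u v : Fin n → ℝ) :
    |∑ i, u i ^ 2 - ∑ i, v i ^ 2| ≤ nrm (fun i => u i - v i) * (nrm u + nrm v) := by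
  have e : ∑ i, u i ^ 2 - ∑ i, v i ^ 2 = ∑ i, (u i - v i) * (u + v) i := by
    rw [← Finset.sum_sub_distrib]; exact Finset.sum_congr rfl fun i _ => by simp only [Pi.add_apply]; ring
  rw [e]
  exact (abs_dot_le _ _).trans (mul_le_mul_of_nonneg_left (AmpLip.nrm_add u v) (AmpLip.nrm_nonneg _))

lemma capD_pos {ε : ℝ} (hε : 0 < ε) {a : Fin n → ℝ} (ha : ∀ i, |a i| ≤ 1) (B : Finset (Fin n)) (i : Fin n) :
    min 1 (2 * ε) ≤ capD ε a B i ∧ 0 < capD ε a B i := by
  have h0 : 0 < min 1 (2 * ε) := lt_min one_pos (by positivity)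
  suffices min 1 (2 * ε) ≤ capD ε a B i from ⟨this, h0.trans_le this⟩
  unfold capD
  split_ifs
  · exact min_le_left _ _
  · exact min_le_min le_rfl (by linarith [(sq_le_one_iff_abs_le_one (a i)).2 (ha i)])

lemma profile_le_cap {ε : ℝ} {a m : Fin n → ℝ} (ha : ∀ i, |a i| ≤ 1) (i : Fin n) :
    profileOf m i ≤ capD ε a (Finset.univ.filter fun j => ε < |m j - a j|) i := by
  unfold capD profileOf
  split_ifs with h
  · linarith [sq_nonneg (m i)]
  · simp only [Finset.mem_filter, Finset.mem_univ, true_and, not_lt] at h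
    refine le_min (by linarith [sq_nonneg (m i)]) ?_
    have h1 : |a i * (m i - a i)| ≤ 1 * ε := by
      rw [abs_mul]; exact mul_le_mul (ha i) h (abs_nonneg _) zero_le_one
    nlinarith [(abs_le.1 h1).1, sq_nonneg (m i - a i)]

lemma card_far {ε : ℝ} (hε : 0 < ε) (a m : Fin n → ℝ) {R : ℝ} (h : ∑ i, (m i - a i) ^ 2 ≤ R) :
    ((Finset.univ.filter fun j => ε < |m j - a j|).card : ℝ) ≤ R / ε ^ 2 := by
  rw [le_div_iff₀ (by positivity), ← nsmul_eq_mul]
  refine le_trans (Finset.card_nsmul_le_sum _ (fun i => (m i - a i) ^ 2) _ fun i hi => ?_)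
    ((Finset.sum_le_sum_of_subset_of_nonneg (Finset.filter_subset _ _) fun i _ _ => sq_nonneg _).trans h)
  rw [Finset.mem_filter] at hi
  rw [← sq_abs (m i - a i)]
  exact pow_le_pow_left₀ hε.le hi.2.le 2

lemma formQ_smul (β s g c : ℝ) (J : Fin n → Fin n → ℝ) (a D x : Fin n → ℝ) :
    formQ β s g J a D (c • x) = c ^ 2 * formQ β s g J a D x := by
  have e : (c • x) / D = c • (x / D) := by
    funext i; simp only [Pi.div_apply, Pi.smul_apply, smul_eq_mul]; ring
  unfold formQ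
  rw [e, mulVec_smul]
  simp only [ip_smul, ip_smul']
  ring

/-- the form is Lipschitz on the sphere -/
lemma formQ_lip {β s g ε Λ δ : ℝ} (hn : 0 < n) (hβ : β ^ 2 ≤ 1) (hs : s ∈ Set.Icc (0:ℝ) 1) (hε : 0 < ε)
    (hδ : 0 ≤ δ) {J : Fin n → Fin n → ℝ} (hJ : OpNorm.OpLe (Matrix.of J) Λ) {a : Fin n → ℝ} (ha : ∀ i, |a i| ≤ 1)
    (B : Finset (Fin n)) {u v : Fin n → ℝ} (hu : MinEigCore.ip u u = 1) (hv : MinEigCore.ip v v = 1)
    (huv : MinEigCore.ip (u - v) (u - v) ≤ δ ^ 2) :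
    formQ β s g J a (capD ε a B) u ≤
      formQ β s g J a (capD ε a B) v + (2 / min 1 (2 * ε) + 2 * Λ + 4) * δ := by
  have hn' : (0:ℝ) < n := by exact_mod_cast hn
  have hnrm : ∀ x : Fin n → ℝ, ∀ R : ℝ, 0 ≤ R → MinEigCore.ip x x ≤ R ^ 2 → nrm x ≤ R * Real.sqrt n := by
    intro x R hR h
    rw [ip_eq, div_le_iff₀ hn'] at h
    rw [PartB.nrm, ← Real.sqrt_sq hR, ← Real.sqrt_mul (sq_nonneg R)]
    exact Real.sqrt_le_sqrt (by simpa [sq] using h)
  have hs2 := Real.mul_self_sqrt hn'.le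
  set D := capD ε a B
  set e₀ := min 1 (2 * ε)
  have he₀ : 0 < e₀ := lt_min one_pos (by positivity)
  set w := u - v
  have hw := hnrm w δ hδ huv
  have hu1 := hnrm u 1 zero_le_one (by rw [hu]; norm_num)
  have hv1 := hnrm v 1 zero_le_one (by rw [hv]; norm_num)
  rw [one_mul] at hu1 hv1
  have huv2 : nrm (u + v) ≤ 2 * Real.sqrt n := (AmpLip.nrm_add _ _).trans (by linarith)
  have t1 : |MinEigCore.ip u (u / D) - MinEigCore.ip v (v / D)| ≤ 2 / e₀ * δ := by
    rw [ip_eq, ip_eq, ← sub_div, abs_div, abs_of_pos hn', div_le_iff₀ hn', ← Finset.sum_sub_distrib]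
    have e : ∀ i, u i * (u / D) i - v i * (v / D) i = w i * ((u + v) i / D i) := fun i => by
      simp only [w, Pi.div_apply, Pi.sub_apply, Pi.add_apply]; ring
    rw [Finset.sum_congr rfl fun i _ => e i]
    refine (abs_dot_le _ _).trans ?_
    have h1 : nrm (fun i => (u + v) i / D i) ≤ nrm ((1 / e₀) • (u + v)) := AmpLip.nrm_mono fun i => by
      rw [Pi.smul_apply, smul_eq_mul, abs_div, abs_mul, abs_of_pos (one_div_pos.2 he₀), one_div, inv_mul_eq_div,
        abs_of_pos (capD_pos hε ha B i).2]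
      exact div_le_div_of_nonneg_left (abs_nonneg _) he₀ (capD_pos hε ha B i).1
    rw [AmpLip.nrm_smul, abs_of_pos (one_div_pos.2 he₀)] at h1
    refine (mul_le_mul hw (h1.trans (mul_le_mul_of_nonneg_left huv2 (by positivity))) (AmpLip.nrm_nonneg _)
      (by positivity)).trans (le_of_eq ?_)
    linear_combination (2 / e₀ * δ) * hs2
  have t2 : |MinEigCore.ip u (Matrix.of J *ᵥ u) - MinEigCore.ip v (Matrix.of J *ᵥ v)| ≤ 2 * Λ * δ := by
    rw [ip_eq, ip_eq, ← sub_div, abs_div, abs_of_pos hn', div_le_iff₀ hn']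
    have e : ∑ i, u i * (Matrix.of J *ᵥ u) i - ∑ i, v i * (Matrix.of J *ᵥ v) i =
        w ⬝ᵥ (Matrix.of J *ᵥ u) + v ⬝ᵥ (Matrix.of J *ᵥ w) := by
      show u ⬝ᵥ (Matrix.of J *ᵥ u) - v ⬝ᵥ (Matrix.of J *ᵥ v) = _
      simp only [w, sub_dotProduct, mulVec_sub, dotProduct_sub]; ring
    rw [e]
    refine (abs_add_le _ _).trans ((add_le_add (hJ.bilin w u) (hJ.bilin v w)).trans ?_)
    rw [← OpNorm.nrm_eq, ← OpNorm.nrm_eq, ← OpNorm.nrm_eq]
    have a1 := mul_le_mul hw hu1 (AmpLip.nrm_nonneg _) (by positivity)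
    have a2 := mul_le_mul hv1 hw (AmpLip.nrm_nonneg _) (by positivity)
    linear_combination mul_le_mul_of_nonneg_left a1 hJ.1 + mul_le_mul_of_nonneg_left a2 hJ.1 + (2 * Λ * δ) * hs2
  have t3 : |MinEigCore.ip a u ^ 2 - MinEigCore.ip a v ^ 2| ≤ 2 * δ := by
    have ha1 := nrm_of_box ha
    rw [sq_sub_sq, ← ip_add', abs_mul]
    have b1 : |MinEigCore.ip a (u + v)| ≤ 2 := by
      rw [ip_eq, abs_div, abs_of_pos hn', div_le_iff₀ hn']
      refine (abs_dot_le _ _).trans ((mul_le_mul ha1 huv2 (AmpLip.nrm_nonneg _) (Real.sqrt_nonneg _)).trans_eq ?_)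
      linear_combination 2 * hs2
    have b2 : |MinEigCore.ip a u - MinEigCore.ip a v| ≤ δ := by
      rw [ip_eq, ip_eq, ← sub_div, abs_div, abs_of_pos hn', div_le_iff₀ hn', ← Finset.sum_sub_distrib]
      simp only [← mul_sub]
      refine (abs_dot_le a w).trans ((mul_le_mul ha1 hw (AmpLip.nrm_nonneg _) (Real.sqrt_nonneg _)).trans_eq ?_)
      linear_combination δ * hs2
    exact mul_le_mul b1 b2 (abs_nonneg _) zero_le_two
  have hu0 : 0 ≤ 1 - s ∧ 1 - s ≤ 1 := ⟨by linarith [hs.2], by linarith [hs.1]⟩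
  have hb : β ^ 2 * (1 - s) ^ 2 ≤ 1 := mul_le_one₀ hβ (sq_nonneg _) (pow_le_one₀ hu0.1 hu0.2)
  have c2 : (1 - s) * (MinEigCore.ip v (Matrix.of J *ᵥ v) - MinEigCore.ip u (Matrix.of J *ᵥ u)) ≤ 2 * Λ * δ := by
    refine (mul_le_mul_of_nonneg_left ((le_abs_self _).trans ((abs_sub_comm _ _).trans_le t2)) hu0.1).trans ?_
    exact mul_le_of_le_one_left (mul_nonneg (mul_nonneg zero_le_two hJ.1) hδ) hu0.2
  have c3 : β ^ 2 * (1 - s) ^ 2 * (MinEigCore.ip a v ^ 2 - MinEigCore.ip a u ^ 2) ≤ 2 * δ := by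
    refine (mul_le_mul_of_nonneg_left ((le_abs_self _).trans ((abs_sub_comm _ _).trans_le t3)) (by positivity)).trans ?_
    exact mul_le_of_le_one_left (by linarith) hb
  simp only [formQ, hu, hv]
  linarith [(abs_le.1 t1).2]

/-- a failure of the margin gives a bad unit vector for the form -/
lemma bad_vector {β s η ε r Δ τ qk : ℝ} (hn : 0 < n) (hβ : β ^ 2 ≤ 1) (hs : s ∈ Set.Icc (0:ℝ) 1) (hε : 0 < ε)
    (hr : 0 ≤ r) (hΔ : 0 ≤ Δ) {J J' : Fin n → Fin n → ℝ} {a a' m w : Fin n → ℝ}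
    (hJ : OpNorm.OpLe (Matrix.of J' - Matrix.of J) Δ) (ha : ∀ i, |a i| ≤ 1) (ha' : ∀ i, |a' i| ≤ 1)
    (hm : ∀ i, |m i| ≤ 1) (hma : ∑ i, (m i - a i) ^ 2 ≤ r ^ 2 * n)
    (haa : nrm (fun i => a i - a' i) ≤ Δ * Real.sqrt n) (hov : |(∑ i, a i ^ 2) / n - qk| ≤ τ)
    (hbad : ∑ j, profileOf m j * w j ^ 2
        + β ^ 2 * (1 - s) ^ 2 * (1 - (∑ j, m j ^ 2) / n) * ∑ j, (profileOf m j * w j) ^ 2
        - (1 - s) * ∑ j, ∑ k, profileOf m j * w j * J j k * (profileOf m k * w k)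
        - 2 * β ^ 2 * (1 - s) ^ 2 / n * (∑ j, m j * (profileOf m j * w j)) ^ 2 <
      η * ∑ j, (profileOf m j * w j) ^ 2) :
    ∃ B : Finset (Fin n), (B.card : ℝ) ≤ (r + Δ) ^ 2 * n / ε ^ 2 ∧ ∃ v : Fin n → ℝ, MinEigCore.ip v v = 1 ∧
      formQ β s (1 - qk) J' a' (capD ε a' B) v ≤ η + 6 * r + 5 * Δ + τ := by
  have hn' : (0:ℝ) < n := by exact_mod_cast hn
  have hs2 := Real.mul_self_sqrt hn'.le
  set x := fun j => profileOf m j * w j
  set X := ∑ j, x j ^ 2
  have hXe : ∑ j, (profileOf m j * w j) ^ 2 = X := rfl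
  have hprof : ∀ i, 0 ≤ profileOf m i := fun i => by
    unfold profileOf; linarith [(sq_le_one_iff_abs_le_one (m i)).2 (hm i)]
  have hX0 : 0 ≤ X := Finset.sum_nonneg fun j _ => sq_nonneg _
  have hX : 0 < X := by
    refine hX0.lt_of_ne fun h => ?_
    have hx : ∀ j, profileOf m j * w j = 0 := fun j =>
      sq_eq_zero_iff.1 ((Finset.sum_eq_zero_iff_of_nonneg fun j _ => sq_nonneg (x j)).1 h.symm j (Finset.mem_univ j))
    have : 0 ≤ ∑ j, profileOf m j * w j ^ 2 := Finset.sum_nonneg fun j _ => mul_nonneg (hprof j) (sq_nonneg _)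
    simp only [hx, zero_mul, mul_zero, Finset.sum_const_zero, ne_eq, OfNat.ofNat_ne_zero, not_false_eq_true,
      zero_pow, sub_zero] at hbad
    rw [← h, mul_zero, mul_zero, add_zero] at hbad
    linarith
  have hma' : nrm (fun i => m i - a i) ≤ r * Real.sqrt n := by
    rw [PartB.nrm, ← Real.sqrt_sq hr, ← Real.sqrt_mul (sq_nonneg r)]; exact Real.sqrt_le_sqrt hma
  have hmb : nrm (fun i => m i - a' i) ≤ (r + Δ) * Real.sqrt n := by
    rw [show (fun i => m i - a' i) = (fun i => m i - a i) + fun i => a i - a' i by funext i; simp]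
    exact (AmpLip.nrm_add _ _).trans (by linarith)
  refine ⟨Finset.univ.filter fun j => ε < |m j - a' j|, card_far hε a' m ?_, ?_⟩
  · have h := pow_le_pow_left₀ (AmpLip.nrm_nonneg _) hmb 2
    rwa [PartB.nrm, Real.sq_sqrt (Finset.sum_nonneg fun i _ => sq_nonneg _), mul_pow, Real.sq_sqrt hn'.le] at h
  set B := Finset.univ.filter fun j => ε < |m j - a' j|
  set D := capD ε a' B
  -- the diagonal part
  have t1 : ∑ j, x j * (x j / D j) ≤ ∑ j, profileOf m j * w j ^ 2 := by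
    refine Finset.sum_le_sum fun j _ => ?_
    rw [← mul_div_assoc, div_le_iff₀ (capD_pos hε ha' B j).2]
    calc x j * x j = profileOf m j * w j ^ 2 * profileOf m j := by simp only [x]; ring
      _ ≤ _ := mul_le_mul_of_nonneg_left (profile_le_cap ha' j) (mul_nonneg (hprof j) (sq_nonneg _))
  -- the overlap
  have t2 : (1 - qk) * X ≤ (1 - (∑ j, m j ^ 2) / n) * X + (2 * r + τ) * X := by
    rw [← add_mul]
    refine mul_le_mul_of_nonneg_right ?_ hX0
    have h := (sq_diff_le m a).trans (mul_le_mul hma' (add_le_add (nrm_of_box hm) (nrm_of_box ha))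
      (add_nonneg (AmpLip.nrm_nonneg _) (AmpLip.nrm_nonneg _)) (by positivity))
    have h' : (∑ j, m j ^ 2) / n - (∑ j, a j ^ 2) / n ≤ 2 * r := by
      rw [← sub_div, div_le_iff₀ hn']
      nlinarith [(abs_le.1 h).2]
    linarith [(abs_le.1 hov).2]
  -- the couplings
  have t3 : |x ⬝ᵥ ((Matrix.of J' - Matrix.of J) *ᵥ x)| ≤ Δ * X := hJ.quad x
  have e3 : x ⬝ᵥ ((Matrix.of J' - Matrix.of J) *ᵥ x) =
      x ⬝ᵥ (Matrix.of J' *ᵥ x) - ∑ j, ∑ k, x j * J j k * x k := by
    rw [sub_mulVec, dotProduct_sub]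
    congr 1
    simp only [dotProduct, mulVec, of_apply, Finset.mul_sum]
    exact Finset.sum_congr rfl fun j _ => Finset.sum_congr rfl fun k _ => by ring
  rw [e3] at t3
  -- the spike
  have t4 : (∑ j, m j * x j) ^ 2 / n - (∑ j, a' j * x j) ^ 2 / n ≤ 2 * (r + Δ) * X := by
    rw [← sub_div, div_le_iff₀ hn', sq_sub_sq, ← Finset.sum_add_distrib, ← Finset.sum_sub_distrib]
    simp only [← add_mul, ← sub_mul]
    refine (le_abs_self _).trans ?_
    rw [abs_mul]
    have hxn : nrm x = Real.sqrt X := rfl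
    have b1 : |∑ j, (m j + a' j) * x j| ≤ 2 * Real.sqrt n * Real.sqrt X := by
      refine (abs_dot_le (m + a') x).trans (mul_le_mul_of_nonneg_right ?_ (AmpLip.nrm_nonneg _))
      exact (AmpLip.nrm_add _ _).trans (by linarith [nrm_of_box hm, nrm_of_box ha'])
    have b2 : |∑ j, (m j - a' j) * x j| ≤ (r + Δ) * Real.sqrt n * Real.sqrt X :=
      (abs_dot_le (fun j => m j - a' j) x).trans (mul_le_mul_of_nonneg_right hmb (AmpLip.nrm_nonneg _))
    refine (mul_le_mul b1 b2 (abs_nonneg _) (by positivity)).trans (le_of_eq ?_)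
    linear_combination (2 * (r + Δ) * (Real.sqrt n * Real.sqrt n)) * Real.mul_self_sqrt hX0 +
      (2 * (r + Δ) * X) * hs2
  have hu0 : 0 ≤ 1 - s ∧ 1 - s ≤ 1 := ⟨by linarith [hs.2], by linarith [hs.1]⟩
  have hb : β ^ 2 * (1 - s) ^ 2 ≤ 1 := mul_le_one₀ hβ (sq_nonneg _) (pow_le_one₀ hu0.1 hu0.2)
  have hb0 : 0 ≤ β ^ 2 * (1 - s) ^ 2 := by positivity
  have hτ : 0 ≤ τ := (abs_nonneg _).trans hov
  have u2 := mul_le_mul_of_nonneg_left t2 hb0
  have u2' : β ^ 2 * (1 - s) ^ 2 * ((2 * r + τ) * X) ≤ (2 * r + τ) * X :=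
    mul_le_of_le_one_left (by positivity) hb
  have u3 : (1 - s) * ((∑ j, ∑ k, x j * J j k * x k) - x ⬝ᵥ (Matrix.of J' *ᵥ x)) ≤ Δ * X := by
    refine (mul_le_mul_of_nonneg_left ((le_abs_self _).trans ((abs_sub_comm _ _).trans_le t3)) hu0.1).trans ?_
    exact mul_le_of_le_one_left (by positivity) hu0.2
  have u4 : β ^ 2 * (1 - s) ^ 2 * ((∑ j, m j * x j) ^ 2 / n - (∑ j, a' j * x j) ^ 2 / n) ≤ 2 * (r + Δ) * X :=
    (mul_le_mul_of_nonneg_left t4 hb0).trans (mul_le_of_le_one_left (by positivity) hb)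
  have key : n * formQ β s (1 - qk) J' a' D x ≤ (η + 6 * r + 5 * Δ + τ) * X := by
    have e : n * formQ β s (1 - qk) J' a' D x = ∑ j, x j * (x j / D j) + β ^ 2 * (1 - s) ^ 2 * ((1 - qk) * X) -
        (1 - s) * (x ⬝ᵥ (Matrix.of J' *ᵥ x)) - 2 * (β ^ 2 * (1 - s) ^ 2) * ((∑ j, a' j * x j) ^ 2 / n) := by
      simp only [formQ, ip_eq, Pi.div_apply, dotProduct]
      rw [show ∑ i, x i * x i = X from Finset.sum_congr rfl fun i _ => by ring]
      field_simp
    rw [e]
    linear_combination hbad.le + t1 + u2 + u2' + u3 + 2 * u4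
  refine ⟨(Real.sqrt n / Real.sqrt X) • x, ?_, ?_⟩
  · rw [ip_smul, ip_smul', ip_eq, show ∑ i, x i * x i = X from Finset.sum_congr rfl fun i _ => by ring, ← mul_assoc,
      div_mul_div_comm, hs2, Real.mul_self_sqrt hX0]
    field_simp
  · rw [formQ_smul, div_pow, Real.sq_sqrt hn'.le, Real.sq_sqrt hX0, div_mul_eq_mul_div, div_le_iff₀ hX]
    exact key

/-- finite nets of the sphere -/
lemma exists_net (n : ℕ) {δ : ℝ} (hδ : 0 < δ) :
    ∃ N : Finset (Fin n → ℝ), (∀ v ∈ N, MinEigCore.ip v v = 1) ∧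
      ∀ v, MinEigCore.ip v v = 1 → ∃ u ∈ N, MinEigCore.ip (u - v) (u - v) ≤ δ ^ 2 := by
  classical
  set S := {v : Fin n → ℝ | MinEigCore.ip v v = 1}
  have hc : Continuous fun v : Fin n → ℝ => MinEigCore.ip v v := by
    simp only [MinEigCore.ip, dot]; fun_prop
  have hS : IsCompact S := by
    refine Metric.isCompact_of_isClosed_isBounded (isClosed_eq hc continuous_const)
      ((Metric.isBounded_closedBall (x := (0 : Fin n → ℝ)) (r := Real.sqrt n)).subset fun v hv => ?_)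
    rw [mem_closedBall_zero_iff, pi_norm_le_iff_of_nonneg (Real.sqrt_nonneg _)]
    intro i
    have hne : (n:ℝ) ≠ 0 := by exact_mod_cast (i.pos.ne' : n ≠ 0)
    have hv' : ∑ j, v j * v j = n := (div_eq_one_iff_eq hne).1 hv
    rw [Real.norm_eq_abs]
    refine Real.abs_le_sqrt (hv' ▸ ?_)
    rw [sq]
    exact Finset.single_le_sum (f := fun j => v j * v j) (fun j _ => mul_self_nonneg _) (Finset.mem_univ i)
  obtain ⟨t, ht⟩ := hS.elim_finite_subcover (fun u : S => {v | MinEigCore.ip (u.1 - v) (u.1 - v) < δ ^ 2})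
    (fun u => isOpen_lt (by simp only [MinEigCore.ip, dot]; fun_prop) continuous_const) fun v hv =>
      Set.mem_iUnion.2 ⟨⟨v, hv⟩, by simp [MinEigCore.ip, dot, pow_pos hδ]⟩
  refine ⟨t.image Subtype.val, fun v hv => ?_, fun v hv => ?_⟩
  · obtain ⟨u, -, rfl⟩ := Finset.mem_image.1 hv; exact u.2
  · obtain ⟨u, hut, hu⟩ : ∃ u ∈ t, v ∈ {v | MinEigCore.ip (u.1 - v) (u.1 - v) < δ ^ 2} := by
      simpa using ht hv
    exact ⟨u, Finset.mem_image_of_mem _ hut, le_of_lt hu⟩

/-- an open enlargement of the failure of the margin -/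
def failSet (β shift s : ℝ) (k : ℕ) (η r : ℝ) : Set ((Edge n → ℝ) × (Fin n → ℝ)) :=
  {p | ∃ m w : Fin n → ℝ, (∀ i, |m i| ≤ 1) ∧ ∑ i, (m i - prodCentre β shift s p.1 p.2 k i) ^ 2 < r ^ 2 * n ∧
    ∑ j, profileOf m j * w j ^ 2
        + β ^ 2 * (1 - s) ^ 2 * (1 - (∑ j, m j ^ 2) / n) * ∑ j, (profileOf m j * w j) ^ 2
        - (1 - s) * ∑ j, ∑ l, profileOf m j * w j * tiltCpl β p.1 (prodXi β shift p.2) j l * (profileOf m l * w l)
        - 2 * β ^ 2 * (1 - s) ^ 2 / n * (∑ j, m j * (profileOf m j * w j)) ^ 2 <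
      η * ∑ j, (profileOf m j * w j) ^ 2}

lemma continuous_centre (β shift s : ℝ) (k : ℕ) :
    Continuous fun p : (Edge n → ℝ) × (Fin n → ℝ) => prodCentre β shift s p.1 p.2 k :=
  continuous_pi fun i => PA.continuous_tanh'.comp ((continuous_apply i).comp (continuous_ampAt β shift s k))

lemma continuous_tilt (β shift : ℝ) (i j : Fin n) :
    Continuous fun p : (Edge n → ℝ) × (Fin n → ℝ) => tiltCpl β p.1 (prodXi β shift p.2) i j := by
  unfold tiltCpl cpl coupling prodXi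
  split_ifs <;> fun_prop

lemma isOpen_failSet (β shift s : ℝ) (k : ℕ) (η r : ℝ) : IsOpen (failSet (n := n) β shift s k η r) := by
  simp only [failSet, Set.ofPred_exists]
  refine isOpen_iUnion fun m => isOpen_iUnion fun w => ?_
  simp only [Set.ofPred_and]
  refine isOpen_const.inter ((isOpen_lt ?_ continuous_const).inter (isOpen_lt ?_ continuous_const))
  · exact continuous_finsetSum _ fun i _ =>
      (continuous_const.sub ((continuous_apply i).comp (continuous_centre β shift s k))).pow 2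
  · refine (continuous_const.sub (continuous_const.mul (continuous_finsetSum _ fun j _ =>
      continuous_finsetSum _ fun l _ => ?_))).sub continuous_const
    exact (continuous_const.mul (continuous_tilt β shift j l)).mul continuous_const

end MinEigNet

open MinEigNet Vale.Agent.P150.High.Amp Vale.Agent.P150.Fast

/-- **Reduction to a net.** -/
theorem netStatement : NetStatement := by
  intro β c s hβ hβ1 hc hs0 hs1 k _ η η' ρ ε _ hρ hε hgap hN
  have hb : |β| ≤ 1 := (abs_of_pos hβ).le.trans hβ1.le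
  have hI : s ∈ Set.Icc (0:ℝ) 1 := ⟨hs0.le, hs1.le⟩
  have hb2 : β ^ 2 ≤ 1 := (sq_le_one_iff_abs_le_one β).2 hb
  obtain ⟨C, hC, hpert⟩ := good_perturb (β := β) hb hc k
  set γ := η' - (η + 12 * Real.sqrt ρ) with hγd
  have hγ : 0 < γ := by linarith
  have hsρ : 0 < Real.sqrt ρ := Real.sqrt_pos.2 hρ
  set e := min (γ / 48) (Real.sqrt ρ / 2)
  have he : 0 < e := lt_min (by positivity) (by positivity)
  set ηd := min (min (γ / 40) (Real.sqrt ρ / 2)) 1 / (C + 1) with hηd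
  have hηd0 : 0 < ηd := by positivity
  have hΔ : (C + 1) * ηd = min (min (γ / 40) (Real.sqrt ρ / 2)) 1 := by rw [hηd]; field_simp
  set Δ := (C + 1) * ηd
  have hΔ0 : 0 < Δ := by positivity
  have hΔ1 : Δ ≤ γ / 40 := hΔ.le.trans ((min_le_left _ _).trans (min_le_left _ _))
  have hΔ2 : Δ ≤ Real.sqrt ρ / 2 := hΔ.le.trans ((min_le_left _ _).trans (min_le_right _ _))
  have hΔ3 : Δ ≤ 1 := hΔ.le.trans (min_le_right _ _)
  set τ := γ / 8
  set Lc := 2 / min 1 (2 * ε) + 2 * 8 + 4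
  have hLc : 0 < Lc := by positivity
  set δ := γ / 4 / Lc with hδd
  have hδ : 0 < δ := by positivity
  have hLδ : Lc * δ = γ / 4 := by rw [hδd]; field_simp
  choose N hN1 hN2 using fun n => exists_net n hδ
  set r := Real.sqrt ρ + e
  have hr : 0 ≤ r := by positivity
  have hlim := ((hN N hN1).add (prob_not_good (β := β) hb hc hηd0)).add
    (generic_ov hβ hβ1 hc hs0 hs1 k (τ := τ) (by positivity))
  simp only [add_zero] at hlim
  refine squeeze_zero' (Eventually.of_forall fun n => measureReal_nonneg) ?_ hlim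
  filter_upwards [eventually_gt_atTop 0] with n hn
  have hn' : (0:ℝ) < n := by exact_mod_cast hn
  have hP : IsProbabilityMeasure (prodLaw n) := by unfold prodLaw; infer_instance
  refine (measureReal_mono (s₂ := failSet β c s k η r) fun p hp => ?_).trans ?_
  · obtain ⟨m, hm, hnm⟩ := hp
    simp only [Margin, not_forall, not_le] at hnm
    obtain ⟨w, hw⟩ := hnm
    refine ⟨m, w, hm.1, hm.2.trans_lt (mul_lt_mul_of_pos_right ?_ hn'), hw⟩
    calc ρ = Real.sqrt ρ ^ 2 := (Real.sq_sqrt hρ.le).symm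
      _ < r ^ 2 := pow_lt_pow_left₀ (lt_add_of_pos_right _ he) hsρ.le two_ne_zero
  have hovm : MeasurableSet {p : (Edge n → ℝ) × (Fin n → ℝ) | τ < |overlapAt β c s k p - qSE (gamSE β c s k)|} :=
    measurableSet_lt measurable_const
      ((continuous_ovOf.comp (continuous_ampAt β c s k)).sub continuous_const).abs.measurable
  rw [← (measurePreserving_lawPoint n).map_eq,
    map_measureReal_apply (measurePreserving_lawPoint n).measurable (isOpen_failSet β c s k η r).measurableSet,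
    map_measureReal_apply (measurePreserving_lawPoint n).measurable hovm]
  refine le_trans (measureReal_mono fun p hp => ?_)
    ((measureReal_union_le _ _).trans (add_le_add (measureReal_union_le _ _) le_rfl))
  by_contra hcon
  simp only [Set.mem_union, Set.mem_preimage, Set.mem_ofPred_eq, not_or, not_not, not_lt] at hcon
  obtain ⟨⟨hnet, hgood⟩, hov⟩ := hcon
  obtain ⟨m, w, hm, hma, hbad⟩ := hp
  have hdiag : OpNorm.OpLe (Matrix.of (fullCpl β p.2 (prodXi β c p.1)) -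
      Matrix.of (tiltCpl β (edgeOf p.2) (prodXi β c p.1))) Δ := by
    rw [tiltCpl_edgeOf β hgood.2.2.1, add_sub_cancel_left]
    refine OpNorm.opLe_diagonal hΔ0.le fun i => (hgood.2.2.2 i).trans ?_
    exact le_mul_of_one_le_left hηd0.le (by linarith)
  have hJ8 : OpNorm.OpLe (Matrix.of (fullCpl β p.2 (prodXi β c p.1))) 8 := by
    have h := (hdiag.add (opLe_tilt hb hgood.1 hgood.2.1)).mono (show Δ + 7 ≤ 8 by linarith)
    rwa [sub_add_cancel] at h
  set a' := fullCentre β c s k p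
  set a := prodCentre β c s (lawPoint p).1 (lawPoint p).2 k
  have ha' : ∀ i, |a' i| ≤ 1 := fun i => (Real.abs_tanh_lt_one _).le
  have ha : ∀ i, |a i| ≤ 1 := fun i => (Real.abs_tanh_lt_one _).le
  have haa : PartB.nrm (fun i => a i - a' i) ≤ Δ * Real.sqrt n := by
    have h1 := hpert n s hI ηd hηd0.le p hgood
    rw [div_le_iff₀ (Real.sqrt_pos.2 hn')] at h1
    refine (AmpLip.nrm_mono (w := fun i => a' i - a i) fun i => (abs_sub_comm _ _).le).trans
      ((AmpLip.nrm_tanh_sub _ _).trans (h1.trans (mul_le_mul_of_nonneg_right ?_ (Real.sqrt_nonneg _))))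
    exact mul_le_mul_of_nonneg_right (by linarith) hηd0.le
  obtain ⟨B, hB, v, hv, hval⟩ := bad_vector (qk := qSE (gamSE β c s k)) hn hb2 hI hε hr hΔ0.le hdiag ha ha' hm
    hma.le haa hov hbad
  obtain ⟨u, huN, huv⟩ := hN2 n v hv
  refine hnet ⟨B, hB.trans ?_, u, huN, ?_⟩
  · rw [mul_div_right_comm]
    refine mul_le_mul_of_nonneg_right (div_le_div_of_nonneg_right ?_ (sq_nonneg _)) hn'.le
    calc (r + Δ) ^ 2 ≤ (2 * Real.sqrt ρ) ^ 2 := by
          refine pow_le_pow_left₀ (by positivity) ?_ 2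
          linarith [min_le_right (γ / 48) (Real.sqrt ρ / 2)]
      _ = 4 * ρ := by rw [mul_pow, Real.sq_sqrt hρ.le]; norm_num
  · have h := formQ_lip (g := 1 - qSE (gamSE β c s k)) hn hb2 hI hε hδ.le hJ8 ha' B (hN1 n u huN) hv huv
    simp only [a'] at h hval
    have : Lc * δ = γ / 4 := hLδ
    simp only [Lc] at this
    simp only [r, τ, e] at hval
    linarith [min_le_left (γ / 48) (Real.sqrt ρ / 2)]

end Vale.Agent.P150.High
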