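import Vale.Agent.P150.High.MinEigBoost
import Vale.Agent.P150.High.MinEigEnds
import Vale.Agent.P150.High.MinEigNet
import Vale.Agent.P150.High.MinEigHalf

/-!
# P150, all `β < 1`: the spectral margin of the TAP Hessian on a ball around the centre

Inside `(0,1) × (0,1)` it is the Slepian bound with the certificate; the ends and the rate follow.
-/

namespace Vale.Agent.P150.High.MinEig

open Vale.Agent.P150

/-- The margin away from the degenerate parameters. -/
theorem interior : InteriorStatement := MinEigHalf.interior_of_net netStatement

/-- The margin, with exponential probability, at every fixed time. -/
theorem margin : MarginStatement := marginBoost (marginEnds interior)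

end Vale.Agent.P150.High.MinEig
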