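import Vale.Agent.P150.High.AmpLip
import Vale.Agent.P150.PA.Scalar

/-!
# P150, all `β < 1`: scalar state evolution

`qSE` is monotone and `1`-Lipschitz, the iterates `gamSE` increase, and their increments decay
geometrically, uniformly in the time.
-/

open MeasureTheory ProbabilityTheory Real

namespace Vale.Agent.P150.High.Amp

open Vale.Agent.P150

lemma qSE_eq_Fq {γ : ℝ} (hγ : 0 ≤ γ) : qSE γ = PA.Fq γ := PA.tanh_sq_eq hγ

lemma qSE_nonneg (γ : ℝ) : 0 ≤ qSE γ := (AmpLip.qSE_mem γ).1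

lemma qSE_le_one (γ : ℝ) : qSE γ ≤ 1 := (AmpLip.qSE_mem γ).2

lemma qSE_zero : qSE 0 = 0 := by simp [qSE]

/-- `q` increases with slope at most one. -/
lemma qSE_sub_mem {a b : ℝ} (ha : 0 ≤ a) (hab : a ≤ b) :
    0 ≤ qSE b - qSE a ∧ qSE b - qSE a ≤ b - a := by
  rw [qSE_eq_Fq (ha.trans hab), qSE_eq_Fq ha]; exact PA.Fq_sub_mem ha hab

theorem qLip : AmpLip.QLip := fun γ γ' h h' => by
  rw [qSE_eq_Fq h, qSE_eq_Fq h']; exact PA.abs_Fq_sub_le h h'

variable {β shift s : ℝ}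

lemma plantVar_pos (hc : 4 ≤ shift) : 0 < plantVar β shift := AmpLip.plantVar_pos hc

/-- `v` is a root of `β² v² - shift v + 1`. -/
lemma plantVar_eq (hβ : |β| ≤ 1) (hc : 4 ≤ shift) :
    β ^ 2 * plantVar β shift ^ 2 - shift * plantVar β shift + 1 = 0 := by
  have hb : β ^ 2 ≤ 1 := (sq_le_one_iff_abs_le_one β).2 hβ
  have h0 : 0 ≤ shift ^ 2 - 4 * β ^ 2 := by nlinarith
  have hr := Real.mul_self_sqrt h0
  have hd : shift + Real.sqrt (shift ^ 2 - 4 * β ^ 2) ≠ 0 := by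
    linarith [Real.sqrt_nonneg (shift ^ 2 - 4 * β ^ 2)]
  unfold plantVar
  generalize Real.sqrt (shift ^ 2 - 4 * β ^ 2) = r at hr hd ⊢
  field_simp
  linear_combination hr

lemma plantVar_le (hc : 4 ≤ shift) : plantVar β shift ≤ 1 / 2 := by
  unfold plantVar
  rw [div_le_iff₀ (by linarith [Real.sqrt_nonneg (shift ^ 2 - 4 * β ^ 2)])]
  linarith [Real.sqrt_nonneg (shift ^ 2 - 4 * β ^ 2)]

/-- `1/v + β² v = shift`. -/
lemma inv_plantVar (hβ : |β| ≤ 1) (hc : 4 ≤ shift) :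
    1 / plantVar β shift + β ^ 2 * plantVar β shift = shift := by
  have := plantVar_pos (β := β) hc
  field_simp
  linear_combination plantVar_eq hβ hc

lemma gamSE_nonneg (hc : 4 ≤ shift) (hs : s ∈ Set.Icc (0 : ℝ) 1) (l : ℕ) :
    0 ≤ gamSE β shift s l := AmpLip.gamSE_nonneg hc hs l

/-- The first increment. -/
lemma gamSE_one_sub (hβ : |β| ≤ 1) (hc : 4 ≤ shift) :
    gamSE β shift s 1 - gamSE β shift s 0 =
      β ^ 2 * (s * (2 - s + plantVar β shift) + (1 - s) ^ 2 * qSE (gamSE β shift s 0)) := by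
  have h := inv_plantVar hβ hc
  simp only [gamSE]
  linear_combination (-s) * h

/-- The other increments. -/
lemma gamSE_succ_sub (l : ℕ) :
    gamSE β shift s (l + 2) - gamSE β shift s (l + 1) =
      β ^ 2 * (1 - s) ^ 2 * (qSE (gamSE β shift s (l + 1)) - qSE (gamSE β shift s l)) := by
  simp only [gamSE]; ring

lemma gamSE_mono (hβ : |β| ≤ 1) (hc : 4 ≤ shift) (hs : s ∈ Set.Icc (0 : ℝ) 1) :
    ∀ l, gamSE β shift s l ≤ gamSE β shift s (l + 1)
  | 0 => by
    have h := gamSE_one_sub (s := s) hβ hc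
    have := mul_nonneg hs.1 (show 0 ≤ 2 - s + plantVar β shift by linarith [hs.2, plantVar_pos (β := β) hc])
    have := mul_nonneg (sq_nonneg (1 - s)) (qSE_nonneg (gamSE β shift s 0))
    have := mul_nonneg (sq_nonneg β) (show 0 ≤ s * (2 - s + plantVar β shift)
      + (1 - s) ^ 2 * qSE (gamSE β shift s 0) by linarith)
    linarith
  | l + 1 => by
    have h := gamSE_succ_sub (β := β) (shift := shift) (s := s) l
    have := mul_nonneg (mul_nonneg (sq_nonneg β) (sq_nonneg (1 - s)))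
      (qSE_sub_mem (gamSE_nonneg hc hs l) (gamSE_mono hβ hc hs l)).1
    linarith

lemma gamSE_monotone (hβ : |β| ≤ 1) (hc : 4 ≤ shift) (hs : s ∈ Set.Icc (0 : ℝ) 1) :
    Monotone (gamSE β shift s) :=
  monotone_nat_of_le_succ (gamSE_mono hβ hc hs)

/-- The increments decay like `β^(2 l)`. -/
theorem gamSE_inc_le (hβ : |β| ≤ 1) (hc : 4 ≤ shift) (hs : s ∈ Set.Icc (0 : ℝ) 1) :
    ∀ l, gamSE β shift s (l + 1) - gamSE β shift s l ≤ 4 * (β ^ 2) ^ l
  | 0 => by
    rw [gamSE_one_sub hβ hc, pow_zero, mul_one]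
    have hb : β ^ 2 ≤ 1 := (sq_le_one_iff_abs_le_one β).2 hβ
    have h1 : s * (2 - s + plantVar β shift) ≤ 3 :=
      (mul_le_mul_of_nonneg_left (show 2 - s + plantVar β shift ≤ 3 by
        linarith [hs.1, (plantVar_le (β := β) hc)]) hs.1).trans (by linarith [hs.2])
    have h2 : (1 - s) ^ 2 * qSE (gamSE β shift s 0) ≤ 1 :=
      mul_le_one₀ (pow_le_one₀ (by linarith [hs.2]) (by linarith [hs.1])) (qSE_nonneg _) (qSE_le_one _)
    exact (mul_le_mul_of_nonneg_left (add_le_add h1 h2) (sq_nonneg β)).trans (by linarith)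
  | l + 1 => by
    rw [gamSE_succ_sub, show 4 * (β ^ 2) ^ (l + 1) = β ^ 2 * (4 * (β ^ 2) ^ l) by ring]
    refine mul_le_mul ?_ ((qSE_sub_mem (gamSE_nonneg hc hs l) (gamSE_mono hβ hc hs l)).2.trans
      (gamSE_inc_le hβ hc hs l)) (qSE_sub_mem (gamSE_nonneg hc hs l) (gamSE_mono hβ hc hs l)).1
      (sq_nonneg β)
    exact mul_le_of_le_one_right (sq_nonneg β) (pow_le_one₀ (by linarith [hs.2]) (by linarith [hs.1]))

end Vale.Agent.P150.High.Amp
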