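import Vale.Agent.P150.High.DiagMean

/-!
# P150, the mean of the Schur square of `H`

Difference quotients in the profile of the mean diagonal: at fixed shift `H' - H = H (D' - D) H'`,
so the row sums of `E H_jk² - prediction` follow from the fixed point of the diagonal.
-/

open MeasureTheory ProbabilityTheory Filter Matrix Finset
open scoped Matrix.Norms.L2Operator Topology

namespace Vale.Agent.P150.High.SchurOpMean

open Vale.Agent.P150 Vale.Agent.P150.High.ResCalc Vale.Agent.P150.High.DiagMeanLaw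

variable {n : ℕ}

/-- the prediction for the Schur square off the diagonal -/
noncomputable def predM (β u θ : ℝ) (D : Fin n → ℝ) (j k : Fin n) : ℝ :=
  β ^ 2 * u ^ 2 / (1 - β ^ 2 * u ^ 2 * gamTwo θ D) * resWeight θ D j * resWeight θ D k / n

lemma cmean_le {f : Fin n → ℂ} {c : ℝ} (hc : 0 ≤ c) (h : ∀ j, ‖f j‖ ≤ c) : ‖(∑ j, f j) / (n : ℂ)‖ ≤ c := by
  rw [norm_div, Complex.norm_natCast]
  refine div_le_of_le_mul₀ (Nat.cast_nonneg n) hc ((norm_sum_le _ _).trans ?_)
  exact (sum_le_sum fun j _ => h j).trans_eq (by simp [mul_comm])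

lemma resWeight_bounds {θ : ℝ} {D : Fin n → ℝ} (hθ : |θ| ≤ 1 / 2) (hD : ∀ j, 0 ≤ D j ∧ D j ≤ 1) (j : Fin n) :
    0 ≤ resWeight θ D j ∧ resWeight θ D j ≤ 4 := by
  have h := (frac_bound hθ (hD j).1 (hD j).2).1
  refine ⟨by unfold resWeight; positivity, ?_⟩
  rw [resWeight, div_le_iff₀ (by nlinarith)]
  nlinarith

lemma gamTwo_eq (θ : ℝ) (D : Fin n → ℝ) : gamTwo θ D = (∑ j, (D j / (1 + θ * D j)) ^ 2) / n := by
  simp only [gamTwo, resWeight, div_pow, mul_one_div]

lemma gamTwo_bounds {θ : ℝ} {D : Fin n → ℝ} (hθ : |θ| ≤ 1 / 2) (hD : ∀ j, 0 ≤ D j ∧ D j ≤ 1) :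
    0 ≤ gamTwo θ D ∧ gamTwo θ D ≤ 4 := by
  rw [gamTwo_eq]
  refine ⟨by positivity, (le_abs_self _).trans (mean_le (by norm_num) fun j => ?_)⟩
  have h := frac_bound hθ (hD j).1 (hD j).2
  rw [abs_of_nonneg (sq_nonneg _)]
  nlinarith

lemma frac_mul_lip {θ t t' x y δ : ℝ} (hθ : |θ| ≤ 1 / 2) (ht : |t| ≤ 1 / 2) (ht' : |t'| ≤ 1 / 2)
    (hx : 0 ≤ x ∧ x ≤ 1) (hy : 0 ≤ y ∧ y ≤ 1) (h1 : |t - θ| ≤ δ) (h2 : |t' - θ| ≤ δ) (hxy : |y - x| ≤ δ) :
    |y / (1 + t * y) * (y / (1 + t' * y)) - (x / (1 + θ * x)) ^ 2| ≤ 32 * δ := by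
  have a := (DiagMean.frac_lip ht hθ hy.1 hy.2 hx.1 hx.2 h1 hxy).1
  have b := (DiagMean.frac_lip ht' hθ hy.1 hy.2 hx.1 hx.2 h2 hxy).1
  have A := frac_bound ht hy.1 hy.2
  have C := frac_bound hθ hx.1 hx.2
  set p := y / (1 + t * y)
  set q := y / (1 + t' * y)
  set c := x / (1 + θ * x)
  rw [show p * q - c ^ 2 = p * (q - c) + c * (p - c) by ring]
  refine (abs_add_le _ _).trans ?_
  rw [abs_mul, abs_mul, abs_of_nonneg A.2.1, abs_of_nonneg C.2.1]
  have := mul_le_mul A.2.2 b (abs_nonneg _) zero_le_two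
  have := mul_le_mul C.2.2 a (abs_nonneg _) zero_le_two
  linarith

lemma gamTwo_lip {θ θ' δ : ℝ} {D D' : Fin n → ℝ} (hθ : |θ| ≤ 1 / 2) (hθ' : |θ'| ≤ 1 / 2)
    (hD : ∀ j, 0 ≤ D j ∧ D j ≤ 1) (hD' : ∀ j, 0 ≤ D' j ∧ D' j ≤ 1) (hdθ : |θ' - θ| ≤ δ)
    (hdD : ∀ j, |D' j - D j| ≤ δ) : |gamTwo θ' D' - gamTwo θ D| ≤ 32 * δ := by
  have hδ : 0 ≤ δ := (abs_nonneg _).trans hdθ
  rw [gamTwo_eq, gamTwo_eq, ← sub_div, ← sum_sub_distrib]
  exact mean_le (by linarith) fun j => by
    rw [sq (D' j / _)]; exact frac_mul_lip hθ hθ' hθ' (hD j) (hD' j) hdθ hdθ (hdD j)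

/-- A fixed shift after moving the profile. -/
lemma exists_theta {β u θ η hh : ℝ} {D D' : Fin n → ℝ} (hβ : β ^ 2 ≤ 1) (hu : |u| ≤ 2) (hη : 0 < η)
    (hhh : 0 < hh) (hhη : hh ≤ η ^ 2 / 100000) (hθ : |θ| + 32 * hh / η ≤ 1 / 2)
    (hD : ∀ j, 0 ≤ D j ∧ D j ≤ 1) (hD' : ∀ j, 0 ≤ D' j ∧ D' j ≤ 1) (hdD : ∀ j, |D' j - D j| ≤ hh)
    (hΓ : β ^ 2 * u ^ 2 * gamTwo θ D ≤ 1 - η) :
    ∃ θ', |θ' - θ| ≤ 32 * hh / η ∧ |θ'| ≤ 1 / 2 ∧ resShift β u θ' D' = resShift β u θ D ∧
      β ^ 2 * u ^ 2 * gamTwo θ' D' ≤ 1 - η / 2 := by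
  set a := β ^ 2 * u ^ 2
  set L := 32 * hh / η
  have hL : 0 < L := by positivity
  have ha : 0 ≤ a := by positivity
  have ha4 : a ≤ 4 := by
    have : u ^ 2 ≤ 4 := by nlinarith [sq_abs u, abs_nonneg u]
    calc a ≤ 1 * 4 := mul_le_mul hβ this (sq_nonneg u) zero_le_one
      _ = 4 := one_mul 4
  have hθ2 : |θ| ≤ 1 / 2 := by linarith
  have hη1 : η ≤ 1 := by linarith [mul_nonneg ha (gamTwo_bounds hθ2 hD).1]
  have hhL : hh ≤ L := by rw [le_div_iff₀ hη]; nlinarith
  have hLη : 128 * (L + L) ≤ η / 2 := by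
    have : L ≤ η / 3000 := by rw [div_le_iff₀ hη]; nlinarith
    linarith
  have hmem : ∀ t ∈ Set.Icc (θ - L) (θ + L), |t| ≤ 1 / 2 ∧ |t - θ| ≤ L := fun t ht => by
    have h1 : |t - θ| ≤ L := abs_le.2 ⟨by linarith [ht.1], by linarith [ht.2]⟩
    exact ⟨by linarith [abs_le.1 h1, abs_sub_abs_le_abs_sub t θ, le_abs_self (|t| - |θ|)], h1⟩
  have hcont : ContinuousOn (fun t => resShift β u t D') (Set.Icc (θ - L) (θ + L)) := by
    unfold resShift
    refine continuousOn_id.add (continuousOn_const.mul (ContinuousOn.div_const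
      (continuousOn_finsetSum _ fun j _ => continuousOn_const.div (by fun_prop) fun t ht => ?_) _))
    have := (frac_bound (hmem t ht).1 (hD' j).1 (hD' j).2).1
    linarith
  have h0 : |resShift β u θ D' - resShift β u θ D| ≤ 16 * hh := by
    rw [show resShift β u θ D' - resShift β u θ D =
      a * ((∑ j, (D' j / (1 + θ * D' j) - D j / (1 + θ * D j))) / n) by
        simp only [resShift, a]; rw [sum_sub_distrib]; ring]
    rw [abs_mul, abs_of_nonneg ha]
    refine (mul_le_mul ha4 (mean_le (by positivity : (0:ℝ) ≤ 4 * hh) fun j => ?_) (abs_nonneg _)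
      (by norm_num)).trans (by linarith)
    have h1 := (frac_bound hθ2 (hD j).1 (hD j).2).1
    have h2 := (frac_bound hθ2 (hD' j).1 (hD' j).2).1
    rw [div_sub_div _ _ (by linarith) (by linarith), abs_div, abs_of_pos (by positivity : 0 < (1 + θ * D' j) * (1 + θ * D j)),
      show D' j * (1 + θ * D j) - (1 + θ * D' j) * D j = D' j - D j by ring, div_le_iff₀ (by positivity)]
    nlinarith [hdD j, mul_le_mul h2 h1 (by norm_num) (by linarith)]
  have hslope : ∀ t ∈ Set.Icc (θ - L) (θ + L), ∃ κ, η / 2 ≤ κ ∧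
      resShift β u t D' - resShift β u θ D' = (t - θ) * κ := by
    intro t ht
    obtain ⟨ht2, ht1⟩ := hmem t ht
    refine ⟨1 - a * ((∑ j, D' j / (1 + t * D' j) * (D' j / (1 + θ * D' j))) / n), ?_, ?_⟩
    · have h1 : |(∑ j, D' j / (1 + t * D' j) * (D' j / (1 + θ * D' j))) / (n:ℝ) - gamTwo θ D| ≤ 32 * (L + L) := by
        rw [gamTwo_eq, ← sub_div, ← sum_sub_distrib]
        exact mean_le (by positivity) fun j => frac_mul_lip hθ2 ht2 hθ2 (hD j) (hD' j) (by linarith)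
          (by simp; linarith) (by linarith [hdD j])
      have h2 := mul_le_mul_of_nonneg_left (abs_le.1 h1).2 ha
      have h3 : a * (32 * (L + L)) ≤ 4 * (32 * (L + L)) := mul_le_mul_of_nonneg_right ha4 (by positivity)
      rw [mul_sub] at h2
      linarith
    · have e : ∀ j, D' j / (1 + t * D' j) - D' j / (1 + θ * D' j) =
          -((t - θ) * (D' j / (1 + t * D' j) * (D' j / (1 + θ * D' j)))) := fun j => by
        have h1 : 1 + t * D' j ≠ 0 := by linarith [(frac_bound ht2 (hD' j).1 (hD' j).2).1]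
        have h2 : 1 + θ * D' j ≠ 0 := by linarith [(frac_bound hθ2 (hD' j).1 (hD' j).2).1]
        rw [div_sub_div _ _ h1 h2, div_mul_div_comm, mul_div_assoc', ← neg_div,
          div_eq_div_iff (mul_ne_zero h1 h2) (mul_ne_zero h1 h2)]
        ring
      have e2 : resShift β u t D' - resShift β u θ D' =
          (t - θ) + a * ((∑ j, (D' j / (1 + t * D' j) - D' j / (1 + θ * D' j))) / n) := by
        simp only [resShift, a]; rw [sum_sub_distrib]; ring
      rw [e2]; simp only [e, sum_neg_distrib, ← mul_sum]; ring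
  have hLK : 16 * hh ≤ L * (η / 2) := by
    have : L * (η / 2) = 16 * hh := by simp only [L]; field_simp; ring
    linarith
  have hlo : resShift β u (θ - L) D' ≤ resShift β u θ D := by
    obtain ⟨κ, hκ, e⟩ := hslope (θ - L) ⟨le_rfl, by linarith⟩
    rw [show θ - L - θ = -L by ring] at e
    linarith [mul_le_mul_of_nonneg_left hκ hL.le, (abs_le.1 h0).2]
  have hhi : resShift β u θ D ≤ resShift β u (θ + L) D' := by
    obtain ⟨κ, hκ, e⟩ := hslope (θ + L) ⟨by linarith, le_rfl⟩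
    rw [show θ + L - θ = L by ring] at e
    linarith [mul_le_mul_of_nonneg_left hκ hL.le, (abs_le.1 h0).1]
  obtain ⟨θ', hθ', he⟩ := intermediate_value_Icc (by linarith) hcont ⟨hlo, hhi⟩
  obtain ⟨ht2, ht1⟩ := hmem θ' hθ'
  refine ⟨θ', ht1, ht2, he, ?_⟩
  have h1 := gamTwo_lip hθ2 ht2 hD hD' ht1 fun j => (hdD j).trans hhL
  have h2 := mul_le_mul_of_nonneg_left (abs_le.1 h1).2 ha
  have h3 : a * (32 * L) ≤ 4 * (32 * L) := mul_le_mul_of_nonneg_right ha4 (by positivity)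
  rw [mul_sub] at h2
  linarith

/-- The difference of two nearby solutions of the fixed point of the diagonal. -/
lemma diff_est {a θ η d hh r : ℝ} {D D' : Fin n → ℝ} {h h' e e' : Fin n → ℂ} {z ζ ζ' m m' : ℂ} (j : Fin n)
    (ha : 0 ≤ a) (ha4 : a ≤ 4) (hθ : |θ| ≤ 1 / 2) (hη : 0 < η) (hΓ : a * gamTwo θ D ≤ 1 - η)
    (hD : ∀ k, 0 ≤ D k ∧ D k ≤ 1) (hD' : ∀ k, 0 ≤ D' k ∧ D' k ≤ 1) (hdD : ∀ k, |D' k - D k| ≤ hh)
    (hj : D' j = D j) (hh0 : 0 ≤ hh) (hhd : hh ≤ d) (hd : 10000 * d ≤ η) (hr : 0 ≤ r)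
    (hζd : ‖ζ - θ‖ ≤ d) (hζd' : ‖ζ' - θ‖ ≤ d) (hζ : ζ = z - a * m) (hζ' : ζ' = z - a * m')
    (hm : m = (∑ k, ((D k : ℂ) + (D k : ℂ) ^ 2 * h k)) / n)
    (hm' : m' = (∑ k, ((D' k : ℂ) + (D' k : ℂ) ^ 2 * h' k)) / n)
    (heq : ∀ k, h k = -ζ * (1 + (D k : ℂ) * h k) + e k)
    (heq' : ∀ k, h' k = -ζ' * (1 + (D' k : ℂ) * h' k) + e' k)
    (he : ∀ k, ‖e k‖ ≤ r) (he' : ∀ k, ‖e' k‖ ≤ r) :
    ‖(h' j - h j) - ((a * resWeight θ D j * ((∑ k, (D' k - D k) * resWeight θ D k) / n) /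
        (1 - a * gamTwo θ D) : ℝ) : ℂ)‖ ≤ 1000000 / η ^ 2 * (d * hh + r) := by
  have hd0 : 0 ≤ d := hh0.trans hhd
  have hΓ0 := gamTwo_bounds hθ hD
  have hη1 : η ≤ 1 := by linarith [mul_nonneg ha hΓ0.1]
  set den0 : Fin n → ℝ := fun k => 1 + θ * D k
  set den : Fin n → ℂ := fun k => 1 + (D k : ℂ) * ζ
  set den' : Fin n → ℂ := fun k => 1 + (D' k : ℂ) * ζ'
  have hden0 : ∀ k, 1 / 2 ≤ den0 k ∧ den0 k ≤ 2 := fun k => by
    have := mul_le_mul (abs_le.1 hθ).2 (hD k).2 (hD k).1 (by norm_num)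
    exact ⟨(frac_bound hθ (hD k).1 (hD k).2).1, by simp only [den0]; linarith⟩
  have hn0 : ∀ k, ‖(den0 k : ℂ)‖ = den0 k := fun k => by
    rw [Complex.norm_real, Real.norm_of_nonneg (by linarith [(hden0 k).1])]
  have hζ1 : ‖ζ'‖ ≤ 1 := by
    have := norm_le_norm_add_norm_sub' ζ' (θ : ℂ)
    rw [Complex.norm_real, Real.norm_eq_abs] at this
    linarith
  have hdd : ∀ k, ‖den k - den0 k‖ ≤ d := fun k => by
    rw [show den k - (den0 k : ℂ) = (D k : ℂ) * (ζ - θ) by simp only [den, den0]; push_cast; ring,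
      norm_mul, Complex.norm_real, Real.norm_of_nonneg (hD k).1]
    exact (mul_le_of_le_one_left (norm_nonneg _) (hD k).2).trans hζd
  have hdd' : ∀ k, ‖den' k - den0 k‖ ≤ 2 * d := fun k => by
    rw [show den' k - (den0 k : ℂ) = ((D' k - D k : ℝ) : ℂ) * ζ' + (D k : ℂ) * (ζ' - θ) by
      simp only [den', den0]; push_cast; ring, two_mul]
    refine (norm_add_le _ _).trans (add_le_add ?_ ?_)
    · rw [norm_mul, Complex.norm_real, Real.norm_eq_abs]
      exact (mul_le_of_le_one_right (abs_nonneg _) hζ1).trans ((hdD k).trans hhd)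
    · rw [norm_mul, Complex.norm_real, Real.norm_of_nonneg (hD k).1]
      exact (mul_le_of_le_one_left (norm_nonneg _) (hD k).2).trans hζd'
  have hl : ∀ k, 1 / 4 ≤ ‖den k‖ ∧ 1 / 4 ≤ ‖den' k‖ ∧ ‖den' k‖ ≤ 3 := fun k => by
    have h1 := norm_sub_norm_le (den0 k : ℂ) (den k)
    have h2 := norm_sub_norm_le (den0 k : ℂ) (den' k)
    have h3 := norm_le_norm_add_norm_sub' (den' k) (den0 k : ℂ)
    rw [norm_sub_rev, hn0] at h1 h2
    rw [hn0] at h3
    exact ⟨by linarith [hdd k, (hden0 k).1], by linarith [hdd' k, (hden0 k).1],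
      by linarith [hdd' k, (hden0 k).2]⟩
  have hne : ∀ k, den k ≠ 0 ∧ den' k ≠ 0 := fun k =>
    ⟨norm_pos_iff.1 (by linarith [(hl k).1]), norm_pos_iff.1 (by linarith [(hl k).2.1])⟩
  set f : Fin n → ℂ := fun k => 1 / (den k * den' k)
  set w : Fin n → ℝ := resWeight θ D
  have hf : ∀ k, ‖f k‖ ≤ 16 := fun k => by
    simp only [f]
    rw [norm_div, norm_one, norm_mul, div_le_iff₀ (by nlinarith [(hl k).1, (hl k).2.1])]
    nlinarith [(hl k).1, (hl k).2.1]
  have hfw : ∀ k, ‖f k - w k‖ ≤ 448 * d := fun k => by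
    have hn1 := (hne k).1
    have hn2 := (hne k).2
    have hn3 : (den0 k : ℂ) ≠ 0 := norm_pos_iff.1 (by rw [hn0]; linarith [(hden0 k).1])
    have hprod : 1 / 64 ≤ ‖den k‖ * ‖den' k‖ * den0 k ^ 2 := by
      calc (1:ℝ) / 64 = 1 / 4 * (1 / 4) * (1 / 2) ^ 2 := by norm_num
        _ ≤ _ := mul_le_mul (mul_le_mul (hl k).1 (hl k).2.1 (by norm_num) (norm_nonneg _))
          (pow_le_pow_left₀ (by norm_num) (hden0 k).1 2) (by norm_num) (by positivity)
    rw [show f k - (w k : ℂ) = ((den0 k : ℂ) * ((den0 k : ℂ) - den' k) + den' k * ((den0 k : ℂ) - den k)) /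
        (den k * den' k * (den0 k : ℂ) ^ 2) by
      rw [show (w k : ℂ) = 1 / (den0 k : ℂ) ^ 2 by simp [w, resWeight, den0]]
      simp only [f]; field_simp; ring]
    rw [norm_div, norm_mul (den k * den' k), norm_pow, hn0, norm_mul (den k), div_le_iff₀ (by linarith)]
    have h1 : ‖(den0 k : ℂ) * ((den0 k : ℂ) - den' k) + den' k * ((den0 k : ℂ) - den k)‖ ≤ 7 * d := by
      refine (norm_add_le _ _).trans ?_
      rw [norm_mul, norm_mul, hn0, norm_sub_rev, norm_sub_rev (den0 k : ℂ)]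
      have := mul_le_mul (hden0 k).2 (hdd' k) (norm_nonneg _) zero_le_two
      have := mul_le_mul (hl k).2.2 (hdd k) (norm_nonneg _) (by norm_num)
      linarith
    have := mul_le_mul_of_nonneg_left hprod (by linarith : (0:ℝ) ≤ 448 * d)
    linarith
  have hw : ∀ k, 0 ≤ w k ∧ w k ≤ 4 := resWeight_bounds hθ hD
  set P : ℂ := (∑ k, ((D' k - D k : ℝ) : ℂ) * f k) / n
  set P0 : ℝ := (∑ k, (D' k - D k) * w k) / n
  set X : ℂ := (∑ k, (D k : ℂ) * (D' k : ℂ) * f k) / n
  set q : ℂ := (∑ k, (D k : ℂ) ^ 2 * e k / den k) / n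
  set q' : ℂ := (∑ k, (D' k : ℂ) ^ 2 * e' k / den' k) / n
  have hq : ‖q‖ ≤ 4 * r ∧ ‖q'‖ ≤ 4 * r := by
    refine ⟨cmean_le (by linarith) fun k => ?_, cmean_le (by linarith) fun k => ?_⟩
    all_goals rw [norm_div, norm_mul, norm_pow, Complex.norm_real]
    · rw [div_le_iff₀ (by linarith [(hl k).1]), Real.norm_of_nonneg (hD k).1]
      have h1 : D k ^ 2 * ‖e k‖ ≤ 1 * r :=
        mul_le_mul (pow_le_one₀ (hD k).1 (hD k).2) (he k) (norm_nonneg _) zero_le_one
      nlinarith [(hl k).1]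
    · rw [div_le_iff₀ (by linarith [(hl k).2.1]), Real.norm_of_nonneg (hD' k).1]
      have h1 : D' k ^ 2 * ‖e' k‖ ≤ 1 * r :=
        mul_le_mul (pow_le_one₀ (hD' k).1 (hD' k).2) (he' k) (norm_nonneg _) zero_le_one
      nlinarith [(hl k).2.1]
  have hsol : ∀ k, h k = (-ζ + e k) / den k ∧ h' k = (-ζ' + e' k) / den' k := fun k => by
    constructor
    · rw [eq_div_iff (hne k).1]; simp only [den]; linear_combination heq k
    · rw [eq_div_iff (hne k).2]; simp only [den']; linear_combination heq' k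
  have hmm : (m' - m) * (1 - (a : ℂ) * X) = P + (q' - q) := by
    have e1 : m' - m = P + (a : ℂ) * (m' - m) * X + (q' - q) := by
      have hz : ζ - ζ' = (a : ℂ) * (m' - m) := by rw [hζ, hζ']; ring
      rw [← hz]
      simp only [P, X, q, q', hm, hm']
      rw [← sub_div, ← sub_div, ← mul_div_assoc, ← add_div, ← add_div, ← sum_sub_distrib, ← sum_sub_distrib, mul_sum,
        ← sum_add_distrib, ← sum_add_distrib]
      congr 1
      refine sum_congr rfl fun k _ => ?_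
      have hn1 := (hne k).1
      have hn2 := (hne k).2
      rw [(hsol k).1, (hsol k).2]
      simp only [f]
      push_cast
      field_simp
      simp only [den, den']
      ring
    linear_combination e1
  have hhj : h' j - h j = (a : ℂ) * (m' - m) * f j + (e' j / den' j - e j / den j) := by
    rw [show (a : ℂ) * (m' - m) = ζ - ζ' by rw [hζ, hζ']; ring, (hsol j).1, (hsol j).2]
    have hn1 := (hne j).1
    have hn2 := (hne j).2
    simp only [f]
    field_simp
    simp only [den, den', hj]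
    ring
  have hXΓ : ‖X - gamTwo θ D‖ ≤ 452 * d := by
    rw [show (gamTwo θ D : ℂ) = (∑ k, ((D k ^ 2 * w k : ℝ) : ℂ)) / n by simp [gamTwo, w]]
    simp only [X]
    rw [← sub_div, ← sum_sub_distrib]
    refine cmean_le (by linarith) fun k => ?_
    rw [show (D k : ℂ) * (D' k : ℂ) * f k - ((D k ^ 2 * w k : ℝ) : ℂ) =
      (D k : ℂ) * (D' k : ℂ) * (f k - w k) + ((D k * (D' k - D k) * w k : ℝ) : ℂ) by push_cast; ring]
    refine (norm_add_le _ _).trans ?_
    rw [norm_mul, norm_mul, Complex.norm_real, Complex.norm_real, Complex.norm_real, Real.norm_of_nonneg (hD k).1,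
      Real.norm_of_nonneg (hD' k).1, Real.norm_eq_abs, abs_mul, abs_mul, abs_of_nonneg (hD k).1,
      abs_of_nonneg (hw k).1]
    have h1 : D k * D' k * ‖f k - w k‖ ≤ 1 * (448 * d) :=
      mul_le_mul (mul_le_one₀ (hD k).2 (hD' k).1 (hD' k).2) (hfw k) (norm_nonneg _) zero_le_one
    have h2 : D k * |D' k - D k| * w k ≤ 1 * d * 4 :=
      mul_le_mul (mul_le_mul (hD k).2 ((hdD k).trans hhd) (abs_nonneg _) zero_le_one) (hw k).2 (hw k).1 (by positivity)
    linarith
  have hPP : ‖P - P0‖ ≤ 448 * d * hh := by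
    rw [show (P0 : ℂ) = (∑ k, (((D' k - D k) * w k : ℝ) : ℂ)) / n by simp [P0]]
    simp only [P]
    rw [← sub_div, ← sum_sub_distrib]
    refine cmean_le (by positivity) fun k => ?_
    rw [show ((D' k - D k : ℝ) : ℂ) * f k - (((D' k - D k) * w k : ℝ) : ℂ) =
      ((D' k - D k : ℝ) : ℂ) * (f k - w k) by push_cast; ring, norm_mul, Complex.norm_real, Real.norm_eq_abs,
      mul_comm (448 * d)]
    exact mul_le_mul (hdD k) (hfw k) (norm_nonneg _) hh0
  have hP0 : |P0| ≤ 4 * hh := mean_le (by positivity) fun k => by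
    rw [abs_mul, abs_of_nonneg (hw k).1, mul_comm (4:ℝ)]
    exact mul_le_mul (hdD k) (hw k).2 (hw k).1 hh0
  set Q : ℝ := 1 - a * gamTwo θ D
  have hQ : η ≤ Q ∧ Q ≤ 1 := ⟨by simp only [Q]; linarith, by simp only [Q]; linarith [mul_nonneg ha hΓ0.1]⟩
  set QC : ℂ := 1 - (a : ℂ) * X
  have hQd : ‖(Q : ℂ) - QC‖ ≤ 4 * (452 * d) := by
    rw [show (Q : ℂ) - QC = (a : ℂ) * (X - gamTwo θ D) by simp only [Q, QC]; push_cast; ring, norm_mul,
      Complex.norm_real, Real.norm_of_nonneg ha]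
    exact mul_le_mul ha4 hXΓ (norm_nonneg _) (by norm_num)
  have hQn : ‖(Q : ℂ)‖ = Q := by rw [Complex.norm_real, Real.norm_of_nonneg (hη.le.trans hQ.1)]
  have hQC : η / 2 ≤ ‖QC‖ := by
    have h1 := norm_sub_norm_le (Q : ℂ) QC
    rw [hQn] at h1
    linarith
  have hQC0 : QC ≠ 0 := norm_pos_iff.1 (by linarith)
  have hQ0 : (Q : ℂ) ≠ 0 := norm_pos_iff.1 (by linarith)
  have hdm : ‖(m' - m) - ((P0 / Q : ℝ) : ℂ)‖ ≤ 2 * (7680 * (d * hh) + 8 * r) / η ^ 2 := by
    rw [show (m' - m) - ((P0 / Q : ℝ) : ℂ) =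
        ((P - P0 + (q' - q)) * (Q : ℂ) + (P0 : ℂ) * ((Q : ℂ) - QC)) / (QC * (Q : ℂ)) by
      rw [eq_div_iff (mul_ne_zero hQC0 hQ0)]
      push_cast
      field_simp
      linear_combination (Q : ℂ) * hmm]
    rw [norm_div, norm_mul QC, hQn]
    have hb : η ^ 2 / 2 ≤ ‖QC‖ * Q := by
      calc η ^ 2 / 2 = η / 2 * η := by ring
        _ ≤ _ := mul_le_mul hQC hQ.1 hη.le (norm_nonneg _)
    have htop : ‖(P - P0 + (q' - q)) * (Q : ℂ) + (P0 : ℂ) * ((Q : ℂ) - QC)‖ ≤ 7680 * (d * hh) + 8 * r := by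
      refine (norm_add_le _ _).trans ?_
      rw [norm_mul, norm_mul, hQn, Complex.norm_real, Real.norm_eq_abs]
      have h1 : ‖P - P0 + (q' - q)‖ * Q ≤ 448 * d * hh + 8 * r := by
        refine (mul_le_of_le_one_right (norm_nonneg _) hQ.2).trans ((norm_add_le _ _).trans ?_)
        linarith [norm_sub_le q' q, hq.1, hq.2]
      have h2 := mul_le_mul hP0 hQd (norm_nonneg _) (by positivity)
      linarith
    rw [div_le_div_iff₀ (by nlinarith) (by positivity)]
    calc _ ≤ (7680 * (d * hh) + 8 * r) * η ^ 2 := mul_le_mul_of_nonneg_right htop (sq_nonneg η)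
      _ = 2 * (7680 * (d * hh) + 8 * r) * (η ^ 2 / 2) := by ring
      _ ≤ _ := mul_le_mul_of_nonneg_left hb (by positivity)
  have hT : |P0 / Q| ≤ 4 * hh / η := by
    rw [abs_div, abs_of_pos (lt_of_lt_of_le hη hQ.1)]
    exact (div_le_div_of_nonneg_left (abs_nonneg _) hη hQ.1).trans (div_le_div_of_nonneg_right hP0 hη.le)
  have hE : ‖e' j / den' j - e j / den j‖ ≤ 8 * r := by
    refine (norm_sub_le _ _).trans ?_
    rw [norm_div, norm_div]
    have h1 : ‖e' j‖ / ‖den' j‖ ≤ 4 * r := by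
      rw [div_le_iff₀ (by linarith [(hl j).2.1])]; nlinarith [he' j, (hl j).2.1]
    have h2 : ‖e j‖ / ‖den j‖ ≤ 4 * r := by
      rw [div_le_iff₀ (by linarith [(hl j).1])]; nlinarith [he j, (hl j).1]
    linarith
  rw [show ((a * w j * P0 / Q : ℝ) : ℂ) = (a : ℂ) * ((P0 / Q : ℝ) : ℂ) * (w j : ℂ) by push_cast; ring, hhj,
    show (a : ℂ) * (m' - m) * f j + (e' j / den' j - e j / den j) - (a : ℂ) * ((P0 / Q : ℝ) : ℂ) * (w j : ℂ) =
      (a : ℂ) * (((m' - m) - ((P0 / Q : ℝ) : ℂ)) * f j + ((P0 / Q : ℝ) : ℂ) * (f j - w j)) +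
        (e' j / den' j - e j / den j) by ring]
  refine (norm_add_le _ _).trans ((add_le_add
    (b := 4 * (2 * (7680 * (d * hh) + 8 * r) / η ^ 2 * 16 + 4 * hh / η * (448 * d))) ?_ hE).trans ?_)
  · rw [norm_mul, Complex.norm_real (a), Real.norm_of_nonneg ha]
    refine mul_le_mul ha4 ((norm_add_le _ _).trans ?_) (norm_nonneg _) (by norm_num)
    rw [norm_mul, norm_mul, Complex.norm_real (P0 / Q), Real.norm_eq_abs]
    exact add_le_add (mul_le_mul hdm (hf j) (norm_nonneg _) (by positivity))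
      (mul_le_mul hT (hfw j) (norm_nonneg _) (by positivity))
  · rw [show 4 * (2 * (7680 * (d * hh) + 8 * r) / η ^ 2 * 16 + 4 * hh / η * (448 * d)) + 8 * r =
      1 / η ^ 2 * (983040 * (d * hh) + 1024 * r + η * (7168 * (d * hh)) + η ^ 2 * (8 * r)) by field_simp; ring,
      show (1000000:ℝ) / η ^ 2 * (d * hh + r) = 1 / η ^ 2 * (1000000 * (d * hh) + 1000000 * r) by ring]
    refine mul_le_mul_of_nonneg_left ?_ (by positivity)
    have h1 := mul_le_of_le_one_left (by positivity : (0:ℝ) ≤ 7168 * (d * hh)) hη1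
    have h2 := mul_le_of_le_one_left (by positivity : (0:ℝ) ≤ 8 * r) (pow_le_one₀ hη.le hη1 (n := 2))
    have : (0:ℝ) ≤ d * hh := by positivity
    linarith

/-- Composing with the projection moves the mean of a diagonal entry by a negligible amount. -/
lemma proj_mean {τ ε : ℝ} (hτ : 0 < τ) (hτ1 : τ ≤ 1) (hε : 0 < ε) : ∀ᶠ n : ℕ in atTop,
    ∀ β u θ : ℝ, ∀ D : Fin n → ℝ, ∀ P : (Edge n → ℝ) → (Edge n → ℝ),
      β ^ 2 ≤ 1 → |u| ≤ 2 → |θ| ≤ 1 / 2 → (∀ j, 0 ≤ D j ∧ D j ≤ 1) → Continuous P →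
      (∀ g, P g ∈ Ball β 3) → (∀ g ∈ Ball β 3, P g = g) → ∀ j,
        ‖∫ g, resHc τ β u θ (P g) D j j ∂disorder n - ∫ g, resHc τ β u θ g D j j ∂disorder n‖ ≤ ε := by
  obtain ⟨c, hc, hball⟩ := ball_prob
  set K := 16 * (1 + 1 / τ * 16)
  set K2 := 4 + 16 / τ ^ 4 * 20096 + 2 * K ^ 2
  have hK2 : 0 < K2 := by positivity
  set s := ε / K2
  have hs : 0 < s := by positivity
  have hlim : Tendsto (fun n : ℕ => 2 * Real.exp (-(c * n))) atTop (𝓝 0) := by
    simpa using ((Real.tendsto_exp_atBot.comp (tendsto_neg_atTop_atBot.comp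
      (Tendsto.const_mul_atTop hc tendsto_natCast_atTop_atTop))).const_mul (2:ℝ))
  filter_upwards [Filter.eventually_ge_atTop 1,
    hlim.eventually (eventually_le_nhds (show (0:ℝ) < ε * s by positivity))]
    with n hn1 hp β u θ D P hβ hu hθ hD hPc hP hfix j
  have hn' : 0 < n := hn1
  rw [disorder_eq_gauss]
  set μ := gauss (Edge n)
  set bad : Set (Edge n → ℝ) := {g | g ∉ Ball β 3}
  have hbm : MeasurableSet bad := (ball_closed β 3).measurableSet.compl
  have hPb : ∀ g, ‖resHc τ β u θ (P g) D j j‖ ≤ K := fun g => by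
    have hW := (norm_resW_le (D := D) (abs_le.2 ⟨by linarith, hτ1⟩) hβ hu hθ hD (hP g)).trans
      (show (10:ℝ) + 2 * 3 ≤ 16 by norm_num)
    refine (entry_le _ j j).trans ((res_tau hτ β u θ (P g) D).norm_H_le.trans
      (mul_le_mul hW ?_ (by positivity) (by norm_num)))
    exact add_le_add le_rfl (mul_le_mul_of_nonneg_left hW (by positivity))
  have hi1 := integrable_H_jj hn' hτ hτ1 hβ hu hθ hD j
  have hi2 : Integrable (fun g => resHc τ β u θ (P g) D j j) μ :=
    (integrable_const K).mono' ((((continuous_H hτ).comp hPc).matrix_elem j j)).aestronglyMeasurable (.of_forall hPb)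
  obtain ⟨-, hX2, hX2'⟩ := colW_moments hn' hτ hτ1 hβ hu hθ hD j
  have hq : Integrable (fun g => 4 + 16 / τ ^ 4 * colW τ β u θ g D j ^ 2 + 2 * K ^ 2) μ :=
    ((integrable_const _).add (hX2.const_mul _)).add (integrable_const _)
  have hind : Integrable (fun g => bad.indicator (fun _ => (1:ℝ)) g) μ := (integrable_const _).indicator hbm
  rw [← integral_sub hi2 hi1]
  refine (norm_integral_le_integral_norm _).trans ((integral_mono (hi2.sub hi1).norm
    ((hind.div_const (2 * s)).fun_add (hq.const_mul (s / 2))) fun g => ?_).trans ?_)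
  · have hX : 0 ≤ colW τ β u θ g D j := csq_nonneg _
    by_cases hg : g ∈ Ball β 3
    · show ‖resHc τ β u θ (P g) D j j - resHc τ β u θ g D j j‖ ≤ _
      rw [hfix g hg, sub_self, norm_zero]
      exact add_nonneg (div_nonneg (Set.indicator_nonneg (f := fun _ => (1:ℝ)) (fun _ _ => zero_le_one) g)
        (by positivity)) (by positivity)
    · simp only [Set.indicator_of_mem (show g ∈ bad from hg)]
      set d := ‖resHc τ β u θ (P g) D j j - resHc τ β u θ g D j j‖
      have h1 : d ^ 2 ≤ 4 + 16 / τ ^ 4 * colW τ β u θ g D j ^ 2 + 2 * K ^ 2 := by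
        have h2 := (norm_sub_le _ _).trans (add_le_add (hPb g) (H_jj_bound (β := β) (u := u) (θ := θ) (D := D) hτ hτ1 g j))
        refine (pow_le_pow_left₀ (norm_nonneg _) h2 2).trans (add_sq_le.trans ?_)
        have h3 := add_sq_le (a := (1:ℝ)) (b := 2 / τ ^ 2 * colW τ β u θ g D j)
        have e : (2 / τ ^ 2 * colW τ β u θ g D j) ^ 2 = 4 / τ ^ 4 * colW τ β u θ g D j ^ 2 := by ring
        rw [e] at h3
        have e2 : 16 / τ ^ 4 * colW τ β u θ g D j ^ 2 = 4 * (4 / τ ^ 4 * colW τ β u θ g D j ^ 2) := by ring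
        linarith
      have h0 : d ≤ 1 / (2 * s) + s / 2 * d ^ 2 := by
        rw [show 1 / (2 * s) + s / 2 * d ^ 2 = (1 + (s * d) ^ 2) / (2 * s) by field_simp,
          le_div_iff₀ (by positivity)]
        have := two_mul_le_add_sq (1:ℝ) (s * d)
        linarith
      exact h0.trans (add_le_add le_rfl (mul_le_mul_of_nonneg_left h1 (by positivity)))
  · rw [integral_add (hind.div_const _) (hq.const_mul _), integral_div, integral_const_mul,
      integral_indicator_const _ hbm, integral_add ((integrable_const _).fun_add (hX2.const_mul _)) (integrable_const _),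
      integral_add (integrable_const _) (hX2.const_mul _), integral_const, integral_const, integral_const_mul,
      probReal_univ, one_smul, one_smul, smul_eq_mul, mul_one]
    have hb : μ.real bad ≤ ε * s := by
      have := hball n hn' β (by nlinarith [sq_abs β, abs_nonneg β])
      rw [disorder_eq_gauss] at this
      exact this.trans hp
    have h4 : s / 2 * (4 + 16 / τ ^ 4 * ∫ g, colW τ β u θ g D j ^ 2 ∂μ + 2 * K ^ 2) ≤ s / 2 * K2 :=
      mul_le_mul_of_nonneg_left (by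
        have := mul_le_mul_of_nonneg_left hX2' (by positivity : (0:ℝ) ≤ 16 / τ ^ 4)
        simp only [K2]; linarith) (by positivity)
    have h5 : s / 2 * K2 = ε / 2 := by simp only [s]; field_simp
    have h6 : μ.real bad / (2 * s) ≤ ε / 2 := by
      rw [div_le_iff₀ (by positivity)]; linarith
    linarith

/-- The raw mean of the normalised trace is within the error of the diagonal of the prediction. -/
lemma zeta_close {τ β u θ ε₀ : ℝ} {D : Fin n → ℝ} (hn : 0 < n) (hτ : 0 < τ) (hτ1 : τ ≤ 1) (hβ : β ^ 2 ≤ 1)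
    (hu : |u| ≤ 2) (hθ : |θ| ≤ 1 / 2) (hD : ∀ j, 0 ≤ D j ∧ D j ≤ 1)
    (h0 : ∀ k, ‖∫ g, resHc τ β u θ g D k k ∂disorder n - (resPhi θ D k : ℂ)‖ ≤ ε₀) :
    let m := (∑ k, ((D k : ℂ) + (D k : ℂ) ^ 2 * ∫ g, resHc τ β u θ g D k k ∂disorder n)) / (n : ℂ)
    ∫ g, trG τ β u θ g D ∂gauss (Edge n) = m ∧
      ‖zsh τ β u θ D - ((β ^ 2 * u ^ 2 : ℝ) : ℂ) * m - (θ : ℂ)‖ ≤ τ + 4 * ε₀ := by
  rw [disorder_eq_gauss] at h0 ⊢
  intro m
  have hGi : ∀ k, Integrable (fun g => cG (resW τ β u θ g D) D k k) (gauss (Edge n)) := fun k =>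
    (integrable_const (1 / τ)).mono' ((continuous_G hτ).matrix_elem k k).aestronglyMeasurable
      (.of_forall fun g => (entry_le _ k k).trans (res_tau hτ β u θ g D).bd)
  refine ⟨?_, ?_⟩
  · simp only [trG, m]
    rw [integral_div, integral_finsetSum _ fun k _ => hGi k]
    congr 1
    refine sum_congr rfl fun k _ => ?_
    have hG : ∀ g, cG (resW τ β u θ g D) D k k = (D k : ℂ) + (D k : ℂ) ^ 2 * resHc τ β u θ g D k k := fun g => by
      rw [(res_tau hτ β u θ g D).G_eq, Matrix.add_apply, cdiag, Matrix.mul_diagonal, Matrix.diagonal_mul,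
        Matrix.diagonal_apply_eq, resHc]
      ring
    simp only [hG]
    rw [integral_add (integrable_const _) ((integrable_H_jj hn hτ hτ1 hβ hu hθ hD k).const_mul _),
      integral_const, integral_const_mul, probReal_univ, one_smul]
  · obtain ⟨-, ha4, -⟩ := rate_sq (n := n) hn hβ hu
    have hε0 : 0 ≤ ε₀ := (norm_nonneg _).trans (h0 ⟨0, hn⟩)
    set a := β ^ 2 * u ^ 2
    set m0 : ℂ := (∑ k, ((D k : ℂ) + (D k : ℂ) ^ 2 * (resPhi θ D k : ℂ))) / (n : ℂ)
    have hm0 : m0 = (((∑ k, D k / (1 + θ * D k)) / n : ℝ) : ℂ) := by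
      simp only [m0]
      push_cast
      congr 1
      refine sum_congr rfl fun k _ => ?_
      have h1 : (1 + θ * D k : ℝ) ≠ 0 := by linarith [(frac_bound hθ (hD k).1 (hD k).2).1]
      have e : D k + D k ^ 2 * resPhi θ D k = D k / (1 + θ * D k) := by
        rw [eq_div_iff h1, add_mul, mul_assoc (D k ^ 2), resPhi, div_mul_cancel₀ _ h1]; ring
      exact_mod_cast congrArg (fun x : ℝ => (x : ℂ)) e
    have hd : ‖m - m0‖ ≤ ε₀ := by
      simp only [m, m0]
      rw [← sub_div, ← sum_sub_distrib]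
      refine cmean_le hε0 fun k => ?_
      rw [add_sub_add_left_eq_sub, ← mul_sub, norm_mul, norm_pow, Complex.norm_real, Real.norm_of_nonneg (hD k).1]
      exact (mul_le_of_le_one_left (norm_nonneg _) (pow_le_one₀ (hD k).1 (hD k).2)).trans (h0 k)
    rw [show zsh τ β u θ D - (a : ℂ) * m - (θ : ℂ) = -((τ : ℂ) * Complex.I) - (a : ℂ) * (m - m0) by
      rw [hm0]; simp only [zsh, resShift, a]; push_cast; ring]
    refine (norm_sub_le _ _).trans (add_le_add (by simp [abs_of_pos hτ]) ?_)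
    rw [norm_mul, Complex.norm_real, Real.norm_of_nonneg (by positivity)]
    exact mul_le_mul ha4 hd (norm_nonneg _) (by norm_num)

set_option maxHeartbeats 1000000 in
/-- The row sums of the mean error of the Schur square. -/
theorem mean_rows {η ε : ℝ} (hη : 0 < η) (hε : 0 < ε) :
    ∃ τ₀ : ℝ, 0 < τ₀ ∧ τ₀ ≤ 1 ∧ ∀ τ, 0 < τ → τ ≤ τ₀ → ∀ s : ℝ, 0 < s → ∀ᶠ n : ℕ in atTop,
      ∀ β u θ : ℝ, ∀ D : Fin n → ℝ, ∀ P : (Edge n → ℝ) → (Edge n → ℝ),
        β ^ 2 ≤ 1 → |u| ≤ 2 → |θ| + s ≤ 1 / 2 → (∀ j, 0 ≤ D j ∧ D j ≤ 1) →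
        β ^ 2 * u ^ 2 * gamTwo θ D ≤ 1 - η → Continuous P → (∀ g, P g ∈ Ball β 3) →
        (∀ g ∈ Ball β 3, P g = g) → ∀ j,
          ∑ k, |if j = k then 0 else
            ∫ g, (resHc τ β u θ (P g) D j k ^ 2).re ∂disorder n - predM β u θ D j k| ≤ ε := by
  set KK := 1000000 / η ^ 2
  have hKK : 0 < KK := by positivity
  set ε₀ := min (ε / (100 * KK)) (η / 100000)
  have hε₀ : 0 < ε₀ := lt_min (by positivity) (by positivity)
  obtain ⟨τ₁, hτ₁, hτ₁1, hmean⟩ := mean_diag (η / 2) ε₀ (half_pos hη) hε₀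
  refine ⟨min τ₁ ε₀, lt_min hτ₁ hε₀, (min_le_left _ _).trans hτ₁1, fun τ hτ hle s hs => ?_⟩
  have hτ1 : τ ≤ 1 := hle.trans ((min_le_left _ _).trans hτ₁1)
  set K := 16 * (1 + 16 / τ)
  have hK : 0 < K := by positivity
  set hh := min (min (ε / (100 * K ^ 3)) (ε * η / (4000 * KK))) (min (s * η / 32) (min (η ^ 2 / 1000000) (1 / 2)))
  have hh0 : 0 < hh := by positivity
  have hh1 : hh * (100 * K ^ 3) ≤ ε :=
    (le_div_iff₀ (by positivity)).1 ((min_le_left _ _).trans (min_le_left _ _))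
  have hh2 : hh ≤ ε * η / (4000 * KK) := (min_le_left _ _).trans (min_le_right _ _)
  have hh3 : hh ≤ s * η / 32 := (min_le_right _ _).trans (min_le_left _ _)
  have hh4 : hh ≤ η ^ 2 / 1000000 := (min_le_right _ _).trans ((min_le_right _ _).trans (min_le_left _ _))
  have hh5 : hh ≤ 1 / 2 := (min_le_right _ _).trans ((min_le_right _ _).trans (min_le_right _ _))
  have hlim : Tendsto (fun n : ℕ => 4000 / (τ ^ 4 * √(n:ℝ))) atTop (𝓝 0) :=
    tendsto_const_nhds.div_atTop (Tendsto.const_mul_atTop (by positivity)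
      (Real.tendsto_sqrt_atTop.comp tendsto_natCast_atTop_atTop))
  filter_upwards [Filter.eventually_ge_atTop 1, hmean τ hτ (hle.trans (min_le_left _ _)),
    proj_mean hτ hτ1 (show 0 < hh * ε / 100 by positivity),
    hlim.eventually (eventually_le_nhds (show (0:ℝ) < hh * ε / (100 * KK) by positivity))]
    with n hn hmd hpm hr β u θ D P hβ hu hθs hD hΓ hPc hP hfix j
  have hn' : 0 < n := hn
  have hnR : (0:ℝ) < n := by exact_mod_cast hn'
  have hθ : |θ| ≤ 1 / 2 := by linarith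
  obtain ⟨-, ha4, -⟩ := rate_sq (n := n) hn' hβ hu
  set a := β ^ 2 * u ^ 2
  have ha : 0 ≤ a := by positivity
  have hη1 : η ≤ 1 := by linarith [mul_nonneg ha (gamTwo_bounds hθ hD).1]
  set μ := disorder n
  have hW : ∀ g, ‖resW τ β u θ (P g) D‖ ≤ 16 := fun g =>
    (norm_resW_le (D := D) (abs_le.2 ⟨by linarith, hτ1⟩) hβ hu hθ hD (hP g)).trans (by norm_num)
  have hHb : ∀ g, ‖resHc τ β u θ (P g) D‖ ≤ K := fun g =>
    (res_tau hτ β u θ (P g) D).norm_H_le.trans (mul_le_mul (hW g) (add_le_add le_rfl (by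
      rw [one_div_mul_eq_div]; exact div_le_div_of_nonneg_right (hW g) hτ.le)) (by positivity) (by norm_num))
  have hHc : ∀ k, Continuous fun g => resHc τ β u θ (P g) D j k := fun k =>
    ((continuous_H hτ).comp hPc).matrix_elem j k
  have hHi : ∀ k, Integrable (fun g => resHc τ β u θ (P g) D j k ^ 2) μ := fun k => by
    rw [show μ = gauss (Edge n) from disorder_eq_gauss n]
    exact (integrable_const (K ^ 2)).mono' ((hHc k).pow 2).aestronglyMeasurable (.of_forall fun g => by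
      rw [norm_pow]; exact pow_le_pow_left₀ (norm_nonneg _) ((entry_le _ j k).trans (hHb g)) 2)
  set E := fun k => ∫ g, resHc τ β u θ (P g) D j k ^ 2 ∂μ
  have key : ∀ (σ : ℝ) (S : Finset (Fin n)), |σ| = 1 → j ∉ S →
      (∀ k ∈ S, 0 ≤ D k + σ * hh ∧ D k + σ * hh ≤ 1) →
      ‖∑ k ∈ S, (E k - (predM β u θ D j k : ℂ))‖ ≤ ε / 4 := by
    intro σ S hσ hjS hS
    set D' : Fin n → ℝ := fun k => if k ∈ S then D k + σ * hh else D k
    have hD' : ∀ k, 0 ≤ D' k ∧ D' k ≤ 1 := fun k => by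
      simp only [D']; split_ifs with h
      · exact hS k h
      · exact hD k
    have hdD : ∀ k, |D' k - D k| ≤ hh := fun k => by
      simp only [D']; split_ifs with h
      · rw [add_sub_cancel_left, abs_mul, hσ, one_mul, abs_of_pos hh0]
      · simpa using hh0.le
    have hj : D' j = D j := by simp [D', hjS]
    have hL : 32 * hh / η ≤ s := by
      rw [div_le_iff₀ hη]; linarith
    obtain ⟨θ', hdθ, hθ', hb, hΓ'⟩ :=
      exists_theta hβ hu hη hh0 (by linarith [sq_nonneg η]) (by linarith) hD hD' hdD hΓ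
    have hz : zsh τ β u θ' D' = zsh τ β u θ D := by simp only [zsh, hb]
    have hWeq : ∀ g, resW τ β u θ' g D' = resW τ β u θ g D := fun g => by rw [resW_eq, resW_eq, hb]
    have hγ : β ^ 2 * u ^ 2 * gamTwo θ D ≤ 1 - η / 2 := by linarith
    obtain ⟨hm, hζ⟩ := zeta_close hn' hτ hτ1 hβ hu hθ hD (hmd β u θ D hβ hu hθ hD hγ)
    obtain ⟨hm', hζ'⟩ := zeta_close hn' hτ hτ1 hβ hu hθ' hD' (hmd β u θ' D' hβ hu hθ' hD' hΓ')
    choose e he heq using fun k => mean_eq (n := n) hn' hτ hτ1 hβ hu hθ hD k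
    choose e' he' heq' using fun k => mean_eq (n := n) hn' hτ hτ1 hβ hu hθ' hD' k
    rw [← disorder_eq_gauss] at hm hm' heq heq'
    set h := fun k => ∫ g, resHc τ β u θ g D k k ∂μ
    set h' := fun k => ∫ g, resHc τ β u θ' g D' k k ∂μ
    set d := τ + 4 * ε₀ + 33 * hh / η
    have hhd : hh ≤ 33 * hh / η := by rw [le_div_iff₀ hη]; nlinarith
    have hde : 33 * hh / η = 32 * hh / η + hh / η := by ring
    have hhη : 0 ≤ hh / η := by positivity
    have hd10 : 10000 * d ≤ η := by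
      have h1 : τ ≤ η / 100000 := hle.trans ((min_le_right _ _).trans (min_le_right _ _))
      have h2 : ε₀ ≤ η / 100000 := min_le_right _ _
      have h3 : hh / η ≤ η / 1000000 := by rw [div_le_iff₀ hη]; linarith
      have h4 : 33 * hh / η = 33 * (hh / η) := by ring
      simp only [d]
      linarith
    have hest := diff_est (D := D) (D' := D') (h := h) (h' := h') (e := e) (e' := e') (a := a)
      (η := η) (d := d) (r := 4000 / (τ ^ 4 * √(n:ℝ))) (z := zsh τ β u θ D) j ha ha4 hθ hη hΓ hD hD' hdD hj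
      hh0.le (by simp only [d]; linarith) hd10 (by positivity) ?_ ?_ rfl rfl rfl rfl ?_ ?_ he he'
    rotate_left
    · refine hζ.trans ?_; simp only [d]; linarith
    · have h1 := norm_sub_le_norm_sub_add_norm_sub (zsh τ β u θ D - (a : ℂ) *
        ((∑ k, ((D' k : ℂ) + (D' k : ℂ) ^ 2 * h' k)) / (n : ℂ))) (θ' : ℂ) (θ : ℂ)
      rw [← Complex.ofReal_sub, Complex.norm_real, Real.norm_eq_abs] at h1
      rw [hz] at hζ'
      simp only [d]
      linarith
    · intro k
      have := heq k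
      rw [hm] at this
      exact this
    · intro k
      have := heq' k
      rw [hm', hz] at this
      exact this
    have hid : ∀ g, ‖(resHc τ β u θ' (P g) D' j j - resHc τ β u θ (P g) D j j) -
        ∑ k ∈ S, ((σ * hh : ℝ) : ℂ) * resHc τ β u θ (P g) D j k ^ 2‖ ≤ K ^ 3 * hh ^ 2 := by
      intro g
      have hR := res_tau hτ β u θ (P g) D
      have hR' : Res (resW τ β u θ (P g) D) D' (1 / τ) := hWeq (P g) ▸ res_tau hτ β u θ' (P g) D'
      have hsub := hR.H_sub hR'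
      rw [sub_self, Matrix.mul_zero, Matrix.zero_mul, zero_add] at hsub
      simp only [resHc, hWeq] at hsub ⊢
      set H := cH (resW τ β u θ (P g) D) D
      set H' := cH (resW τ β u θ (P g) D) D'
      have hH : ‖H‖ ≤ K := hHb g
      have hH' : ‖H'‖ ≤ K := hR'.norm_H_le.trans (mul_le_mul (hW g) (add_le_add le_rfl (by
        rw [one_div_mul_eq_div]; exact div_le_div_of_nonneg_right (hW g) hτ.le)) (by positivity) (by norm_num))
      have hdg : ‖cdiag D' - cdiag D‖ ≤ hh := by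
        rw [cdiag, cdiag, Matrix.diagonal_sub, Matrix.l2_opNorm_diagonal]
        refine (pi_norm_le_iff_of_nonneg hh0.le).2 fun k => ?_
        rw [← Complex.ofReal_sub, Complex.norm_real, Real.norm_eq_abs]
        exact hdD k
      have hdn : ‖H' - H‖ ≤ K * hh * K := by
        rw [hsub]
        refine (norm_mul_le _ _).trans (mul_le_mul ((norm_mul_le _ _).trans ?_) hH' (norm_nonneg _) (by positivity))
        exact mul_le_mul hH hdg (norm_nonneg _) hK.le
      have hsym : ∀ k, H k j = H j k := fun k => congrFun (congrFun hR.H_symm j) k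
      have e1 : H' j j - H j j = ∑ k ∈ S, ((σ * hh : ℝ) : ℂ) * H j k * H' k j := by
        have h1 : H' j j - H j j = (H' - H) j j := rfl
        rw [h1, hsub, Matrix.mul_assoc, Matrix.mul_apply]
        have h2 : ∀ k, H j k * ((cdiag D' - cdiag D) * H') k j =
            if k ∈ S then ((σ * hh : ℝ) : ℂ) * H j k * H' k j else 0 := fun k => by
          rw [cdiag, cdiag, Matrix.diagonal_sub, Matrix.diagonal_mul]
          simp only [D']
          split_ifs with hk <;> push_cast <;> ring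
        simp only [h2]
        rw [sum_ite_mem, univ_inter]
      have e2 : (H' j j - H j j) - ∑ k ∈ S, ((σ * hh : ℝ) : ℂ) * H j k ^ 2 =
          ∑ k ∈ S, ((σ * hh : ℝ) : ℂ) * H k j * (H' - H) k j := by
        rw [e1, ← sum_sub_distrib]
        exact sum_congr rfl fun k _ => by rw [Matrix.sub_apply, hsym]; ring
      rw [e2]
      refine (norm_sum_le _ _).trans ?_
      calc ∑ k ∈ S, ‖((σ * hh : ℝ) : ℂ) * H k j * (H' - H) k j‖
          ≤ ∑ k, hh * (‖H k j‖ * ‖(H' - H) k j‖) := by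
            refine (sum_le_sum fun k _ => le_of_eq ?_).trans
              (sum_le_sum_of_subset_of_nonneg (subset_univ S) fun k _ _ => by positivity)
            rw [norm_mul, norm_mul, Complex.norm_real, Real.norm_eq_abs, abs_mul, hσ, one_mul, abs_of_pos hh0]
            ring
        _ ≤ hh * (√(K ^ 2) * √((K * hh * K) ^ 2)) := by
            rw [← mul_sum]
            refine mul_le_mul_of_nonneg_left ((Real.sum_mul_le_sqrt_mul_sqrt univ _ _).trans ?_) hh0.le
            exact mul_le_mul (Real.sqrt_le_sqrt ((col_le H j).trans (pow_le_pow_left₀ (norm_nonneg _) hH 2)))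
              (Real.sqrt_le_sqrt ((col_le (H' - H) j).trans (pow_le_pow_left₀ (norm_nonneg _) hdn 2)))
              (Real.sqrt_nonneg _) (Real.sqrt_nonneg _)
        _ = K ^ 3 * hh ^ 2 := by rw [Real.sqrt_sq hK.le, Real.sqrt_sq (by positivity)]; ring
    have hi : ∀ θ₁ D₁, |θ₁| ≤ 1 / 2 → (∀ k, 0 ≤ D₁ k ∧ D₁ k ≤ 1) →
        Integrable (fun g => resHc τ β u θ₁ (P g) D₁ j j) μ := fun θ₁ D₁ hθ₁ hD₁ => by
      rw [show μ = gauss (Edge n) from disorder_eq_gauss n]
      refine (integrable_const K).mono' (((continuous_H hτ).comp hPc).matrix_elem j j).aestronglyMeasurable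
        (.of_forall fun g => ?_)
      have hW1 := (norm_resW_le (D := D₁) (abs_le.2 ⟨by linarith, hτ1⟩) hβ hu hθ₁ hD₁ (hP g)).trans
        (show (10:ℝ) + 2 * 3 ≤ 16 by norm_num)
      exact (entry_le _ j j).trans ((res_tau hτ β u θ₁ (P g) D₁).norm_H_le.trans (mul_le_mul hW1 (add_le_add le_rfl (by
        rw [one_div_mul_eq_div]; exact div_le_div_of_nonneg_right hW1 hτ.le)) (by positivity) (by norm_num)))
    have hprob : μ.real Set.univ = 1 := by
      rw [show μ = gauss (Edge n) from disorder_eq_gauss n]; exact probReal_univ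
    have hdI : Integrable (fun g => resHc τ β u θ' (P g) D' j j - resHc τ β u θ (P g) D j j) μ :=
      (hi θ' D' hθ' hD').sub (hi θ D hθ hD)
    have hR1 : ‖(∫ g, resHc τ β u θ' (P g) D' j j ∂μ - ∫ g, resHc τ β u θ (P g) D j j ∂μ) -
        ((σ * hh : ℝ) : ℂ) * ∑ k ∈ S, E k‖ ≤ K ^ 3 * hh ^ 2 := by
      rw [mul_sum]
      simp only [E, ← integral_const_mul]
      rw [← integral_finsetSum _ fun k _ => (hHi k).const_mul _, ← integral_sub (hi θ' D' hθ' hD') (hi θ D hθ hD),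
        ← integral_sub hdI (integrable_finsetSum _ fun k _ => (hHi k).const_mul _)]
      refine (norm_integral_le_of_norm_le_const (.of_forall hid)).trans ?_
      rw [hprob, mul_one]
    have hT : a * resWeight θ D j * ((∑ k, (D' k - D k) * resWeight θ D k) / n) / (1 - a * gamTwo θ D) =
        σ * hh * ∑ k ∈ S, predM β u θ D j k := by
      have e : ∀ k, (D' k - D k) * resWeight θ D k = if k ∈ S then σ * hh * resWeight θ D k else 0 := fun k => by
        simp only [D']; split_ifs <;> ring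
      simp only [e, sum_ite_mem, univ_inter, predM, ← mul_sum, ← sum_div, a]
      ring
    rw [hT] at hest
    have p1 := hpm β u θ D P hβ hu hθ hD hPc hP hfix j
    have p2 := hpm β u θ' D' P hβ hu hθ' hD' hPc hP hfix j
    set A := ∑ k ∈ S, (E k - (predM β u θ D j k : ℂ))
    set I1 := ∫ g, resHc τ β u θ (P g) D j j ∂μ
    set I2 := ∫ g, resHc τ β u θ' (P g) D' j j ∂μ
    have e3 : ((σ * hh : ℝ) : ℂ) * A = ((h' j - h j) - ((σ * hh * ∑ k ∈ S, predM β u θ D j k : ℝ) : ℂ)) +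
        ((I2 - h' j) - (I1 - h j)) - ((I2 - I1) - ((σ * hh : ℝ) : ℂ) * ∑ k ∈ S, E k) := by
      simp only [A, sum_sub_distrib]; push_cast; ring
    have hA : hh * ‖A‖ ≤ KK * (d * hh + 4000 / (τ ^ 4 * √(n:ℝ))) + (hh * ε / 100 + hh * ε / 100) + K ^ 3 * hh ^ 2 := by
      have : ‖((σ * hh : ℝ) : ℂ) * A‖ = hh * ‖A‖ := by
        rw [norm_mul, Complex.norm_real, Real.norm_eq_abs, abs_mul, hσ, one_mul, abs_of_pos hh0]
      rw [← this, e3]
      refine (norm_sub_le _ _).trans (add_le_add ((norm_add_le _ _).trans (add_le_add hest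
        ((norm_sub_le _ _).trans (add_le_add p2 p1)))) hR1)
    have hrK : KK * (4000 / (τ ^ 4 * √(n:ℝ))) ≤ hh * ε / 100 := by
      refine (mul_le_mul_of_nonneg_left hr hKK.le).trans_eq ?_
      field_simp
    have hd : KK * d ≤ ε / 10 := by
      have h1 : KK * ε₀ ≤ ε / 100 := by
        refine (mul_le_mul_of_nonneg_left (min_le_left _ _) hKK.le).trans_eq ?_
        field_simp
      have h2 : KK * τ ≤ KK * ε₀ := mul_le_mul_of_nonneg_left (hle.trans (min_le_right _ _)) hKK.le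
      have h3 : KK * (33 * hh / η) ≤ ε / 100 := by
        rw [← mul_div_assoc, div_le_iff₀ hη]
        have := (le_div_iff₀ (by positivity)).1 hh2
        nlinarith
      simp only [d]
      linarith
    have h7 : hh * ‖A‖ ≤ hh * (ε / 4) := by
      have h8 := mul_le_mul_of_nonneg_right hd hh0.le
      have h9 : K ^ 3 * hh ^ 2 ≤ hh * (ε / 100) := by
        have := mul_le_mul_of_nonneg_left hh1 hh0.le
        linarith
      have : 0 ≤ hh * ε := by positivity
      linarith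
    exact le_of_mul_le_mul_left h7 hh0
  set dk := fun k => (E k).re - predM β u θ D j k
  have hre : ∀ k, ∫ g, (resHc τ β u θ (P g) D j k ^ 2).re ∂μ = (E k).re := fun k =>
    ContinuousLinearMap.integral_comp_comm Complex.reCLM (hHi k)
  simp only [hre]
  have hsum : ∀ S : Finset (Fin n), ∀ σ : ℝ, |σ| = 1 → j ∉ S →
      (∀ k ∈ S, 0 ≤ D k + σ * hh ∧ D k + σ * hh ≤ 1) → |∑ k ∈ S, dk k| ≤ ε / 4 := fun S σ hσ hj hS => by
    refine le_trans (le_of_eq_of_le ?_ (Complex.abs_re_le_norm _)) (key σ S hσ hj hS)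
    simp [dk, Complex.re_sum]
  set others := univ.erase j
  have hlow : ∀ S ⊆ others.filter fun k => D k ≤ 1 / 2, |∑ k ∈ S, dk k| ≤ ε / 4 := fun S hS =>
    hsum S 1 abs_one (fun hj => (mem_erase.1 (mem_filter.1 (hS hj)).1).1 rfl) fun k hk => by
      have := (mem_filter.1 (hS hk)).2; have := (hD k).1; constructor <;> linarith
  have hhigh : ∀ S ⊆ others.filter fun k => ¬ D k ≤ 1 / 2, |∑ k ∈ S, dk k| ≤ ε / 4 := fun S hS =>
    hsum S (-1) (by norm_num) (fun hj => (mem_erase.1 (mem_filter.1 (hS hj)).1).1 rfl) fun k hk => by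
      have := not_le.1 (mem_filter.1 (hS hk)).2; have := (hD k).2; constructor <;> linarith
  have habs : ∀ T : Finset (Fin n), (∀ S ⊆ T, |∑ k ∈ S, dk k| ≤ ε / 4) → ∑ k ∈ T, |dk k| ≤ ε / 2 := fun T hT => by
    rw [← sum_filter_add_sum_filter_not T (fun k => 0 ≤ dk k)]
    have h1 := hT _ (filter_subset (fun k => 0 ≤ dk k) T)
    have h2 := hT _ (filter_subset (fun k => ¬ 0 ≤ dk k) T)
    rw [sum_congr rfl fun k hk => abs_of_nonneg (mem_filter.1 hk).2,
      sum_congr (g := fun k => -dk k) rfl fun k hk => abs_of_neg (not_le.1 (mem_filter.1 hk).2), sum_neg_distrib]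
    linarith [le_abs_self (∑ k ∈ T.filter fun k => 0 ≤ dk k, dk k),
      neg_abs_le (∑ k ∈ T.filter fun k => ¬ 0 ≤ dk k, dk k)]
  rw [← add_sum_erase _ _ (mem_univ j), if_pos rfl, abs_zero, zero_add,
    sum_congr (g := fun k => |dk k|) rfl fun k hk => by rw [if_neg (Ne.symm (mem_erase.1 hk).1)],
    ← sum_filter_add_sum_filter_not (univ.erase j) (fun k => D k ≤ 1 / 2)]
  linarith [habs _ hlow, habs _ hhigh]

end Vale.Agent.P150.High.SchurOpMean
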