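import Vale.Agent.P150.High.SchurOpTools
import Vale.Agent.P150.High.SchurOpMean
import Vale.Agent.P150.High.LipConc

/-!
# P150, the Schur square of `H` off the diagonal in operator norm, given small entries

Concentration of the bilinear forms at sign vectors for every point of a net, the mean row sums, and
the passage from sparse sign vectors to the operator norm.
-/

open MeasureTheory ProbabilityTheory Filter Matrix Finset
open scoped Matrix.Norms.L2Operator Topology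

namespace Vale.Agent.P150.High.SchurOp

open Vale.Agent.P150 Vale.Agent.P150.High.ResCalc Vale.Agent.P150.High.DiagMeanLaw
  Vale.Agent.P150.High.SchurOpTools Vale.Agent.P150.High.SchurOpMean

variable {n : ℕ}

lemma nz_eq (σ : Fin n → Fin 3) : (nz σ : ℝ) = ∑ j, sv σ j ^ 2 := by
  rw [nz, Finset.card_filter, Nat.cast_sum]
  refine sum_congr rfl fun j _ => ?_
  simp only [sv]
  generalize σ j = x
  fin_cases x <;> norm_num

lemma sv_sq_le (σ : Fin n → Fin 3) (j : Fin n) : sv σ j ^ 2 ≤ 1 := by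
  simp only [sv]
  generalize σ j = x
  fin_cases x <;> norm_num

/-- a sparse window sees little of a bounded matrix -/
lemma sum_win_le (X : Matrix (Fin n) (Fin n) ℂ) {K : ℝ} (hX : ‖X‖ ≤ K) (σ ρ : Fin n → Fin 3) :
    ∑ j, ∑ k, (sv σ j * sv ρ k) ^ 2 * ‖X j k‖ ^ 2 ≤ min (nz σ : ℝ) (nz ρ) * K ^ 2 := by
  have hrow : ∀ j, ∑ k, ‖X j k‖ ^ 2 ≤ K ^ 2 := fun j => by
    have := col_le Xᵀ j
    rw [norm_transpose] at this
    exact this.trans (pow_le_pow_left₀ (norm_nonneg _) hX 2)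
  have hcol : ∀ k, ∑ j, ‖X j k‖ ^ 2 ≤ K ^ 2 := fun k =>
    (col_le X k).trans (pow_le_pow_left₀ (norm_nonneg _) hX 2)
  rw [min_mul_of_nonneg _ _ (sq_nonneg K)]
  refine le_min ?_ ?_
  · rw [nz_eq, sum_mul]
    refine sum_le_sum fun j _ => ?_
    refine le_trans (sum_le_sum (g := fun k => sv σ j ^ 2 * ‖X j k‖ ^ 2) fun k _ => ?_) ?_
    · rw [mul_pow, mul_assoc]
      exact mul_le_mul_of_nonneg_left (mul_le_of_le_one_left (sq_nonneg _) (sv_sq_le ρ k)) (sq_nonneg _)
    · rw [← mul_sum]; exact mul_le_mul_of_nonneg_left (hrow j) (sq_nonneg _)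
  · rw [nz_eq, Finset.sum_comm, sum_mul]
    refine sum_le_sum fun k _ => ?_
    refine le_trans (sum_le_sum (g := fun j => sv ρ k ^ 2 * ‖X j k‖ ^ 2) fun j _ => ?_) ?_
    · rw [mul_pow, mul_assoc]
      exact mul_le_of_le_one_left (by positivity) (sv_sq_le σ j)
    · rw [← mul_sum]; exact mul_le_mul_of_nonneg_left (hcol k) (sq_nonneg _)

lemma re_sq_sub_le (x y : ℂ) : |(x ^ 2).re - (y ^ 2).re| ≤ ‖x - y‖ * ‖x + y‖ := by
  rw [← Complex.sub_re, ← norm_mul]
  refine (Complex.abs_re_le_norm _).trans (le_of_eq ?_)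
  congr 1; ring

/-- the bilinear form at sign vectors of two Schur squares -/
lemma win_diff_le {X Y : Matrix (Fin n) (Fin n) ℂ} {K : ℝ} (hK : ‖X + Y‖ ≤ K) (c : Fin n → Fin n → ℝ)
    (σ ρ : Fin n → Fin 3) :
    |bil (Matrix.of fun j k => if j = k then 0 else (X j k ^ 2).re - c j k) (sv σ) (sv ρ) -
      bil (Matrix.of fun j k => if j = k then 0 else (Y j k ^ 2).re - c j k) (sv σ) (sv ρ)| ≤
      √(cfsq (X - Y)) * (√(min (nz σ : ℝ) (nz ρ)) * K) := by
  have hK0 : 0 ≤ K := (norm_nonneg _).trans hK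
  simp only [bil, dotProduct, Matrix.mulVec, Matrix.of_apply, mul_sum, ← sum_sub_distrib]
  refine (abs_sum_le_sum_abs _ _).trans ((sum_le_sum fun j _ => (abs_sum_le_sum_abs _ _).trans
    (sum_le_sum (g := fun k => ‖(X - Y) j k‖ * (|sv σ j * sv ρ k| * ‖(X + Y) j k‖)) fun k _ => ?_)).trans ?_)
  · by_cases h : j = k
    · simp [h]; positivity
    · rw [if_neg h, if_neg h, ← mul_sub, ← sub_mul, sub_sub_sub_cancel_right, abs_mul, abs_mul, abs_mul,
        Matrix.sub_apply, Matrix.add_apply]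
      calc |sv σ j| * (|(X j k ^ 2).re - (Y j k ^ 2).re| * |sv ρ k|)
          ≤ |sv σ j| * (‖X j k - Y j k‖ * ‖X j k + Y j k‖ * |sv ρ k|) := by
            gcongr; exact re_sq_sub_le _ _
        _ = _ := by ring
  · rw [← Fintype.sum_prod_type' fun j k => ‖(X - Y) j k‖ * (|sv σ j * sv ρ k| * ‖(X + Y) j k‖)]
    refine (Real.sum_mul_le_sqrt_mul_sqrt univ _ _).trans ?_
    rw [Fintype.sum_prod_type, Fintype.sum_prod_type]
    refine mul_le_mul_of_nonneg_left ?_ (Real.sqrt_nonneg _)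
    simp only [mul_pow, sq_abs]
    simp only [← mul_pow]
    refine (Real.sqrt_le_sqrt (le_trans (le_of_eq ?_) (sum_win_le _ hK σ ρ))).trans_eq ?_
    · exact sum_congr rfl fun j _ => sum_congr rfl fun k _ => by ring
    · rw [Real.sqrt_mul (by positivity), Real.sqrt_sq hK0]

/-- the regularised Schur square minus the prediction, off the diagonal -/
noncomputable def Rq (τ β : ℝ) (q : ℝ × ℝ × (Fin n → ℝ)) (g : Edge n → ℝ) : Matrix (Fin n) (Fin n) ℝ :=
  Matrix.of fun j k => if j = k then 0 else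
    (resHc τ β q.1 q.2.1 g q.2.2 j k ^ 2).re - predM β q.1 q.2.1 q.2.2 j k

lemma predM_abs_le {β u θ η : ℝ} {D : Fin n → ℝ} (hβ : β ^ 2 ≤ 1) (hu : |u| ≤ 2) (hη : 0 < η)
    (hθ : |θ| ≤ 1 / 2) (hD : ∀ j, 0 ≤ D j ∧ D j ≤ 1) (hΓ : β ^ 2 * u ^ 2 * gamTwo θ D ≤ 1 - η)
    (j k : Fin n) : |predM β u θ D j k| ≤ 64 / η / n := by
  have hj := resWeight_bounds hθ hD j
  have hk := resWeight_bounds hθ hD k
  have h4 : u ^ 2 ≤ 4 := by nlinarith [sq_abs u, abs_nonneg u]
  have ha : β ^ 2 * u ^ 2 ≤ 4 := (mul_le_mul hβ h4 (sq_nonneg u) zero_le_one).trans_eq (one_mul 4)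
  have hc : 0 ≤ β ^ 2 * u ^ 2 / (1 - β ^ 2 * u ^ 2 * gamTwo θ D) := div_nonneg (by positivity) (by linarith)
  have hc4 : β ^ 2 * u ^ 2 / (1 - β ^ 2 * u ^ 2 * gamTwo θ D) ≤ 4 / η :=
    div_le_div₀ (by norm_num) ha hη (by linarith)
  rw [predM, abs_of_nonneg (div_nonneg (mul_nonneg (mul_nonneg hc hj.1) hk.1) (Nat.cast_nonneg n))]
  refine div_le_div_of_nonneg_right ?_ (Nat.cast_nonneg n)
  calc _ ≤ 4 / η * 4 * 4 := mul_le_mul (mul_le_mul hc4 hj.2 hj.1 (by positivity)) hk.2 hk.1 (by positivity)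
    _ = _ := by ring

lemma predM_symm (β u θ : ℝ) (D : Fin n → ℝ) (j k : Fin n) : predM β u θ D j k = predM β u θ D k j := by
  simp only [predM]; ring

lemma predM_lip {β u u' θ θ' η δ : ℝ} {D D' : Fin n → ℝ} (hβ : β ^ 2 ≤ 1) (hu : |u| ≤ 2) (hu' : |u'| ≤ 2)
    (hη : 0 < η) (hθ : |θ| ≤ 1 / 2) (hθ' : |θ'| ≤ 1 / 2) (hD : ∀ j, 0 ≤ D j ∧ D j ≤ 1)
    (hD' : ∀ j, 0 ≤ D' j ∧ D' j ≤ 1) (hΓ : β ^ 2 * u ^ 2 * gamTwo θ D ≤ 1 - η)
    (hΓ' : β ^ 2 * u' ^ 2 * gamTwo θ' D' ≤ 1 - η) (hdu : |u - u'| ≤ δ) (hdθ : |θ - θ'| ≤ δ)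
    (hdD : ∀ j, |D j - D' j| ≤ δ) (j k : Fin n) :
    |predM β u θ D j k - predM β u' θ' D' j k| ≤ 41000 / η ^ 2 * δ / n := by
  have hδ : 0 ≤ δ := (abs_nonneg _).trans hdu
  set a := β ^ 2 * u ^ 2
  set a' := β ^ 2 * u' ^ 2
  have ha0 : 0 ≤ a := by positivity
  have ha0' : 0 ≤ a' := by positivity
  have h4' : u' ^ 2 ≤ 4 := by nlinarith [sq_abs u', abs_nonneg u']
  have ha' : a' ≤ 4 := (mul_le_mul hβ h4' (sq_nonneg u') zero_le_one).trans_eq (one_mul 4)
  have hu2 : |u ^ 2 - u' ^ 2| ≤ 4 * δ := by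
    rw [sq_sub_sq, abs_mul]
    exact mul_le_mul ((abs_add_le _ _).trans (by linarith)) hdu (abs_nonneg _) (by norm_num)
  have hda : |a - a'| ≤ 4 * δ := by
    simp only [a, a']
    rw [← mul_sub, abs_mul, abs_of_nonneg (sq_nonneg β)]
    exact (mul_le_of_le_one_left (abs_nonneg _) hβ).trans hu2
  have hΓb := gamTwo_bounds hθ hD
  have hΓb' := gamTwo_bounds hθ' hD'
  have hdΓ : |gamTwo θ D - gamTwo θ' D'| ≤ 32 * δ := gamTwo_lip hθ' hθ hD' hD hdθ hdD
  set Q := 1 - a * gamTwo θ D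
  set Q' := 1 - a' * gamTwo θ' D'
  have hQ : η ≤ Q ∧ Q ≤ 1 := ⟨by simp only [Q]; linarith, by simp only [Q]; linarith [mul_nonneg ha0 hΓb.1]⟩
  have hQ' : η ≤ Q' ∧ Q' ≤ 1 := ⟨by simp only [Q']; linarith, by simp only [Q']; linarith [mul_nonneg ha0' hΓb'.1]⟩
  have hdQ : |Q' - Q| ≤ 144 * δ := by
    rw [show Q' - Q = (a - a') * gamTwo θ D + a' * (gamTwo θ D - gamTwo θ' D') by simp only [Q, Q']; ring]
    refine (abs_add_le _ _).trans ?_
    rw [abs_mul, abs_mul, abs_of_nonneg hΓb.1, abs_of_nonneg ha0']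
    have := mul_le_mul hda hΓb.2 hΓb.1 (by positivity)
    have := mul_le_mul ha' hdΓ (abs_nonneg _) (by norm_num)
    linarith
  have hη1 : η ≤ 1 := hQ.1.trans hQ.2
  have hdc : |a / Q - a' / Q'| ≤ 580 * δ / η ^ 2 := by
    rw [div_sub_div _ _ (by linarith) (by linarith), abs_div, abs_of_pos (mul_pos (by linarith) (by linarith : 0 < Q'))]
    refine div_le_div₀ (by positivity) ?_ (by positivity) (by rw [sq]; exact mul_le_mul hQ.1 hQ'.1 hη.le (by linarith))
    rw [show a * Q' - Q * a' = (a - a') * Q' + a' * (Q' - Q) by ring]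
    refine (abs_add_le _ _).trans ?_
    rw [abs_mul, abs_mul, abs_of_nonneg (by linarith : (0:ℝ) ≤ Q'), abs_of_nonneg ha0']
    have := mul_le_mul hda hQ'.2 (by linarith) (by positivity)
    have := mul_le_mul ha' hdQ (abs_nonneg _) (by norm_num)
    linarith
  have hw : ∀ i, |resWeight θ D i - resWeight θ' D' i| ≤ 32 * δ := fun i => by
    have h1 := (frac_bound hθ (hD i).1 (hD i).2).1
    have h2 := (frac_bound hθ' (hD' i).1 (hD' i).2).1
    simp only [resWeight, ← _root_.one_div_pow]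
    rw [sq_sub_sq, abs_mul]
    refine (mul_le_mul (b := 4) ?_ ?_ (abs_nonneg _) (by norm_num)).trans_eq
      (show 4 * (8 * δ) = 32 * δ by ring)
    · rw [abs_of_nonneg (by positivity)]
      have e1 : 1 / (1 + θ * D i) ≤ 2 := by rw [div_le_iff₀ (by linarith)]; linarith
      have e2 : 1 / (1 + θ' * D' i) ≤ 2 := by rw [div_le_iff₀ (by linarith)]; linarith
      linarith
    · rw [div_sub_div _ _ (by linarith) (by linarith), abs_div, abs_of_pos (by positivity : 0 < (1 + θ * D i) * (1 + θ' * D' i)),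
        div_le_iff₀ (by positivity),
        show 1 * (1 + θ' * D' i) - (1 + θ * D i) * 1 = (θ' - θ) * D' i + θ * (D' i - D i) by ring]
      refine (abs_add_le _ _).trans ?_
      rw [abs_mul, abs_mul, abs_sub_comm θ', abs_sub_comm (D' i), abs_of_nonneg (hD' i).1]
      have := mul_le_mul hdθ (hD' i).2 (hD' i).1 hδ
      have := mul_le_mul hθ (hdD i) (abs_nonneg _) (by norm_num)
      have := mul_le_mul_of_nonneg_left (mul_le_mul h1 h2 (by norm_num) (by linarith)) (by linarith : (0:ℝ) ≤ 8 * δ)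
      linarith
  have hj := resWeight_bounds hθ hD j
  have hk := resWeight_bounds hθ hD k
  have hj' := resWeight_bounds hθ' hD' j
  set wj := resWeight θ D j
  set wk := resWeight θ D k
  set vj := resWeight θ' D' j
  set vk := resWeight θ' D' k
  have hc' : |a' / Q'| ≤ 4 / η := by
    rw [abs_div, abs_of_nonneg ha0', abs_of_pos (by linarith : 0 < Q')]
    exact div_le_div₀ (by norm_num) ha' hη hQ'.1
  simp only [predM]
  rw [← sub_div, abs_div, Nat.abs_cast]
  refine div_le_div_of_nonneg_right ?_ (Nat.cast_nonneg n)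
  show |a / Q * wj * wk - a' / Q' * vj * vk| ≤ _
  rw [show a / Q * wj * wk - a' / Q' * vj * vk =
    (a / Q - a' / Q') * (wj * wk) + a' / Q' * ((wj - vj) * wk + vj * (wk - vk)) by ring]
  refine (abs_add_le _ _).trans ?_
  rw [abs_mul, abs_mul, abs_mul, abs_of_nonneg hj.1, abs_of_nonneg hk.1]
  have i1 : |(wj - vj) * wk + vj * (wk - vk)| ≤ 256 * δ := by
    refine (abs_add_le _ _).trans ?_
    rw [abs_mul, abs_mul, abs_of_nonneg hk.1, abs_of_nonneg hj'.1]
    have := mul_le_mul (hw j) hk.2 hk.1 (by positivity)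
    have := mul_le_mul hj'.2 (hw k) (abs_nonneg _) (by norm_num)
    linarith
  have t1 := mul_le_mul hdc (mul_le_mul hj.2 hk.2 hk.1 (by norm_num)) (mul_nonneg hj.1 hk.1) (by positivity)
  have t2 := mul_le_mul hc' i1 (abs_nonneg _) (by positivity)
  have t3 : 4 / η * (256 * δ) ≤ 1024 * δ / η ^ 2 := by
    rw [div_mul_eq_mul_div, div_le_div_iff₀ hη (by positivity)]
    nlinarith [mul_nonneg (mul_nonneg hδ hη.le) (sub_nonneg.2 hη1)]
  have t4 : 580 * δ / η ^ 2 * (4 * 4) + 1024 * δ / η ^ 2 ≤ 41000 / η ^ 2 * δ := by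
    rw [show 580 * δ / η ^ 2 * (4 * 4) + 1024 * δ / η ^ 2 = δ / η ^ 2 * 10304 by ring,
      show 41000 / η ^ 2 * δ = δ / η ^ 2 * 41000 by ring]
    exact mul_le_mul_of_nonneg_left (by norm_num) (by positivity)
  linarith

lemma resHc_param_norm {τ β u u' θ θ' δ : ℝ} {g : Edge n → ℝ} {D D' : Fin n → ℝ} (hτ : 0 < τ) (hτ1 : τ ≤ 1)
    (hβ : β ^ 2 ≤ 1) (hu : |u| ≤ 2) (hu' : |u'| ≤ 2) (hθ : |θ| ≤ 1 / 2) (hθ' : |θ'| ≤ 1 / 2)
    (hD : ∀ j, 0 ≤ D j ∧ D j ≤ 1) (hD' : ∀ j, 0 ≤ D' j ∧ D' j ≤ 1) (hg : g ∈ Ball β 3)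
    (hdu : |u - u'| ≤ δ) (hdθ : |θ - θ'| ≤ δ) (hdD : ∀ j, |D j - D' j| ≤ δ) :
    ‖resHc τ β u' θ' g D' - resHc τ β u θ g D‖ ≤ (1 + 16 / τ) ^ 2 * 300 * δ := by
  have hδ : 0 ≤ δ := (abs_nonneg _).trans hdu
  have hW : ∀ w th (E : Fin n → ℝ), |w| ≤ 2 → |th| ≤ 1 / 2 → (∀ j, 0 ≤ E j ∧ E j ≤ 1) →
      ‖resW τ β w th g E‖ ≤ 16 := fun w th E hw hth hE =>
    (norm_resW_le (D := E) (abs_le.2 ⟨by linarith, hτ1⟩) hβ hw hth hE hg).trans (by norm_num)
  have hR := res_tau hτ β u θ g D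
  have hR' := res_tau hτ β u' θ' g D'
  set K := 1 + 16 / τ
  have hM : ∀ w th (E : Fin n → ℝ), |w| ≤ 2 → |th| ≤ 1 / 2 → (∀ j, 0 ≤ E j ∧ E j ≤ 1) →
      ‖cM (resW τ β w th g E) E‖ ≤ K ∧ ‖resHc τ β w th g E‖ ≤ 16 * K := fun w th E hw hth hE => by
    have h := hW w th E hw hth hE
    have hK' : 1 + 1 / τ * ‖resW τ β w th g E‖ ≤ K :=
      add_le_add le_rfl (by rw [one_div_mul_eq_div]; exact div_le_div_of_nonneg_right h hτ.le)
    exact ⟨((res_tau hτ β w th g E).norm_M_le).trans hK',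
      ((res_tau hτ β w th g E).norm_H_le).trans (mul_le_mul h hK' (by positivity) (by norm_num))⟩
  have h1 : ‖resW τ β u θ g D - resW τ β u' θ' g D'‖ ≤ 44 * δ := by
    rw [resW_eq, resW_eq, show ∀ (a b c d : Matrix (Fin n) (Fin n) ℂ), (a - b) - (c - d) = (a - c) - (b - d)
      from fun a b c d => by abel, ← sub_smul, ← sub_smul, sub_sub_sub_cancel_right]
    refine (norm_sub_le _ _).trans ?_
    rw [norm_smul, norm_smul, ← Complex.ofReal_sub, ← Complex.ofReal_sub, Complex.norm_real, Complex.norm_real,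
      Real.norm_eq_abs, Real.norm_eq_abs]
    refine (add_le_add ((mul_le_of_le_one_right (abs_nonneg _) norm_one_le).trans
      (DiagMean.shift_lip hβ hu hu' hθ hθ' hD hD' hdu hdθ hdD)) (mul_le_mul hdu hg (norm_nonneg _) hδ)).trans ?_
    linarith
  have h2 : ‖cdiag D' - cdiag D‖ ≤ δ := by
    rw [cdiag, cdiag, Matrix.diagonal_sub, Matrix.l2_opNorm_diagonal]
    refine (pi_norm_le_iff_of_nonneg hδ).2 fun j => ?_
    rw [← Complex.ofReal_sub, Complex.norm_real, Real.norm_eq_abs, abs_sub_comm]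
    exact hdD j
  have e := hR.H_sub hR'
  simp only [resHc] at hM ⊢
  rw [e]
  obtain ⟨m1, m2⟩ := hM u θ D hu hθ hD
  obtain ⟨m1', m2'⟩ := hM u' θ' D' hu' hθ' hD'
  have hK : 0 ≤ K := by positivity
  calc _ ≤ ‖(cM (resW τ β u θ g D) D)ᵀ * (resW τ β u θ g D - resW τ β u' θ' g D') * cM (resW τ β u' θ' g D') D'‖ +
        ‖cH (resW τ β u θ g D) D * (cdiag D' - cdiag D) * cH (resW τ β u' θ' g D') D'‖ := norm_add_le _ _
    _ ≤ K * (44 * δ) * K + 16 * K * δ * (16 * K) := by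
        refine add_le_add ((norm_mul_le _ _).trans (mul_le_mul ((norm_mul_le _ _).trans (mul_le_mul ?_ h1
          (norm_nonneg _) hK)) m1' (norm_nonneg _) (by positivity)))
          ((norm_mul_le _ _).trans (mul_le_mul ((norm_mul_le _ _).trans (mul_le_mul m2 h2 (norm_nonneg _) (by positivity)))
            m2' (norm_nonneg _) (by positivity)))
        rw [norm_transpose]; exact m1
    _ = K ^ 2 * 300 * δ := by ring

set_option maxHeartbeats 1000000 in
theorem schurOp : SchurOpStatement := by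
  intro β η ε hβ0 hβ1 hη hε
  have hβ : β ^ 2 ≤ 1 := pow_le_one₀ hβ0 hβ1.le
  set ε₁ := ε / 32
  have hε₁ : 0 < ε₁ := by positivity
  obtain ⟨τ₀, hτ₀, hτ₀1, hmean⟩ := mean_rows (η := η / 2) (ε := ε₁) (half_pos hη) hε₁
  set A₀ := 16 * (1 + 16 / η)
  set Kd := (1 + 16 / η) ^ 2
  set τ := min τ₀ (ε₁ / (Kd * (2 * A₀ + Kd)))
  have hτ : 0 < τ := lt_min hτ₀ (by positivity)
  have hτ1 : τ ≤ 1 := (min_le_left _ _).trans hτ₀1
  have hτK : Kd * τ * (2 * A₀ + Kd) ≤ ε₁ := by
    have := (le_div_iff₀ (by positivity)).1 (min_le_right τ₀ (ε₁ / (Kd * (2 * A₀ + Kd))))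
    linarith
  set K₁ := 1 + 16 / τ
  have hK₁ : 0 < K₁ := by positivity
  set Kτ := 16 * K₁
  set s := min (η / 512) (min (ε₁ / (2 * (K₁ ^ 2 * 300) * (2 * Kτ))) (ε₁ * η ^ 2 / (8 * 41000)))
  have hs : 0 < s := lt_min (by positivity) (lt_min (by positivity) (by positivity))
  have hs1 : s ≤ η / 512 := min_le_left _ _
  have hs2 : s * (2 * (K₁ ^ 2 * 300) * (2 * Kτ)) ≤ ε₁ :=
    (le_div_iff₀ (by positivity)).1 ((min_le_right _ _).trans (min_le_left _ _))
  have hs3 : s ≤ ε₁ * η ^ 2 / (8 * 41000) := (min_le_right _ _).trans (min_le_right _ _)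
  obtain ⟨m, hm⟩ := exists_nat_gt (1 / s)
  have hm0 : (0:ℝ) < m := lt_of_le_of_lt (by positivity) hm
  have hms : 1 / (m:ℝ) ≤ s := by
    rw [div_le_iff₀ hm0]; rw [div_lt_iff₀ hs] at hm; linarith
  set Alog := Real.log (2 * (m:ℝ) + 1)
  have hAlog : 0 ≤ Alog := Real.log_nonneg (by linarith)
  set Lc := 2 * Kτ * (3 * K₁ ^ 2)
  have hLc : 0 < Lc := by positivity
  set γ := 1 / (Real.exp 1 * Real.pi ^ 2 * Lc ^ 2)
  have hγ : 0 < γ := by positivity
  set E0 := 3 * Alog + 2 * Real.log 3 + 2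
  have hE0 : 0 < E0 := by have := Real.log_nonneg (show (1:ℝ) ≤ 3 by norm_num); positivity
  set C := √(E0 / γ)
  have hC : 0 < C := Real.sqrt_pos.2 (by positivity)
  have hγC : C ^ 2 * γ = E0 := by
    rw [Real.sq_sqrt (by positivity), div_mul_cancel₀ _ hγ.ne']
  obtain ⟨b, hb⟩ := opLe_of_sparse (ε := ε / 4) (C := C) (by positivity) hC.le
  set δ₀ := √(ε / (8 * 4 ^ b))
  have hδ₀ : 0 < δ₀ := Real.sqrt_pos.2 (by positivity)
  have hδ₀2 : δ₀ ^ 2 = ε / (8 * 4 ^ b) := Real.sq_sqrt (by positivity)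
  obtain ⟨c₀, hc₀, hball⟩ := ball_prob
  set c' := min 1 c₀
  have hc' : 0 < c' := lt_min one_pos hc₀
  refine ⟨δ₀, c' / 2, hδ₀, by positivity, ?_⟩
  filter_upwards [hmean τ hτ (min_le_left _ _) s hs, Filter.eventually_ge_atTop 1,
    (tendsto_const_div_atTop_nhds_zero_nat (64 / η)).eventually
      (eventually_le_nhds (show (0:ℝ) < ε / (8 * 4 ^ b) by positivity)),
    tendsto_natCast_atTop_atTop.eventually_ge_atTop (20 / c')]
    with n hmean hn1 hpred hbig
  have hn : (0:ℝ) < n := by exact_mod_cast hn1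
  have hsn : 0 < √(n:ℝ) := Real.sqrt_pos.2 hn
  obtain ⟨P, hP, hfix, hlip, -⟩ := exists_proj (n := n) β (show (0:ℝ) ≤ 3 by norm_num)
  have hPc : Continuous P := by
    refine continuous_pi fun e => continuous_iff_continuousAt.2 fun g => tendsto_iff_norm_sub_tendsto_zero.2 ?_
    have hc : Tendsto (fun w : Edge n → ℝ => √(∑ e, (w e - g e) ^ 2)) (𝓝 g) (𝓝 0) :=
      (by fun_prop : Continuous fun w : Edge n → ℝ => √(∑ e, (w e - g e) ^ 2)).tendsto' g 0 (by simp)
    refine squeeze_zero (fun _ => norm_nonneg _) (fun w => ?_) hc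
    rw [Real.norm_eq_abs]
    exact Real.abs_le_sqrt ((single_le_sum (f := fun e => (P w e - P g e) ^ 2) (fun _ _ => sq_nonneg _)
      (mem_univ e)).trans (hlip w g))
  set S : Set (ℝ × ℝ × (Fin n → ℝ)) := {p | (0 ≤ p.1 ∧ p.1 ≤ 2 ∧ |p.2.1| ≤ 1 / 2 ∧
    ∀ j, 0 ≤ p.2.2 j ∧ p.2.2 j ≤ 1) ∧ |p.2.1| + s ≤ 1 / 2 ∧ β ^ 2 * p.1 ^ 2 * gamTwo p.2.1 p.2.2 ≤ 1 - η / 2}
  obtain ⟨N, hNS, hNcard, hN⟩ := exists_net n (Nat.cast_pos.1 hm0) S fun p hp => hp.1
  rw [disorder_eq_gauss] at hmean ⊢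
  set μ := gauss (Edge n)
  have hHb : ∀ q ∈ N, ∀ g, ‖resHc τ β q.1 q.2.1 (P g) q.2.2‖ ≤ Kτ := fun q hq g => by
    obtain ⟨⟨hu0, hu2, hθ, hD⟩, -⟩ := hNS hq
    have hW := (norm_resW_le (D := q.2.2) (abs_le.2 ⟨by linarith, hτ1⟩) hβ
      (abs_le.2 ⟨by linarith, hu2⟩) hθ hD (hP g)).trans (show (10:ℝ) + 2 * 3 ≤ 16 by norm_num)
    exact (res_tau hτ β _ _ _ _).norm_H_le.trans (mul_le_mul hW (add_le_add le_rfl (by
      rw [one_div_mul_eq_div]; exact div_le_div_of_nonneg_right hW hτ.le)) (by positivity) (by norm_num))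
  set EM : ℝ × ℝ × (Fin n → ℝ) → Matrix (Fin n) (Fin n) ℝ := fun q => Matrix.of fun j k => ∫ g, Rq τ β q (P g) j k ∂μ
  have hint : ∀ q ∈ N, ∀ j k, Integrable (fun g => (resHc τ β q.1 q.2.1 (P g) q.2.2 j k ^ 2).re) μ := fun q hq j k =>
    (integrable_const (Kτ ^ 2)).mono'
      (Complex.continuous_re.comp ((((continuous_H hτ).comp hPc).matrix_elem j k).pow 2)).aestronglyMeasurable
      (.of_forall fun g => (Complex.abs_re_le_norm _).trans (by
        rw [norm_pow]; exact pow_le_pow_left₀ (norm_nonneg _) ((entry_le _ j k).trans (hHb q hq g)) 2))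
  have hintR : ∀ q ∈ N, ∀ j k, Integrable (fun g => Rq τ β q (P g) j k) μ := fun q hq j k => by
    simp only [Rq, Matrix.of_apply]
    split_ifs with h
    · exact integrable_const _
    · exact (hint q hq j k).sub (integrable_const _)
  have hEM : ∀ q ∈ N, Fast.OpNorm.OpLe (EM q) ε₁ := fun q hq => by
    obtain ⟨⟨hu0, hu2, hθ, hD⟩, hθs, hΓ⟩ := hNS hq
    have e : ∀ j k, EM q j k = if j = k then 0 else
        ∫ g, (resHc τ β q.1 q.2.1 (P g) q.2.2 j k ^ 2).re ∂μ - predM β q.1 q.2.1 q.2.2 j k := fun j k => by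
      simp only [EM, Rq, Matrix.of_apply]
      split_ifs with h
      · simp
      · rw [integral_sub (hint q hq j k) (integrable_const _), integral_const, probReal_univ, one_smul]
    refine Fast.OpNorm.opLe_of_symm_abs_sums hε₁.le (Matrix.IsSymm.ext fun j k => ?_) fun j => ?_
    · by_cases h : j = k
      · subst h; rfl
      · rw [e, e, if_neg h, if_neg (Ne.symm h), predM_symm]
        congr 2
        funext g
        rw [show resHc τ β q.1 q.2.1 (P g) q.2.2 k j = resHc τ β q.1 q.2.1 (P g) q.2.2 j k from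
          congrFun (congrFun (res_tau hτ β q.1 q.2.1 (P g) q.2.2).H_symm j) k]
    · simp only [e]
      exact hmean β q.1 q.2.1 q.2.2 P hβ (abs_le.2 ⟨by linarith, hu2⟩) hθs hD hΓ hPc hP hfix j
  set F : ℝ × ℝ × (Fin n → ℝ) → (Fin n → Fin 3) → (Fin n → Fin 3) → (Edge n → ℝ) → ℝ :=
    fun q σ ρ g => bil (Rq τ β q (P g)) (sv σ) (sv ρ)
  have hFmean : ∀ q ∈ N, ∀ σ ρ, ∫ g, F q σ ρ g ∂μ = bil (EM q) (sv σ) (sv ρ) := fun q hq σ ρ => by
    simp only [F, EM, bil, dotProduct, Matrix.mulVec, Matrix.of_apply, mul_sum]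
    rw [integral_finsetSum _ fun j _ => integrable_finsetSum _ fun k _ =>
      ((hintR q hq j k).mul_const _).const_mul _]
    refine sum_congr rfl fun j _ => ?_
    rw [integral_finsetSum _ fun k _ => ((hintR q hq j k).mul_const _).const_mul _]
    refine sum_congr rfl fun k _ => ?_
    rw [integral_const_mul, integral_mul_const]
  set Bad : (ℝ × ℝ × (Fin n → ℝ)) × (Fin n → Fin 3) × (Fin n → Fin 3) → Set (Edge n → ℝ) := fun x =>
    {g | C * √(min (nz x.2.1 : ℝ) (nz x.2.2)) < |F x.1 x.2.1 x.2.2 g - ∫ w, F x.1 x.2.1 x.2.2 w ∂μ|}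
  set T := N ×ˢ (univ : Finset ((Fin n → Fin 3) × (Fin n → Fin 3)))
  have htail : ∀ x ∈ T, μ.real (Bad x) ≤ 2 * (Real.sqrt 2 * Real.exp 1 * Real.exp (-(E0 * n))) := by
    rintro ⟨q, σ, ρ⟩ hx
    have hq := (mem_product.1 hx).1
    obtain ⟨⟨hu0, hu2, hθ, hD⟩, -⟩ := hNS hq
    set mn := min (nz σ : ℝ) (nz ρ)
    have hlipF : ∀ z w, |F q σ ρ z - F q σ ρ w| ≤ (Lc / √n * √mn) * √(∑ e, (z e - w e) ^ 2) := fun z w => by
      have hK : ‖resHc τ β q.1 q.2.1 (P z) q.2.2 + resHc τ β q.1 q.2.1 (P w) q.2.2‖ ≤ 2 * Kτ :=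
        (norm_add_le _ _).trans (by linarith [hHb q hq z, hHb q hq w])
      refine (win_diff_le hK (predM β q.1 q.2.1 q.2.2) σ ρ).trans ?_
      have h := resHc_lip (Λ := 3) hτ hτ1 hβ (abs_le.2 ⟨by linarith, hu2⟩) hθ hD (hP z) (hP w)
      rw [show (10:ℝ) + 2 * 3 = 16 by norm_num] at h
      refine (mul_le_mul_of_nonneg_right (h.trans (mul_le_mul_of_nonneg_left (Real.sqrt_le_sqrt (hlip z w))
        (by positivity))) (by positivity)).trans_eq ?_
      simp only [Lc, K₁, mn]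
      ring
    rcases eq_or_lt_of_le (show 0 ≤ mn from le_min (Nat.cast_nonneg _) (Nat.cast_nonneg _)) with h0 | h0
    · have hconst : ∀ z, F q σ ρ z = F q σ ρ 0 := fun z => by
        have h := hlipF z 0
        rw [← h0, Real.sqrt_zero, mul_zero, zero_mul] at h
        exact sub_eq_zero.1 (abs_eq_zero.1 (le_antisymm h (abs_nonneg _)))
      have hempty : Bad (q, σ, ρ) = ∅ := by
        refine Set.eq_empty_of_forall_notMem fun g hg => ?_
        simp only [Bad, Set.mem_ofPred_eq] at hg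
        rw [integral_congr_ae (.of_forall hconst), integral_const, probReal_univ, one_smul, hconst g, sub_self,
          abs_zero] at hg
        exact absurd hg (not_lt.2 (by positivity))
      rw [hempty, measureReal_empty]
      positivity
    · have hL : 0 < Lc / √n * √mn := by positivity
      have ht : 0 < C * √mn := by positivity
      have hex : (C * √mn) ^ 2 / (Real.exp 1 * Real.pi ^ 2 * (Lc / √n * √mn) ^ 2) = E0 * n := by
        rw [← hγC]
        simp only [γ, mul_pow, div_pow, Real.sq_sqrt h0.le, Real.sq_sqrt hn.le]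
        field_simp
      have t1 := LipConc.tail hL hlipF ht
      have t2 := LipConc.tail (f := fun g => -F q σ ρ g) hL (fun z w => by
        rw [neg_sub_neg, abs_sub_comm]; exact hlipF z w) ht
      rw [hex] at t1 t2
      rw [two_mul]
      refine le_trans (measureReal_mono (s₂ := {g | C * √mn ≤ F q σ ρ g - ∫ w, F q σ ρ w ∂μ} ∪
        {g | C * √mn ≤ -F q σ ρ g - ∫ w, -F q σ ρ w ∂μ}) ?_ (measure_ne_top _ _))
        ((measureReal_union_le _ _).trans (add_le_add t1 t2))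
      intro g hg
      simp only [Bad, Set.mem_ofPred_eq] at hg
      simp only [Set.mem_union, Set.mem_ofPred_eq, integral_neg]
      rcases lt_abs.1 hg with h | h
      · exact Or.inl h.le
      · exact Or.inr (by linarith)
  refine le_trans (measureReal_mono (μ := μ) (s₂ := {g | g ∉ Ball β 3} ∪ ⋃ x ∈ T, Bad x) ?_ (measure_ne_top _ _)) ?_
  · rintro g ⟨u, θ, D, hadm, hsmall, hnot⟩
    by_contra hcon
    simp only [Set.mem_union, Set.mem_ofPred_eq, Set.mem_iUnion, not_or, not_exists, not_not] at hcon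
    obtain ⟨hg, hgood⟩ := hcon
    apply hnot
    have hadm' := hadm
    obtain ⟨hu0, hu2, hθ, hD, hΓ, hform⟩ := hadm
    have hu : |u| ≤ 2 := abs_le.2 ⟨by linarith, hu2⟩
    have hη1 : η ≤ 1 := by
      linarith [mul_nonneg (mul_nonneg (sq_nonneg β) (sq_nonneg u)) (gamTwo_bounds hθ hD).1]
    have hs2' : 2 * s ≤ 1 := by linarith
    set θ₁ := (1 - 2 * s) * θ
    have hθ₁ : |θ₁| + s ≤ 1 / 2 := by
      simp only [θ₁]
      rw [abs_mul, abs_of_nonneg (by linarith)]
      have := mul_le_mul_of_nonneg_left hθ (by linarith : (0:ℝ) ≤ 1 - 2 * s)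
      linarith
    have hdθ₁ : |θ - θ₁| ≤ s := by
      rw [show θ - θ₁ = 2 * s * θ by simp only [θ₁]; ring, abs_mul, abs_of_pos (by positivity)]
      have := mul_le_mul_of_nonneg_left hθ (by positivity : (0:ℝ) ≤ 2 * s)
      linarith
    have hΓ₁ : β ^ 2 * u ^ 2 * gamTwo θ₁ D ≤ 1 - η / 2 := by
      have ha0 : 0 ≤ β ^ 2 * u ^ 2 := by positivity
      have ha4 := (rate_sq (n := n) hn1 hβ hu).2.1
      have h1 := gamTwo_lip (δ := s) hθ (by linarith : |θ₁| ≤ 1 / 2) hD hD (by rw [abs_sub_comm]; exact hdθ₁) fun j => by simp; exact hs.le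
      have h2 := mul_le_mul_of_nonneg_left (abs_le.1 h1).2 ha0
      have h3 : β ^ 2 * u ^ 2 * (32 * s) ≤ 4 * (32 * s) := mul_le_mul_of_nonneg_right ha4 (by positivity)
      rw [mul_sub] at h2
      linarith
    obtain ⟨q, hqN, hdu, hdθq, hdD⟩ := hN (u, θ₁, D) ⟨⟨hu0, hu2, by linarith, hD⟩, hθ₁, hΓ₁⟩
    obtain ⟨⟨hqu0, hqu2, hqθ, hqD⟩, -, hqΓ⟩ := hNS hqN
    have hqu : |q.1| ≤ 2 := abs_le.2 ⟨by linarith, hqu2⟩
    have hdu' : |u - q.1| ≤ 2 * s := by simp only at hdu; linarith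
    have hdθ' : |θ - q.2.1| ≤ 2 * s := by
      simp only at hdθq; linarith [abs_sub_le θ θ₁ q.2.1]
    have hdD' : ∀ j, |D j - q.2.2 j| ≤ 2 * s := fun j => by
      have := hdD j; simp only at this; linarith
    set Mt : Matrix (Fin n) (Fin n) ℝ := Matrix.of fun j k => if j = k then 0 else
      resH β u θ g D j k ^ 2 - predM β u θ D j k
    set A := Rq τ β q (P g) - EM q
    set B := (Mt - Rq τ β q (P g)) + EM q
    have hA : SparseBound A C := fun σ ρ => by
      have h := hgood (q, σ, ρ) (mem_product.2 ⟨hqN, mem_univ _⟩)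
      simp only [Bad, Set.mem_ofPred_eq, not_lt] at h
      rw [hFmean q hqN σ ρ] at h
      simpa only [A, F, bil, Matrix.sub_mulVec, dotProduct_sub] using h
    have hAB : A + B = Mt := by simp only [A, B]; abel
    obtain ⟨hH0, hHd⟩ := resH_approx (Λ := 3) hadm' hη hβ hg hτ.le hτ1
    rw [show (10:ℝ) + 2 * 3 = 16 by norm_num] at hH0 hHd
    set H := cmat (resH β u θ g D)
    set Hp := resHc τ β u θ g D
    set Hq := resHc τ β q.1 q.2.1 (P g) q.2.2
    set B1 : Matrix (Fin n) (Fin n) ℝ := Matrix.of fun j k => if j = k then 0 else (H j k ^ 2).re - (Hp j k ^ 2).re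
    set B2 : Matrix (Fin n) (Fin n) ℝ := Matrix.of fun j k => if j = k then 0 else (Hp j k ^ 2).re - (Hq j k ^ 2).re
    set B3 : Matrix (Fin n) (Fin n) ℝ := Matrix.of fun j k => if j = k then 0 else
      predM β u θ D j k - predM β q.1 q.2.1 q.2.2 j k
    have hB1 : Fast.OpNorm.OpLe B1 ε₁ := by
      have h1 : ‖H - Hp‖ ≤ Kd * τ := by rw [norm_sub_rev]; exact hHd
      have h2 : ‖H + Hp‖ ≤ 2 * A₀ + Kd := by
        have h3 : ‖Hp‖ ≤ A₀ + Kd := (norm_le_norm_add_norm_sub' Hp H).trans (add_le_add hH0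
          (hHd.trans (mul_le_of_le_one_right (by positivity) hτ1)))
        exact (norm_add_le _ _).trans (by linarith)
      refine (opLe_of_schur h1 h2 fun j k => ?_).mono hτK
      simp only [B1, Matrix.of_apply]
      split_ifs with h
      · rw [abs_zero]; positivity
      · exact re_sq_sub_le _ _
    have hB2 : Fast.OpNorm.OpLe B2 ε₁ := by
      have h1 : ‖Hp - Hq‖ ≤ K₁ ^ 2 * 300 * (2 * s) := by
        simp only [Hp, Hq, hfix g hg]
        rw [norm_sub_rev]
        exact resHc_param_norm hτ hτ1 hβ hu hqu hθ hqθ hD hqD hg hdu' hdθ' hdD'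
      have hHp : ‖Hp‖ ≤ Kτ := by
        have hW := (norm_resW_le (D := D) (abs_le.2 ⟨by linarith, hτ1⟩) hβ hu hθ hD hg).trans
          (show (10:ℝ) + 2 * 3 ≤ 16 by norm_num)
        exact (res_tau hτ β u θ g D).norm_H_le.trans (mul_le_mul hW (add_le_add le_rfl (by
          rw [one_div_mul_eq_div]; exact div_le_div_of_nonneg_right hW hτ.le)) (by positivity) (by norm_num))
      have h2 : ‖Hp + Hq‖ ≤ 2 * Kτ := (norm_add_le _ _).trans (by linarith [hHb q hqN g])
      refine (opLe_of_schur h1 h2 fun j k => ?_).mono ((le_of_eq (by ring)).trans hs2)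
      simp only [B2, Matrix.of_apply]
      split_ifs with h
      · rw [abs_zero]; positivity
      · exact re_sq_sub_le _ _
    have hB3 : Fast.OpNorm.OpLe B3 ε₁ := by
      refine Fast.OpNorm.opLe_of_symm_abs_sums hε₁.le (Matrix.IsSymm.ext fun j k => ?_) fun j => ?_
      · simp only [B3, Matrix.of_apply]
        by_cases h : j = k
        · simp [h]
        · rw [if_neg h, if_neg (Ne.symm h), predM_symm β u θ, predM_symm β q.1]
      · refine (sum_le_sum (g := fun _ => 41000 / (η / 2) ^ 2 * (2 * s) / n) fun k _ => ?_).trans ?_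
        · simp only [B3, Matrix.of_apply]
          split_ifs with h
          · rw [abs_zero]; positivity
          · exact predM_lip hβ hu hqu (half_pos hη) hθ hqθ hD hqD (by linarith) hqΓ hdu' hdθ' hdD' j k
        · rw [sum_const, Finset.card_univ, Fintype.card_fin, nsmul_eq_mul, mul_div_cancel₀ _ hn.ne']
          have := (le_div_iff₀ (by positivity)).1 hs3
          rw [div_pow, div_div_eq_mul_div, div_mul_eq_mul_div, div_le_iff₀ (by positivity)]
          linarith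
    have hBeq : B = B1 + B2 - B3 + EM q := by
      ext j k
      simp only [B, B1, B2, B3, Mt, Rq, Matrix.add_apply, Matrix.sub_apply, Matrix.of_apply]
      split_ifs with h
      · ring
      · rw [show (H j k ^ 2).re = resH β u θ g D j k ^ 2 by
          simp only [H, cmat, Matrix.map_apply, ← Complex.ofReal_pow, Complex.ofReal_re]]
        simp only [Hq]
        ring
    have hB : Fast.OpNorm.OpLe B (4 * ε₁) :=
      hBeq ▸ (((hB1.add hB2).sub hB3).add (hEM q hqN)).mono (by linarith)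
    have he : ∀ j k, |(A + B) j k| ≤ ε / (4 * 4 ^ b) := fun j k => by
      rw [hAB]
      simp only [Mt, Matrix.of_apply]
      split_ifs with h
      · rw [abs_zero]; positivity
      · refine (abs_sub _ _).trans ?_
        have h1 : |resH β u θ g D j k ^ 2| ≤ δ₀ ^ 2 := by
          rw [abs_pow]; exact pow_le_pow_left₀ (abs_nonneg _) (hsmall j k h) 2
        have h2 := (predM_abs_le hβ hu hη hθ hD hΓ j k).trans hpred
        have h3 : ε / (8 * 4 ^ b) + ε / (8 * 4 ^ b) = ε / (4 * 4 ^ b) := by field_simp; ring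
        linarith
    have hfin := hb n A B (ε / (4 * 4 ^ b)) (4 * ε₁) (by positivity) hA hB he
    rw [hAB] at hfin
    have hMt : Fast.OpNorm.OpLe Mt ε := hfin.mono (by
      have : (4:ℝ) ^ b * (ε / (4 * 4 ^ b)) = ε / 4 := by field_simp
      simp only [ε₁]
      linarith)
    intro v w
    have := hMt.bilin v w
    rw [Fast.OpNorm.nsq_eq_dot, Fast.OpNorm.nsq_eq_dot] at this
    exact this
  · refine (measureReal_union_le _ _).trans ((add_le_add (hball n hn1 β (by rw [abs_of_nonneg hβ0]; exact hβ1.le))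
      ((measureReal_biUnion_finset_le T _).trans (sum_le_sum htail))).trans ?_)
    rw [sum_const, nsmul_eq_mul]
    have h3 : (0:ℝ) ≤ Real.log 3 := Real.log_nonneg (by norm_num)
    have hcard : (T.card : ℝ) ≤ Real.exp ((n + 2 : ℕ) * Alog + 2 * n * Real.log 3) := by
      rw [Real.exp_add, Real.exp_nat_mul, Real.exp_log (by positivity), mul_comm (2:ℝ) n, mul_assoc,
        Real.exp_nat_mul, two_mul (Real.log 3), Real.exp_add, Real.exp_log (by norm_num)]
      simp only [T, card_product, Finset.card_univ, Fintype.card_prod, Fintype.card_fun, Fintype.card_fin]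
      push_cast
      rw [← mul_pow]
      exact mul_le_mul_of_nonneg_right (by exact_mod_cast hNcard) (by positivity)
    have hn1' : (1:ℝ) ≤ n := by exact_mod_cast hn1
    have hcn : 20 ≤ n * c' := (div_le_iff₀ hc').1 hbig
    have h1 : (T.card : ℝ) * (2 * (Real.sqrt 2 * Real.exp 1 * Real.exp (-(E0 * n)))) ≤
        9 * Real.exp (-(c' * n)) := by
      have he9 : 2 * (Real.sqrt 2 * Real.exp 1) ≤ 9 := by
        have a1 := Real.exp_one_lt_d9
        have a2 : Real.sqrt 2 ≤ 3 / 2 := Real.sqrt_le_iff.2 ⟨by norm_num, by norm_num⟩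
        have := mul_le_mul a2 a1.le (Real.exp_pos 1).le (by norm_num)
        linarith
      have hexp : Real.exp ((n + 2 : ℕ) * Alog + 2 * n * Real.log 3) * Real.exp (-(E0 * n)) ≤
          Real.exp (-(c' * n)) := by
        rw [← Real.exp_add, Real.exp_le_exp]
        push_cast
        have := mul_le_mul_of_nonneg_left hn1' hAlog
        have := mul_le_mul_of_nonneg_right (show c' ≤ 1 from min_le_left _ _) hn.le
        simp only [E0]
        linarith
      calc (T.card : ℝ) * (2 * (Real.sqrt 2 * Real.exp 1 * Real.exp (-(E0 * n))))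
          = 2 * (Real.sqrt 2 * Real.exp 1) * ((T.card : ℝ) * Real.exp (-(E0 * n))) := by ring
        _ ≤ 9 * Real.exp (-(c' * n)) := mul_le_mul he9
            ((mul_le_mul_of_nonneg_right hcard (Real.exp_pos _).le).trans hexp) (by positivity) (by norm_num)
    have h2 : 2 * Real.exp (-(c₀ * n)) ≤ 2 * Real.exp (-(c' * n)) := by
      have := mul_le_mul_of_nonneg_right (show c' ≤ c₀ from min_le_right _ _) hn.le
      gcongr
    have h4 : 11 * Real.exp (-(c' * n)) ≤ Real.exp (-(c' / 2 * n)) := by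
      rw [show -(c' / 2 * (n:ℝ)) = c' / 2 * n + -(c' * n) by ring, Real.exp_add (c' / 2 * n)]
      refine mul_le_mul_of_nonneg_right ?_ (Real.exp_pos _).le
      linarith [Real.add_one_le_exp (c' / 2 * n)]
    linarith

end Vale.Agent.P150.High.SchurOp
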