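import Vale.Agent.P150.Order
import Vale.Agent.P150.High.Assembly
import Vale.Agent.P150.High.Contract
import Vale.Agent.P150.High.CovGlue
import Vale.Agent.P150.High.Gauge
import Vale.Agent.P150.High.DiagMean
import Vale.Agent.P150.High.FourMean
import Vale.Agent.P150.High.ScalarSE
import Vale.Agent.P150.High.Gap
import Vale.Agent.P150.High.Planted
import Vale.Agent.P150.Fast.PartB.CovInductionProof
import Vale.Agent.P150.High.Amp
import Vale.Agent.P150.High.CertLaw
import Vale.Agent.P150.High.BallMax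
import Vale.Agent.P150.High.SchurOp
import Vale.Agent.P150.High.MinEig
import Vale.Agent.P150.PA.Bridge
import Vale.Agent.P150.PA.BurnIn
import Vale.Agent.P150.PA.Block
import Vale.Agent.P150.PA.Mmse
import Vale.Agent.P150.PA.ChannelTop
import Vale.Agent.P150.PA.Channel

/-!
# P150, all `β < 1`: assembly of the order theorem

`warm_of` is the entropy contraction from the margin, `burnIn_all` the burn-in, and `order_all`
the exact orders of the relaxation and mixing times.
-/

open MeasureTheory Filter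
open scoped Topology

namespace Vale.Agent.P150.High.Final

open Vale.Agent.P150

/-- The entropy contraction, from the margin. -/
theorem warm_of (hmar : MarginStatement) {β : ℝ} (hβ : 0 ≤ β) (hβ1 : β < 1) : WarmContraction β :=
  contractStatement β hβ hβ1 (CovGlue.covEvent_of
    (Cert.certAssembly Amp.residual hmar Ball.ballMax DiagMean.diagMean FourMean.fourMean SchurOp.schurOp) planted gauge
    PartB.covInduction
    Amp.qLip
    hβ hβ1)

/-- Burn-in and contraction give the exact orders. -/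
theorem order_of {β : ℝ} (hβ : 0 ≤ β) (hbi : BurnIn β) (hwc : WarmContraction β) :
    ∃ δ c C : ℝ, 0 < δ ∧ 0 < c ∧ 0 < C ∧
      Tendsto (fun n : ℕ => (disorder n).real
        {g | GapAtLeast β g δ ∧ (∀ d : ℝ, GapAtLeast β g d → d ≤ 1) ∧ MixedAt β g (C * Real.log n) ∧
          ∀ t : ℝ, 0 ≤ t → t ≤ c * Real.log n → ¬ MixedAt β g t}) atTop (𝓝 1) := by
  obtain ⟨δ, hδ, hG⟩ := gap_of hbi hwc
  obtain ⟨C, hC, hM⟩ := logMixing_of β hbi hwc
  obtain ⟨c, hc, hL⟩ := log_lower β hβ
  refine ⟨δ, c, C, hδ, hc, hC, whp_of_fail ?_⟩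
  refine squeeze_zero' (Eventually.of_forall fun n => measureReal_nonneg)
    (eventually_atTop.2 ⟨1, fun n hn => ?_⟩) (by simpa only [add_zero] using (hG.add hM).add hL)
  refine (measureReal_mono (s₂ := ({g | ¬ GapAtLeast β g δ} ∪ {g | ¬ MixedAt β g (C * Real.log n)}) ∪
    {g | ¬ ∀ t : ℝ, 0 ≤ t → t ≤ c * Real.log n → ¬ MixedAt β g t}) fun g hg => ?_).trans
    ((measureReal_union_le _ _).trans (add_le_add (measureReal_union_le _ _) le_rfl))
  by_contra hcon
  rw [Set.mem_union, Set.mem_union, not_or, not_or] at hcon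
  exact hg ⟨not_not.1 hcon.1.1, fun d hd => gap_le_one β g (by omega) hd, not_not.1 hcon.1.2,
    not_not.1 hcon.2⟩

/-- Burn-in for every `β < 1`. -/
theorem burnIn_all {β : ℝ} (hβ : 0 ≤ β) (hβ1 : β < 1) : BurnIn β :=
  have hB := PA.blockIdentity hβ hβ1
  PA.burnIn_of_mmse hβ hβ1 hB (PA.mmse_of hβ hβ1 hB
    (PA.channelIdentity hβ hβ1 (PA.qSmall_of_block hβ hβ1 hB)))

/-- The exact orders for every `β < 1`, from the margin. -/
theorem order_all_of (hmar : MarginStatement) (β : ℝ) (hβ : 0 ≤ β) (hβ1 : β < 1) :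
    ∃ δ c C : ℝ, 0 < δ ∧ 0 < c ∧ 0 < C ∧
      Tendsto (fun n : ℕ => (disorder n).real
        {g | GapAtLeast β g δ ∧ (∀ d : ℝ, GapAtLeast β g d → d ≤ 1) ∧ MixedAt β g (C * Real.log n) ∧
          ∀ t : ℝ, 0 ≤ t → t ≤ c * Real.log n → ¬ MixedAt β g t}) atTop (𝓝 1) :=
  order_of hβ (burnIn_all hβ hβ1) (warm_of hmar hβ hβ1)

/-- The exact orders for every `β < 1`. -/
theorem order_all (β : ℝ) (hβ : 0 ≤ β) (hβ1 : β < 1) :
    ∃ δ c C : ℝ, 0 < δ ∧ 0 < c ∧ 0 < C ∧
      Tendsto (fun n : ℕ => (disorder n).real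
        {g | GapAtLeast β g δ ∧ (∀ d : ℝ, GapAtLeast β g d → d ≤ 1) ∧ MixedAt β g (C * Real.log n) ∧
          ∀ t : ℝ, 0 ≤ t → t ≤ c * Real.log n → ¬ MixedAt β g t}) atTop (𝓝 1) :=
  order_all_of MinEig.margin β hβ hβ1

end Vale.Agent.P150.High.Final
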