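import Vale.Agent.P150.High.CertSpec

/-!
# P150, all `β < 1`: gauge covariance of the certificate and of the AMP candidate

For a sign vector `σ` the certificate and the candidate commute with `J ↦ σ J σ`, `y ↦ σ y`, `z ↦ σ z`.
-/

open Matrix
open scoped Matrix.Norms.L2Operator

namespace Vale.Agent.P150.High.GaugeCov

open Vale.Agent.P150

variable {n : ℕ} {σ : Fin n → ℝ}

/-- A sign vector. -/
def IsSign (σ : Fin n → ℝ) : Prop := ∀ i, σ i * σ i = 1

/-- `σ M σ`. -/
def conjS (σ : Fin n → ℝ) (M : Matrix (Fin n) (Fin n) ℝ) : Matrix (Fin n) (Fin n) ℝ :=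
  diagonal σ * M * diagonal σ

lemma conjS_apply (σ : Fin n → ℝ) (M : Matrix (Fin n) (Fin n) ℝ) (i j : Fin n) :
    conjS σ M i j = σ i * M i j * σ j := by
  rw [conjS, mul_diagonal, diagonal_mul]

lemma sign_sq (hσ : IsSign σ) : diagonal σ * diagonal σ = 1 := by
  rw [diagonal_mul_diagonal, show (fun i => σ i * σ i) = fun _ => (1 : ℝ) from funext hσ, diagonal_one]

lemma mul_sign_sign (hσ : IsSign σ) (v : Fin n → ℝ) : σ * (σ * v) = v := by
  funext i; simp only [Pi.mul_apply, ← mul_assoc, hσ i, one_mul]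

lemma conjS_conjS (hσ : IsSign σ) (M : Matrix (Fin n) (Fin n) ℝ) : conjS σ (conjS σ M) = M := by
  rw [conjS, conjS, ← mul_assoc, ← mul_assoc, sign_sq hσ, one_mul, mul_assoc, sign_sq hσ, mul_one]

lemma conjS_one (hσ : IsSign σ) : conjS σ 1 = 1 := by rw [conjS, mul_one, sign_sq hσ]

lemma conjS_add (M N : Matrix (Fin n) (Fin n) ℝ) : conjS σ (M + N) = conjS σ M + conjS σ N := by
  simp [conjS, mul_add, add_mul]

lemma conjS_sub (M N : Matrix (Fin n) (Fin n) ℝ) : conjS σ (M - N) = conjS σ M - conjS σ N := by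
  simp [conjS, mul_sub, sub_mul]

lemma conjS_smul (a : ℝ) (M : Matrix (Fin n) (Fin n) ℝ) : conjS σ (a • M) = a • conjS σ M := by
  simp [conjS]

lemma conjS_neg (M : Matrix (Fin n) (Fin n) ℝ) : conjS σ (-M) = -conjS σ M := by
  simp [conjS]

lemma conjS_mul (hσ : IsSign σ) (M N : Matrix (Fin n) (Fin n) ℝ) :
    conjS σ (M * N) = conjS σ M * conjS σ N := by
  simp only [conjS, mul_assoc]
  rw [← mul_assoc (diagonal σ) (diagonal σ), sign_sq hσ, one_mul]

lemma conjS_diagonal (hσ : IsSign σ) (d : Fin n → ℝ) : conjS σ (diagonal d) = diagonal d := by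
  rw [conjS, diagonal_mul_diagonal, diagonal_mul_diagonal]
  exact congrArg diagonal (funext fun i => by rw [mul_comm (σ i), mul_assoc, hσ i, mul_one])

lemma conjS_vecMulVec (v w : Fin n → ℝ) : conjS σ (vecMulVec v w) = vecMulVec (σ * v) (σ * w) := by
  ext i j; simp only [conjS_apply, vecMulVec_apply, Pi.mul_apply]; ring

lemma conjS_inv (hσ : IsSign σ) (M : Matrix (Fin n) (Fin n) ℝ) : conjS σ M⁻¹ = (conjS σ M)⁻¹ := by
  have h : (diagonal σ)⁻¹ = diagonal σ := inv_eq_right_inv (sign_sq hσ)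
  simp only [conjS, Matrix.mul_inv_rev, h, mul_assoc]

lemma conjS_mulVec (hσ : IsSign σ) (M : Matrix (Fin n) (Fin n) ℝ) (v : Fin n → ℝ) :
    conjS σ M *ᵥ (σ * v) = σ * (M *ᵥ v) := by
  funext i
  simp only [mulVec, dotProduct, conjS_apply, Pi.mul_apply, Finset.mul_sum]
  refine Finset.sum_congr rfl fun j _ => ?_
  linear_combination (σ i * M i j * v j) * hσ j

lemma dot_sign (hσ : IsSign σ) (v w : Fin n → ℝ) : (σ * v) ⬝ᵥ (σ * w) = v ⬝ᵥ w := by
  simp only [dotProduct, Pi.mul_apply]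
  exact Finset.sum_congr rfl fun i _ => by linear_combination (v i * w i) * hσ i

lemma norm_conjS_le (hσ : IsSign σ) (M : Matrix (Fin n) (Fin n) ℝ) : ‖conjS σ M‖ ≤ ‖M‖ := by
  have h1 : ‖diagonal σ‖ ≤ 1 := by
    rw [l2_opNorm_diagonal]
    refine (pi_norm_le_iff_of_nonneg zero_le_one).2 fun i => le_of_eq ?_
    rw [Real.norm_eq_abs]
    nlinarith [hσ i, abs_nonneg (σ i), abs_mul_abs_self (σ i)]
  calc ‖conjS σ M‖ ≤ ‖diagonal σ * M‖ * ‖diagonal σ‖ := norm_mul_le _ _
    _ ≤ ‖diagonal σ‖ * ‖M‖ * ‖diagonal σ‖ := mul_le_mul_of_nonneg_right (norm_mul_le _ _) (norm_nonneg _)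
    _ ≤ 1 * ‖M‖ * 1 := by gcongr
    _ = ‖M‖ := by ring

lemma nrm_sign (hσ : IsSign σ) (v : Fin n → ℝ) : PartB.nrm (σ * v) = PartB.nrm v := by
  refine congrArg Real.sqrt (Finset.sum_congr rfl fun i _ => ?_)
  simp only [Pi.mul_apply]
  linear_combination v i ^ 2 * hσ i

lemma fnrm_conjS (hσ : IsSign σ) (M : Matrix (Fin n) (Fin n) ℝ) :
    PartB.fnrm (conjS σ M) = PartB.fnrm M := by
  refine congrArg Real.sqrt (Finset.sum_congr rfl fun i _ => Finset.sum_congr rfl fun j _ => ?_)
  rw [conjS_apply]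
  linear_combination (M i j ^ 2 * σ j ^ 2) * hσ i + M i j ^ 2 * hσ j

lemma sign_sq' (hσ : IsSign σ) (v : Fin n → ℝ) (i : Fin n) : (σ * v) i ^ 2 = v i ^ 2 := by
  simp only [Pi.mul_apply]; linear_combination v i ^ 2 * hσ i

lemma tanh_sign (hσ : IsSign σ) (v : Fin n → ℝ) :
    (fun i => Real.tanh ((σ * v) i)) = σ * fun i => Real.tanh (v i) := by
  funext i
  rcases mul_self_eq_one_iff.1 (hσ i) with h | h <;> simp [h, Real.tanh_neg]

section Cert

open PartB

variable (β s c : ℝ) (J A : Matrix (Fin n) (Fin n) ℝ) (m y z : Fin n → ℝ)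
  (H F : Matrix (Fin n) (Fin n) ℝ)

lemma dMat_sign (hσ : IsSign σ) : dMat (σ * m) = dMat m :=
  congrArg diagonal (funext fun i => by rw [sign_sq' hσ])

lemma qv_sign (hσ : IsSign σ) : qv (σ * m) = qv m := by simp only [qv, sign_sq' hσ]

lemma conjS_dMat (hσ : IsSign σ) : conjS σ (dMat m) = dMat m := conjS_diagonal hσ _

lemma vMat_sign (hσ : IsSign σ) : vMat β s (conjS σ J) (σ * m) = conjS σ (vMat β s J m) := by
  simp only [vMat, qv_sign m hσ, conjS_sub, conjS_smul, conjS_one hσ, conjS_vecMulVec]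

lemma kHat_sign (hσ : IsSign σ) : kHat β s (conjS σ J) (σ * m) = conjS σ (kHat β s J m) := by
  simp only [kHat, vMat_sign β s J m hσ, conjS_add, conjS_diagonal hσ, sign_sq' hσ]

lemma hMat_sign (hσ : IsSign σ) : hMat β s (conjS σ J) (σ * m) = conjS σ (hMat β s J m) := by
  simp only [hMat, vMat_sign β s J m hσ, dMat_sign m hσ, conjS_neg, conjS_mul hσ, conjS_inv hσ,
    conjS_add, conjS_one hσ, conjS_dMat m hσ]

lemma pMat_sign (hσ : IsSign σ) : pMat (conjS σ A) (σ * m) (conjS σ F) = conjS σ (pMat A m F) := by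
  simp only [pMat, dMat_sign m hσ, conjS_mul hσ, conjS_add, conjS_one hσ, conjS_dMat m hσ]

lemma diag_conjS (hσ : IsSign σ) (i : Fin n) : conjS σ A i i = A i i := by
  rw [conjS_apply]; linear_combination A i i * hσ i

lemma shiftCoef_sign (hσ : IsSign σ) :
    shiftCoef β s (σ * m) (conjS σ A) = shiftCoef β s m A := by
  simp only [shiftCoef, trP, qv_sign m hσ, diag_conjS A hσ, sign_sq' hσ]

lemma cross_sign (hσ : IsSign σ) : cross (σ * m) (conjS σ H) (conjS σ A) = σ * cross m H A := by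
  funext i
  simp only [cross, dMat_sign m hσ, Pi.mul_apply]
  rw [show conjS σ A * dMat m * (1 + dMat m * conjS σ H) = conjS σ (A * dMat m * (1 + dMat m * H)) by
    simp only [conjS_mul hσ, conjS_add, conjS_one hσ, conjS_dMat m hσ], diag_conjS _ hσ, mul_assoc]

lemma hadamard_sign (hσ : IsSign σ) :
    diagonal (σ * m) * Matrix.hadamard (conjS σ H) (conjS σ A) * diagonal (σ * m) =
      conjS σ (diagonal m * Matrix.hadamard H A * diagonal m) := by
  ext i j
  simp only [conjS_apply, mul_diagonal, diagonal_mul, hadamard_apply, Pi.mul_apply]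
  linear_combination (σ i * σ j * m i * m j * H i j * A i j * σ j ^ 2) * hσ i
    + (σ i * σ j * m i * m j * H i j * A i j) * hσ j

lemma trace_conjS (hσ : IsSign σ) : trace (conjS σ A) = trace A := by
  simp only [trace, diag, diag_conjS A hσ]

lemma xMain_sign (hσ : IsSign σ) :
    xMain β s (conjS σ J) (σ * m) (conjS σ H) (conjS σ A) = conjS σ (xMain β s J m H A) := by
  have e1 : (dMat m + dMat m * conjS σ H * dMat m) * (dMat m * conjS σ A * dMat m) =
      conjS σ ((dMat m + dMat m * H * dMat m) * (dMat m * A * dMat m)) := by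
    simp only [conjS_mul hσ, conjS_add, conjS_dMat m hσ]
  simp only [xMain, shiftCoef_sign β s A m hσ, cross_sign A m H hσ, hadamard_sign A m H hσ,
    dMat_sign m hσ, e1, trace_conjS _ hσ, diag_conjS A hσ, conjS_add, conjS_sub, conjS_neg,
    conjS_smul, conjS_diagonal hσ, conjS_one hσ, conjS_vecMulVec]

lemma psiMain_sign (hσ : IsSign σ) :
    psiMain β s (conjS σ J) (conjS σ A) (σ * m) (conjS σ H) (conjS σ F) =
      conjS σ (psiMain β s J A m H F) := by
  simp only [psiMain, pMat_sign A m F hσ, xMain_sign β s J _ m H hσ, dMat_sign m hσ, conjS_mul hσ,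
    conjS_add, conjS_one hσ, conjS_dMat m hσ]

lemma resDrift_sign (hσ : IsSign σ) :
    resDrift β c s (conjS σ A) (σ * m) (conjS σ F) = σ * resDrift β c s A m F := by
  funext i
  simp only [resDrift, pMat_sign A m F hσ, shiftCoef_sign β s _ m hσ, diag_conjS _ hσ, Pi.mul_apply]
  ring

lemma tapRes_sign (hσ : IsSign σ) :
    tapRes β s (conjS σ J) (σ * y) (σ * z) = σ * tapRes β s J y z := by
  funext i
  simp only [tapRes, tanh_sign hσ z, qv_sign _ hσ]
  simp only [Pi.mul_apply, conjS_apply]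
  have h : ∀ j, σ i * J i j * σ j * Real.tanh (σ j * z j) = σ i * (J i j * Real.tanh (z j)) :=
    fun j => by
      rw [show Real.tanh (σ j * z j) = σ j * Real.tanh (z j) from congrFun (tanh_sign hσ z) j]
      linear_combination (σ i * J i j * Real.tanh (z j)) * hσ j
  have h2 : Real.tanh (σ i * z i) = σ i * Real.tanh (z i) := congrFun (tanh_sign hσ z) i
  simp only [h, h2, ← Finset.mul_sum, tapRes]
  ring

lemma shifted_sign (hσ : IsSign σ) : conjS σ J + c • 1 = conjS σ (J + c • 1) := by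
  simp only [conjS_add, conjS_smul, conjS_one hσ]

lemma cert_sign {η ε ρ ε₂ : ℝ} (hσ : IsSign σ) (h : Cert β c η ε ρ ε₂ s J y z) :
    Cert β c η ε ρ ε₂ s (conjS σ J) (σ * y) (σ * z) := by
  have key : ∀ m : Fin n → ℝ, (∀ i, |m i| < 1) →
      nrm (fun i => m i - Real.tanh ((σ * z) i)) ≤ ρ * Real.sqrt n →
      ∃ m', m = σ * m' ∧ (∀ i, |m' i| < 1) ∧
        nrm (fun i => m' i - Real.tanh (z i)) ≤ ρ * Real.sqrt n := by
    intro m hm hr
    refine ⟨σ * m, (mul_sign_sign hσ m).symm, fun i => ?_, le_of_eq_of_le ?_ hr⟩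
    · rw [← sq_lt_one_iff_abs_lt_one, sign_sq' hσ, sq_lt_one_iff_abs_lt_one]
      exact hm i
    · rw [← nrm_sign hσ]
      refine congrArg nrm (funext fun i => ?_)
      have := congrFun (tanh_sign hσ z) i
      simp only [Pi.mul_apply] at this ⊢
      linear_combination m i * hσ i + this
  refine ⟨?_, fun i => ?_, fun m hm hr v => ?_, fun m hm hr => ?_, fun m hm hr => ?_, fun m hm hr => ?_⟩
  · rw [tapRes_sign β s J y z hσ, nrm_sign hσ]; exact h.res
  · refine le_of_eq_of_le ?_ (h.ysup i)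
    rw [← sq_eq_sq₀ (abs_nonneg _) (abs_nonneg _), sq_abs, sq_abs, sign_sq' hσ]
  · obtain ⟨m', rfl, h1, h2⟩ := key m hm hr
    rw [kHat_sign β s J m' hσ, ← mul_sign_sign hσ v, conjS_mulVec hσ, dot_sign hσ]
    have := h.pos m' h1 h2 (σ * v)
    simp only [sign_sq' hσ] at this ⊢
    exact this
  · obtain ⟨m', rfl, h1, h2⟩ := key m hm hr
    rw [hMat_sign β s J m' hσ, shifted_sign c J hσ, psiMain_sign β s J _ m' _ _ hσ, fnrm_conjS hσ]
    exact h.psiFrob m' h1 h2
  · obtain ⟨m', rfl, h1, h2⟩ := key m hm hr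
    rw [hMat_sign β s J m' hσ, shifted_sign c J hσ, resDrift_sign β s c _ m' _ hσ, nrm_sign hσ]
    exact h.resBall m' h1 h2
  · obtain ⟨m', rfl, h1, h2⟩ := key m hm hr
    rw [hMat_sign β s J m' hσ, shifted_sign c J hσ, psiMain_sign β s J _ m' _ _ hσ]
    exact (norm_conjS_le hσ _).trans (h.psiBall m' h1 h2)

end Cert

section Amp

variable (β shift s : ℝ) (J : Matrix (Fin n) (Fin n) ℝ) (y f : Fin n → ℝ)

lemma clipBall_sign (hσ : IsSign σ) : clipBall (σ * f) = σ * clipBall f := by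
  funext i
  have h : ∑ j, (σ * f) j ^ 2 = ∑ j, f j ^ 2 := Finset.sum_congr rfl fun j _ => sign_sq' hσ f j
  simp only [Pi.mul_apply] at h
  simp only [clipBall, Pi.mul_apply, h, mul_assoc]

lemma ampZ_sign (hσ : IsSign σ) :
    ∀ l, ampZ β shift s (conjS σ J) (σ * y) (σ * f) l = σ * ampZ β shift s J y f l := by
  intro l
  induction l using Nat.twoStepInduction with
  | zero => funext i; simp only [ampZ, Pi.mul_apply]; ring
  | one =>
    have e : ∀ i j, conjS σ J i j * Real.tanh (σ j * f j / plantVar β shift) =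
        σ i * (J i j * Real.tanh (f j / plantVar β shift)) := fun i j => by
      have := congrFun (tanh_sign hσ fun k => f k / plantVar β shift) j
      simp only [Pi.mul_apply] at this ⊢
      rw [mul_div_assoc, this, conjS_apply]
      linear_combination (σ i * J i j * Real.tanh (f j / plantVar β shift)) * hσ j
    funext i
    simp only [ampZ, Pi.mul_apply, e, ← Finset.mul_sum]
    ring
  | more l h1 h2 =>
    have t := fun (w : Fin n → ℝ) j => congrFun (tanh_sign hσ w) j
    have e : ∀ i j, conjS σ J i j * Real.tanh (σ j * ampZ β shift s J y f (l + 1) j) =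
        σ i * (J i j * Real.tanh (ampZ β shift s J y f (l + 1) j)) := fun i j => by
      simp only [Pi.mul_apply] at t ⊢
      rw [t, conjS_apply]
      linear_combination (σ i * J i j * Real.tanh (ampZ β shift s J y f (l + 1) j)) * hσ j
    funext i
    simp only [ampZ] at h1 h2 ⊢
    simp only [h1, h2, Pi.mul_apply, e, ← Finset.mul_sum]
    simp only [Pi.mul_apply] at t
    simp only [t]
    ring

lemma ampCand_sign (hσ : IsSign σ) (k : ℕ) :
    ampCand β shift s (conjS σ J) (σ * y) k = σ * ampCand β shift s J y k := by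
  have h : (shiftMat shift (conjS σ J))⁻¹ *ᵥ (σ * y) = σ * ((shiftMat shift J)⁻¹ *ᵥ y) := by
    have e : shiftMat shift (conjS σ J) = conjS σ (shiftMat shift J) :=
      shifted_sign shift J hσ
    rw [e, ← conjS_inv hσ, conjS_mulVec hσ]
  unfold ampCand
  rw [h, clipBall_sign _ hσ, ampZ_sign β shift s J y _ hσ]

end Amp

end Vale.Agent.P150.High.GaugeCov
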