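import Vale.Agent.P150.High.AmpLawSpec

/-!
# P150, all `β < 1`: one step of conditioning for a GOE matrix

For a fixed unit vector `e`, the image `W e` and a fresh copy of the block off `e` rebuild a GOE
matrix.
-/

open MeasureTheory ProbabilityTheory Finset Matrix

namespace Vale.Agent.P150.High.Amp

open Vale.Agent.P150

variable {ι κ : Type*} [Fintype ι] [Fintype κ] {n : ℕ}

lemma dot_eq (a z : ι → ℝ) : dot a z = a ⬝ᵥ z := rfl

lemma charFun_dot (c : κ → ℝ) :
    ∫ z, Complex.exp ((dot c z : ℝ) * Complex.I) ∂gauss κ =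
      Complex.exp (-((∑ k, c k ^ 2 : ℝ) : ℂ) / 2) := by
  unfold gauss dot
  push_cast
  simp only [Finset.sum_mul, Complex.exp_sum]
  rw [integral_fintype_prod_eq_prod (fun k (t : ℝ) => Complex.exp ((c k : ℂ) * (t : ℂ) * Complex.I)),
    ← Finset.sum_neg_distrib, Finset.sum_div, Complex.exp_sum]
  refine Finset.prod_congr rfl fun k _ => ?_
  rw [← charFun_apply_real, charFun_gaussianReal]
  congr 1
  push_cast
  ring

lemma dual_mat (L : StrongDual ℝ (Fin n → Fin n → ℝ)) :
    ∃ c : Fin n → Fin n → ℝ, ∀ M, L M = ∑ i, ∑ j, c i j * M i j := by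
  refine ⟨fun i j => L (Pi.single i (Pi.single j 1)), fun M => ?_⟩
  have : M = ∑ i, ∑ j, M i j • (Pi.single i (Pi.single j (1 : ℝ)) : Fin n → Fin n → ℝ) := by
    funext a b
    simp [Finset.sum_apply, Pi.single_apply, ite_apply]
  conv_lhs => rw [this]
  simp only [map_sum, map_smul, smul_eq_mul, mul_comm]

lemma measurable_sym : Measurable (sym (n := n)) := by unfold sym; fun_prop

instance : IsProbabilityMeasure (goe n) :=
  Measure.isProbabilityMeasure_map measurable_sym.aemeasurable

/-- `W` from the image `h` of `e` and a matrix for the block off `e`. -/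
noncomputable def fixStep (e h : Fin n → ℝ) (M : Fin n → Fin n → ℝ) (i j : Fin n) : ℝ :=
  let G := dot e e • h + ((Real.sqrt 2 - 1) * dot h e) • e
  G i * e j + e i * G j - dot e G * (e i * e j) +
    ((1 - vecMulVec e e : Matrix (Fin n) (Fin n) ℝ) * Matrix.of M * (1 - vecMulVec e e)) i j

lemma measurable_fixStep_joint :
    Measurable fun p : (Fin n → ℝ) × ((Fin n → ℝ) × (Fin n → Fin n → ℝ)) =>
      fixStep p.1 p.2.1 p.2.2 := by
  have hG : ∀ a, Measurable fun p : (Fin n → ℝ) × ((Fin n → ℝ) × (Fin n → Fin n → ℝ)) =>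
      (dot p.1 p.1 • p.2.1 + ((Real.sqrt 2 - 1) * dot p.2.1 p.1) • p.1) a := fun a => by
    simp only [dot, Pi.add_apply, Pi.smul_apply, smul_eq_mul]; fun_prop
  have hd : Measurable fun p : (Fin n → ℝ) × ((Fin n → ℝ) × (Fin n → Fin n → ℝ)) =>
      dot p.1 (dot p.1 p.1 • p.2.1 + ((Real.sqrt 2 - 1) * dot p.2.1 p.1) • p.1) :=
    Finset.measurable_sum _ fun a _ => ((measurable_pi_apply a).comp measurable_fst).mul (hG a)
  have hQ : ∀ a b, Measurable fun p : (Fin n → ℝ) × ((Fin n → ℝ) × (Fin n → Fin n → ℝ)) =>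
      (1 - vecMulVec p.1 p.1 : Matrix (Fin n) (Fin n) ℝ) a b := fun a b => by
    simp only [Matrix.sub_apply, vecMulVec_apply]; fun_prop
  refine measurable_pi_lambda _ fun i => measurable_pi_lambda _ fun j => ?_
  simp only [fixStep, Matrix.mul_apply, Matrix.of_apply]
  have he : ∀ a, Measurable fun p : (Fin n → ℝ) × ((Fin n → ℝ) × (Fin n → Fin n → ℝ)) => p.1 a :=
    fun a => (measurable_pi_apply a).comp measurable_fst
  refine ((((hG i).mul (he j)).add ((he i).mul (hG j))).sub (hd.mul ((he i).mul (he j)))).add ?_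
  exact Finset.measurable_sum _ fun b _ => (Finset.measurable_sum _ fun a _ =>
    (hQ i a).mul ((measurable_pi_apply b).comp ((measurable_pi_apply a).comp
      (measurable_snd.comp measurable_snd)))).mul (hQ b j)

section
attribute [local irreducible] fixStep

lemma measurable_fixStep (e : Fin n → ℝ) :
    Measurable fun p : (Fin n → ℝ) × (Fin n → Fin n → ℝ) => fixStep e p.1 p.2 := by
  have h : Measurable fun q : (Fin n → ℝ) × (Fin n → Fin n → ℝ) => (e, q) :=
    measurable_const.prodMk measurable_id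
  exact measurable_fixStep_joint.comp h

end

lemma sum_sum_sq (S : Fin n → Fin n → ℝ) (e a : Fin n → ℝ) (σ : ℝ)
    (hr : ∀ i, ∑ j, S i j * e j = a i) (hc : ∀ j, ∑ i, S i j * e i = a j) (hσ : ∑ i, a i * e i = σ)
    (he : ∑ i, e i ^ 2 = 1) :
    ∑ i, ∑ j, (S i j - a i * e j - e i * a j + σ * (e i * e j)) ^ 2 =
      (∑ i, ∑ j, S i j ^ 2) - 2 * ∑ i, a i ^ 2 + σ ^ 2 := by
  have e1 : ∀ i j, (S i j - a i * e j - e i * a j + σ * (e i * e j)) ^ 2 =
      S i j ^ 2 + a i ^ 2 * e j ^ 2 + e i ^ 2 * a j ^ 2 + σ ^ 2 * (e i ^ 2 * e j ^ 2)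
        - 2 * (a i * (S i j * e j)) - 2 * ((S i j * e i) * a j) + 2 * σ * (e i * (S i j * e j))
        + 2 * ((a i * e i) * (a j * e j)) - 2 * σ * ((a i * e i) * e j ^ 2)
        - 2 * σ * (e i ^ 2 * (a j * e j)) := fun i j => by ring
  simp only [e1, Finset.sum_add_distrib, Finset.sum_sub_distrib, ← Finset.mul_sum, ← Finset.sum_mul,
    hr, hσ, he]
  rw [Finset.sum_comm (f := fun i j => S i j * e i * a j)]
  simp only [← Finset.sum_mul, hc]
  have h2 : ∑ i, e i * a i = σ := by rw [← hσ]; exact Finset.sum_congr rfl fun i _ => mul_comm _ _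
  have h3 : ∑ i, a i * a i = ∑ i, a i ^ 2 := Finset.sum_congr rfl fun i _ => (sq _).symm
  simp only [h2, h3, one_mul, mul_one]
  ring

/-- `W e` and a fresh block off `e` rebuild a GOE matrix. -/
theorem fixStep_law (e : Fin n → ℝ) (he : dot e e = 0 ∨ dot e e = 1) :
    ((gauss (Fin n)).prod (goe n)).map (fun p => fixStep e p.1 p.2) = goe n := by
  rcases he with he | he
  · have h0 : e = 0 := by
      funext i
      have := (Finset.sum_eq_zero_iff_of_nonneg fun j _ => mul_self_nonneg (e j)).1 he i (mem_univ i)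
      exact mul_self_eq_zero.1 this
    subst h0
    have : (fun p : (Fin n → ℝ) × (Fin n → Fin n → ℝ) => fixStep 0 p.1 p.2) = Prod.snd := by
      funext p i j; simp [fixStep, dot, zero_vecMulVec]
    rw [this, Measure.map_snd_prod, measure_univ, one_smul]
  have hm : Measurable fun p : (Fin n → ℝ) × (Fin n × Fin n → ℝ) => fixStep e p.1 (sym p.2) :=
    (measurable_fixStep e).comp (measurable_fst.prodMk (measurable_sym.comp measurable_snd))
  have e0 : (gauss (Fin n)).prod (goe n) =
      ((gauss (Fin n)).prod (gauss (Fin n × Fin n))).map (fun p => (p.1, sym p.2)) := by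
    have := Measure.map_prod_map (gauss (Fin n)) (gauss (Fin n × Fin n)) measurable_id (measurable_sym (n := n))
    rw [Measure.map_id] at this
    exact this
  have ms : Measurable fun p : (Fin n → ℝ) × (Fin n × Fin n → ℝ) => (p.1, sym p.2) :=
    measurable_fst.prodMk (measurable_sym.comp measurable_snd)
  rw [e0, Measure.map_map (measurable_fixStep e) ms, goe,
    show ((fun p : (Fin n → ℝ) × (Fin n → Fin n → ℝ) => fixStep e p.1 p.2) ∘ fun p => (p.1, sym p.2)) =
      fun p : (Fin n → ℝ) × (Fin n × Fin n → ℝ) => fixStep e p.1 (sym p.2) from rfl]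
  refine Measure.ext_of_charFunDual ?_
  ext L
  obtain ⟨c, hc⟩ := dual_mat L
  rw [charFunDual_apply, charFunDual_apply, integral_map hm.aemeasurable (by fun_prop),
    integral_map measurable_sym.aemeasurable (by fun_prop)]
  simp only [hc]
  set S : Fin n → Fin n → ℝ := fun i j => c i j + c j i
  set a : Fin n → ℝ := fun i => ∑ j, S i j * e j
  set σ := ∑ i, a i * e i
  set w : Fin n → ℝ := fun i => a i - σ / 2 * e i
  set R : Fin n → Fin n → ℝ := fun i j => S i j - a i * e j - e i * a j + σ * (e i * e j)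
  have hS : ∀ i j, S i j = S j i := fun i j => by simp [S, add_comm]
  have hcol : ∀ j, ∑ i, S i j * e i = a j := fun j =>
    Finset.sum_congr rfl fun i _ => by rw [hS i j]
  have hsym : ∀ X, ∑ i, ∑ j, c i j * sym X i j =
      dot (fun q : Fin n × Fin n => S q.1 q.2 / Real.sqrt 2) X := by
    intro X
    simp only [dot, Fintype.sum_prod_type]
    have : ∑ i, ∑ j, c i j * X (j, i) = ∑ i, ∑ j, c j i * X (i, j) := Finset.sum_comm
    simp only [sym, S, add_div, mul_add, mul_div_assoc', Finset.sum_add_distrib, ← Finset.sum_div,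
      add_mul, div_mul_eq_mul_div, this]
  have hee : ∑ i, e i ^ 2 = 1 := by rw [← he]; exact Finset.sum_congr rfl fun i _ => sq _
  have hwe : ∑ i, w i * e i = σ / 2 := by
    simp only [w, sub_mul, Finset.sum_sub_distrib, mul_assoc, ← Finset.mul_sum, ← sq, hee]
    ring
  have hfix : ∀ (h : Fin n → ℝ) (X : Fin n × Fin n → ℝ),
      ∑ i, ∑ j, c i j * fixStep e h (sym X) i j =
        dot (fun i => w i + (Real.sqrt 2 - 1) * (σ / 2) * e i) h +
          dot (fun q : Fin n × Fin n => R q.1 q.2 / Real.sqrt 2) X := by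
    intro h X
    set G : Fin n → ℝ := dot e e • h + ((Real.sqrt 2 - 1) * dot h e) • e
    set Q : Matrix (Fin n) (Fin n) ℝ := 1 - vecMulVec e e
    have hQ : Qᵀ = Q := by
      simp [Q, transpose_vecMulVec]
    set d : Fin n → Fin n → ℝ := fun i j => (Q * Matrix.of c * Q) i j
    have h1 : ∑ i, ∑ j, c i j * (Q * Matrix.of (sym X) * Q) i j = ∑ i, ∑ j, d i j * sym X i j := by
      have t : ∀ A B : Matrix (Fin n) (Fin n) ℝ, ∑ i, ∑ j, A i j * B i j = (Aᵀ * B).trace := fun A B => by
        rw [Matrix.trace, Finset.sum_comm]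
        simp only [diag_apply, mul_apply, transpose_apply]
      calc _ = ((Matrix.of c)ᵀ * (Q * Matrix.of (sym X) * Q)).trace :=
            t (Matrix.of c) (Q * Matrix.of (sym X) * Q)
        _ = ((Q * Matrix.of c * Q)ᵀ * Matrix.of (sym X)).trace := by
            rw [transpose_mul, transpose_mul, hQ, ← Matrix.mul_assoc (Matrix.of c)ᵀ, ← Matrix.mul_assoc,
              Matrix.trace_mul_comm _ Q]
            simp only [Matrix.mul_assoc]
        _ = _ := (t (Q * Matrix.of c * Q) (Matrix.of (sym X))).symm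
    have hd : ∀ i j, d i j + d j i = R i j := by
      intro i j
      have hm2 : ∀ (A : Fin n → Fin n → ℝ) (i j : Fin n), (Q * Matrix.of A * Q) i j =
          A i j - (∑ k, A i k * e k) * e j - e i * (∑ k, A k j * e k)
            + (∑ k, (∑ l, A k l * e l) * e k) * (e i * e j) := by
        intro A i j
        have hqa : ∀ l, (Q * Matrix.of A) i l = A i l - e i * ∑ k, A k l * e k := fun l => by
          simp only [Q, Matrix.sub_mul, Matrix.one_mul, Matrix.sub_apply, Matrix.of_apply]
          rw [Matrix.mul_apply, Finset.mul_sum]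
          simp only [vecMulVec_apply, Matrix.of_apply]
          exact congrArg _ (Finset.sum_congr rfl fun k _ => by ring)
        have hq : (Q * Matrix.of A * Q) i j =
            (Q * Matrix.of A) i j - (∑ l, (Q * Matrix.of A) i l * e l) * e j := by
          generalize Q * Matrix.of A = B
          simp only [Q, Matrix.mul_sub, Matrix.mul_one, Matrix.sub_apply]
          rw [Matrix.mul_apply, Finset.sum_mul]
          simp only [vecMulVec_apply]
          exact congrArg _ (Finset.sum_congr rfl fun k _ => by ring)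
        have hd2 : ∑ l, (∑ k, A k l * e k) * e l = ∑ k, (∑ l, A k l * e l) * e k := by
          simp only [Finset.sum_mul]
          rw [Finset.sum_comm]
          exact Finset.sum_congr rfl fun k _ => Finset.sum_congr rfl fun l _ => by ring
        rw [hq]
        simp only [hqa, sub_mul, Finset.sum_sub_distrib, mul_assoc (e i), ← Finset.mul_sum, hd2]
        ring
      simp only [d, hm2, R, a, σ, S, add_mul, Finset.sum_add_distrib]
      have : ∑ k, (∑ l, c l k * e l) * e k = ∑ k, (∑ l, c k l * e l) * e k := by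
        simp only [Finset.sum_mul]; rw [Finset.sum_comm]
        exact Finset.sum_congr rfl fun k _ => Finset.sum_congr rfl fun l _ => by ring
      rw [this]; ring
    have h2 : ∑ i, ∑ j, d i j * sym X i j = dot (fun q : Fin n × Fin n => R q.1 q.2 / Real.sqrt 2) X := by
      simp only [dot, Fintype.sum_prod_type, ← hd]
      have : ∑ i, ∑ j, d i j * X (j, i) = ∑ i, ∑ j, d j i * X (i, j) := Finset.sum_comm
      simp only [sym, add_div, mul_add, mul_div_assoc', Finset.sum_add_distrib, ← Finset.sum_div,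
        add_mul, div_mul_eq_mul_div, this]
    have hG : ∑ i, ∑ j, c i j * (G i * e j + e i * G j - dot e G * (e i * e j)) = dot w G := by
      have hσ : σ = 2 * ∑ i, ∑ j, c i j * (e i * e j) := by
        simp only [σ, a, S, Finset.sum_mul, add_mul, Finset.sum_add_distrib, two_mul]
        congr 1
        · exact Finset.sum_congr rfl fun i _ => Finset.sum_congr rfl fun j _ => by ring
        · rw [Finset.sum_comm]
          exact Finset.sum_congr rfl fun i _ => Finset.sum_congr rfl fun j _ => by ring
      have hL : ∑ i, ∑ j, c i j * (e i * G j) = ∑ i, ∑ j, c j i * e j * G i := by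
        rw [Finset.sum_comm]
        exact Finset.sum_congr rfl fun i _ => Finset.sum_congr rfl fun j _ => by ring
      simp only [mul_sub, mul_add, Finset.sum_sub_distrib, Finset.sum_add_distrib, hL]
      have hlast : ∑ i, ∑ j, c i j * (dot e G * (e i * e j)) = σ / 2 * dot e G := by
        rw [hσ, show (2 * ∑ i, ∑ j, c i j * (e i * e j)) / 2 = ∑ i, ∑ j, c i j * (e i * e j) by ring]
        simp only [Finset.sum_mul]
        exact Finset.sum_congr rfl fun i _ => Finset.sum_congr rfl fun j _ => by ring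
      rw [hlast]
      simp only [dot, w, a, S, sub_mul, Finset.sum_sub_distrib, Finset.sum_mul, add_mul,
        Finset.sum_add_distrib, Finset.mul_sum, mul_assoc]
      congr 2
      exact Finset.sum_congr rfl fun i _ => Finset.sum_congr rfl fun j _ => by ring
    have hp : dot w G = dot (fun i => w i + (Real.sqrt 2 - 1) * (σ / 2) * e i) h := by
      have : ∀ i, w i * G i = w i * h i + (Real.sqrt 2 - 1) * dot h e * (w i * e i) := fun i => by
        simp [G, he]; ring
      simp only [dot] at this ⊢
      simp only [this, Finset.sum_add_distrib, ← Finset.mul_sum, hwe, add_mul]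
      congr 1
      rw [Finset.mul_sum, Finset.sum_mul]
      exact Finset.sum_congr rfl fun i _ => by ring
    calc ∑ i, ∑ j, c i j * fixStep e h (sym X) i j
        = (∑ i, ∑ j, c i j * (G i * e j + e i * G j - dot e G * (e i * e j)))
          + ∑ i, ∑ j, c i j * (Q * Matrix.of (sym X) * Q) i j := by
            simp only [fixStep, mul_add, Finset.sum_add_distrib]; rfl
      _ = _ := by rw [hG, hp, h1, h2]
  simp only [hfix, hsym, Complex.ofReal_add, add_mul, Complex.exp_add]
  rw [integral_prod_mul (fun h : Fin n → ℝ =>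
      Complex.exp ((dot (fun i => w i + (Real.sqrt 2 - 1) * (σ / 2) * e i) h : ℝ) * Complex.I))
    (fun X : Fin n × Fin n → ℝ =>
      Complex.exp ((dot (fun q : Fin n × Fin n => R q.1 q.2 / Real.sqrt 2) X : ℝ) * Complex.I)),
    charFun_dot, charFun_dot, charFun_dot, ← Complex.exp_add]
  congr 1
  rw [← add_div, ← neg_add, ← Complex.ofReal_add]
  congr 3
  have hr2 : Real.sqrt 2 ^ 2 = 2 := Real.sq_sqrt zero_le_two
  have hp2 : ∑ i, (w i + (Real.sqrt 2 - 1) * (σ / 2) * e i) ^ 2 = (∑ i, a i ^ 2) - σ ^ 2 / 2 := by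
    have : ∀ i, (w i + (Real.sqrt 2 - 1) * (σ / 2) * e i) ^ 2 = a i ^ 2
        + (2 * ((Real.sqrt 2 - 2) * (σ / 2))) * (a i * e i)
        + ((Real.sqrt 2 - 2) * (σ / 2)) ^ 2 * e i ^ 2 := fun i => by simp only [w]; ring
    simp only [this, Finset.sum_add_distrib, ← Finset.mul_sum, hee]
    rw [show ∑ i, a i * e i = σ from rfl]
    linear_combination (σ ^ 2 / 4) * hr2
  simp only [Fintype.sum_prod_type, div_pow, hr2, ← Finset.sum_div]
  rw [hp2, sum_sum_sq S e a σ (fun i => rfl) hcol rfl hee]
  ring

end Vale.Agent.P150.High.Amp
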