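import Vale.Agent.P150.High.MinEigLim

/-!
# P150, all `β < 1`: the Gram data of the certificate hold with high probability

On the noise space, at every fixed number of steps, the span `cB`, the images `cU`, `cR` and the
centre `cA` have the Gram matrices of `MinEigAlg` up to any tolerance, with probability tending to
one.
-/

open MeasureTheory ProbabilityTheory Filter Finset
open scoped Topology

namespace Vale.Agent.P150.High.MinEigData

open Vale.Agent.P150 Vale.Agent.P150.High.Amp MinEigScalar MinEigMoments MinEigExact MinEigLim MinEigCore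

variable {K : ℕ}

/-- With high probability. -/
def Whp (K : ℕ) (P : ∀ n, (Fin n → Fin (K + 1) → ℝ) → Prop) : Prop :=
  Tendsto (fun n => (noise K n).real {ω | ¬ P n ω}) atTop (𝓝 0)

namespace Whp

variable {P Q : ∀ n, (Fin n → Fin (K + 1) → ℝ) → Prop}

lemma of_tendP {X : ∀ n, (Fin n → Fin (K + 1) → ℝ) → ℝ} {c e : ℝ} (h : TendP K X c) (he : 0 < e) :
    Whp K fun n ω => |X n ω - c| ≤ e :=
  (h e he).congr fun n => by simp only [not_le]

lemma mono (h : Whp K P) (hPQ : ∀ n, 0 < n → ∀ ω, P n ω → Q n ω) : Whp K Q :=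
  squeeze_zero' (Eventually.of_forall fun _ => measureReal_nonneg)
    ((eventually_gt_atTop 0).mono fun n hn =>
      measureReal_mono fun ω hω hP => hω (hPQ n hn ω hP)) h

lemma and (hP : Whp K P) (hQ : Whp K Q) : Whp K fun n ω => P n ω ∧ Q n ω := by
  refine squeeze_zero' (Eventually.of_forall fun _ => measureReal_nonneg)
    (Eventually.of_forall fun n => ?_) (by simpa using hP.add hQ)
  refine (measureReal_mono fun ω hω => ?_).trans (measureReal_union_le _ _)
  simp only [Set.mem_ofPred_eq, not_and_or] at hω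
  exact hω

lemma forall_fintype {κ : Type*} [Fintype κ] {P : κ → ∀ n, (Fin n → Fin (K + 1) → ℝ) → Prop}
    (h : ∀ x, Whp K (P x)) : Whp K fun n ω => ∀ x, P x n ω := by
  refine squeeze_zero' (Eventually.of_forall fun _ => measureReal_nonneg)
    (Eventually.of_forall fun n => ?_) (by simpa using tendsto_finsetSum Finset.univ fun x _ => h x)
  refine (measureReal_mono fun ω hω => ?_).trans (measureReal_iUnion_fintype_le _)
  simp only [Set.mem_ofPred_eq, not_forall] at hω
  exact Set.mem_iUnion.2 hω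

end Whp

/-- Products with a bounded factor. -/
lemma mul_bdd {X Y : ∀ n, (Fin n → Fin (K + 1) → ℝ) → Fin n → ℝ} {φ ψ : (Fin (K + 1) → ℝ) → ℝ}
    (hX : VecLim K X φ) (hX1 : ∀ n ω i, |X n ω i| ≤ 1) (hφ1 : ∀ w, |φ w| ≤ 1) (hY : VecLim K Y ψ)
    (hψ : Nice ψ) : VecLim K (fun n ω i => X n ω i * Y n ω i) fun w => φ w * ψ w := by
  have h4 := (lln ((hψ.mul hψ).mul (hψ.mul hψ))).comp (F := Real.sqrt) Real.continuous_sqrt.continuousAt
  have hd := (hX.tendP.const_mul 4).comp (F := Real.sqrt) Real.continuous_sqrt.continuousAt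
  have h := (hY.tendP.const_mul 2).add ((hd.mul h4).const_mul 2)
  rw [mul_zero, mul_zero, Real.sqrt_zero, zero_mul, mul_zero, add_zero] at h
  refine VecLim.of_tendP (TendP.squeeze h fun n _ ω => ?_)
  have hn : (0:ℝ) ≤ n := Nat.cast_nonneg n
  rw [sub_zero, abs_of_nonneg (div_nonneg (Finset.sum_nonneg fun _ _ => sq_nonneg _) hn)]
  have cs : (∑ i, (X n ω i - φ (ω i)) ^ 2 * ψ (ω i) ^ 2) / n ≤
      Real.sqrt (4 * ((∑ i, (X n ω i - φ (ω i)) ^ 2) / n)) *
        Real.sqrt ((∑ i, (ψ (ω i) * ψ (ω i)) * (ψ (ω i) * ψ (ω i))) / n) := by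
    rw [← mul_div_assoc, Real.sqrt_div' _ hn, Real.sqrt_div' _ hn, div_mul_div_comm, Real.mul_self_sqrt hn]
    refine div_le_div_of_nonneg_right ((Real.sum_mul_le_sqrt_mul_sqrt _ _ _).trans ?_) hn
    refine mul_le_mul (Real.sqrt_le_sqrt ?_) (le_of_eq ?_) (Real.sqrt_nonneg _) (Real.sqrt_nonneg _)
    · rw [Finset.mul_sum]
      refine Finset.sum_le_sum fun i _ => ?_
      have h2 := abs_le.1 ((abs_sub _ _).trans (add_le_add (hX1 n ω i) (hφ1 (ω i))))
      have : (X n ω i - φ (ω i)) ^ 2 ≤ 4 := by nlinarith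
      rw [sq ((X n ω i - φ (ω i)) ^ 2)]
      exact mul_le_mul_of_nonneg_right this (sq_nonneg _)
    · congr 1; exact Finset.sum_congr rfl fun i _ => by ring
  refine le_trans (b := 2 * ((∑ i, (Y n ω i - ψ (ω i)) ^ 2) / n) +
    2 * ((∑ i, (X n ω i - φ (ω i)) ^ 2 * ψ (ω i) ^ 2) / n)) ?_
    (add_le_add le_rfl (mul_le_mul_of_nonneg_left cs two_pos.le))
  rw [← mul_div_assoc, ← mul_div_assoc, ← add_div, Finset.mul_sum, Finset.mul_sum, ← Finset.sum_add_distrib]
  refine div_le_div_of_nonneg_right (Finset.sum_le_sum fun i _ => ?_) hn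
  have h1 : X n ω i ^ 2 ≤ 1 := (sq_le_one_iff_abs_le_one _).2 (hX1 n ω i)
  nlinarith [sq_nonneg (X n ω i * (Y n ω i - ψ (ω i)) - (X n ω i - φ (ω i)) * ψ (ω i)),
    mul_le_mul_of_nonneg_right h1 (sq_nonneg (Y n ω i - ψ (ω i)))]

variable {β shift s : ℝ} {k n : ℕ}

/-! ### the vectors -/

/-- The centre. -/
noncomputable def cA (β shift s : ℝ) (k n : ℕ) (ω : Fin n → Fin (k + 2) → ℝ) (i : Fin n) : ℝ :=
  Real.tanh (zF β shift s k n ω k i)

/-- The profile of the centre. -/
noncomputable def cD (β shift s : ℝ) (k n : ℕ) (ω : Fin n → Fin (k + 2) → ℝ) : Fin n → ℝ :=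
  1 - cA β shift s k n ω * cA β shift s k n ω

/-- The span. -/
noncomputable def cB (β shift s : ℝ) (k n : ℕ) (ω : Fin n → Fin (k + 2) → ℝ) (x : ℕ) : Fin n → ℝ :=
  bV (parOf β shift s k) (zF β shift s k n ω) (fF β shift s k n ω) x

/-- The images off the span. -/
noncomputable def cU (β shift s : ℝ) (k n : ℕ) (ω : Fin n → Fin (k + 2) → ℝ) (x : ℕ) : Fin n → ℝ :=
  uV (parOf β shift s k) (zF β shift s k n ω) (yF β shift s k n ω) x

/-- The reactions. -/
noncomputable def cR (β shift s : ℝ) (k n : ℕ) (ω : Fin n → Fin (k + 2) → ℝ) (x : ℕ) : Fin n → ℝ :=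
  rV (parOf β shift s k) (zF β shift s k n ω) (fF β shift s k n ω) x

/-- The limit of the images. -/
noncomputable def cV (β shift s : ℝ) (k n : ℕ) (ω : Fin n → Fin (k + 2) → ℝ) (x : ℕ) (i : Fin n) : ℝ :=
  iU β shift s k x (ω i)

/-- A bound on the images. -/
noncomputable def capU (β shift s : ℝ) (k : ℕ) : ℝ :=
  1 + ∑ x : Fin (k + 1), ∫ w : Fin (k + 2) → ℝ, iU β shift s k x w * iU β shift s k x w ∂gauss (Fin (k + 2))

/-- The data of the history at tolerance `e`. -/
structure Hist (β shift s : ℝ) (k : ℕ) (e : ℝ) (n : ℕ) (ω : Fin n → Fin (k + 2) → ℝ) : Prop where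
  bb : ∀ x y : Fin (k + 1), |MinEigCore.ip (cB β shift s k n ω x) (cB β shift s k n ω y) -
    if x = y then nb (parOf β shift s k) x else 0| ≤ e
  bF : ∀ x y : Fin (k + 1), |MinEigCore.ip (cB β shift s k n ω x) (cU β shift s k n ω y) -
    MinEigCore.ip (cB β shift s k n ω x) (cR β shift s k n ω y) - (parOf β shift s k).fM x y| ≤ e
  b1 : ∀ x : Fin (k + 1), |MinEigCore.ip (cB β shift s k n ω x) 1 - (parOf β shift s k).S x| ≤ e
  ba : ∀ x : Fin (k + 1), |MinEigCore.ip (cB β shift s k n ω x) (cA β shift s k n ω) - (parOf β shift s k).S x| ≤ e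
  bf : ∀ x : Fin (k + 1), |MinEigCore.ip (cB β shift s k n ω x) (fF β shift s k n ω) -
    (parOf β shift s k).u * (parOf β shift s k).L x| ≤ e
  uu : ∀ x y : Fin (k + 1), |MinEigCore.ip (cD β shift s k n ω * cU β shift s k n ω x) (cU β shift s k n ω y) -
    ((parOf β shift s k).a * gS (gamSE β shift s k) * (if x = y then nb (parOf β shift s k) x else 0) +
      (parOf β shift s k).a ^ 2 * (gS (gamSE β shift s k) - 2 * rS (gamSE β shift s k)) *
        ((parOf β shift s k).T x * (parOf β shift s k).T y))| ≤ e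
  u1 : ∀ x : Fin (k + 1), |MinEigCore.ip (cU β shift s k n ω x) (cD β shift s k n ω * (1 - cA β shift s k n ω))| ≤ e
  ua : ∀ x : Fin (k + 1), |MinEigCore.ip (cU β shift s k n ω x) (cD β shift s k n ω * cA β shift s k n ω) +
    (parOf β shift s k).a * (gS (gamSE β shift s k) - 2 * rS (gamSE β shift s k)) * (parOf β shift s k).T x| ≤ e
  oo : |MinEigCore.ip (cD β shift s k n ω * (1 - cA β shift s k n ω)) (1 - cA β shift s k n ω) - rS (gamSE β shift s k)| ≤ e
  aa : |MinEigCore.ip (cD β shift s k n ω * cA β shift s k n ω) (cA β shift s k n ω) -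
    (gS (gamSE β shift s k) - rS (gamSE β shift s k))| ≤ e
  oa : |MinEigCore.ip (cD β shift s k n ω * (1 - cA β shift s k n ω)) (cA β shift s k n ω)| ≤ e
  dg : |MinEigCore.ip (cD β shift s k n ω) 1 - gS (gamSE β shift s k)| ≤ e
  aq : |MinEigCore.ip (cA β shift s k n ω) (cA β shift s k n ω) - qSE (gamSE β shift s k)| ≤ e
  gap : MinEigCore.ip (cA β shift s k n ω - fun i => Real.tanh (zF β shift s k n ω (k - 1) i))
      (cA β shift s k n ω - fun i => Real.tanh (zF β shift s k n ω (k - 1) i)) ≤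
    qSE (gamSE β shift s k) - qSE (gamSE β shift s (k - 1)) + e
  ff : MinEigCore.ip (fF β shift s k n ω) (fF β shift s k n ω) ≤ 4
  capU : ∀ x : Fin (k + 1), MinEigCore.ip (cU β shift s k n ω x) (cU β shift s k n ω x) ≤ capU β shift s k
  near : ∀ x : Fin (k + 1), MinEigCore.ip (cU β shift s k n ω x - cV β shift s k n ω x)
    (cU β shift s k n ω x - cV β shift s k n ω x) ≤ e
  quart : ∀ p q : Fin (k + 1) × Fin (k + 1),
    |MinEigCore.ip (cV β shift s k n ω p.1 * cV β shift s k n ω p.2) (cV β shift s k n ω q.1 * cV β shift s k n ω q.2) -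
      ∫ w : Fin (k + 2) → ℝ, iU β shift s k p.1 w * iU β shift s k p.2 w *
        (iU β shift s k q.1 w * iU β shift s k q.2 w) ∂gauss (Fin (k + 2))| ≤ e

section

variable (hβ0 : 0 < β) (hβ1 : β < 1) (hc : 4 ≤ shift) (hs0 : 0 < s) (hs1 : s < 1)
include hβ0 hβ1 hc hs0 hs1

/-- The increments of the overlaps decay geometrically. -/
lemma gamInc_le (l : ℕ) : gamInc β shift s (l + 1) ≤ (β ^ 2) ^ l * ((shift + 3) / (1 - β ^ 2)) := by
  obtain ⟨hb, hs⟩ := mem_ranges hβ0 hβ1 hs0 hs1
  induction l with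
  | zero =>
    have h := gamSE_le (β := β) hβ0.le hβ1 hc hs (1 : ℕ)
    have h0 := gamSE_nonneg (β := β) hc hs 0
    have hC : 0 ≤ (shift + 3) / (1 - β ^ 2) := div_nonneg (by linarith) (by nlinarith)
    simp only [gamInc, zero_add, pow_zero, one_mul]
    linarith [mul_le_of_le_one_right hC hs1.le]
  | succ l ih =>
    have hq := (qSE_sub_mem (gamSE_nonneg (β := β) hc hs l) (gamSE_mono hb hc hs l)).2
    have e : gamInc β shift s (l + 1 + 1) =
        β ^ 2 * (1 - s) ^ 2 * (qSE (gamSE β shift s (l + 1)) - qSE (gamSE β shift s l)) := gamSE_succ_sub l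
    rw [e, show (β ^ 2) ^ (l + 1) * ((shift + 3) / (1 - β ^ 2)) =
      β ^ 2 * ((β ^ 2) ^ l * ((shift + 3) / (1 - β ^ 2))) by ring, mul_assoc (β ^ 2)]
    refine mul_le_mul_of_nonneg_left ?_ (sq_nonneg β)
    have h2 : (1 - s) ^ 2 ≤ 1 := pow_le_one₀ (by linarith) (by linarith)
    refine (mul_le_of_le_one_left (qSE_sub_mem (gamSE_nonneg (β := β) hc hs l) (gamSE_mono hb hc hs l)).1 h2).trans ?_
    exact hq.trans ih

/-- The overlap increment at step `k`. -/
lemma q_gap_le (hk : k ≠ 0) :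
    qSE (gamSE β shift s k) - qSE (gamSE β shift s (k - 1)) ≤ (β ^ 2) ^ (k - 1) * ((shift + 3) / (1 - β ^ 2)) := by
  obtain ⟨hb, hs⟩ := mem_ranges hβ0 hβ1 hs0 hs1
  obtain ⟨j, rfl⟩ : ∃ j, k = j + 1 := ⟨k - 1, by omega⟩
  exact ((qSE_sub_mem (gamSE_nonneg (β := β) hc hs _) (gamSE_mono hb hc hs j)).2).trans
    (gamInc_le hβ0 hβ1 hc hs0 hs1 j)

/-- The projection of `f` has positive length. -/
lemma pn_pos (hk : k ≠ 0) : 0 < (parOf β shift s k).pn := by
  obtain ⟨hb, hs⟩ := mem_ranges hβ0 hβ1 hs0 hs1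
  set P := parOf β shift s k
  have hu : 0 < 1 - s := sub_pos.2 hs1
  have hn := MinEigAlg.n0_pos (P := P) (qSE_nonneg _) (plantVar_pos hc) hs0 hs1
  have hv := plantVar_pos (β := β) hc
  have hκ : 0 < P.kap := div_pos (mul_pos (mul_pos (show 0 < P.u from hu) (show 0 < P.s from hs0))
    (show (0:ℝ) < 1 + P.v by show 0 < 1 + plantVar β shift; linarith)) hn
  set F : ℝ → ℝ := fun t => s + Real.sqrt s * (Real.sqrt (plantVar β shift) * t)
  set h : ℝ → ℝ := fun t => F t + -P.kap * (Real.tanh (F t / plantVar β shift) + -1 * (-(1 - s)⁻¹ * F t))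
  have hh : Continuous h := by
    have := PA.continuous_tanh'
    simp only [h, F]; fun_prop
  have e : ∀ w : Fin (k + 1 + 1) → ℝ, iB β shift s k k w = h (w 0) := fun w => by
    simp only [iB, if_pos, iM]
    rw [MinEigLim.idealZ_zero hc hs0.le]; rfl
  have hne : ∃ t, h t ≠ 0 := by
    by_contra hcon
    push Not at hcon
    have hx : ∀ x : ℝ, (1 - P.kap / (1 - s)) * (plantVar β shift * x) = P.kap * Real.tanh x := fun x => by
      have hsv : Real.sqrt s * Real.sqrt (plantVar β shift) ≠ 0 :=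
        mul_ne_zero (Real.sqrt_pos.2 hs0).ne' (Real.sqrt_pos.2 hv).ne'
      obtain ⟨t, ht⟩ : ∃ t, F t = plantVar β shift * x :=
        ⟨(plantVar β shift * x - s) / (Real.sqrt s * Real.sqrt (plantVar β shift)), by
          simp only [F]; rw [← mul_assoc, mul_div_cancel₀ _ hsv]; ring⟩
      have h0 := hcon t
      simp only [h, ht, mul_div_cancel_left₀ _ hv.ne'] at h0
      linear_combination h0
    have h1 := hx 1
    have h2 := hx 2
    have h3 : Real.tanh 2 = 2 * Real.tanh 1 := mul_left_cancel₀ hκ.ne' (by linear_combination 2 * h1 - h2)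
    have e2 : (2:ℝ) = 2 * 1 := by norm_num
    rw [Real.tanh_eq_sinh_div_cosh, Real.tanh_eq_sinh_div_cosh] at h3
    conv at h3 => lhs; rw [e2, Real.sinh_two_mul, Real.cosh_two_mul]
    have hC := Real.cosh_pos 1
    have hS : 0 < Real.sinh 1 := Real.sinh_pos_iff.2 one_pos
    have hden : Real.cosh 1 ^ 2 + Real.sinh 1 ^ 2 ≠ 0 := by positivity
    field_simp at h3
    nlinarith [pow_pos hS 2, pow_pos hS 3]
  have h1 := int_B_B hβ0 hβ1 hc hs0 hs1 hk (x := k) (y := k) le_rfl le_rfl
  rw [if_pos rfl, show nb (parOf β shift s k) k = P.pn from if_pos rfl] at h1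
  rw [← h1]
  have hint := ((nice_iB β shift s k k).mul (nice_iB β shift s k k)).integrable
  rw [integral_pos_iff_support_of_nonneg (fun w => mul_self_nonneg _) hint]
  have hsup : Function.support (fun w : Fin (k + 2) → ℝ => iB β shift s k k w * iB β shift s k k w) =
      (fun w : Fin (k + 2) → ℝ => w 0) ⁻¹' {t | h t ≠ 0} := by
    ext w
    simp [e w]
  have hm : MeasurableSet {t : ℝ | h t ≠ 0} := (measurableSet_singleton 0).compl.preimage hh.measurable
  rw [hsup, gauss]
  rw [show (fun w : Fin (k + 2) → ℝ => w 0) = Function.eval 0 from rfl, (measurePreserving_eval (fun _ : Fin (k + 2) => gaussianReal 0 1) 0).measure_preimage hm.nullMeasurableSet]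
  exact pos_iff_ne_zero.2 fun h0 => ((isOpen_ne_fun hh continuous_const).measure_pos volume hne).ne'
    (gaussianReal_absolutelyContinuous' 0 one_ne_zero h0)

/-- The limits of the squared lengths are positive. -/
lemma nb_pos (hk : k ≠ 0) {x : ℕ} (hx : x ≤ k) : 0 < nb (parOf β shift s k) x := by
  unfold nb
  split_ifs with h
  · exact pn_pos hβ0 hβ1 hc hs0 hs1 hk
  · have h1 := gamInc_eq hβ0 hβ1 hc hs0 hs1 hk (lt_of_le_of_ne hx h)
    have h2 : 0 < gamInc β shift s (x + 1) := sub_pos.2 (gamSE_strict hβ0 hβ1 hc hs0 hs1 x)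
    rw [h1] at h2
    exact pos_of_mul_pos_right h2 (mul_nonneg (sq_nonneg _) (sq_nonneg _))

variable (hk : k ≠ 0)
include hk

/-- The ideal reactions. -/
lemma int_B_iM_comb {x l m : ℕ} (hx : x ≤ k) (hl : l ≤ k + 1) (hm : m ≤ k + 1) (c d : ℝ) :
    ∫ w : Fin (k + 2) → ℝ, iB β shift s k x w * (c * iM β shift s k l w + d * iM β shift s k m w)
      ∂gauss (Fin (k + 2)) = c * (parOf β shift s k).A x l + d * (parOf β shift s k).A x m := by
  simp only [mul_add, mul_left_comm (iB β shift s k x _)]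
  rw [integral_add (((nice_iB β shift s k x).mul (nice_iM β shift s k l)).integrable.const_mul c)
      (((nice_iB β shift s k x).mul (nice_iM β shift s k m)).integrable.const_mul d),
    integral_const_mul, integral_const_mul, int_B_M hβ0 hβ1 hc hs0 hs1 hk hx hl, int_B_M hβ0 hβ1 hc hs0 hs1 hk hx hm]

lemma tendP_bR {x y : ℕ} (hx : x ≤ k) (hy : y ≤ k) :
    TendP (k + 1) (fun n ω => MinEigCore.ip (cB β shift s k n ω x) (cR β shift s k n ω y)) ((parOf β shift s k).pR x y) := by
  set P := parOf β shift s k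
  have hB := lim_B hβ0 hβ1 hc hs0 hs1 hk hx
  have nB := nice_iB β shift s k x
  rcases eq_or_ne y k with h | h
  · have hR := (lim_f (β := β) (shift := shift) (s := s) (k := k)).const_mul nice_idealF
      (P.kap * P.r0 / P.u - P.β ^ 2 * P.v * P.u)
    have ht := hB.dot hR nB (nice_idealF.const_mul _)
    simp only [mul_left_comm (iB β shift s k x _)] at ht
    rw [integral_const_mul, int_B_f hβ0 hβ1 hc hs0 hs1 hx] at ht
    rw [show P.pR x y = _ from if_pos h]
    exact ht.congr fun n _ ω => by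
      simp only [MinEigCore.ip, dot, cB, cR, rV, show (parOf β shift s k).k = k from rfl, if_pos h, Pi.smul_apply, smul_eq_mul]
      rfl
  have hM := fun l (hl : l ≤ k + 1) => lim_M (l := l) (k := k) hβ0 hβ1 hc hs0 hs1 hl
  have comb : ∀ l m, l ≤ k + 1 → m ≤ k + 1 → ∀ c d : ℝ,
      TendP (k + 1) (fun n ω => MinEigCore.ip (cB β shift s k n ω x) (c • mV s (zF β shift s k n ω) (fF β shift s k n ω) l
        + d • mV s (zF β shift s k n ω) (fF β shift s k n ω) m)) (c * P.A x l + d * P.A x m) := by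
    intro l m hl hm c d
    have ht := hB.dot (((hM l hl).const_mul (nice_iM β shift s k l) c).add ((hM m hm).const_mul (nice_iM β shift s k m) d))
      nB (((nice_iM β shift s k l).const_mul c).add ((nice_iM β shift s k m).const_mul d))
    rw [int_B_iM_comb hβ0 hβ1 hc hs0 hs1 hk hx hl hm] at ht
    exact ht.congr fun n _ ω => rfl
  rcases eq_or_ne y 0 with h0 | h0
  · have ht := comb 0 0 (by omega) (by omega) P.r0 0
    simp only [zero_mul, add_zero, zero_smul] at ht
    rw [show P.pR x y = P.r0 * P.A x 0 from (if_neg h).trans (if_pos h0)]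
    exact ht.congr fun n _ ω => by simp only [cR, rV, show (parOf β shift s k).k = k from rfl, if_neg h, if_pos h0]; rfl
  · have ht := comb y (y - 1) (by omega) (by omega) (P.a * (1 - P.q y)) (-(P.a * (1 - P.q (y - 1))))
    rw [show P.pR x y = P.a * ((1 - P.q y) * P.A x y - (1 - P.q (y - 1)) * P.A x (y - 1)) from
      (if_neg h).trans (if_neg h0), show P.a * ((1 - P.q y) * P.A x y - (1 - P.q (y - 1)) * P.A x (y - 1)) =
      P.a * (1 - P.q y) * P.A x y + -(P.a * (1 - P.q (y - 1))) * P.A x (y - 1) by ring]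
    exact ht.congr fun n _ ω => by
      simp only [cR, rV, show (parOf β shift s k).k = k from rfl, show (parOf β shift s k).s = s from rfl, if_neg h, if_neg h0]
      congr 1
      funext i
      simp only [P, Pi.add_apply, Pi.sub_apply, Pi.smul_apply, smul_eq_mul]
      ring

/-- The history has the limiting data. -/
theorem hist_whp {e : ℝ} (he : 0 < e) : Whp (k + 1) (Hist β shift s k e) := by
  obtain ⟨hb, hs⟩ := mem_ranges hβ0 hβ1 hs0 hs1
  set P := parOf β shift s k
  set γ := gamSE β shift s k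
  have hpn := pn_pos hβ0 hβ1 hc hs0 hs1 hk
  have hB := fun x : Fin (k + 1) => lim_B hβ0 hβ1 hc hs0 hs1 hk (Nat.lt_succ_iff.1 x.2)
  have hU := fun x : Fin (k + 1) => lim_U hβ0 hβ1 hc hs0 hs1 hk hpn (Nat.lt_succ_iff.1 x.2)
  have nB := fun x : Fin (k + 1) => nice_iB β shift s k x
  have nU := fun x : Fin (k + 1) => nice_iU β shift s k x
  have hA : VecLim (k + 1) (fun n ω i => cA β shift s k n ω i) fun w => Real.tanh (idealZ β shift s k w) :=
    (lim_z hβ0 hβ1 hc hs0 hs1 le_rfl).tanh
  have nA : Nice fun w : Fin (k + 1 + 1) → ℝ => Real.tanh (idealZ β shift s k w) := nice_tanhZ k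
  have h1 : VecLim (k + 1) (fun n ω i => (1 : Fin n → ℝ) i) fun _ => 1 := VecLim.exact' (K := k + 1) fun _ => 1
  have hO : VecLim (k + 1) (fun n ω i => (1 - cA β shift s k n ω) i)
      fun w => 1 - Real.tanh (idealZ β shift s k w) :=
    (h1.add (hA.const_mul nA (-1))).congr (fun n _ ω i => by simp only [Pi.sub_apply, Pi.one_apply]; ring)
      fun w => by ring
  have nO : Nice fun w : Fin (k + 1 + 1) → ℝ => 1 - Real.tanh (idealZ β shift s k w) := by
    simpa [sub_eq_add_neg] using (Nice.const 1).add (nA.const_mul (-1))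
  have bA : ∀ n ω i, |cA β shift s k n ω i| ≤ 1 := fun _ _ _ => (Real.abs_tanh_lt_one _).le
  have hD : VecLim (k + 1) (fun n ω i => cD β shift s k n ω i) fun w => dFun (idealZ β shift s k w) :=
    (h1.add ((mul_bdd hA bA (fun _ => PA.abs_tanh_le_one' _) hA nA).const_mul (nA.mul nA) (-1))).congr
      (fun n _ ω i => by simp only [cD, Pi.sub_apply, Pi.one_apply, Pi.mul_apply]; ring)
      fun w => by simp only [dFun]; ring
  have bD : ∀ n ω i, |cD β shift s k n ω i| ≤ 1 := fun n ω i => by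
    have := (sq_le_one_iff_abs_le_one _).2 (bA n ω i)
    simp only [cD, Pi.sub_apply, Pi.one_apply, Pi.mul_apply, Pi.pow_apply, ← sq]
    rw [abs_le]
    constructor <;> linarith [sq_nonneg (cA β shift s k n ω i)]
  have nD : Nice fun w : Fin (k + 1 + 1) → ℝ => dFun (idealZ β shift s k w) :=
    (nice_idealZ k).comp continuous_dFun abs_dFun
  have hDX : ∀ {X : ∀ n, (Fin n → Fin (k + 1 + 1) → ℝ) → Fin n → ℝ} {φ : (Fin (k + 1 + 1) → ℝ) → ℝ},
      VecLim (k + 1) X φ → Nice φ →
      VecLim (k + 1) (fun n ω i => cD β shift s k n ω i * X n ω i) fun w => dFun (idealZ β shift s k w) * φ w :=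
    fun hX hφ => mul_bdd hD bD (fun _ => abs_dFun _) hX hφ
  have iD := int_wD (k := k) hβ0 hβ1 hc hs0 hs1
  have itD := int_wtD (k := k) hβ0 hβ1 hc hs0 hs1
  have ittD := int_wttD (k := k) hβ0 hβ1 hc hs0 hs1
  have bound : ∀ {X : ∀ n, (Fin n → Fin (k + 1 + 1) → ℝ) → ℝ} {c d : ℝ}, TendP (k + 1) X c → c + e ≤ d →
      Whp (k + 1) fun n ω => X n ω ≤ d := fun h hd =>
    (Whp.of_tendP h he).mono fun n _ ω hx => by linarith [(abs_le.1 hx).2]
  have bb := Whp.forall_fintype fun x => Whp.forall_fintype fun y => Whp.of_tendP ((hB x).dot (hB y) (nB x) (nB y)) he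
  have bF := Whp.forall_fintype fun x : Fin (k + 1) => Whp.forall_fintype fun y : Fin (k + 1) => Whp.of_tendP
    (((hB x).dot (hU y) (nB x) (nU y)).add
      ((tendP_bR hβ0 hβ1 hc hs0 hs1 hk (Nat.lt_succ_iff.1 x.2) (Nat.lt_succ_iff.1 y.2)).const_mul (-1))) he
  have b1 := Whp.forall_fintype fun x => Whp.of_tendP ((hB x).dot h1 (nB x) (Nice.const 1)) he
  have ba := Whp.forall_fintype fun x => Whp.of_tendP ((hB x).dot hA (nB x) nA) he
  have bf := Whp.forall_fintype fun x => Whp.of_tendP ((hB x).dot (lim_f (β := β) (shift := shift) (s := s) (k := k))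
    (nB x) nice_idealF) he
  have uu := Whp.forall_fintype fun x => Whp.forall_fintype fun y =>
    Whp.of_tendP ((hDX (hU x) (nU x)).dot (hU y) (nD.mul (nU x)) (nU y)) he
  have u1 := Whp.forall_fintype fun x => Whp.of_tendP ((hU x).dot (hDX hO nO) (nU x) (nD.mul nO)) he
  have ua := Whp.forall_fintype fun x => Whp.of_tendP ((hU x).dot (hDX hA nA) (nU x) (nD.mul nA)) he
  have oo := Whp.of_tendP ((hDX hO nO).dot hO (nD.mul nO) nO) he
  have aa := Whp.of_tendP ((hDX hA nA).dot hA (nD.mul nA) nA) he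
  have oa := Whp.of_tendP ((hDX hO nO).dot hA (nD.mul nO) nA) he
  have dg := Whp.of_tendP (hD.dot h1 nD (Nice.const 1)) he
  have aq := Whp.of_tendP (hA.dot hA nA nA) he
  have hA' : VecLim (k + 1) (fun n ω i => Real.tanh (zF β shift s k n ω (k - 1) i))
      fun w => Real.tanh (idealZ β shift s (k - 1) w) :=
    (lim_z hβ0 hβ1 hc hs0 hs1 (Nat.sub_le k 1)).tanh
  have nA' : Nice fun w : Fin (k + 1 + 1) → ℝ => Real.tanh (idealZ β shift s (k - 1) w) := nice_tanhZ _
  have hG := hA.add (hA'.const_mul nA' (-1))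
  have nG := nA.add (nA'.const_mul (-1))
  have qgap : ∫ w : Fin (k + 1 + 1) → ℝ, (Real.tanh (idealZ β shift s k w) + -1 * Real.tanh (idealZ β shift s (k - 1) w)) *
      (Real.tanh (idealZ β shift s k w) + -1 * Real.tanh (idealZ β shift s (k - 1) w)) ∂gauss (Fin (k + 1 + 1)) =
      qSE γ - qSE (gamSE β shift s (k - 1)) := by
    have e1 : ∀ a b : ℝ, (a + -1 * b) * (a + -1 * b) = a * a + (-2) * (b * a) + b * b := fun a b => by ring
    simp only [e1]
    rw [integral_add ((nA.mul nA).add ((nA'.mul nA).const_mul (-2))).integrable (nA'.mul nA').integrable,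
      integral_add (nA.mul nA).integrable ((nA'.mul nA).const_mul (-2)).integrable, integral_const_mul,
      int_tanh_mul hb hc hs le_rfl (Nat.le_succ k), int_tanh_mul hb hc hs (Nat.sub_le k 1) (Nat.le_succ k),
      int_tanh_mul hb hc hs le_rfl (by omega)]
    ring
  have gap := bound (hG.dot hG nG nG) (d := qSE γ - qSE (gamSE β shift s (k - 1)) + e) (by rw [qgap])
  have ff := (Whp.of_tendP ((lim_f (β := β) (shift := shift) (s := s) (k := k)).dot lim_f nice_idealF nice_idealF)
    one_pos).mono (Q := fun n ω => MinEigCore.ip (fF β shift s k n ω) (fF β shift s k n ω) ≤ 4) fun n _ ω hx => by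
      have h2 : ∫ w : Fin (k + 1 + 1) → ℝ, idealF β shift s w * idealF β shift s w ∂gauss (Fin (k + 1 + 1)) ≤ 3 := by
        have h3 := int_idealF_sq (K := k + 1) hb hc hs
        simp only [sq] at h3
        rw [h3]
        nlinarith [plantVar_le (β := β) hc, plantVar_pos (β := β) hc]
      simp only [MinEigCore.ip, dot] at hx ⊢
      linarith [(abs_le.1 hx).2]
  have cu := Whp.forall_fintype fun x => (Whp.of_tendP ((hU x).dot (hU x) (nU x) (nU x)) one_pos).mono
    (Q := fun n ω => MinEigCore.ip (cU β shift s k n ω x) (cU β shift s k n ω x) ≤ capU β shift s k) fun n _ ω hx => by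
      have h2 := Finset.single_le_sum (s := Finset.univ)
        (f := fun x : Fin (k + 1) => ∫ w : Fin (k + 2) → ℝ, iU β shift s k x w * iU β shift s k x w ∂gauss (Fin (k + 2)))
        (fun y _ => integral_nonneg fun w => mul_self_nonneg _) (Finset.mem_univ x)
      simp only [MinEigCore.ip, dot, capU, cU] at hx ⊢
      linarith [(abs_le.1 hx).2]
  have near := Whp.forall_fintype fun x => bound (hU x).tendP (d := e) (by linarith)
  have quart := Whp.forall_fintype fun p : Fin (k + 1) × Fin (k + 1) =>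
    Whp.forall_fintype fun q : Fin (k + 1) × Fin (k + 1) => Whp.of_tendP
      (lln (((nU p.1).mul (nU p.2)).mul ((nU q.1).mul (nU q.2)))) he
  refine (bb.and (bF.and (b1.and (ba.and (bf.and (uu.and (u1.and (ua.and (oo.and (aa.and (oa.and (dg.and
    (aq.and (gap.and (ff.and (cu.and (near.and quart))))))))))))))))).mono fun n hn ω h => ?_
  obtain ⟨bb, bF, b1, ba, bf, uu, u1, ua, oo, aa, oa, dg, aq, gap, ff, cu, near, quart⟩ := h
  have hint : ∀ (φ : (Fin (k + 1 + 1) → ℝ) → ℝ), Nice φ →
      Integrable (fun w => dFun (idealZ β shift s k w) * φ w) (gauss (Fin (k + 1 + 1))) :=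
    fun φ hφ => (nD.mul hφ).integrable
  constructor
  · intro x y
    have h := bb x y
    rw [int_B_B hβ0 hβ1 hc hs0 hs1 hk (Nat.lt_succ_iff.1 x.2) (Nat.lt_succ_iff.1 y.2)] at h
    simp only [Fin.ext_iff]; exact h
  · intro x y
    have h := bF x y
    rw [int_B_U hβ0 hβ1 hc hs0 hs1 hk (Nat.lt_succ_iff.1 x.2) (Nat.lt_succ_iff.1 y.2)] at h
    refine le_trans (le_of_eq (congrArg abs ?_)) h
    simp only [MinEigCore.ip, dot, cB, cU, MinEigAlg.Par.fM]; ring
  · intro x
    have h := b1 x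
    simp only [mul_one] at h
    rw [int_B hβ0 hβ1 hc hs0 hs1 (Nat.lt_succ_iff.1 x.2)] at h
    simpa only [MinEigCore.ip, dot, cB, Pi.one_apply, mul_one] using h
  · intro x
    have h := ba x
    have e1 : ∀ w : Fin (k + 1 + 1) → ℝ, iB β shift s k x w * Real.tanh (idealZ β shift s k w) =
        iB β shift s k x w * iM β shift s k (k + 1) w := fun w => rfl
    simp only [e1] at h
    rw [int_B_M hβ0 hβ1 hc hs0 hs1 hk (Nat.lt_succ_iff.1 x.2) le_rfl] at h
    have hAS : P.A x (k + 1) = P.S x := by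
      rw [MinEigAlg.Par.A, if_neg (Nat.succ_ne_zero k), if_pos (Or.inr x.2)]
    rwa [hAS] at h
  · intro x
    have h := bf x
    rwa [int_B_f hβ0 hβ1 hc hs0 hs1 (Nat.lt_succ_iff.1 x.2)] at h
  · intro x y
    have h := uu x y
    have e1 : ∀ a b c : ℝ, a * b * c = b * (c * a) := fun a b c => by ring
    simp only [e1 (dFun _)] at h
    rw [int_DUU hβ0 hβ1 hc hs0 hs1 hk (Nat.lt_succ_iff.1 x.2) (Nat.lt_succ_iff.1 y.2) hpn.le] at h
    simp only [Fin.ext_iff]; exact h
  · intro x
    have h := u1 x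
    simp only [mul_comm (dFun _)] at h
    rw [int_U1D hβ0 hβ1 hc hs0 hs1 hk (Nat.lt_succ_iff.1 x.2), sub_zero] at h
    exact h
  · intro x
    have h := ua x
    simp only [mul_comm (dFun _)] at h
    rw [int_UtD hβ0 hβ1 hc hs0 hs1 hk (Nat.lt_succ_iff.1 x.2), sub_neg_eq_add] at h
    exact h
  · have e1 : ∀ w : Fin (k + 1 + 1) → ℝ, dFun (idealZ β shift s k w) * (1 - Real.tanh (idealZ β shift s k w)) *
        (1 - Real.tanh (idealZ β shift s k w)) = dFun (idealZ β shift s k w)
          + (-2) * (Real.tanh (idealZ β shift s k w) * dFun (idealZ β shift s k w))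
          + Real.tanh (idealZ β shift s k w) ^ 2 * dFun (idealZ β shift s k w) := fun w => by ring
    simp only [e1] at oo
    rw [integral_add ((nD.add ((nA.mul nD).const_mul (-2))).integrable)
        (((nA.mul nA).mul nD).integrable.congr (Eventually.of_forall fun w => show _ = _ by ring)),
      integral_add nD.integrable ((nA.mul nD).const_mul (-2)).integrable, integral_const_mul, iD, itD, ittD,
      show gS γ + -2 * hS γ + hS γ = rS γ by unfold rS; ring] at oo
    exact oo
  · have e1 : ∀ w : Fin (k + 1 + 1) → ℝ, dFun (idealZ β shift s k w) * Real.tanh (idealZ β shift s k w) *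
        Real.tanh (idealZ β shift s k w) =
        Real.tanh (idealZ β shift s k w) ^ 2 * dFun (idealZ β shift s k w) := fun w => by ring
    simp only [e1] at aa
    rw [ittD, show hS γ = gS γ - rS γ by unfold rS; ring] at aa
    exact aa
  · have e1 : ∀ w : Fin (k + 1 + 1) → ℝ, dFun (idealZ β shift s k w) * (1 - Real.tanh (idealZ β shift s k w)) *
        Real.tanh (idealZ β shift s k w) = Real.tanh (idealZ β shift s k w) * dFun (idealZ β shift s k w)
          + (-1) * (Real.tanh (idealZ β shift s k w) ^ 2 * dFun (idealZ β shift s k w)) := fun w => by ring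
    simp only [e1] at oa
    rw [integral_add (nA.mul nD).integrable
        ((((nA.mul nA).mul nD).const_mul (-1)).integrable.congr (Eventually.of_forall fun w => show _ = _ by ring)),
      integral_const_mul, itD, ittD, show hS γ + -1 * hS γ = 0 by ring, sub_zero] at oa
    exact oa
  · simp only [mul_one] at dg
    rw [iD] at dg
    simpa only [MinEigCore.ip, dot, Pi.one_apply, mul_one] using dg
  · rw [int_tanh_mul hb hc hs le_rfl (Nat.le_succ k)] at aq
    exact aq
  · refine le_trans (le_of_eq ?_) gap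
    simp only [MinEigCore.ip, dot, Pi.sub_apply]
    congr 1
    exact Finset.sum_congr rfl fun i _ => by ring
  · exact ff
  · exact cu
  · intro x
    refine le_trans (le_of_eq ?_) (near x)
    simp only [MinEigCore.ip, dot, Pi.sub_apply, sq]
    rfl
  · exact fun p q => quart p q

end

end Vale.Agent.P150.High.MinEigData
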