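import Vale.Agent.P150.High.MinEigScalar
import Vale.Agent.P150.High.AmpLip

/-!
# P150, all `β < 1`: the images of the span are read off the iteration

For any couplings `J` and `y = (J + shift) f`, with `z` the fields of `ampZ`: `u J b = U + R`, where
`U` is a field increment and `R` lies in the span.
-/

open Matrix

namespace Vale.Agent.P150.High.MinEigExact

open Vale.Agent.P150 Vale.Agent.P150.High.Amp MinEigScalar

variable {n : ℕ}

/-- `-f/u, tanh z 0, tanh z 1, …`. -/
noncomputable def mV (s : ℝ) (z : ℕ → Fin n → ℝ) (f : Fin n → ℝ) : ℕ → Fin n → ℝ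
  | 0 => fun i => -(f i / (1 - s))
  | l + 1 => fun i => Real.tanh (z l i)

/-- The orthogonalised span. -/
noncomputable def bV (P : MinEigAlg.Par) (z : ℕ → Fin n → ℝ) (f : Fin n → ℝ) (x : ℕ) : Fin n → ℝ :=
  if x = P.k then f - P.kap • (mV P.s z f 1 - mV P.s z f 0) else mV P.s z f (x + 1) - mV P.s z f x

/-- The increments. -/
noncomputable def uV (P : MinEigAlg.Par) (z : ℕ → Fin n → ℝ) (y : Fin n → ℝ) (x : ℕ) : Fin n → ℝ :=
  if x = P.k then P.u • (y - z 0 - (P.kap / P.u) • (z 1 - z 0)) else z (x + 1) - z x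

/-- The reactions. -/
noncomputable def rV (P : MinEigAlg.Par) (z : ℕ → Fin n → ℝ) (f : Fin n → ℝ) (x : ℕ) : Fin n → ℝ :=
  if x = P.k then (P.kap * P.r0 / P.u - P.β ^ 2 * P.v * P.u) • f
  else if x = 0 then P.r0 • mV P.s z f 0
  else P.a • ((1 - P.q x) • mV P.s z f x - (1 - P.q (x - 1)) • mV P.s z f (x - 1))

/-- `u J b = U + R`. -/
theorem uJ_b {β shift s : ℝ} (hβ : |β| ≤ 1) (hc : 4 ≤ shift) (hs : s < 1) {k : ℕ}
    {J : Fin n → Fin n → ℝ} {y f : Fin n → ℝ} (hy : shiftMat shift J *ᵥ f = y) {x : ℕ} :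
    (1 - s) • (Matrix.of J *ᵥ bV (parOf β shift s k) (ampZ β shift s J y f) f x) =
      uV (parOf β shift s k) (ampZ β shift s J y f) y x + rV (parOf β shift s k) (ampZ β shift s J y f) f x := by
  have hu : (1 : ℝ) - s ≠ 0 := by linarith
  have hv := inv_plantVar hβ hc
  have hv0 := (plantVar_pos (β := β) hc).ne'
  set P := parOf β shift s k with hP
  have eu : P.u = 1 - s := rfl
  have ev : P.v = plantVar β shift := rfl
  have eβ : P.β = β := rfl
  have es : P.s = s := rfl
  have eq' : ∀ l, P.q l = qSE (gamSE β shift s l) := fun _ => rfl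
  set z := ampZ β shift s J y f with hz
  have hJf : ∀ i, (Matrix.of J *ᵥ f) i = y i - shift * f i := fun i => by
    have h := congrFun hy i
    rw [shiftMat, add_mulVec, Pi.add_apply, smul_mulVec, one_mulVec, Pi.smul_apply, smul_eq_mul] at h
    linarith
  -- images of `mV`
  have h0 : ∀ i, (1 - s) * (Matrix.of J *ᵥ mV s z f 0) i = z 0 i - y i - β ^ 2 * P.v * (1 - s) * mV s z f 0 i := by
    intro i
    have e : mV s z f 0 = (-(1 / (1 - s))) • f := by funext j; simp only [mV, Pi.smul_apply, smul_eq_mul]; ring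
    rw [e, mulVec_smul, Pi.smul_apply, Pi.smul_apply, smul_eq_mul, smul_eq_mul, hJf,
      show z 0 i = f i / plantVar β shift from rfl, ev]
    generalize plantVar β shift = V at hv hv0
    field_simp at hv ⊢
    linear_combination (-f i) * hv
  have hS : ∀ l i, (1 - s) * (Matrix.of J *ᵥ mV s z f (l + 1)) i =
      z (l + 1) i - y i + P.a * (1 - P.q l) * mV s z f l i := by
    intro l i
    rw [eq']
    cases l with
    | zero =>
      rw [hz, show ampZ β shift s J y f (0 + 1) i = _ from congrFun (AmpLip.ampZ_one β shift s J y f) i]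
      simp only [Pi.add_apply, Pi.smul_apply, smul_eq_mul, mV, MinEigAlg.Par.a, eu, eβ]
      field_simp
      ring
    | succ l =>
      rw [hz, show ampZ β shift s J y f (l + 1 + 1) i = _ from congrFun (AmpLip.ampZ_two β shift s J y f l) i]
      simp only [Pi.add_apply, Pi.smul_apply, smul_eq_mul, mV, MinEigAlg.Par.a, eu, eβ]
      ring
  funext i
  simp only [Pi.smul_apply, Pi.add_apply, smul_eq_mul, bV, uV, rV, es]
  by_cases hx : x = P.k
  · simp only [if_pos hx, mulVec_sub, mulVec_smul, Pi.sub_apply, Pi.smul_apply, smul_eq_mul, hJf]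
    have e1 := hS 0 i
    have e2 := h0 i
    have ef : mV s z f 0 i = -(f i / (1 - s)) := rfl
    have ez : z 0 i = f i / P.v := rfl
    rw [ef] at e1 e2
    rw [ez] at e2 ⊢
    simp only [MinEigAlg.Par.r0, eu, eβ]
    rw [ev] at e2 ⊢
    linear_combination (norm := (field_simp; ring_nf)) (-P.kap) * e1 + P.kap * e2 + (1 - s) * f i * hv
  · simp only [if_neg hx, mulVec_sub, Pi.sub_apply]
    rcases Nat.eq_zero_or_pos x with rfl | hx0
    · simp only [if_pos, Pi.smul_apply, smul_eq_mul, mul_sub, hS 0 i, h0 i, MinEigAlg.Par.r0, eu, eβ]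
      ring
    · obtain ⟨z', rfl⟩ : ∃ z', x = z' + 1 := ⟨x - 1, by omega⟩
      simp only [if_neg (Nat.succ_ne_zero z'), Pi.smul_apply, Pi.sub_apply, smul_eq_mul, mul_sub,
        hS (z' + 1) i, hS z' i, Nat.add_sub_cancel]
      ring

end Vale.Agent.P150.High.MinEigExact
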