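import Vale.Agent.P150.High.MinEigSpec
import Vale.Agent.P150.High.MinEigCore
import Vale.Agent.P150.High.AmpExact

/-!
# P150, all `β < 1`: the margin on finitely many vectors under a full GOE matrix

Exports of `MinEigNet.lean`: it suffices to treat finitely many test vectors, the profile `capD` in
place of `1 - m²`, and the centre of the iteration with the diagonal kept.
-/

open MeasureTheory ProbabilityTheory Filter Matrix
open scoped Topology

namespace Vale.Agent.P150.High

open Vale.Agent.P150 Vale.Agent.P150.High.Amp MinEigCore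

variable {n : ℕ}

/-- An upper profile for all points near `a`: `1` on `B`, slightly above `1 - a²` elsewhere. -/
def capD (ε : ℝ) (a : Fin n → ℝ) (B : Finset (Fin n)) (i : Fin n) : ℝ :=
  if i ∈ B then 1 else min 1 (1 - a i ^ 2 + 2 * ε)

/-- The margin form at a vector, per coordinate, with `g` in place of `1 - |m|²/n`. -/
noncomputable def formQ (β s g : ℝ) (J : Fin n → Fin n → ℝ) (a D v : Fin n → ℝ) : ℝ :=
  MinEigCore.ip v (v / D) + β ^ 2 * (1 - s) ^ 2 * g * MinEigCore.ip v v - (1 - s) * MinEigCore.ip v (Matrix.of J *ᵥ v)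
    - 2 * (β ^ 2 * (1 - s) ^ 2) * MinEigCore.ip a v ^ 2

/-- The centre with the diagonal kept. -/
noncomputable def fullCentre (β shift s : ℝ) (k : ℕ) (p : (Fin n → ℝ) × (Fin n → Fin n → ℝ)) (i : Fin n) : ℝ :=
  Real.tanh (fullAt β shift s p.2 p.1 k i)

/-- Some vector of the net is bad for some small exceptional set. -/
def netEvent (β shift s : ℝ) (k : ℕ) (κ ε η : ℝ) (N : Finset (Fin n → ℝ)) :
    Set ((Fin n → ℝ) × (Fin n → Fin n → ℝ)) :=
  {p | ∃ B : Finset (Fin n), (B.card : ℝ) ≤ κ * n ∧ ∃ v ∈ N,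
    formQ β s (1 - qSE (gamSE β shift s k)) (fullCpl β p.2 (prodXi β shift p.1)) (fullCentre β shift s k p)
      (capD ε (fullCentre β shift s k p) B) v < η}

/-- `MinEigNet.lean`: it suffices that every family of nets of the sphere is good. -/
def NetStatement : Prop :=
  ∀ β shift s : ℝ, 0 < β → β < 1 → 4 ≤ shift → 0 < s → s < 1 → ∀ k : ℕ, k ≠ 0 →
    ∀ η η' ρ ε : ℝ, 0 < η → 0 < ρ → 0 < ε → η + 12 * Real.sqrt ρ < η' →
    (∀ N : (n : ℕ) → Finset (Fin n → ℝ), (∀ n, ∀ v ∈ N n, MinEigCore.ip v v = 1) →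
      Tendsto (fun n => ((gauss (Fin n)).prod (goe n)).real
        (netEvent β shift s k (4 * ρ / ε ^ 2) ε η' (N n))) atTop (𝓝 0)) →
    Tendsto (fun n : ℕ => (prodLaw n).real {p | ∃ m, InBall ρ (prodCentre β shift s p.1 p.2 k) m ∧
      ¬ Margin β η s (tiltCpl β p.1 (prodXi β shift p.2)) m}) atTop (𝓝 0)

end Vale.Agent.P150.High
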