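import Vale.Agent.P150.High.MinEigMoments2
import Vale.Agent.P150.High.MinEigExact
import Vale.Agent.P150.High.AmpTransfer

/-!
# P150, all `β < 1`: the limit of the span and of the images on the noise space

The frame of the iteration is extended by the direction `f`.  The fields, the observation `y`, the span
and the images are then `o(√n)`-close to the explicit functions of `MinEigMoments`.
-/

open MeasureTheory ProbabilityTheory Filter Finset
open scoped Topology

namespace Vale.Agent.P150.High.MinEigLim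

open Vale.Agent.P150 Vale.Agent.P150.High.Amp MinEigScalar MinEigMoments MinEigExact

variable {n : ℕ}

/-- The directions of the iteration, then `f`. -/
noncomputable def finRule (β shift s : ℝ) (k : ℕ) (z : Fin n → ℝ) : Rule n :=
  fun l e G => if l = k then prodF β shift s z else ampRule β shift s z l e G

/-- Frame and images. -/
noncomputable def finState (β shift s : ℝ) (k n : ℕ) (ω : Fin n → Fin (k + 2) → ℝ) :
    (ℕ → Fin n → ℝ) × (ℕ → Fin n → ℝ) :=
  state (finRule β shift s k (noiseZ ω)) (freshResp (noiseEta ω)) (k + 1)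

/-- The fields. -/
noncomputable def zF (β shift s : ℝ) (k n : ℕ) (ω : Fin n → Fin (k + 2) → ℝ) (l : ℕ) : Fin n → ℝ :=
  histZ β shift s (noiseZ ω) (finState β shift s k n ω).1 (finState β shift s k n ω).2 l

/-- `f`. -/
noncomputable def fF (β shift s : ℝ) (k n : ℕ) (ω : Fin n → Fin (k + 2) → ℝ) : Fin n → ℝ :=
  prodF β shift s (noiseZ ω)

/-- The observation. -/
noncomputable def yF (β shift s : ℝ) (k n : ℕ) (ω : Fin n → Fin (k + 2) → ℝ) : Fin n → ℝ :=
  histStep β shift (finState β shift s k n ω).1 (finState β shift s k n ω).2 (prodXi β shift (noiseZ ω))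
    (fF β shift s k n ω) (fF β shift s k n ω) (k + 1)

lemma state_congr_rule {x x' : Rule n} (r : Resp n) : ∀ {l : ℕ}, (∀ m < l, x m = x' m) →
    state x r l = state x' r l
  | 0, _ => rfl
  | l + 1, h => by
    simp only [state, state_congr_rule r (fun m hm => h m (hm.trans (Nat.lt_succ_self l))), h l (Nat.lt_succ_self l)]

variable {β shift s : ℝ} {k : ℕ}

lemma finState_lt (ω : Fin n → Fin (k + 2) → ℝ) {m : ℕ} (hm : m < k) :
    (finState β shift s k n ω).1 m = (ampState β shift s (k + 1) n ω).1 m ∧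
      (finState β shift s k n ω).2 m = (ampState β shift s (k + 1) n ω).2 m := by
  have h : state (finRule β shift s k (noiseZ ω)) (freshResp (noiseEta ω)) (m + 1) =
      state (ampRule β shift s (noiseZ ω)) (freshResp (noiseEta ω)) (m + 1) :=
    state_congr_rule _ fun j hj => by
      funext e G; simp [finRule, show j ≠ k by omega]
  unfold finState ampState
  rw [(state_stable _ _ (show m < k + 1 by omega)).1, (state_stable _ _ (show m < k + 1 by omega)).2,
    (state_stable (ampRule β shift s (noiseZ ω)) _ (show m < k + 1 by omega)).1,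
    (state_stable (ampRule β shift s (noiseZ ω)) _ (show m < k + 1 by omega)).2, h]
  exact ⟨rfl, rfl⟩

lemma finState_last (ω : Fin n → Fin (k + 2) → ℝ) :
    (finState β shift s k n ω).1 k = gsStep (finState β shift s k n ω).1 k (fF β shift s k n ω) ∧
      (finState β shift s k n ω).2 k =
        freshResp (noiseEta ω) k (finState β shift s k n ω).1 ((finState β shift s k n ω).1 k) := by
  refine ⟨?_, state_image _ _ (Nat.lt_succ_self k)⟩
  have h := state_dir (finRule β shift s k (noiseZ ω)) (freshResp (noiseEta ω)) (K := k + 1) (Nat.lt_succ_self k)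
    (by simp [finRule])
  simpa [finRule, finState, fF] using h

lemma idealZ_zero {K : ℕ} (hc : 4 ≤ shift) (_ : 0 ≤ s) (w : Fin (K + 1) → ℝ) :
    idealZ β shift s 0 w = idealF β shift s w / plantVar β shift := by
  rw [idealZ_eq, show dot (zCoef β shift s K 0) w = Real.sqrt (gamInc β shift s 0) * w 0 by
    rw [dot, Finset.sum_eq_single (0 : Fin (K + 1)) (fun j _ hj => by
        rw [zCoef, if_neg (by intro h; exact hj (Fin.ext (by simpa using h))), zero_mul]) (by simp),
      zCoef_apply (l := 0) 0 (show ((0 : Fin (K + 1)) : ℕ) ≤ 0 by simp)]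
    rfl]
  have hv := plantVar_pos (β := β) hc
  simp only [gamInc, gamSE, idealF]
  rw [Real.sqrt_div' _ hv.le]
  have hk := Real.sq_sqrt hv.le
  have hkne : Real.sqrt (plantVar β shift) ≠ 0 := (Real.sqrt_pos.2 hv).ne'
  field_simp
  linear_combination (-(Real.sqrt s) * w 0) * hk

section lim

variable (hβ0 : 0 < β) (hβ1 : β < 1) (hc : 4 ≤ shift) (hs0 : 0 < s) (hs1 : s < 1) (hk : k ≠ 0)
include hβ0 hβ1 hc hs0 hs1

lemma lim_z {l : ℕ} (hl : l ≤ k) :
    VecLim (k + 1) (fun n ω i => zF β shift s k n ω l i) (idealZ β shift s l) := by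
  obtain ⟨h, -⟩ := seStatement β shift s hβ0 hβ1 hc hs0 hs1 (k + 1) l (Nat.lt_succ_iff.2 hl)
  refine h.congr (fun n _ ω i => ?_) fun w => rfl
  exact congrFun (histZ_congr _ (fun m hm => (finState_lt ω (lt_of_lt_of_le hm hl)).1.symm)
    fun m hm => (finState_lt ω (lt_of_lt_of_le hm hl)).2.symm) i

omit hβ0 hβ1 hc hs0 hs1 in
lemma lim_f : VecLim (k + 1) (fun n ω i => fF β shift s k n ω i) (idealF β shift s) :=
  VecLim.exact' (K := k + 1) (idealF β shift s)

lemma lim_e {m : ℕ} (hm : m < k) :
    VecLim (k + 1) (fun n ω i => Real.sqrt n * (finState β shift s k n ω).1 m i) (idealE β shift s m) ∧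
      VecLim (k + 1) (fun n ω i => (finState β shift s k n ω).2 m i) (idealG β shift s m) := by
  obtain ⟨-, -, h1, h2⟩ := seStatement β shift s hβ0 hβ1 hc hs0 hs1 (k + 1) m (by omega)
  exact ⟨h1.congr (fun n _ ω i => by rw [(finState_lt ω hm).1]) fun w => rfl,
    h2.congr (fun n _ ω i => by rw [(finState_lt ω hm).2]) fun w => rfl⟩

omit hβ0 hβ1 hc hs0 hs1 in
/-- `(1/√n) ⟨v, e⟩` along a frame vector. -/
lemma tendP_coef {m : ℕ} {X : ∀ n, (Fin n → Fin (k + 2) → ℝ) → Fin n → ℝ} {φ ψ : (Fin (k + 2) → ℝ) → ℝ}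
    (hX : VecLim (k + 1) X φ)
    (hE : VecLim (k + 1) (fun n ω i => Real.sqrt n * (finState β shift s k n ω).1 m i) ψ)
    (hφ : Nice φ) (hψ : Nice ψ) :
    TendP (k + 1) (fun n ω => dot (X n ω) ((finState β shift s k n ω).1 m) / Real.sqrt n)
      (∫ w, φ w * ψ w ∂gauss (Fin (k + 2))) :=
  (hX.dot hE hφ hψ).congr fun n hn ω => by
    have hn' : (0:ℝ) < n := Nat.cast_pos.2 hn
    simp only [dot, mul_left_comm (X n ω _) (Real.sqrt n), ← Finset.mul_sum]
    rw [eq_div_iff (Real.sqrt_pos.2 hn').ne', div_mul_eq_mul_div, div_eq_iff hn'.ne',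
      mul_comm, ← mul_assoc, Real.mul_self_sqrt hn'.le, mul_comm]

/-- The coefficient of `f` along the first direction. -/
lemma int_F_E (m : ℕ) (hm : m ≤ k) :
    ∫ w : Fin (k + 2) → ℝ, idealF β shift s w * idealE β shift s m w ∂gauss (Fin (k + 2)) =
      if m = 0 then s * (1 + plantVar β shift) / Real.sqrt (dirVar (k + 1) β shift s 0) else 0 := by
  obtain ⟨hb, hs⟩ := mem_ranges hβ0 hβ1 hs0 hs1
  have e : ∀ w : Fin (k + 2) → ℝ, idealF β shift s w * idealE β shift s m w =
      (Real.sqrt (dirVar (k + 1) β shift s m))⁻¹ * (idealF β shift s w * idealDir β shift s m w) := fun w => by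
    simp only [idealE, dirVar]; ring
  simp only [e]
  rw [integral_const_mul]
  rcases m with _ | m
  · have e' : ∀ w : Fin (k + 2) → ℝ, idealF β shift s w * idealDir β shift s 0 w =
        idealF β shift s w ^ 2 + (1 - s) * (idealF β shift s w * Real.tanh (idealZ β shift s 0 w)) := fun w => by
      simp only [idealDir, idealF]; ring
    simp only [e']
    rw [integral_add (by simpa only [sq] using (nice_idealF.mul nice_idealF).integrable)
        ((nice_idealF.mul (nice_tanhZ 0)).const_mul _).integrable, integral_const_mul, int_idealF_sq hb hc hs,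
      int_idealF_mul_tanh hb hc hs (Nat.zero_le _), if_true]
    ring
  · simp only [idealDir, mul_sub]
    rw [integral_sub (nice_idealF.mul (nice_tanhZ _)).integrable (nice_idealF.mul (nice_tanhZ _)).integrable,
      int_idealF_mul_tanh hb hc hs (by omega), int_idealF_mul_tanh hb hc hs (by omega), sub_self, mul_zero,
      if_neg (Nat.succ_ne_zero m)]

include hk

lemma dirVar_zero : dirVar (k + 1) β shift s 0 = (parOf β shift s k).n0 := by
  obtain ⟨hb, hs⟩ := mem_ranges hβ0 hβ1 hs0 hs1
  have h := dirVar_eq (K := k + 1) hb hc hs (Nat.zero_le _)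
  rw [gamInc_eq hβ0 hβ1 hc hs0 hs1 hk (Nat.pos_of_ne_zero hk)] at h
  have hu : (1:ℝ) - s ≠ 0 := by linarith
  simp [up, MinEigAlg.Par.T, MinEigAlg.Par.S, MinEigAlg.Par.L, MinEigAlg.Par.a, MinEigAlg.Par.u, parOf,
    Ne.symm hk] at h
  simp only [MinEigAlg.Par.n0, MinEigAlg.Par.u, parOf]
  field_simp at h
  linear_combination h

/-- The last unit vector of the frame. -/
lemma lim_last (hpn : 0 < (parOf β shift s k).pn) :
    VecLim (k + 1) (fun n ω i => Real.sqrt n * (finState β shift s k n ω).1 k i)
      (fun w => (Real.sqrt (parOf β shift s k).pn)⁻¹ * iB β shift s k k w) := by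
  set c : ℕ → ∀ n, (Fin n → Fin (k + 2) → ℝ) → ℝ := fun m n ω =>
    dot (fF β shift s k n ω) ((finState β shift s k n ω).1 m) / Real.sqrt n
  set r : ∀ n, (Fin n → Fin (k + 2) → ℝ) → Fin n → ℝ := fun n ω i =>
    fF β shift s k n ω i + ∑ m ∈ range k, (-c m n ω) * (Real.sqrt n * (finState β shift s k n ω).1 m i)
  have hC : ∀ m < k, TendP (k + 1) (fun n ω => -c m n ω)
      (-(if m = 0 then s * (1 + plantVar β shift) / Real.sqrt (dirVar (k + 1) β shift s 0) else 0)) := fun m hm => by
    rw [← int_F_E hβ0 hβ1 hc hs0 hs1 m hm.le]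
    simpa using (tendP_coef (lim_f (β := β) (shift := shift) (s := s) (k := k)) (lim_e hβ0 hβ1 hc hs0 hs1 hm).1 nice_idealF (nice_idealE m)).const_mul (-1)
  have hr : VecLim (k + 1) r (iB β shift s k k) := by
    refine ((lim_f (β := β) (shift := shift) (s := s) (k := k)).add (VecLim.sum (range k) fun m hm => (lim_e hβ0 hβ1 hc hs0 hs1 (mem_range.1 hm)).1.smul
      (hC m (mem_range.1 hm)) (nice_idealE m))).congr (fun _ _ _ _ => rfl) fun w => ?_
    rw [Finset.sum_eq_single 0 (fun m _ hm => by simp [hm]) (fun h => absurd (mem_range.2 (Nat.pos_of_ne_zero hk)) h)]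
    have hn := MinEigAlg.n0_pos (P := parOf β shift s k) (qSE_nonneg _) (plantVar_pos hc) hs0 hs1
    have hv : dirVar (k + 1) β shift s 0 = (parOf β shift s k).n0 := dirVar_zero hβ0 hβ1 hc hs0 hs1 hk
    rw [show idealE (K := k + 1) β shift s 0 w =
      idealDir β shift s 0 w / Real.sqrt (dirVar (k + 1) β shift s 0) from rfl, hv]
    simp only [if_pos, iB, iM, idealDir]
    rw [neg_div', div_mul_div_comm, Real.mul_self_sqrt hn.le]
    simp only [MinEigAlg.Par.kap, idealF]
    rw [show (parOf β shift s k).v = plantVar β shift from rfl, show (parOf β shift s k).s = s from rfl,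
      show (parOf β shift s k).u = 1 - s from rfl]
    have hu : (1:ℝ) - s ≠ 0 := by linarith
    field_simp
    ring
  have hN : TendP (k + 1) (fun n ω => (Real.sqrt ((∑ i, r n ω i * r n ω i) / n))⁻¹)
      (Real.sqrt (parOf β shift s k).pn)⁻¹ := by
    have h := hr.dot hr (nice_iB β shift s k k) (nice_iB β shift s k k)
    rw [int_B_B hβ0 hβ1 hc hs0 hs1 hk le_rfl le_rfl, if_pos rfl,
      show MinEigCore.nb (parOf β shift s k) k = (parOf β shift s k).pn from if_pos rfl] at h
    exact h.comp (F := fun x => (Real.sqrt x)⁻¹)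
      (Real.continuous_sqrt.continuousAt.inv₀ (Real.sqrt_pos.2 hpn).ne')
  refine (hr.smul hN (nice_iB β shift s k k)).congr (fun n hn ω i => ?_) fun w => rfl
  rw [(finState_last ω).1]
  have e : ∀ j, r n ω j = (fF β shift s k n ω
      - ∑ m ∈ range k, dot (fF β shift s k n ω) ((finState β shift s k n ω).1 m) • (finState β shift s k n ω).1 m) j := by
    intro j
    simp only [r, c, Pi.sub_apply, Finset.sum_apply, Pi.smul_apply, smul_eq_mul]
    rw [sub_eq_add_neg (fF β shift s k n ω j), ← Finset.sum_neg_distrib]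
    congr 1
    refine Finset.sum_congr rfl fun m _ => ?_
    have : Real.sqrt n ≠ 0 := (Real.sqrt_pos.2 (Nat.cast_pos.2 hn)).ne'
    field_simp
  simp only [gsStep, Pi.smul_apply, smul_eq_mul, e, dot]
  rw [Real.sqrt_div' _ (Nat.cast_nonneg n), inv_div]
  ring

omit hk in
lemma int_co_B {p : ℕ} (hp : p ≤ k) :
    ∫ w : Fin (k + 2) → ℝ, co (p + 1) w * iB β shift s k k w ∂gauss (Fin (k + 2)) = 0 := by
  obtain ⟨hb, hs⟩ := mem_ranges hβ0 hβ1 hs0 hs1
  have hd := int_co_dir (K := k + 1) hb hc hs (p := p) (m := 0) (by omega) (Nat.zero_le _)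
  simp only [Nat.le_zero, Nat.succ_ne_zero, if_false, sub_zero, mul_zero] at hd
  have hf : ∫ w : Fin (k + 2) → ℝ, co (p + 1) w * idealF β shift s w ∂gauss (Fin (k + 2)) = 0 := by
    have e : ∀ w : Fin (k + 1 + 1) → ℝ, co (p + 1) w * idealF β shift s w = s * co (p + 1) w +
        Real.sqrt s * (Real.sqrt (plantVar β shift) * (w ⟨p + 1, by omega⟩ * w 0)) := fun w => by
      rw [co_eq (show p + 1 ≤ k + 1 by omega)]; simp only [idealF]; ring
    simp only [e]
    rw [integral_add ((nice_co _).const_mul s).integrable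
        ((((Nice.coord _).mul (Nice.coord 0)).const_mul _).const_mul _).integrable,
      integral_const_mul, integral_const_mul, integral_const_mul, int_co, int_coord_mul,
      if_neg (by simp [Fin.ext_iff])]
    simp
  have e : ∀ w : Fin (k + 1 + 1) → ℝ, co (p + 1) w * iB β shift s k k w = co (p + 1) w * idealF β shift s w
      + (-(parOf β shift s k).kap / (1 - s)) * (co (p + 1) w * idealDir β shift s 0 w) := fun w => by
    simp only [iB, if_pos, iM, idealDir, idealF]
    have hu : (1:ℝ) - s ≠ 0 := by linarith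
    field_simp
    ring
  simp only [e]
  rw [integral_add ((nice_co _).mul nice_idealF).integrable (((nice_co _).mul (nice_idealDir 0)).const_mul _).integrable,
    hf, integral_const_mul, hd, mul_zero, add_zero]

/-- The image of the last direction is fresh. -/
lemma lim_image (hpn : 0 < (parOf β shift s k).pn) :
    VecLim (k + 1) (fun n ω i => (finState β shift s k n ω).2 k i) (co (k + 1)) := by
  obtain ⟨hb, hs⟩ := mem_ranges hβ0 hβ1 hs0 hs1
  have hE := lim_last hβ0 hβ1 hc hs0 hs1 hk hpn
  have nP : Nice fun w => (Real.sqrt (parOf β shift s k).pn)⁻¹ * iB β shift s k k w := (nice_iB β shift s k k).const_mul _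
  set e : ∀ n, (Fin n → Fin (k + 2) → ℝ) → ℕ → Fin n → ℝ := fun n ω => (finState β shift s k n ω).1
  set η : ∀ n, (Fin n → Fin (k + 2) → ℝ) → ℕ → Fin n → ℝ := fun n ω => noiseEta ω
  have hη : ∀ m, VecLim (k + 1) (fun n ω i => η n ω m i) (co (m + 1)) := fun m => VecLim.exact' (K := k + 1) (co (m + 1))
  have hee : TendP (k + 1) (fun n ω => dot (e n ω k) (e n ω k)) 1 := by
    have h := hE.dot hE nP nP
    have e1 : ∀ w, (Real.sqrt (parOf β shift s k).pn)⁻¹ * iB β shift s k k w *
        ((Real.sqrt (parOf β shift s k).pn)⁻¹ * iB β shift s k k w) =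
        (Real.sqrt (parOf β shift s k).pn * Real.sqrt (parOf β shift s k).pn)⁻¹ *
          (iB β shift s k k w * iB β shift s k k w) := fun w => by rw [mul_inv]; ring
    simp only [e1] at h
    rw [integral_const_mul, int_B_B hβ0 hβ1 hc hs0 hs1 hk le_rfl le_rfl, if_pos rfl,
      show MinEigCore.nb (parOf β shift s k) k = (parOf β shift s k).pn from if_pos rfl,
      Real.mul_self_sqrt hpn.le, inv_mul_cancel₀ hpn.ne'] at h
    refine h.congr fun n hn ω => ?_
    simp only [dot, e, Finset.sum_div]
    refine Finset.sum_congr rfl fun i _ => ?_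
    have hn' : (0:ℝ) < n := Nat.cast_pos.2 hn
    rw [div_eq_iff hn'.ne']
    linear_combination ((finState β shift s k n ω).1 k i * (finState β shift s k n ω).1 k i) * Real.mul_self_sqrt hn'.le
  have hEm : ∀ m, m < k → ∫ w : Fin (k + 2) → ℝ, co (k + 1) w * idealE β shift s m w ∂gauss (Fin (k + 2)) = 0 := by
    intro m hm
    have h := int_co_dir (K := k + 1) hb hc hs (p := k) (m := m) le_rfl (by omega)
    rw [if_neg (by omega), if_neg (by omega), sub_zero, mul_zero] at h
    have e1 : ∀ w : Fin (k + 2) → ℝ, co (k + 1) w * idealE β shift s m w =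
        (Real.sqrt (dirVar (k + 1) β shift s m))⁻¹ * (co (k + 1) w * idealDir β shift s m w) := fun w => by
      simp only [idealE, dirVar]; ring
    simp only [e1]; rw [integral_const_mul, h, mul_zero]
  have hBp : ∀ p, p ≤ k → ∫ w : Fin (k + 2) → ℝ, co (p + 1) w *
      ((Real.sqrt (parOf β shift s k).pn)⁻¹ * iB β shift s k k w) ∂gauss (Fin (k + 2)) = 0 := fun p hp => by
    simp only [mul_left_comm (co (p + 1) _)]
    rw [integral_const_mul, int_co_B hβ0 hβ1 hc hs0 hs1 hp, mul_zero]
  have small : ∀ {c : ∀ n, (Fin n → Fin (k + 2) → ℝ) → ℝ} {X : ∀ n, (Fin n → Fin (k + 2) → ℝ) → Fin n → ℝ}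
      {φ : (Fin (k + 2) → ℝ) → ℝ}, TendP (k + 1) c 0 → VecLim (k + 1) X φ → Nice φ →
      VecLim (k + 1) (fun n ω i => c n ω * X n ω i) (fun _ => 0) := fun hc hX hφ =>
    (hX.smul hc hφ).congr (fun _ _ _ _ => rfl) fun w => zero_mul _
  have t1 : ∀ m < k, VecLim (k + 1) (fun n ω i =>
      (-(dot (η n ω k) (e n ω m) / Real.sqrt n)) * (Real.sqrt n * e n ω m i)) (fun _ => 0) := fun m hm => by
    refine small ?_ (lim_e hβ0 hβ1 hc hs0 hs1 hm).1 (nice_idealE m)
    have h := (tendP_coef (hη k) (lim_e hβ0 hβ1 hc hs0 hs1 hm).1 (nice_co _) (nice_idealE m)).const_mul (-1)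
    rw [hEm m hm, mul_zero] at h
    simpa using h
  have t2 : VecLim (k + 1) (fun n ω i =>
      ((Real.sqrt 2 - 1) * (dot (η n ω k) (e n ω k) / Real.sqrt n)) * (Real.sqrt n * e n ω k i)) (fun _ => 0) := by
    refine small ?_ hE nP
    have h := (tendP_coef (hη k) hE (nice_co _) nP).const_mul (Real.sqrt 2 - 1)
    rwa [hBp k le_rfl, mul_zero] at h
  have t3 : ∀ m < k, VecLim (k + 1) (fun n ω i =>
      (dot (η n ω m) (e n ω k) / Real.sqrt n) * (Real.sqrt n * e n ω m i)) (fun _ => 0) := fun m hm => by
    refine small ?_ (lim_e hβ0 hβ1 hc hs0 hs1 hm).1 (nice_idealE m)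
    have h := tendP_coef (hη m) hE (nice_co _) nP
    rwa [hBp m hm.le] at h
  have n0 : Nice fun _ : Fin (k + 2) → ℝ => (0:ℝ) := Nice.const 0
  have main := ((((hη k).add (VecLim.sum (range k) fun m hm => t1 m (mem_range.1 hm))).smul hee
      ((nice_co _).add (Nice.sum _ fun _ _ => n0))).add t2).add (VecLim.sum (range k) fun m hm => t3 m (mem_range.1 hm))
  refine main.congr (fun n hn ω i => ?_) fun w => by simp
  have : Real.sqrt n ≠ 0 := (Real.sqrt_pos.2 (Nat.cast_pos.2 hn)).ne'
  rw [(finState_last ω).2]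
  simp only [freshResp, Pi.add_apply, Pi.smul_apply, Pi.neg_apply, Finset.sum_apply, smul_eq_mul, e, η,
    sub_eq_add_neg, ← Finset.sum_neg_distrib]
  congr 1
  · congr 1
    · congr 2
      exact Finset.sum_congr rfl fun m _ => by field_simp
    · field_simp
  · exact Finset.sum_congr rfl fun m _ => by field_simp

/-- The limit of the observation. -/
noncomputable def iY (β shift s : ℝ) (k : ℕ) (w : Fin (k + 2) → ℝ) : ℝ :=
  shift * idealF β shift s w + β ^ 2 * s
    + (-(β ^ 2 * (plantVar β shift * Real.sqrt s))) * (Real.sqrt (plantVar β shift) * w 0)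
    + β * (s * (1 + plantVar β shift) / Real.sqrt (parOf β shift s k).n0) * co 1 w
    + β * Real.sqrt (parOf β shift s k).pn * co (k + 1) w

lemma lim_y (hpn : 0 < (parOf β shift s k).pn) :
    VecLim (k + 1) (fun n ω i => yF β shift s k n ω i) (iY β shift s k) := by
  obtain ⟨hb, hs⟩ := mem_ranges hβ0 hβ1 hs0 hs1
  have hk0 : 0 < k := Nat.pos_of_ne_zero hk
  have hE := lim_last hβ0 hβ1 hc hs0 hs1 hk hpn
  have nP : Nice fun w => (Real.sqrt (parOf β shift s k).pn)⁻¹ * iB β shift s k k w := (nice_iB β shift s k k).const_mul _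
  have hck : TendP (k + 1) (fun n ω => dot (fF β shift s k n ω) ((finState β shift s k n ω).1 k) / Real.sqrt n)
      (Real.sqrt (parOf β shift s k).pn) := by
    have h := tendP_coef (lim_f (β := β) (shift := shift) (s := s) (k := k)) hE nice_idealF nP
    simp only [mul_left_comm (idealF β shift s _)] at h
    rw [integral_const_mul] at h
    simp only [mul_comm (idealF β shift s _)] at h
    rw [int_B_f hβ0 hβ1 hc hs0 hs1 le_rfl,
      show (parOf β shift s k).u * (parOf β shift s k).L k = (parOf β shift s k).pn by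
        simp only [MinEigAlg.Par.L, show (parOf β shift s k).k = k from rfl, if_pos]
        rw [mul_div_cancel₀]
        show (1:ℝ) - s ≠ 0
        linarith] at h
    rwa [inv_mul_eq_div, Real.div_sqrt] at h
  have nv : Nice fun w : Fin (k + 1 + 1) → ℝ => Real.sqrt (plantVar β shift) * w 0 := (Nice.coord 0).const_mul _
  have hξ : VecLim (k + 1) (fun n ω i => prodXi β shift (noiseZ ω) i) (fun w => Real.sqrt (plantVar β shift) * w 0) :=
    VecLim.exact' (K := k + 1) fun w => Real.sqrt (plantVar β shift) * w 0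
  have hf0 : ∫ w : Fin (k + 1 + 1) → ℝ, idealF β shift s w ∂gauss (Fin (k + 1 + 1)) = s := by
    have h0 : ∫ w : Fin (k + 1 + 1) → ℝ, w 0 ∂gauss (Fin (k + 1 + 1)) = 0 := by
      simpa [co] using int_co (K := k + 1) 0
    unfold idealF
    rw [integral_add (integrable_const _) ((((Nice.coord 0).const_mul _).const_mul _).integrable),
      integral_const_mul, integral_const_mul, h0]
    simp
  have hmf : TendP (k + 1) (fun n ω => (∑ i, fF β shift s k n ω i) / n) s := by
    simpa [hf0] using (lim_f (β := β) (shift := shift) (s := s) (k := k)).mean (nice_idealF (β := β) (shift := shift) (s := s))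
  have hxf : TendP (k + 1) (fun n ω => dot (prodXi β shift (noiseZ ω)) (fF β shift s k n ω) / n)
      (plantVar β shift * Real.sqrt s) := by
    have h := hξ.dot (lim_f (β := β) (shift := shift) (s := s) (k := k)) nv (nice_idealF (β := β) (shift := shift) (s := s))
    have e : ∀ w : Fin (k + 1 + 1) → ℝ, Real.sqrt (plantVar β shift) * w 0 * idealF β shift s w =
        s * Real.sqrt (plantVar β shift) * w 0 + plantVar β shift * Real.sqrt s * (w 0 * w 0) := fun w => by
      simp only [idealF]
      linear_combination (Real.sqrt s * w 0 * w 0) * Real.mul_self_sqrt (plantVar_pos (β := β) hc).le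
    simp only [e] at h
    rw [integral_add ((Nice.coord 0).const_mul _).integrable (((Nice.coord 0).mul (Nice.coord 0)).const_mul _).integrable,
      integral_const_mul, integral_const_mul, int_coord_mul, if_pos rfl,
      show ∫ w : Fin (k + 1 + 1) → ℝ, w 0 ∂gauss (Fin (k + 1 + 1)) = 0 by simpa [co] using int_co (K := k + 1) 0,
      mul_zero, zero_add, mul_one] at h
    exact h
  have hsum := VecLim.sum (range k) fun m hm => (lim_e hβ0 hβ1 hc hs0 hs1 (mem_range.1 hm)).2.smul
    ((tendP_coef (lim_f (β := β) (shift := shift) (s := s) (k := k)) (lim_e hβ0 hβ1 hc hs0 hs1 (mem_range.1 hm)).1 nice_idealF (nice_idealE m)).const_mul β)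
    (nice_idealG m)
  have main := (((((lim_f (β := β) (shift := shift) (s := s) (k := k)).const_mul nice_idealF shift).add
      (((VecLim.exact' (K := k + 1) fun _ => (1:ℝ)).smul (hmf.const_mul (β ^ 2)) (Nice.const 1)))).add
      (hξ.smul (hxf.const_mul (-(β ^ 2))) nv)).add hsum).add
      ((lim_image hβ0 hβ1 hc hs0 hs1 hk hpn).smul (hck.const_mul β) (nice_co _))
  refine main.congr (fun n hn ω i => ?_) fun w => ?_
  · simp only [yF, histStep, rankTwo, Finset.sum_range_succ, mul_add, Finset.mul_sum]
    have e1 : ∀ m, β * (dot (fF β shift s k n ω) ((finState β shift s k n ω).1 m) / Real.sqrt n) *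
        (finState β shift s k n ω).2 m i = β / Real.sqrt n *
          (dot (fF β shift s k n ω) ((finState β shift s k n ω).1 m) * (finState β shift s k n ω).2 m i) :=
      fun m => by ring
    simp only [e1]
    ring
  · rw [Finset.sum_eq_single 0 (fun m hm hm0 => by
      rw [int_F_E hβ0 hβ1 hc hs0 hs1 m (mem_range.1 hm).le, if_neg hm0, mul_zero, zero_mul])
      (fun h => absurd (mem_range.2 hk0) h), int_F_E hβ0 hβ1 hc hs0 hs1 0 (Nat.zero_le _), if_pos rfl,
      dirVar_zero hβ0 hβ1 hc hs0 hs1 hk,
      show idealG β shift s 0 w = co 1 w by simp [idealG, co]]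
    simp only [iY]
    ring

omit hk in
lemma lim_M {l : ℕ} (hl : l ≤ k + 1) :
    VecLim (k + 1) (fun n ω i => mV s (zF β shift s k n ω) (fF β shift s k n ω) l i) (iM β shift s k l) := by
  rcases l with _ | l
  · exact ((lim_f (β := β) (shift := shift) (s := s) (k := k)).const_mul nice_idealF (-(1 - s)⁻¹)).congr (fun n _ ω i => by simp only [mV]; ring) fun w => rfl
  · exact (lim_z hβ0 hβ1 hc hs0 hs1 (Nat.succ_le_succ_iff.1 hl)).tanh

lemma lim_B {x : ℕ} (hx : x ≤ k) :
    VecLim (k + 1) (fun n ω i => bV (parOf β shift s k) (zF β shift s k n ω) (fF β shift s k n ω) x i)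
      (iB β shift s k x) := by
  have hm := fun l hl => lim_M (k := k) hβ0 hβ1 hc hs0 hs1 (l := l) hl
  have hP : (parOf β shift s k).k = k ∧ (parOf β shift s k).s = s := ⟨rfl, rfl⟩
  rcases eq_or_ne x k with h | h
  · refine ((lim_f (β := β) (shift := shift) (s := s) (k := k)).add (((hm 1 (by omega)).add ((hm 0 (by omega)).const_mul (nice_iM β shift s k 0) (-1))).const_mul
      ((nice_iM β shift s k 1).add ((nice_iM β shift s k 0).const_mul _)) (-(parOf β shift s k).kap))).congr
      (fun n _ ω i => ?_) fun w => by simp only [iB, if_pos h]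
    simp only [bV, hP.1, hP.2, if_pos h, Pi.sub_apply, Pi.smul_apply, smul_eq_mul]; ring
  · refine ((hm (x + 1) (by omega)).add ((hm x (by omega)).const_mul (nice_iM β shift s k x) (-1))).congr
      (fun n _ ω i => ?_) fun w => by simp only [iB, if_neg h]
    simp only [bV, hP.1, hP.2, if_neg h, Pi.sub_apply]; ring

lemma lim_U (hpn : 0 < (parOf β shift s k).pn) {x : ℕ} (hx : x ≤ k) :
    VecLim (k + 1) (fun n ω i => uV (parOf β shift s k) (zF β shift s k n ω) (yF β shift s k n ω) x i)
      (iU β shift s k x) := by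
  obtain ⟨hb, hs⟩ := mem_ranges hβ0 hβ1 hs0 hs1
  have hz := fun l hl => lim_z (l := l) hβ0 hβ1 hc hs0 hs1 (k := k) hl
  have hP : (parOf β shift s k).k = k := rfl
  rcases eq_or_ne x k with h | h
  · have nz : ∀ l, Nice (idealZ (K := k + 1) β shift s l) := nice_idealZ
    have ny : Nice (iY β shift s k) :=
      ((((nice_idealF.const_mul shift).add (Nice.const _)).add (((Nice.coord 0).const_mul _).const_mul _)).add
        ((nice_co _).const_mul _)).add ((nice_co _).const_mul _)
    refine ((((lim_y hβ0 hβ1 hc hs0 hs1 hk hpn).add ((hz 0 (Nat.zero_le _)).const_mul (nz 0) (-1))).add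
      (((hz 1 (Nat.pos_of_ne_zero hk)).add ((hz 0 (Nat.zero_le _)).const_mul (nz 0) (-1))).const_mul
        ((nz 1).add ((nz 0).const_mul _)) (-((parOf β shift s k).kap / (parOf β shift s k).u)))).const_mul
      ((ny.add ((nz 0).const_mul _)).add (((nz 1).add ((nz 0).const_mul _)).const_mul _)) (parOf β shift s k).u).congr
      (fun n _ ω i => ?_) fun w => ?_
    · simp only [uV, hP, if_pos h, Pi.sub_apply, Pi.smul_apply, smul_eq_mul]; ring
    · have hv := inv_plantVar hb hc
      have hv0 := (plantVar_pos (β := β) hc).ne'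
      have hu : (1:ℝ) - s ≠ 0 := by linarith
      have hn := MinEigAlg.n0_pos (P := parOf β shift s k) (qSE_nonneg _) (plantVar_pos hc) hs0 hs1
      have hg := gamInc_eq hβ0 hβ1 hc hs0 hs1 hk (Nat.pos_of_ne_zero hk)
      have hg0 : gamInc β shift s 1 = β ^ 2 * (parOf β shift s k).n0 := by
        have hd := dirVar_eq (K := k + 1) hb hc hs (Nat.zero_le _)
        rw [dirVar_zero hβ0 hβ1 hc hs0 hs1 hk] at hd
        simpa [up] using hd.symm
      have e01 := Z_sub (β := β) (shift := shift) (s := s) (Nat.zero_le k) w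
      simp only [iU, muU, sdU, if_pos h, iY]
      rw [h, show idealZ β shift s 1 w + -1 * idealZ β shift s 0 w =
          idealZ β shift s 1 w - idealZ β shift s 0 w by ring,
        show idealZ β shift s 1 w = idealZ β shift s (0 + 1) w from rfl, e01, zero_add, hg0,
        idealZ_zero hc hs0.le, Real.sqrt_mul (sq_nonneg β), Real.sqrt_sq hβ0.le,
        Real.sqrt_mul (show (0:ℝ) ≤ (parOf β shift s k).a from mul_nonneg (sq_nonneg _) (sq_nonneg _)),
        show Real.sqrt ((parOf β shift s k).a) = β * (1 - s) by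
          rw [show (parOf β shift s k).a = (β * (1 - s)) ^ 2 by
            simp [MinEigAlg.Par.a, MinEigAlg.Par.u, parOf]; ring, Real.sqrt_sq (by nlinarith)]]
      simp only [MinEigAlg.Par.kap]
      rw [show (parOf β shift s k).v = plantVar β shift from rfl, show (parOf β shift s k).s = s from rfl,
        show (parOf β shift s k).u = 1 - s from rfl]
      simp only [idealF]
      set N := (parOf β shift s k).n0
      set V := plantVar β shift
      have hsN := Real.mul_self_sqrt hn.le
      have hsV := Real.mul_self_sqrt (plantVar_pos (β := β) hc).le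
      have hsN0 : Real.sqrt N ≠ 0 := (Real.sqrt_pos.2 hn).ne'
      linear_combination (norm := (field_simp; ring_nf)) (-(1 - s) * (s + Real.sqrt s * (Real.sqrt V * w 0))) * hv
        + (-((1 - s) * β * s * (1 + V) * co 1 w / (N * Real.sqrt N))) * hsN
  · refine ((hz (x + 1) (by omega)).add ((hz x hx).const_mul (nice_idealZ x) (-1))).congr
      (fun n _ ω i => by simp only [uV, hP, if_neg h, Pi.sub_apply]; ring) fun w => ?_
    simp only [iU, muU, sdU, if_neg h]
    linarith [Z_sub (β := β) (shift := shift) (s := s) hx w]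

end lim

end Vale.Agent.P150.High.MinEigLim
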