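import Vale.Agent.P150.High.AmpSE
import Vale.Agent.P150.High.MinEigScalar
import Vale.Agent.P150.High.MinEigCore

/-!
# P150, all `β < 1`: moments of the ideal span and images

On the noise space of dimension `k + 2` the span `iB` and the images `iU` are explicit functions; their
Gram matrices are the limit matrices of `MinEigAlg`.
-/

open MeasureTheory ProbabilityTheory Finset

namespace Vale.Agent.P150.High.MinEigMoments

open Vale.Agent.P150 Vale.Agent.P150.High.Amp MinEigScalar

variable {K : ℕ}

/-- A continuous observable with bounded values has bounded integral. -/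
lemma int_fun {F : ℝ → ℝ} (hF : Continuous F) {β shift s : ℝ} (hβ : |β| ≤ 1) (hc : 4 ≤ shift)
    (hs : s ∈ Set.Icc (0:ℝ) 1) {l : ℕ} (hl : l ≤ K) :
    ∫ w : Fin (K + 1) → ℝ, F (idealZ β shift s l w) ∂gauss (Fin (K + 1)) =
      PA.chanAvg F (gamSE β shift s l) := by
  simp only [idealZ_eq]
  rw [integral_dot (φ := fun x => F (gamSE β shift s l + x)) (by fun_prop), zCoef_sq hβ hc hs hl]
  rfl

section stein

variable {β shift s : ℝ} (l : ℕ) {F F' F'' : ℝ → ℝ}

lemma update_deriv (i : Fin (K + 1)) (hF : ∀ x, HasDerivAt F (F' x) x) (w : Fin (K + 1) → ℝ) (t : ℝ) :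
    HasDerivAt (fun r => F (idealZ β shift s l (Function.update w i r)))
      (zCoef β shift s K l i * F' (idealZ β shift s l (Function.update w i t))) t := by
  have h1 : HasDerivAt (fun r => idealZ β shift s l (Function.update w i r)) (zCoef β shift s K l i) t := by
    simp only [idealZ_eq, dot]
    have hu' := hasDerivAt_pi.1 (hasDerivAt_update w i t)
    refine ((HasDerivAt.fun_sum fun j _ => (hu' j).const_mul (zCoef β shift s K l j)).const_add _).congr_deriv ?_
    simp [Pi.single_apply]
  exact ((hF _).comp t h1).congr_deriv (mul_comm _ _)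

/-- Stein, one coordinate. -/
lemma int_coord_F (i : Fin (K + 1)) (hF : ∀ x, HasDerivAt F (F' x) x) (hF' : Continuous F') {C : ℝ}
    (hb : ∀ x, |F x| ≤ C) (hb' : ∀ x, |F' x| ≤ C) :
    ∫ w : Fin (K + 1) → ℝ, w i * F (idealZ β shift s l w) ∂gauss (Fin (K + 1)) =
      zCoef β shift s K l i * ∫ w : Fin (K + 1) → ℝ, F' (idealZ β shift s l w) ∂gauss (Fin (K + 1)) := by
  have hFc : Continuous F := continuous_iff_continuousAt.2 fun x => (hF x).continuousAt
  have hz := (nice_idealZ (K := K) (β := β) (shift := shift) (s := s) l).1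
  have hC : 0 ≤ C := (abs_nonneg _).trans (hb 0)
  rw [gauss_ibp i (C := C * (1 + |zCoef β shift s K l i|)) (M := 0)
    (φ := fun w => F (idealZ β shift s l w))
    (φ' := fun w => zCoef β shift s K l i * F' (idealZ β shift s l w)) le_rfl (hFc.comp hz)
    (continuous_const.mul (hF'.comp hz))
    (fun w => by
      rw [zero_mul, Real.exp_zero, mul_one]
      exact (hb _).trans (le_mul_of_one_le_right hC (by linarith [abs_nonneg (zCoef β shift s K l i)])))
    (fun w => by
      rw [zero_mul, Real.exp_zero, mul_one, abs_mul, mul_comm C]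
      exact mul_le_mul (by linarith) (hb' _) (abs_nonneg _) (by positivity))
    (update_deriv l i hF), integral_const_mul]

/-- Stein, two coordinates. -/
lemma int_coord_coord_F (i j : Fin (K + 1)) (hF : ∀ x, HasDerivAt F (F' x) x)
    (hF1 : ∀ x, HasDerivAt F' (F'' x) x) (hF'' : Continuous F'') {C : ℝ}
    (hb : ∀ x, |F x| ≤ C) (hb' : ∀ x, |F' x| ≤ C) (hb'' : ∀ x, |F'' x| ≤ C) :
    ∫ w : Fin (K + 1) → ℝ, w i * (w j * F (idealZ β shift s l w)) ∂gauss (Fin (K + 1)) =
      (if i = j then 1 else 0) * ∫ w : Fin (K + 1) → ℝ, F (idealZ β shift s l w) ∂gauss (Fin (K + 1))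
        + zCoef β shift s K l i * (zCoef β shift s K l j *
          ∫ w : Fin (K + 1) → ℝ, F'' (idealZ β shift s l w) ∂gauss (Fin (K + 1))) := by
  have hFc : Continuous F := continuous_iff_continuousAt.2 fun x => (hF x).continuousAt
  have hF'c : Continuous F' := continuous_iff_continuousAt.2 fun x => (hF1 x).continuousAt
  have hz := (nice_idealZ (K := K) (β := β) (shift := shift) (s := s) l).1
  have hC : 0 ≤ C := (abs_nonneg _).trans (hb 0)
  set c := zCoef β shift s K l i
  set δ : ℝ := if i = j then 1 else 0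
  have hδ : |δ| ≤ 1 := by simp only [δ]; split_ifs <;> simp
  have hl1 : ∀ w : Fin (K + 1) → ℝ, |w j| ≤ Real.exp (1 * l1 w) := fun w => by
    rw [one_mul]; linarith [abs_le_l1 w j, Real.add_one_le_exp (l1 w)]
  have h1 : ∀ w : Fin (K + 1) → ℝ, 1 ≤ Real.exp (1 * l1 w) := fun w =>
    Real.one_le_exp (by rw [one_mul]; exact l1_nonneg w)
  rw [gauss_ibp i (C := C * (1 + |c|)) (M := 1) (φ := fun w => w j * F (idealZ β shift s l w))
    (φ' := fun w => δ * F (idealZ β shift s l w) + w j * (c * F' (idealZ β shift s l w))) zero_le_one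
    ((continuous_apply j).mul (hFc.comp hz))
    ((continuous_const.mul (hFc.comp hz)).add ((continuous_apply j).mul (continuous_const.mul (hF'c.comp hz))))
    (fun w => by
      rw [abs_mul, mul_comm _ (Real.exp _)]
      exact mul_le_mul (hl1 w) ((hb _).trans (le_mul_of_one_le_right hC (by linarith [abs_nonneg c])))
        (abs_nonneg _) (Real.exp_pos _).le)
    (fun w => by
      refine (abs_add_le _ _).trans ?_
      rw [abs_mul, abs_mul, abs_mul, mul_add C 1, mul_one, add_mul]
      refine add_le_add ?_ ?_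
      · exact ((mul_le_of_le_one_left (abs_nonneg _) hδ).trans (hb _)).trans (le_mul_of_one_le_right hC (h1 w))
      · rw [mul_comm _ (Real.exp _), mul_comm C]
        exact mul_le_mul (hl1 w) (mul_le_mul_of_nonneg_left (hb' _) (abs_nonneg c)) (by positivity) (Real.exp_pos _).le)
    (fun w t => by
      have e : HasDerivAt (fun r => Function.update w i r j) δ t := by
        refine ((hasDerivAt_pi.1 (hasDerivAt_update w i t)) j).congr_deriv ?_
        rcases eq_or_ne i j with hij | hij
        · simp [δ, hij]
        · simp [δ, hij, hij.symm]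
      exact (e.mul (update_deriv l i hF w t)).congr_deriv rfl)]
  have iF : Integrable (fun w => F (idealZ β shift s l w)) (gauss (Fin (K + 1))) :=
    ((nice_idealZ l).comp hFc hb).integrable
  have iF' : Integrable (fun w => w j * (c * F' (idealZ β shift s l w))) (gauss (Fin (K + 1))) :=
    ((Nice.coord j).mul (((nice_idealZ l).comp hF'c hb').const_mul c)).integrable
  rw [integral_add (iF.const_mul δ) iF', integral_const_mul]
  congr 1
  rw [show (fun w : Fin (K + 1) → ℝ => w j * (c * F' (idealZ β shift s l w))) =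
    fun w => c * (w j * F' (idealZ β shift s l w)) from funext fun w => mul_left_comm _ _ _,
    integral_const_mul, int_coord_F l j hF1 hF'' hb' hb'']

end stein

lemma hasDerivAt_dFun (x : ℝ) : HasDerivAt dFun (-2 * (Real.tanh x * dFun x)) x :=
  (((Ising.hasDerivAt_tanh' x).pow 2).const_sub 1).congr_deriv (by simp [dFun]; ring)

lemma hasDerivAt_dFun' (x : ℝ) :
    HasDerivAt (fun x => -2 * (Real.tanh x * dFun x))
      (-2 * dFun x ^ 2 + 4 * (Real.tanh x ^ 2 * dFun x)) x :=
  (((Ising.hasDerivAt_tanh' x).mul (hasDerivAt_dFun x)).const_mul (-2)).congr_deriv (by simp [dFun]; ring)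

lemma hasDerivAt_tD (x : ℝ) :
    HasDerivAt (fun x => Real.tanh x * dFun x) (dFun x ^ 2 - 2 * (Real.tanh x ^ 2 * dFun x)) x :=
  ((Ising.hasDerivAt_tanh' x).mul (hasDerivAt_dFun x)).congr_deriv (by simp [dFun]; ring)

section span

variable (β shift s : ℝ) (k : ℕ)

/-- The ideal `-f/u, tanh Z 0, tanh Z 1, …`. -/
noncomputable def iM : ℕ → (Fin (k + 2) → ℝ) → ℝ
  | 0, w => (-(1 - s)⁻¹) * idealF β shift s w
  | l + 1, w => Real.tanh (idealZ β shift s l w)

/-- The ideal span. -/
noncomputable def iB (x : ℕ) (w : Fin (k + 2) → ℝ) : ℝ :=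
  if x = k then idealF β shift s w + (-(parOf β shift s k).kap) * (iM β shift s k 1 w + (-1) * iM β shift s k 0 w)
  else iM β shift s k (x + 1) w + (-1) * iM β shift s k x w

/-- The standard deviation of an image. -/
noncomputable def sdU (x : ℕ) : ℝ :=
  if x = k then Real.sqrt ((parOf β shift s k).a * (parOf β shift s k).pn)
  else Real.sqrt (gamInc β shift s (x + 1))

/-- The mean of an image. -/
noncomputable def muU (x : ℕ) : ℝ := if x = k then 0 else gamInc β shift s (x + 1)

/-- The ideal images. -/
noncomputable def iU (x : ℕ) (w : Fin (k + 2) → ℝ) : ℝ := muU β shift s k x + sdU β shift s k x * co (x + 1) w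

lemma nice_iM : ∀ l, Nice (iM β shift s k l)
  | 0 => nice_idealF.const_mul _
  | l + 1 => nice_tanhZ l

lemma nice_iB (x : ℕ) : Nice (iB β shift s k x) := by
  rcases eq_or_ne x k with h | h
  · rw [show iB β shift s k x = fun w => idealF β shift s w +
      (-(parOf β shift s k).kap) * (iM β shift s k 1 w + (-1) * iM β shift s k 0 w) from funext fun w => if_pos h]
    exact nice_idealF.add (((nice_iM β shift s k 1).add ((nice_iM β shift s k 0).const_mul _)).const_mul _)
  · rw [show iB β shift s k x = fun w => iM β shift s k (x + 1) w + (-1) * iM β shift s k x w from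
      funext fun w => if_neg h]
    exact (nice_iM β shift s k _).add ((nice_iM β shift s k _).const_mul _)

lemma nice_iU (x : ℕ) : Nice (iU β shift s k x) := (Nice.const _).add ((nice_co _).const_mul _)

variable {β shift s k}

lemma Z_sub {x : ℕ} (hx : x ≤ k) (w : Fin (k + 2) → ℝ) :
    idealZ β shift s (x + 1) w - idealZ β shift s x w =
      gamInc β shift s (x + 1) + Real.sqrt (gamInc β shift s (x + 1)) * co (x + 1) w := by
  rw [idealZ_eq, idealZ_eq, co_eq (show x + 1 ≤ k + 1 by omega)]
  have : dot (zCoef β shift s (k + 1) (x + 1)) w - dot (zCoef β shift s (k + 1) x) w =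
      Real.sqrt (gamInc β shift s (x + 1)) * w ⟨x + 1, by omega⟩ := by
    simp only [dot, ← Finset.sum_sub_distrib, ← sub_mul]
    rw [Finset.sum_eq_single (⟨x + 1, by omega⟩ : Fin (k + 1 + 1)) (fun j _ hj => ?_) (by simp)]
    · simp [zCoef]
    · have : (j : ℕ) ≠ x + 1 := fun h => hj (Fin.ext h)
      simp only [zCoef]
      split_ifs with a b <;> first | (exfalso; omega) | simp
  simp only [gamInc] at this ⊢
  linarith

variable (hβ0 : 0 < β) (hβ1 : β < 1) (hc : 4 ≤ shift) (hs0 : 0 < s) (hs1 : s < 1) (hk : k ≠ 0)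
include hβ0 hβ1 hc hs0 hs1

omit hc in
lemma mem_ranges : |β| ≤ 1 ∧ s ∈ Set.Icc (0:ℝ) 1 := ⟨(abs_of_pos hβ0).le.trans hβ1.le, hs0.le, hs1.le⟩

include hk

lemma gamInc_eq {x : ℕ} (hx : x < k) :
    gamInc β shift s (x + 1) = (parOf β shift s k).a * (parOf β shift s k).T x := by
  obtain ⟨hb, _⟩ := mem_ranges hβ0 hβ1 hs0 hs1
  have hu : (1:ℝ) - s ≠ 0 := by linarith
  rcases x with _ | x
  · simp only [gamInc, gamSE_one_sub hb hc, MinEigAlg.Par.T, MinEigAlg.Par.S, MinEigAlg.Par.L, MinEigAlg.Par.a,
      MinEigAlg.Par.u, parOf, if_neg (Ne.symm hk), if_pos]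
    field_simp
    ring
  · simp [gamInc, gamSE_succ_sub, MinEigAlg.Par.T, MinEigAlg.Par.S, MinEigAlg.Par.L, MinEigAlg.Par.a,
      MinEigAlg.Par.u, parOf, hx.ne]

lemma muU_eq {x : ℕ} (hx : x ≤ k) : muU β shift s k x = (parOf β shift s k).a * (parOf β shift s k).T x := by
  rcases hx.eq_or_lt with rfl | h
  · rw [muU, if_pos rfl, show (parOf β shift s x).T x = 0 from
      MinEigAlg.T_last (P := parOf β shift s x) (qSE_nonneg _) (plantVar_pos hc) hs0 hs1, mul_zero]
  · rw [muU, if_neg h.ne, gamInc_eq hβ0 hβ1 hc hs0 hs1 hk h]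

omit hk in
lemma int_B_f {x : ℕ} (hx : x ≤ k) :
    ∫ w : Fin (k + 2) → ℝ, iB β shift s k x w * idealF β shift s w ∂gauss (Fin (k + 2)) =
      (parOf β shift s k).u * (parOf β shift s k).L x := by
  obtain ⟨hb, hs⟩ := mem_ranges hβ0 hβ1 hs0 hs1
  have hu : (1:ℝ) - s ≠ 0 := by linarith
  have m : ∀ l, l ≤ k + 1 → ∫ w : Fin (k + 2) → ℝ, iM β shift s k l w * idealF β shift s w ∂gauss (Fin (k + 2)) =
      if l = 0 then -((s ^ 2 + s * plantVar β shift) / (1 - s)) else s := by
    intro l hl
    rcases l with _ | l
    · simp only [iM, if_pos, mul_assoc, ← sq]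
      rw [integral_const_mul, int_idealF_sq hb hc hs]; ring
    · simp only [iM, if_neg (Nat.succ_ne_zero l), mul_comm (Real.tanh _)]
      exact int_idealF_mul_tanh hb hc hs (by omega)
  have i : ∀ l, Integrable (fun w => iM β shift s k l w * idealF β shift s w) (gauss (Fin (k + 2))) := fun l =>
    ((nice_iM β shift s k l).mul nice_idealF).integrable
  rcases eq_or_ne x k with h | h
  · simp only [iB, if_pos h, add_mul, mul_assoc, mul_add]
    rw [integral_add (nice_idealF.mul nice_idealF).integrable
      (((i 1).const_mul _).fun_add (((i 0).const_mul _).const_mul _)),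
      integral_add ((i 1).const_mul _) (((i 0).const_mul _).const_mul _), integral_const_mul, integral_const_mul,
      integral_const_mul, m 1 (by omega), m 0 (by omega)]
    simp only [← sq]
    rw [int_idealF_sq hb hc hs]
    have hkk : x = (parOf β shift s k).k := h
    simp only [MinEigAlg.Par.L, MinEigAlg.Par.pn, if_pos hkk, if_neg one_ne_zero, if_pos]
    simp only [MinEigAlg.Par.u, parOf]
    field_simp
    ring
  · simp only [iB, if_neg h, add_mul, mul_assoc]
    rw [integral_add (i _) ((i _).const_mul _), integral_const_mul, m _ (by omega), m _ (by omega),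
      if_neg (Nat.succ_ne_zero x)]
    simp only [MinEigAlg.Par.L, MinEigAlg.Par.u, parOf]
    split_ifs
    · field_simp; ring
    · ring

lemma int_B_M {x i : ℕ} (hx : x ≤ k) (hi : i ≤ k + 1) :
    ∫ w : Fin (k + 2) → ℝ, iB β shift s k x w * iM β shift s k i w ∂gauss (Fin (k + 2)) =
      (parOf β shift s k).A x i := by
  obtain ⟨hb, hs⟩ := mem_ranges hβ0 hβ1 hs0 hs1
  have hu : (1:ℝ) - s ≠ 0 := by linarith
  rcases i with _ | i
  · simp only [iM, mul_left_comm (iB β shift s k x _)]
    rw [integral_const_mul, int_B_f hβ0 hβ1 hc hs0 hs1 hx, MinEigAlg.Par.A, if_pos rfl,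
      show (parOf β shift s k).u = 1 - s from rfl]
    field_simp
  · have m : ∀ l, l ≤ k + 1 → ∫ w : Fin (k + 2) → ℝ, iM β shift s k l w * iM β shift s k (i + 1) w
        ∂gauss (Fin (k + 2)) = if l = 0 then -(s / (1 - s)) else qSE (gamSE β shift s (min (l - 1) i)) := by
      intro l hl
      rcases l with _ | l
      · simp only [iM, if_pos, mul_assoc]
        rw [integral_const_mul, int_idealF_mul_tanh hb hc hs (by omega)]; ring
      · simp only [iM, if_neg (Nat.succ_ne_zero l), Nat.add_sub_cancel]
        rcases le_total l i with h | h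
        · rw [min_eq_left h]; exact int_tanh_mul hb hc hs h (by omega)
        · rw [min_eq_right h]; simp only [mul_comm (Real.tanh (idealZ β shift s l _))]
          exact int_tanh_mul hb hc hs h (by omega)
    have j : ∀ l, Integrable (fun w => iM β shift s k l w * iM β shift s k (i + 1) w) (gauss (Fin (k + 2))) :=
      fun l => ((nice_iM β shift s k l).mul (nice_iM β shift s k _)).integrable
    rcases eq_or_ne x k with h | h
    · simp only [iB, if_pos h, add_mul, mul_assoc, mul_add]
      rw [integral_add (nice_idealF.mul (nice_iM β shift s k _)).integrable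
        (((j 1).const_mul _).fun_add (((j 0).const_mul _).const_mul _)),
        integral_add ((j 1).const_mul _) (((j 0).const_mul _).const_mul _), integral_const_mul, integral_const_mul,
        integral_const_mul, m 1 (by omega), m 0 (by omega)]
      simp only [iM]
      rw [int_idealF_mul_tanh hb hc hs (by omega)]
      simp [MinEigAlg.Par.A, MinEigAlg.Par.S, parOf, MinEigAlg.Par.u, h]
      ring
    · simp only [iB, if_neg h, add_mul, mul_assoc]
      rw [integral_add (j _) ((j _).const_mul _), integral_const_mul, m _ (by omega), m _ (by omega),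
        if_neg (Nat.succ_ne_zero x), Nat.add_sub_cancel]
      rcases x with _ | x
      · simp [MinEigAlg.Par.A, MinEigAlg.Par.S, parOf, MinEigAlg.Par.u, h]
      · rcases Nat.lt_or_ge i (x + 1) with hlt | hge
        · simp [MinEigAlg.Par.A, parOf, h, min_eq_right (show i ≤ x by omega), min_eq_right hlt.le,
            (show ¬ x + 1 < i + 1 by omega)]
        · simp [MinEigAlg.Par.A, MinEigAlg.Par.S, parOf, h, min_eq_left (show x ≤ i by omega), min_eq_left hge,
            (show x + 1 < i + 1 by omega)]
          ring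

lemma int_B_B {x y : ℕ} (hx : x ≤ k) (hy : y ≤ k) :
    ∫ w : Fin (k + 2) → ℝ, iB β shift s k x w * iB β shift s k y w ∂gauss (Fin (k + 2)) =
      if x = y then MinEigCore.nb (parOf β shift s k) x else 0 := by
  have hu : (1:ℝ) - s ≠ 0 := by linarith
  have hn := (MinEigAlg.n0_pos (P := parOf β shift s k) (qSE_nonneg _) (plantVar_pos hc) hs0 hs1).ne'
  have hT := MinEigAlg.T_last (P := parOf β shift s k) (qSE_nonneg _) (plantVar_pos hc) hs0 hs1
  have i : ∀ l, Integrable (fun w => iB β shift s k x w * iM β shift s k l w) (gauss (Fin (k + 2))) :=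
    fun l => ((nice_iB β shift s k x).mul (nice_iM β shift s k l)).integrable
  rcases eq_or_ne y k with hyk | hyk
  · have e : ∀ w, iB β shift s k x w * iB β shift s k y w = iB β shift s k x w * idealF β shift s w +
        ((-(parOf β shift s k).kap) * (iB β shift s k x w * iM β shift s k 1 w) +
          (parOf β shift s k).kap * (iB β shift s k x w * iM β shift s k 0 w)) := fun w => by
      rw [show iB β shift s k y w = idealF β shift s w + (-(parOf β shift s k).kap) *
        (iM β shift s k 1 w + (-1) * iM β shift s k 0 w) from if_pos hyk]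
      ring
    simp only [e]
    rw [integral_add ((nice_iB β shift s k x).mul nice_idealF).integrable
        (((i 1).const_mul _).fun_add ((i 0).const_mul _)), integral_add ((i 1).const_mul _) ((i 0).const_mul _),
      integral_const_mul, integral_const_mul, int_B_f hβ0 hβ1 hc hs0 hs1 hx,
      int_B_M hβ0 hβ1 hc hs0 hs1 hk hx (by omega), int_B_M hβ0 hβ1 hc hs0 hs1 hk hx (by omega)]
    subst hyk
    rcases eq_or_ne x y with rfl | hxk
    · simp only [MinEigCore.nb, MinEigAlg.Par.A, parOf] at *
      simp only [MinEigAlg.Par.T] at hT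
      simp [MinEigAlg.Par.L, MinEigAlg.Par.u] at hT ⊢
      field_simp at hT ⊢
      linear_combination (-(MinEigAlg.Par.kap _)) * hT
    · rcases x with _ | x
      · simp [MinEigAlg.Par.A, MinEigAlg.Par.L, MinEigAlg.Par.S, MinEigAlg.Par.kap, MinEigAlg.Par.u, parOf,
          hxk] at hn ⊢
        field_simp
        simp only [MinEigAlg.Par.n0, MinEigAlg.Par.u]
        ring
      · simp [MinEigAlg.Par.A, MinEigAlg.Par.L, parOf, hxk]
  · have e : ∀ w, iB β shift s k x w * iB β shift s k y w =
        iB β shift s k x w * iM β shift s k (y + 1) w + (-1) * (iB β shift s k x w * iM β shift s k y w) :=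
      fun w => by rw [show iB β shift s k y w = _ from if_neg hyk]; ring
    simp only [e]
    rw [integral_add (i _) ((i _).const_mul _), integral_const_mul,
      int_B_M hβ0 hβ1 hc hs0 hs1 hk hx (by omega), int_B_M hβ0 hβ1 hc hs0 hs1 hk hx (by omega)]
    have hsp : (parOf β shift s k).S k = -(parOf β shift s k).L k := by
      simp only [MinEigAlg.Par.T] at hT
      have : (parOf β shift s k).k = k := rfl
      rw [this] at hT; linarith
    rcases y with _ | y
    · rcases eq_or_ne x 0 with rfl | hx0
      · simp [MinEigCore.nb, MinEigAlg.Par.A, MinEigAlg.Par.T, parOf, hyk]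
      · rcases eq_or_ne x k with rfl | hxk
        · simp [MinEigAlg.Par.A, hx0]
          simp [parOf] at hsp ⊢
          linarith
        · simp [MinEigAlg.Par.A, MinEigAlg.Par.L, parOf, hx0, hxk]
    · rcases eq_or_ne x k with rfl | hxk
      · simp [MinEigAlg.Par.A, parOf, (show x ≠ y + 1 from Ne.symm hyk)]
      · rcases lt_trichotomy x (y + 1) with h | h | h
        · simp [MinEigAlg.Par.A, parOf, h.ne, h, (show x < y + 1 + 1 by omega)]
        · subst h
          simp [MinEigCore.nb, MinEigAlg.Par.A, MinEigAlg.Par.T, MinEigAlg.Par.L, parOf, hxk]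
        · simp [MinEigAlg.Par.A, parOf, h.ne', hxk, (show ¬ x < y + 1 + 1 by omega), (show ¬ x < y + 1 by omega)]

omit hk in
lemma int_B {x : ℕ} (hx : x ≤ k) :
    ∫ w : Fin (k + 2) → ℝ, iB β shift s k x w ∂gauss (Fin (k + 2)) = (parOf β shift s k).S x := by
  obtain ⟨hb, hs⟩ := mem_ranges hβ0 hβ1 hs0 hs1
  have hu : (1:ℝ) - s ≠ 0 := by linarith
  have hf : ∫ w : Fin (k + 2) → ℝ, idealF β shift s w ∂gauss (Fin (k + 2)) = s := by
    have h0 : ∫ w : Fin (k + 1 + 1) → ℝ, w 0 ∂gauss (Fin (k + 1 + 1)) = 0 := by
      simpa [co] using int_co (K := k + 1) 0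
    unfold idealF
    rw [integral_add (integrable_const _) ((((Nice.coord 0).const_mul _).const_mul _).integrable),
      integral_const_mul, integral_const_mul, h0]
    simp
  have m : ∀ l, l ≤ k + 1 → ∫ w : Fin (k + 2) → ℝ, iM β shift s k l w ∂gauss (Fin (k + 2)) =
      if l = 0 then -(s / (1 - s)) else qSE (gamSE β shift s (l - 1)) := by
    intro l hl
    rcases l with _ | l
    · simp only [iM, if_pos]; rw [integral_const_mul, hf]; ring
    · simp only [iM, if_neg (Nat.succ_ne_zero l), Nat.add_sub_cancel]
      exact int_tanh hb hc hs (by omega)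
  have i : ∀ l, Integrable (iM β shift s k l) (gauss (Fin (k + 2))) := fun l => (nice_iM β shift s k l).integrable
  rcases eq_or_ne x k with h | h
  · simp only [iB, if_pos h, mul_add]
    rw [integral_add nice_idealF.integrable (((i 1).const_mul _).fun_add (((i 0).const_mul _).const_mul _)),
      integral_add ((i 1).const_mul _) (((i 0).const_mul _).const_mul _), integral_const_mul, integral_const_mul,
      integral_const_mul, hf, m 1 (by omega), m 0 (by omega)]
    simp [MinEigAlg.Par.S, parOf, MinEigAlg.Par.u, h]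
    ring
  · simp only [iB, if_neg h]
    rw [integral_add (i _) ((i _).const_mul _), integral_const_mul, m _ (by omega), m _ (by omega)]
    rcases x with _ | x
    · simp [MinEigAlg.Par.S, parOf, MinEigAlg.Par.u, h]
    · simp [MinEigAlg.Par.S, parOf, h]; ring

lemma int_B_U {x y : ℕ} (hx : x ≤ k) (hy : y ≤ k) :
    ∫ w : Fin (k + 2) → ℝ, iB β shift s k x w * iU β shift s k y w ∂gauss (Fin (k + 2)) =
      (parOf β shift s k).pU x y := by
  obtain ⟨hb, hs⟩ := mem_ranges hβ0 hβ1 hs0 hs1
  have hγ : 0 ≤ gamInc β shift s (y + 1) := gamInc_nonneg hb hc hs _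
  have m : ∀ l, l ≤ k + 1 → ∫ w : Fin (k + 2) → ℝ, iM β shift s k l w * co (y + 1) w ∂gauss (Fin (k + 2)) =
      if l = 0 then 0 else zCoef β shift s (k + 1) (l - 1) ⟨y + 1, by omega⟩ * (1 - qSE (gamSE β shift s (l - 1))) := by
    intro l hl
    simp only [co_eq (show y + 1 ≤ k + 1 by omega)]
    rcases l with _ | l
    · have e : ∀ w : Fin (k + 1 + 1) → ℝ, iM β shift s k 0 w * w ⟨y + 1, by omega⟩ = (-(1 - s)⁻¹) *
          (s * w ⟨y + 1, by omega⟩ + Real.sqrt s * (Real.sqrt (plantVar β shift) * (w 0 * w ⟨y + 1, by omega⟩))) :=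
        fun w => by simp only [iM, idealF]; ring
      simp only [e, if_pos]
      have i1 := ((Nice.coord (⟨y + 1, by omega⟩ : Fin (k + 1 + 1))).const_mul s).integrable
      have i2 := ((((Nice.coord (0 : Fin (k + 1 + 1))).mul (Nice.coord ⟨y + 1, by omega⟩)).const_mul
        (Real.sqrt (plantVar β shift))).const_mul (Real.sqrt s)).integrable
      have h0 : ∫ w : Fin (k + 1 + 1) → ℝ, w ⟨y + 1, by omega⟩ ∂gauss (Fin (k + 1 + 1)) = 0 := by
        have := int_co (K := k + 1) (y + 1)
        simpa [co, show y + 1 < k + 1 + 1 by omega, hy] using this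
      rw [integral_const_mul, integral_add i1 i2, integral_const_mul, integral_const_mul, integral_const_mul, h0,
        int_coord_mul, if_neg (by simp [Fin.ext_iff])]
      simp
    · simp only [iM, if_neg (Nat.succ_ne_zero l), Nat.add_sub_cancel, mul_comm (Real.tanh _)]
      exact int_coord_tanh hb hc hs (by omega) _
  have i : ∀ l, Integrable (fun w => iM β shift s k l w * co (y + 1) w) (gauss (Fin (k + 2))) :=
    fun l => ((nice_iM β shift s k l).mul (nice_co _)).integrable
  have hco : ∫ w : Fin (k + 2) → ℝ, idealF β shift s w * co (y + 1) w ∂gauss (Fin (k + 2)) = 0 := by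
    have h := m 0 (Nat.zero_le _)
    simp only [iM, mul_assoc, integral_const_mul, if_pos] at h
    exact (mul_eq_zero.1 h).resolve_left (by
      simp only [neg_eq_zero, inv_eq_zero]; linarith)
  have key : ∫ w : Fin (k + 2) → ℝ, iB β shift s k x w * co (y + 1) w ∂gauss (Fin (k + 2)) =
      Real.sqrt (gamInc β shift s (y + 1)) *
        (if x = k then 0 else (if y + 1 ≤ x then 1 - qSE (gamSE β shift s x) else 0) -
          (if y + 2 ≤ x then 1 - qSE (gamSE β shift s (x - 1)) else 0)) := by
    rcases eq_or_ne x k with h | h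
    · simp only [iB, if_pos h, add_mul, mul_assoc, mul_add]
      rw [integral_add (nice_idealF.mul (nice_co _)).integrable
        (((i 1).const_mul _).fun_add (((i 0).const_mul _).const_mul _)),
        integral_add ((i 1).const_mul _) (((i 0).const_mul _).const_mul _), integral_const_mul, integral_const_mul,
        integral_const_mul, hco, m 1 (by omega), m 0 (by omega)]
      simp [zCoef]
    · simp only [iB, if_neg h, add_mul, mul_assoc]
      rw [integral_add (i _) ((i _).const_mul _), integral_const_mul, m _ (by omega), m _ (by omega),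
        if_neg (Nat.succ_ne_zero x), Nat.add_sub_cancel]
      rcases x with _ | x
      · simp [zCoef]
      · simp only [if_neg (Nat.succ_ne_zero x), Nat.add_sub_cancel, zCoef]
        split_ifs <;> first | (exfalso; omega) | ring
  have ib : Integrable (iB β shift s k x) (gauss (Fin (k + 2))) := (nice_iB β shift s k x).integrable
  have ibc := ((nice_iB β shift s k x).mul (nice_co (y + 1))).integrable
  simp only [iU, mul_add, mul_left_comm (iB β shift s k x _) (sdU β shift s k y)]
  rw [integral_add (ib.mul_const _) (ibc.const_mul _), integral_mul_const, integral_const_mul,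
    int_B hβ0 hβ1 hc hs0 hs1 hx, key]
  rcases eq_or_ne y k with h | h
  · have h1 : ¬ y + 1 ≤ x := by omega
    have h2 : ¬ y + 2 ≤ x := by omega
    rw [if_neg h1, if_neg h2, sub_zero, muU, if_pos h]
    simp [MinEigAlg.Par.pU, parOf, h]
  · have hy' : y < k := lt_of_le_of_ne hy h
    have hμ := gamInc_eq hβ0 hβ1 hc hs0 hs1 hk hy'
    have hsq := Real.mul_self_sqrt hγ
    simp only [muU, sdU, if_neg h, ← mul_assoc, hsq]
    rw [hμ]
    have hpk : (parOf β shift s k).k = k := rfl
    have hq : ∀ l, (parOf β shift s k).q l = qSE (gamSE β shift s l) := fun _ => rfl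
    simp only [MinEigAlg.Par.pU, hpk, hq, if_neg h]
    rcases eq_or_ne x k with hxk | hxk
    · simp [hxk, mul_comm]
    simp only [if_neg hxk]
    rcases Nat.lt_trichotomy x (y + 1) with hl | hl | hl
    · rw [if_neg (by omega), if_neg (by omega), if_pos (Or.inr (Nat.lt_succ_iff.1 hl))]; ring
    · subst hl
      have hS : (parOf β shift s k).S (y + 1) = qSE (gamSE β shift s (y + 1)) - qSE (gamSE β shift s y) := by
        simp [MinEigAlg.Par.S, parOf, hxk]
      rw [if_pos le_rfl, if_neg (by omega), if_neg (by omega : ¬ (y + 1 = k ∨ y + 1 ≤ y)), if_pos rfl, hS]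
      ring
    · have hS : (parOf β shift s k).S x = qSE (gamSE β shift s x) - qSE (gamSE β shift s (x - 1)) := by
        simp [MinEigAlg.Par.S, parOf, hxk, show x ≠ 0 by omega]
      rw [if_pos hl.le, if_pos (by omega), if_neg (by omega : ¬ (x = k ∨ x ≤ y)), if_neg hl.ne', hS]
      ring

end span

end Vale.Agent.P150.High.MinEigMoments
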