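import Vale.Agent.P150.High.MinEigMoments

/-!
# P150, all `β < 1`: weighted moments of the ideal images

With `D = 1 - tanh² Z k`: the entries `E D U U`, `E U D`, `E U tanh Z D`, and fourth moments.
-/

open MeasureTheory ProbabilityTheory Finset

namespace Vale.Agent.P150.High.MinEigMoments

open Vale.Agent.P150 Vale.Agent.P150.High.Amp MinEigScalar

lemma abs_tanhD (x : ℝ) : |Real.tanh x * dFun x| ≤ 1 := by
  rw [abs_mul]; exact mul_le_one₀ (PA.abs_tanh_le_one' x) (abs_nonneg _) (abs_dFun x)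

variable {β shift s : ℝ} {k : ℕ}
variable (hβ0 : 0 < β) (hβ1 : β < 1) (hc : 4 ≤ shift) (hs0 : 0 < s) (hs1 : s < 1) (hk : k ≠ 0)
include hβ0 hβ1 hc hs0 hs1

lemma int_wD :
    ∫ w : Fin (k + 2) → ℝ, dFun (idealZ β shift s k w) ∂gauss (Fin (k + 2)) = gS (gamSE β shift s k) := by
  obtain ⟨hb, hs⟩ := mem_ranges hβ0 hβ1 hs0 hs1
  exact int_fun continuous_dFun hb hc hs (Nat.le_succ k)

lemma int_wtD :
    ∫ w : Fin (k + 2) → ℝ, Real.tanh (idealZ β shift s k w) * dFun (idealZ β shift s k w) ∂gauss (Fin (k + 2)) =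
      hS (gamSE β shift s k) := by
  obtain ⟨hb, hs⟩ := mem_ranges hβ0 hβ1 hs0 hs1
  rw [int_fun (F := fun x => Real.tanh x * dFun x) (PA.continuous_tanh'.mul continuous_dFun) hb hc hs (Nat.le_succ k),
    tD_eq (gamSE_nonneg hc hs k)]

lemma int_wttD :
    ∫ w : Fin (k + 2) → ℝ, Real.tanh (idealZ β shift s k w) ^ 2 * dFun (idealZ β shift s k w) ∂gauss (Fin (k + 2)) =
      hS (gamSE β shift s k) := by
  obtain ⟨hb, hs⟩ := mem_ranges hβ0 hβ1 hs0 hs1
  exact int_fun continuous_tsqD hb hc hs (Nat.le_succ k)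

lemma int_wDD :
    ∫ w : Fin (k + 2) → ℝ, dFun (idealZ β shift s k w) ^ 2 ∂gauss (Fin (k + 2)) = rS (gamSE β shift s k) := by
  obtain ⟨hb, hs⟩ := mem_ranges hβ0 hβ1 hs0 hs1
  rw [int_fun (F := fun x => dFun x ^ 2) (continuous_dFun.pow 2) hb hc hs (Nat.le_succ k), rS_eq]

omit hβ0 hβ1 hc hs0 hs1 in
lemma sd_mul_zCoef {x : ℕ} (hx : x ≤ k) :
    sdU β shift s k x * zCoef β shift s (k + 1) k ⟨x + 1, by omega⟩ =
      if x = k then 0 else Real.sqrt (gamInc β shift s (x + 1)) * Real.sqrt (gamInc β shift s (x + 1)) := by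
  simp only [zCoef, sdU]
  rcases eq_or_ne x k with h | h
  · simp [h]
  · simp [h, (show x + 1 ≤ k by omega)]

lemma sd_mul_zCoef' {x : ℕ} (hx : x ≤ k) :
    sdU β shift s k x * zCoef β shift s (k + 1) k ⟨x + 1, by omega⟩ = muU β shift s k x := by
  obtain ⟨hb, hs⟩ := mem_ranges hβ0 hβ1 hs0 hs1
  rw [sd_mul_zCoef hx, muU]
  split_ifs
  · rfl
  · exact Real.mul_self_sqrt (gamInc_nonneg hb hc hs _)

/-- `E U F(Z k)` for a smooth bounded observable. -/
lemma int_U_F {x : ℕ} (hx : x ≤ k) {F F' : ℝ → ℝ} (hF : ∀ z, HasDerivAt F (F' z) z) (hF' : Continuous F')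
    {C : ℝ} (hb : ∀ z, |F z| ≤ C) (hb' : ∀ z, |F' z| ≤ C) :
    ∫ w : Fin (k + 2) → ℝ, iU β shift s k x w * F (idealZ β shift s k w) ∂gauss (Fin (k + 2)) =
      muU β shift s k x * ((∫ w : Fin (k + 2) → ℝ, F (idealZ β shift s k w) ∂gauss (Fin (k + 2)))
        + ∫ w : Fin (k + 2) → ℝ, F' (idealZ β shift s k w) ∂gauss (Fin (k + 2))) := by
  have hFc : Continuous F := continuous_iff_continuousAt.2 fun z => (hF z).continuousAt
  have i1 := (((nice_idealZ (K := k + 1) (β := β) (shift := shift) (s := s) k).comp hFc hb).const_mul (muU β shift s k x)).integrable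
  have i2 := (((nice_co (K := k + 1) (x + 1)).mul ((nice_idealZ (β := β) (shift := shift) (s := s) k).comp hFc hb)).const_mul
    (sdU β shift s k x)).integrable
  simp only [iU, add_mul, mul_assoc]
  rw [integral_add i1 i2, integral_const_mul, integral_const_mul]
  simp only [co_eq (show x + 1 ≤ k + 1 by omega)]
  rw [int_coord_F k _ hF hF' hb hb', ← mul_assoc, sd_mul_zCoef' hβ0 hβ1 hc hs0 hs1 hx, mul_add]

/-- `E U U F(Z k)`. -/
lemma int_U_U_F {x y : ℕ} (hx : x ≤ k) (hy : y ≤ k) {F F' F'' : ℝ → ℝ} (hF : ∀ z, HasDerivAt F (F' z) z)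
    (hF1 : ∀ z, HasDerivAt F' (F'' z) z) (hF'' : Continuous F'') {C : ℝ} (hb : ∀ z, |F z| ≤ C)
    (hb' : ∀ z, |F' z| ≤ C) (hb'' : ∀ z, |F'' z| ≤ C) :
    ∫ w : Fin (k + 2) → ℝ, iU β shift s k x w * (iU β shift s k y w * F (idealZ β shift s k w)) ∂gauss (Fin (k + 2)) =
      (if x = y then sdU β shift s k x ^ 2 else 0) *
          (∫ w : Fin (k + 2) → ℝ, F (idealZ β shift s k w) ∂gauss (Fin (k + 2)))
        + muU β shift s k x * muU β shift s k y *
          ((∫ w : Fin (k + 2) → ℝ, F (idealZ β shift s k w) ∂gauss (Fin (k + 2)))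
            + 2 * (∫ w : Fin (k + 2) → ℝ, F' (idealZ β shift s k w) ∂gauss (Fin (k + 2)))
            + ∫ w : Fin (k + 2) → ℝ, F'' (idealZ β shift s k w) ∂gauss (Fin (k + 2))) := by
  have hFc : Continuous F := continuous_iff_continuousAt.2 fun z => (hF z).continuousAt
  have hF'c : Continuous F' := continuous_iff_continuousAt.2 fun z => (hF1 z).continuousAt
  have nF : Nice fun w : Fin (k + 1 + 1) → ℝ => F (idealZ β shift s k w) := (nice_idealZ k).comp hFc hb
  set i : Fin (k + 1 + 1) := ⟨x + 1, by omega⟩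
  set j : Fin (k + 1 + 1) := ⟨y + 1, by omega⟩
  have e : ∀ w : Fin (k + 1 + 1) → ℝ, iU β shift s k x w * (iU β shift s k y w * F (idealZ β shift s k w)) =
      (muU β shift s k x * muU β shift s k y * F (idealZ β shift s k w)
        + muU β shift s k x * sdU β shift s k y * (w j * F (idealZ β shift s k w)))
      + (muU β shift s k y * sdU β shift s k x * (w i * F (idealZ β shift s k w))
        + sdU β shift s k x * sdU β shift s k y * (w i * (w j * F (idealZ β shift s k w)))) := fun w => by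
    simp only [iU, co_eq (show x + 1 ≤ k + 1 by omega), co_eq (show y + 1 ≤ k + 1 by omega)]; ring
  simp only [e]
  have j1 := (nF.const_mul (muU β shift s k x * muU β shift s k y)).integrable
  have j2 := (((Nice.coord j).mul nF).const_mul (muU β shift s k x * sdU β shift s k y)).integrable
  have j3 := (((Nice.coord i).mul nF).const_mul (muU β shift s k y * sdU β shift s k x)).integrable
  have j4 := (((Nice.coord i).mul ((Nice.coord j).mul nF)).const_mul (sdU β shift s k x * sdU β shift s k y)).integrable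
  rw [integral_add (j1.fun_add j2) (j3.fun_add j4), integral_add j1 j2, integral_add j3 j4, integral_const_mul,
    integral_const_mul, integral_const_mul, integral_const_mul, int_coord_F k j hF hF'c hb hb',
    int_coord_F k i hF hF'c hb hb', int_coord_coord_F k i j hF hF1 hF'' hb hb' hb'']
  have hij : (i = j) ↔ x = y := by simp [i, j, Fin.ext_iff]
  have hxi := sd_mul_zCoef' hβ0 hβ1 hc hs0 hs1 hx
  have hyj := sd_mul_zCoef' hβ0 hβ1 hc hs0 hs1 hy
  set IF := ∫ w : Fin (k + 2) → ℝ, F (idealZ β shift s k w) ∂gauss (Fin (k + 2))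
  set IF1 := ∫ w : Fin (k + 2) → ℝ, F' (idealZ β shift s k w) ∂gauss (Fin (k + 2))
  set IF2 := ∫ w : Fin (k + 2) → ℝ, F'' (idealZ β shift s k w) ∂gauss (Fin (k + 2))
  rcases eq_or_ne x y with h | h
  · subst h
    rw [if_pos rfl, if_pos rfl]
    linear_combination (2 * muU β shift s k x * IF1
      + (sdU β shift s k x * zCoef β shift s (k + 1) k i + muU β shift s k x) * IF2) * hxi
  · rw [if_neg h, if_neg fun he => h (hij.1 he)]
    linear_combination (muU β shift s k y * IF1 + sdU β shift s k y * zCoef β shift s (k + 1) k j * IF2) * hxi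
      + (muU β shift s k x * IF1 + muU β shift s k x * IF2) * hyj

include hk

lemma sdU_sq {x : ℕ} (hx : x ≤ k) (hpn : 0 ≤ (parOf β shift s k).pn) :
    sdU β shift s k x ^ 2 = (parOf β shift s k).a * MinEigCore.nb (parOf β shift s k) x := by
  obtain ⟨hb, hs⟩ := mem_ranges hβ0 hβ1 hs0 hs1
  have hpk : (parOf β shift s k).k = k := rfl
  simp only [sdU, MinEigCore.nb, hpk]
  split_ifs with h
  · exact Real.sq_sqrt (mul_nonneg (mul_nonneg (sq_nonneg _) (sq_nonneg _)) hpn)
  · rw [Real.sq_sqrt (gamInc_nonneg hb hc hs _),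
      gamInc_eq hβ0 hβ1 hc hs0 hs1 hk (lt_of_le_of_ne hx h)]

/-- `E D U U`. -/
lemma int_DUU {x y : ℕ} (hx : x ≤ k) (hy : y ≤ k) (hpn : 0 ≤ (parOf β shift s k).pn) :
    ∫ w : Fin (k + 2) → ℝ, iU β shift s k x w * (iU β shift s k y w * dFun (idealZ β shift s k w)) ∂gauss (Fin (k + 2)) =
      (parOf β shift s k).a * gS (gamSE β shift s k) *
          (if x = y then MinEigCore.nb (parOf β shift s k) x else 0)
        + (parOf β shift s k).a ^ 2 * (gS (gamSE β shift s k) - 2 * rS (gamSE β shift s k)) *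
          ((parOf β shift s k).T x * (parOf β shift s k).T y) := by
  obtain ⟨hb, hs⟩ := mem_ranges hβ0 hβ1 hs0 hs1
  have hc2 : Continuous fun z => -2 * dFun z ^ 2 + 4 * (Real.tanh z ^ 2 * dFun z) := by
    have := continuous_dFun; have := PA.continuous_tanh'; fun_prop
  have hd2 : ∀ z, |-2 * dFun z ^ 2 + 4 * (Real.tanh z ^ 2 * dFun z)| ≤ 6 := fun z => by
    have h1 := abs_tsqD z
    have h2 : |dFun z ^ 2| ≤ 1 := by rw [abs_pow]; exact pow_le_one₀ (abs_nonneg _) (abs_dFun z)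
    rw [abs_le] at h1 h2 ⊢; constructor <;> linarith
  rw [int_U_U_F hβ0 hβ1 hc hs0 hs1 hx hy hasDerivAt_dFun hasDerivAt_dFun' hc2 (C := 6)
    (fun z => (abs_dFun z).trans (by norm_num))
    (fun z => by rw [abs_mul, show |(-2:ℝ)| = 2 by norm_num]; linarith [abs_tanhD z]) hd2]
  rw [integral_const_mul (-2 : ℝ)]
  have i1 := ((nice_idealZ (K := k + 1) (β := β) (shift := shift) (s := s) k).comp (F := fun z => dFun z ^ 2) (continuous_dFun.pow 2)
    (C := 1) fun z => by rw [abs_pow]; exact pow_le_one₀ (abs_nonneg _) (abs_dFun z)).integrable.const_mul (-2)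
  have i2 := ((nice_idealZ (K := k + 1) (β := β) (shift := shift) (s := s) k).comp continuous_tsqD abs_tsqD).integrable.const_mul 4
  rw [integral_add i1 i2, integral_const_mul, integral_const_mul, int_wD hβ0 hβ1 hc hs0 hs1,
    int_wtD hβ0 hβ1 hc hs0 hs1, int_wttD hβ0 hβ1 hc hs0 hs1]
  rw [show ∫ w : Fin (k + 1 + 1) → ℝ, dFun (idealZ β shift s k w) ^ 2 ∂gauss (Fin (k + 1 + 1)) = _ from
    int_wDD hβ0 hβ1 hc hs0 hs1]
  rw [muU_eq hβ0 hβ1 hc hs0 hs1 hk hx, muU_eq hβ0 hβ1 hc hs0 hs1 hk hy]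
  have hr : hS (gamSE β shift s k) = gS (gamSE β shift s k) - rS (gamSE β shift s k) := by unfold rS; ring
  rw [hr]
  rcases eq_or_ne x y with h | h
  · rw [if_pos h, if_pos h, sdU_sq hβ0 hβ1 hc hs0 hs1 hk hx hpn]; ring
  · rw [if_neg h, if_neg h]; ring

/-- `E U D tanh`. -/
lemma int_UtD {x : ℕ} (hx : x ≤ k) :
    ∫ w : Fin (k + 2) → ℝ, iU β shift s k x w *
        (Real.tanh (idealZ β shift s k w) * dFun (idealZ β shift s k w)) ∂gauss (Fin (k + 2)) =
      -((parOf β shift s k).a * (gS (gamSE β shift s k) - 2 * rS (gamSE β shift s k)) * (parOf β shift s k).T x) := by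
  obtain ⟨hb, hs⟩ := mem_ranges hβ0 hβ1 hs0 hs1
  have hc1 : Continuous fun z => dFun z ^ 2 - 2 * (Real.tanh z ^ 2 * dFun z) := by
    have := continuous_dFun; have := PA.continuous_tanh'; fun_prop
  rw [int_U_F hβ0 hβ1 hc hs0 hs1 hx (F := fun z => Real.tanh z * dFun z) hasDerivAt_tD hc1 (C := 3)
    (fun z => (abs_tanhD z).trans (by norm_num)) (fun z => by
      have h1 := abs_tsqD z
      have h2 : |dFun z ^ 2| ≤ 1 := by rw [abs_pow]; exact pow_le_one₀ (abs_nonneg _) (abs_dFun z)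
      rw [abs_le] at h1 h2 ⊢; constructor <;> linarith)]
  have i1 := ((nice_idealZ (K := k + 1) (β := β) (shift := shift) (s := s) k).comp (F := fun z => dFun z ^ 2) (continuous_dFun.pow 2)
    (C := 1) fun z => by rw [abs_pow]; exact pow_le_one₀ (abs_nonneg _) (abs_dFun z)).integrable
  have i2 := ((nice_idealZ (K := k + 1) (β := β) (shift := shift) (s := s) k).comp continuous_tsqD abs_tsqD).integrable.const_mul 2
  rw [integral_sub i1 i2, integral_const_mul, int_wtD hβ0 hβ1 hc hs0 hs1, int_wttD hβ0 hβ1 hc hs0 hs1,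
    show ∫ w : Fin (k + 1 + 1) → ℝ, dFun (idealZ β shift s k w) ^ 2 ∂gauss (Fin (k + 1 + 1)) = _ from
      int_wDD hβ0 hβ1 hc hs0 hs1, muU_eq hβ0 hβ1 hc hs0 hs1 hk hx]
  unfold rS; ring

/-- `E U D (1 - tanh) = 0`. -/
lemma int_U1D {x : ℕ} (hx : x ≤ k) :
    ∫ w : Fin (k + 2) → ℝ, iU β shift s k x w *
        ((1 - Real.tanh (idealZ β shift s k w)) * dFun (idealZ β shift s k w)) ∂gauss (Fin (k + 2)) = 0 := by
  have nD : Nice fun w : Fin (k + 1 + 1) → ℝ => dFun (idealZ β shift s k w) := (nice_idealZ k).comp continuous_dFun abs_dFun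
  have ntD : Nice fun w : Fin (k + 1 + 1) → ℝ => Real.tanh (idealZ β shift s k w) * dFun (idealZ β shift s k w) :=
    (nice_tanhZ k).mul nD
  simp only [sub_mul, one_mul, mul_sub]
  rw [integral_sub ((nice_iU β shift s k x).mul nD).integrable ((nice_iU β shift s k x).mul ntD).integrable,
    int_UtD hβ0 hβ1 hc hs0 hs1 hk hx,
    int_U_F hβ0 hβ1 hc hs0 hs1 hx hasDerivAt_dFun (by have := continuous_dFun; have := PA.continuous_tanh'; fun_prop) (C := 2)
      (fun z => (abs_dFun z).trans (by norm_num)) (fun z => by rw [abs_mul, show |(-2:ℝ)| = 2 by norm_num]; linarith [abs_tanhD z]),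
    integral_const_mul, int_wD hβ0 hβ1 hc hs0 hs1, int_wtD hβ0 hβ1 hc hs0 hs1,
    muU_eq hβ0 hβ1 hc hs0 hs1 hk hx]
  unfold rS; ring

omit hk

omit hβ0 hβ1 hc hs0 hs1 in
/-- Fourth moments of combinations of the images. -/
lemma int_U_four (c : Fin (k + 1) → ℝ) :
    ∫ w : Fin (k + 2) → ℝ, (∑ x, c x * iU β shift s k x w) ^ 4 ∂gauss (Fin (k + 2)) ≤
      8 * ((∑ x, c x * muU β shift s k x) ^ 4
        + (∫ t, t ^ 4 ∂gaussianReal 0 1) * (∑ x, (c x * sdU β shift s k x) ^ 2) ^ 2) := by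
  set m := ∑ x, c x * muU β shift s k x
  set α : Fin (k + 2) → ℝ := fun j => ∑ x : Fin (k + 1), if (x : ℕ) + 1 = j then c x * sdU β shift s k x else 0
  have hU : ∀ w, ∑ x, c x * iU β shift s k x w = m + dot α w := fun w => by
    simp only [iU, mul_add, Finset.sum_add_distrib, m, α, dot, Finset.sum_mul, ite_mul, zero_mul]
    congr 1
    rw [Finset.sum_comm (f := fun (j : Fin (k + 2)) (x : Fin (k + 1)) => if (x : ℕ) + 1 = j then _ else (0:ℝ))]
    refine Finset.sum_congr rfl fun x _ => ?_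
    rw [co_eq (show (x : ℕ) + 1 ≤ k + 1 by omega), Finset.sum_eq_single (⟨x + 1, by omega⟩ : Fin (k + 2))
      (fun j _ hj => if_neg fun h => hj (Fin.ext h.symm)) (by simp), if_pos rfl, mul_assoc]
  have hα : ∑ j, α j ^ 2 = ∑ x, (c x * sdU β shift s k x) ^ 2 := by
    simp only [α, sq, Finset.sum_mul_sum]
    rw [Finset.sum_comm]
    refine Finset.sum_congr rfl fun x _ => ?_
    rw [Finset.sum_comm, Finset.sum_eq_single x (fun y _ hy => Finset.sum_eq_zero fun j _ => ?_) (by simp)]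
    · rw [Finset.sum_eq_single (⟨x + 1, by omega⟩ : Fin (k + 2))
        (fun j _ hj => by rw [if_neg fun h => hj (Fin.ext h.symm), zero_mul]) (by simp), if_pos rfl]
    · split_ifs with h1 h2
      · exact absurd (Fin.ext (by omega)) hy
      all_goals simp
  have ha : Nice fun w : Fin (k + 2) → ℝ => dot α w := Nice.sum _ fun j _ => (Nice.coord j).const_mul _
  have hn : Nice fun w : Fin (k + 2) → ℝ => m + dot α w := (Nice.const m).add ha
  have hn4 : ∀ {φ : (Fin (k + 2) → ℝ) → ℝ}, Nice φ → Integrable (fun w => φ w ^ 4) (gauss (Fin (k + 2))) := fun {φ} h => by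
    have := ((h.mul h).mul (h.mul h)).integrable
    simpa [pow_succ, pow_zero, mul_assoc] using this
  simp only [hU]
  refine (integral_mono (hn4 hn) (((integrable_const (m ^ 4)).fun_add (hn4 ha)).const_mul 8) fun w => ?_).trans_eq ?_
  · nlinarith [sq_nonneg (m - dot α w), sq_nonneg (m + dot α w), sq_nonneg (m ^ 2 - dot α w ^ 2),
      mul_nonneg (sq_nonneg (m - dot α w)) (sq_nonneg (m + dot α w))]
  · rw [integral_const_mul, integral_add (integrable_const _) (hn4 ha), integral_const, probReal_univ, one_smul,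
      integral_dot (φ := fun x => x ^ 4) (by fun_prop)]
    rw [← hα]
    simp only [mul_pow]
    rw [integral_const_mul,
      show Real.sqrt (∑ j, α j ^ 2) ^ 4 = (Real.sqrt (∑ j, α j ^ 2) ^ 2) ^ 2 by ring,
      Real.sq_sqrt (Finset.sum_nonneg fun j _ => sq_nonneg (α j))]
    ring

end Vale.Agent.P150.High.MinEigMoments
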