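import Vale.Agent.P150.SKNorm

/-!
# P150, all `β < 1`: Gaussian comparison for a GOE quadratic form plus an offset

`P(∃ x, γ/√n v'Wv + F x > 0) ≤ E exp (σ max (2γ |v| g·v/√n + F x))` for every `σ > 0`, where
`W` is GOE and `g` a standard vector; the finite index set costs nothing.
-/

open MeasureTheory ProbabilityTheory Filter
open scoped Topology

namespace Vale.Agent.P150.High.MinEigSlepian

open Vale.Agent.P150

variable {α : Type*} [Fintype α] [Nonempty α]

/-- Slepian's inequality with positive weights. -/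
lemma wslepian {ι κ : Type} [Fintype ι] [Fintype κ] (a : α → ι → ℝ) (c : α → κ → ℝ) (w : α → ℝ)
    (hw : ∀ x, 0 < w x) {r : ℝ} (h0 : 0 < r) (h1 : r ≤ 1)
    (hdiag : ∀ x, ∑ k, a x k * a x k = ∑ k, c x k * c x k)
    (hcross : ∀ x y, ∑ k, c x k * c y k ≤ ∑ k, a x k * a y k) :
    Integrable (fun z => (∑ x, w x * Real.exp (dot (a x) z)) ^ r) (gauss ι) ∧
    Integrable (fun z => (∑ x, w x * Real.exp (dot (c x) z)) ^ r) (gauss κ) ∧
    ∫ z, (∑ x, w x * Real.exp (dot (a x) z)) ^ r ∂gauss ι ≤
      2 ^ r * ∫ z, (∑ x, w x * Real.exp (dot (c x) z)) ^ r ∂gauss κ := by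
  classical
  set m := Finset.univ.inf' Finset.univ_nonempty w
  have hm : 0 < m := (Finset.lt_inf'_iff _).2 fun x _ => hw x
  have hmw : ∀ x, m ≤ w x := fun x => Finset.inf'_le _ (Finset.mem_univ x)
  set N := fun x => ⌈w x / m⌉₊
  have hN : ∀ x, w x ≤ m * N x ∧ m * (N x : ℝ) ≤ 2 * w x := fun x => by
    have h2 := Nat.ceil_lt_add_one (div_nonneg (hw x).le hm.le)
    have h3 := Nat.le_ceil (w x / m)
    rw [div_le_iff₀ hm] at h3
    refine ⟨by linarith, ?_⟩
    have := mul_le_mul_of_nonneg_left h2.le hm.le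
    rw [mul_add, mul_one, mul_div_cancel₀ _ hm.ne'] at this
    linarith [hmw x]
  have : Nonempty (Σ x, Fin (N x)) :=
    ⟨⟨Classical.arbitrary α, ⟨0, Nat.ceil_pos.2 (div_pos (hw _) hm)⟩⟩⟩
  have key := slepian (fun p : Σ x, Fin (N x) => a p.1) (fun p => c p.1) h0 h1
    (fun p => hdiag p.1) fun p q => hcross p.1 q.1
  have e : ∀ {ν : Type} [Fintype ν] (b : α → ν → ℝ) (z : ν → ℝ),
      esum (fun p : Σ x, Fin (N x) => b p.1) z = ∑ x, (N x : ℝ) * Real.exp (dot (b x) z) :=
    fun b z => by
      simp only [esum]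
      rw [Fintype.sum_sigma]
      simp
  have bd : ∀ {ν : Type} [Fintype ν] (b : α → ν → ℝ) (z : ν → ℝ),
      0 < ∑ x, w x * Real.exp (dot (b x) z) ∧
      (∑ x, w x * Real.exp (dot (b x) z)) ^ r ≤ m ^ r * esum (fun p : Σ x, Fin (N x) => b p.1) z ^ r ∧
      m ^ r * esum (fun p : Σ x, Fin (N x) => b p.1) z ^ r ≤
        2 ^ r * (∑ x, w x * Real.exp (dot (b x) z)) ^ r := fun b z => by
    have hp : 0 < ∑ x, w x * Real.exp (dot (b x) z) :=
      Finset.sum_pos (fun x _ => mul_pos (hw x) (Real.exp_pos _)) Finset.univ_nonempty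
    rw [← Real.mul_rpow hm.le (esum_pos _ z).le, ← Real.mul_rpow two_pos.le hp.le, e, Finset.mul_sum,
      Finset.mul_sum]
    refine ⟨hp, Real.rpow_le_rpow hp.le (Finset.sum_le_sum fun x _ => ?_) h0.le,
      Real.rpow_le_rpow (by positivity) (Finset.sum_le_sum fun x _ => ?_) h0.le⟩
    · rw [← mul_assoc]; exact mul_le_mul_of_nonneg_right (hN x).1 (Real.exp_pos _).le
    · rw [← mul_assoc, ← mul_assoc]; exact mul_le_mul_of_nonneg_right (hN x).2 (Real.exp_pos _).le
  have int : ∀ {ν : Type} [Fintype ν] (b : α → ν → ℝ),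
      Integrable (fun z => (∑ x, w x * Real.exp (dot (b x) z)) ^ r) (gauss ν) := fun b =>
    ((esum_rpow_integrable _ h0.le h1).const_mul (m ^ r)).mono'
      ((by unfold dot; fun_prop : Continuous fun z => ∑ x, w x * Real.exp (dot (b x) z)).rpow_const
        fun z => Or.inr h0.le).aestronglyMeasurable
      (Eventually.of_forall fun z => by
        rw [Real.norm_eq_abs, abs_of_pos (Real.rpow_pos_of_pos (bd b z).1 r)]; exact (bd b z).2.1)
  refine ⟨int a, int c, ?_⟩
  calc ∫ z, (∑ x, w x * Real.exp (dot (a x) z)) ^ r ∂gauss ι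
      ≤ ∫ z, m ^ r * esum (fun p : Σ x, Fin (N x) => a p.1) z ^ r ∂gauss ι :=
        integral_mono (int a) ((esum_rpow_integrable _ h0.le h1).const_mul _) fun z => (bd a z).2.1
    _ ≤ ∫ z, m ^ r * esum (fun p : Σ x, Fin (N x) => c p.1) z ^ r ∂gauss κ := by
        rw [integral_const_mul, integral_const_mul]
        exact mul_le_mul_of_nonneg_left key (Real.rpow_nonneg hm.le r)
    _ ≤ ∫ z, 2 ^ r * (∑ x, w x * Real.exp (dot (c x) z)) ^ r ∂gauss κ :=
        integral_mono ((esum_rpow_integrable _ h0.le h1).const_mul _) ((int c).const_mul _)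
          fun z => (bd c z).2.2
    _ = _ := integral_const_mul _ _

variable {n : ℕ}

/-- The quadratic form of the GOE matrix `(X + X')/√2`. -/
noncomputable def goeForm (X : Fin n × Fin n → ℝ) (v : Fin n → ℝ) : ℝ :=
  Real.sqrt 2 * ∑ p : Fin n × Fin n, X p * (v p.1 * v p.2)

/-- The comparison process. -/
noncomputable def cmpMax (γ : ℝ) (v : α → Fin n → ℝ) (F : α → ℝ) (g : Fin n → ℝ) : ℝ :=
  Finset.univ.sup' Finset.univ_nonempty fun x =>
    2 * γ / Real.sqrt n * (Real.sqrt (∑ i, v x i ^ 2) * dot (v x) g) + F x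

lemma continuous_cmpMax (γ : ℝ) (v : α → Fin n → ℝ) (F : α → ℝ) : Continuous (cmpMax γ v F) := by
  unfold cmpMax dot
  exact Continuous.finset_sup'_apply _ fun x _ => by fun_prop

/-- The comparison, in exponential-moment form. -/
theorem quad_compare (γ : ℝ) (v : α → Fin n → ℝ) (F : α → ℝ) {σ : ℝ} (hσ : 0 < σ)
    (hi : Integrable (fun g => Real.exp (σ * cmpMax γ v F g)) (gauss (Fin n))) :
    (gauss (Fin n × Fin n)).real {X | ∃ x, 0 < γ / Real.sqrt n * goeForm X (v x) + F x} ≤
      ∫ g, Real.exp (σ * cmpMax γ v F g) ∂gauss (Fin n) := by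
  classical
  set I := ∫ g, Real.exp (σ * cmpMax γ v F g) ∂gauss (Fin n)
  set E := {X : Fin n × Fin n → ℝ | ∃ x, 0 < γ / Real.sqrt n * goeForm X (v x) + F x}
  have hE : MeasurableSet E := by
    simp only [E, Set.ofPred_exists, goeForm]
    exact MeasurableSet.iUnion fun x => measurableSet_lt measurable_const (by fun_prop)
  suffices h : ∀ r : ℝ, 0 < r → r ≤ 1 →
      (gauss (Fin n × Fin n)).real E ≤ (2 * (Fintype.card α : ℝ)) ^ r * I by
    have hc : Tendsto (fun m : ℕ => (2 * (Fintype.card α : ℝ)) ^ (1 / ((m : ℝ) + 1)) * I) atTop (𝓝 I) := by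
      have h1 := (Real.continuousAt_const_rpow (a := 2 * (Fintype.card α : ℝ)) (b := 0)
        (by positivity)).tendsto.comp (tendsto_one_div_add_atTop_nhds_zero_nat (𝕜 := ℝ))
      rw [Real.rpow_zero] at h1
      simpa using h1.mul_const I
    refine ge_of_tendsto' hc fun m => h _ (by positivity) ?_
    rw [div_le_one (by positivity)]; simp
  intro r hr hr1
  set k := σ / r
  have hk : 0 < k := div_pos hσ hr
  set sq2 := Real.sqrt 2
  have h2 : sq2 * sq2 = 2 := Real.mul_self_sqrt two_pos.le
  set P := γ / Real.sqrt n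
  set N := fun x => ∑ i, v x i ^ 2
  set A : α → (Fin n × Fin n) ⊕ Unit → ℝ := fun x =>
    Sum.elim (fun p => k * P * sq2 * (v x p.1 * v x p.2)) fun _ => k * P * sq2 * N x with hA
  set C : α → Fin n → ℝ := fun x i => k * (2 * γ / Real.sqrt n * (Real.sqrt (N x) * v x i)) with hC
  have iA : ∀ x y, ∑ j, A x j * A y j = (k * P) ^ 2 * (2 * dot (v x) (v y) ^ 2 + 2 * (N x * N y)) := by
    intro x y
    simp only [hA, Fintype.sum_sum_type, Sum.elim_inl, Sum.elim_inr, Fintype.sum_unique, dot, sq (∑ i, v x i * v y i),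
      Finset.sum_mul_sum]
    rw [Fintype.sum_prod_type, mul_add]
    congr 1
    · simp only [Finset.mul_sum]
      exact Finset.sum_congr rfl fun i _ => Finset.sum_congr rfl fun j _ => by
        linear_combination ((k * P) ^ 2 * (v x i * v x j) * (v y i * v y j)) * h2
    · linear_combination ((k * P) ^ 2 * (N x * N y)) * h2
  have iC : ∀ x y, ∑ i, C x i * C y i =
      (k * P) ^ 2 * (4 * (Real.sqrt (N x) * Real.sqrt (N y) * dot (v x) (v y))) := by
    intro x y
    simp only [hC, dot, Finset.mul_sum, P]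
    exact Finset.sum_congr rfl fun i _ => by ring
  have hN : ∀ x, Real.sqrt (N x) * Real.sqrt (N x) = N x :=
    fun x => Real.mul_self_sqrt (Finset.sum_nonneg fun i _ => sq_nonneg _)
  obtain ⟨hiA, hiC, hcmp⟩ := wslepian A C (fun x => Real.exp (k * F x)) (fun x => Real.exp_pos _) hr hr1
    (fun x => by
      rw [iA, iC, hN, show dot (v x) (v x) = N x by simp [dot, N, sq]]; ring)
    (fun x y => by
      rw [iA, iC]
      refine mul_le_mul_of_nonneg_left ?_ (sq_nonneg _)
      have h := mul_mul_mul_comm (Real.sqrt (N x)) (Real.sqrt (N x)) (Real.sqrt (N y)) (Real.sqrt (N y))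
      rw [hN, hN] at h
      rw [h]
      nlinarith [sq_nonneg (dot (v x) (v y) - Real.sqrt (N x) * Real.sqrt (N y))])
  have hR : ∫ g, (∑ x, Real.exp (k * F x) * Real.exp (dot (C x) g)) ^ r ∂gauss (Fin n) ≤
      (Fintype.card α : ℝ) ^ r * I := by
    rw [← integral_const_mul]
    refine integral_mono hiC (hi.const_mul _) fun g => ?_
    have h1 : ∑ x, Real.exp (k * F x) * Real.exp (dot (C x) g) ≤
        Fintype.card α * Real.exp (k * cmpMax γ v F g) := by
      refine (Finset.sum_le_card_nsmul _ _ _ fun x _ => ?_).trans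
        (le_of_eq (by rw [nsmul_eq_mul, Finset.card_univ]))
      rw [← Real.exp_add]
      refine Real.exp_le_exp.2 (le_trans (le_of_eq ?_) (mul_le_mul_of_nonneg_left
        (Finset.le_sup' (fun x => 2 * γ / Real.sqrt n * (Real.sqrt (∑ i, v x i ^ 2) * dot (v x) g) + F x)
          (Finset.mem_univ x)) hk.le))
      simp only [hC, dot, N, mul_add, Finset.mul_sum]
      rw [add_comm]
      congr 1
      exact Finset.sum_congr rfl fun i _ => by ring
    refine (Real.rpow_le_rpow (Finset.sum_nonneg fun x _ => by positivity) h1 hr.le).trans (le_of_eq ?_)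
    rw [Real.mul_rpow (Nat.cast_nonneg _) (Real.exp_pos _).le, ← Real.exp_mul]
    simp only [k]
    congr 2
    field_simp
  have hmp : MeasurePreserving (MeasurableEquiv.sumPiEquivProdPi fun _ : (Fin n × Fin n) ⊕ Unit => ℝ)
      (gauss ((Fin n × Fin n) ⊕ Unit)) ((gauss (Fin n × Fin n)).prod (gauss Unit)) :=
    measurePreserving_sumPiEquivProdPi (X := fun _ : (Fin n × Fin n) ⊕ Unit => ℝ) fun _ => gaussianReal 0 1
  set G := fun p : (Fin n × Fin n → ℝ) × (Unit → ℝ) =>
    (∑ x, Real.exp (k * F x) * Real.exp (dot (A x) (Sum.elim p.1 p.2))) ^ r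
  have hG : ∀ z, G (MeasurableEquiv.sumPiEquivProdPi (fun _ : (Fin n × Fin n) ⊕ Unit => ℝ) z) =
      (∑ x, Real.exp (k * F x) * Real.exp (dot (A x) z)) ^ r := fun z => by
    have e : Sum.elim (fun p => z (Sum.inl p)) (fun o => z (Sum.inr o)) = z := funext fun j => by cases j <;> rfl
    show (∑ x, Real.exp (k * F x) * Real.exp (dot (A x) (Sum.elim (fun p => z (Sum.inl p)) fun o => z (Sum.inr o)))) ^ r = _
    rw [e]
  have hiG : Integrable G ((gauss (Fin n × Fin n)).prod (gauss Unit)) := by
    rw [← hmp.integrable_comp_emb (MeasurableEquiv.measurableEmbedding _)]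
    exact hiA.congr (Eventually.of_forall fun z => (hG z).symm)
  have hL : (gauss (Fin n × Fin n)).real E ≤
      ∫ z, (∑ x, Real.exp (k * F x) * Real.exp (dot (A x) z)) ^ r ∂gauss ((Fin n × Fin n) ⊕ Unit) := by
    rw [← integral_congr_ae (Eventually.of_forall hG), hmp.integral_comp' (g := G), integral_prod G hiG,
      ← integral_indicator_one hE]
    refine integral_mono_ae ((integrable_const (1:ℝ)).indicator hE) hiG.integral_prod_left
      (hiG.prod_right_ae.mono fun X hX => ?_)
    by_cases hXE : X ∈ E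
    · rw [Set.indicator_of_mem hXE]
      obtain ⟨x, hx⟩ := hXE
      set w := fun _ : Unit => r * (k * P * sq2 * N x)
      have hpt : ∀ d : Unit → ℝ, Real.exp (σ * (P * goeForm X (v x) + F x)) * Real.exp (dot w d) ≤ G (X, d) :=
        fun d => by
        refine le_trans (le_of_eq ?_) (Real.rpow_le_rpow (mul_pos (Real.exp_pos _) (Real.exp_pos _)).le
          (Finset.single_le_sum (f := fun x => Real.exp (k * F x) * Real.exp (dot (A x) (Sum.elim X d)))
            (fun _ _ => by positivity) (Finset.mem_univ x)) hr.le)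
        rw [← Real.exp_add, ← Real.exp_add, ← Real.exp_mul]
        congr 1
        have es : σ = k * r := by simp only [k]; field_simp
        rw [es]
        simp only [dot, Fintype.sum_sum_type, hA, Sum.elim_inl, Sum.elim_inr, w, goeForm, Fintype.sum_unique,
          Finset.mul_sum, mul_add, add_mul, Finset.sum_mul]
        rw [add_comm (∑ p, _) (k * r * F x), add_assoc]
        congr 1
        · ring
        congr 1
        · exact Finset.sum_congr rfl fun p _ => by ring
        · ring
      refine le_trans ?_ (integral_mono ((integrable_of_bound (C := 1) (M := ∑ o, |w o|)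
        (by unfold dot; fun_prop) fun d => by
          rw [Real.abs_exp, one_mul]
          exact Real.exp_le_exp.2 ((le_abs_self _).trans (abs_dot_le
            (fun o => Finset.single_le_sum (f := fun o => |w o|) (fun _ _ => abs_nonneg _) (Finset.mem_univ o)) d))).const_mul _)
        hX hpt)
      rw [integral_const_mul, mgf_dot]
      exact one_le_mul_of_one_le_of_one_le (Real.one_le_exp (mul_nonneg hσ.le hx.le))
        (Real.one_le_exp (by positivity))
    · rw [Set.indicator_of_notMem hXE]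
      exact integral_nonneg fun d => Real.rpow_nonneg (Finset.sum_nonneg fun x _ => by positivity) r
  refine hL.trans (hcmp.trans ((mul_le_mul_of_nonneg_left hR (Real.rpow_nonneg two_pos.le r)).trans (le_of_eq ?_)))
  rw [Real.mul_rpow two_pos.le (Nat.cast_nonneg _), mul_assoc]

end Vale.Agent.P150.High.MinEigSlepian
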