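import Vale.Agent.P150.High.MinEigData

/-!
# P150, all `β < 1`: the quadratic form on the representation

Export of `MinEigSpan.lean`.
-/

open MeasureTheory ProbabilityTheory Filter Finset Matrix
open scoped Topology

namespace Vale.Agent.P150.High

open Vale.Agent.P150 Vale.Agent.P150.High.Amp MinEigScalar MinEigLim MinEigData

variable {n : ℕ}

/-- The matrix of the representation along the extended frame. -/
noncomputable def repW (β shift s : ℝ) (k n : ℕ) (ω : Fin n → Fin (k + 2) → ℝ) (W' : Fin n → Fin n → ℝ) :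
    Fin n → Fin n → ℝ :=
  repMat (finState β shift s k n ω).1 (finState β shift s k n ω).2 (k + 1) W'

/-- `MinEigSpan.lean`: on the representation the fields are `zF`, and the form of the couplings at a
vector splits into its part in the span of `cB`, the cross term and a fresh GOE form off the span. -/
def SpanStatement : Prop :=
  ∀ β shift s : ℝ, 0 < β → β < 1 → 4 ≤ shift → 0 < s → s < 1 → ∀ k : ℕ, k ≠ 0 →
    ∀ (n : ℕ) (ω : Fin n → Fin (k + 2) → ℝ),
      (∀ W' : Fin n → Fin n → ℝ, (∀ i j, W' i j = W' j i) →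
        ∀ j ≤ k, fullAt β shift s (repW β shift s k n ω W') (noiseZ ω) j = zF β shift s k n ω j) ∧
      ∀ v : Fin n → ℝ, ∃ c : Fin (k + 1) → ℝ, ∃ w : Fin n → ℝ,
        v = (∑ x, c x • cB β shift s k n ω x) + w ∧
        (∀ x : Fin (k + 1), MinEigCore.ip (cB β shift s k n ω x) w = 0) ∧
        MinEigCore.ip (fun i => Real.tanh (zF β shift s k n ω (k - 1) i)) w = 0 ∧
        ∀ W' : Fin n → Fin n → ℝ, (∀ i j, W' i j = W' j i) →
        (1 - s) * MinEigCore.ip v
            (Matrix.of (fullCpl β (repW β shift s k n ω W') (prodXi β shift (noiseZ ω))) *ᵥ v) =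
          -(MinEigCore.ip (∑ x, c x • cB β shift s k n ω x) (∑ x, c x • cU β shift s k n ω x) -
              MinEigCore.ip (∑ x, c x • cB β shift s k n ω x) (∑ x, c x • cR β shift s k n ω x))
            + 2 * MinEigCore.ip v (∑ x, c x • cU β shift s k n ω x)
            + (parOf β shift s k).a * MinEigCore.ip 1 w ^ 2
            + (1 - s) * (β / Real.sqrt n) * MinEigCore.ip w (Matrix.of W' *ᵥ w)

end Vale.Agent.P150.High
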