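import Vale.Agent.P150.High.AmpSpec

/-!
# P150, all `β < 1`: the margin with probability tending to one

`HalfStatement` is `MarginStatement` without the rate; Gaussian concentration upgrades it.
-/

open MeasureTheory Filter Matrix
open scoped Topology

namespace Vale.Agent.P150.High

open Vale.Agent.P150

/-- The margin on a ball around the centre, at each fixed time, with probability tending to one. -/
def HalfStatement : Prop :=
  ∀ β : ℝ, 0 ≤ β → β < 1 → ∃ η : ℝ, 0 < η ∧ ∀ shift : ℝ, 4 ≤ shift →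
    ∃ ρ : ℝ, 0 < ρ ∧ ∃ k₀ : ℕ, ∀ k ≥ k₀, ∀ s ∈ Set.Icc (0 : ℝ) 1,
      Tendsto (fun n : ℕ => (prodLaw n).real {p | ∃ m, InBall ρ (prodCentre β shift s p.1 p.2 k) m ∧
        ¬ Margin β η s (tiltCpl β p.1 (prodXi β shift p.2)) m}) atTop (𝓝 0)

/-- `MinEigBoost.lean`. -/
def MarginBoostStatement : Prop := HalfStatement → MarginStatement

/-- The margin away from the degenerate parameters, and the size of the centre. -/
def InteriorStatement : Prop :=
  ∀ β : ℝ, 0 < β → β < 1 → ∃ η : ℝ, 0 < η ∧ η ≤ 1 ∧ ∀ shift : ℝ, 4 ≤ shift →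
    ∃ ρ : ℝ, 0 < ρ ∧ ∃ k₀ : ℕ, ∀ k ≥ k₀, ∀ s ∈ Set.Ioo (0 : ℝ) 1,
      Tendsto (fun n : ℕ => (prodLaw n).real {p | ∃ m, InBall ρ (prodCentre β shift s p.1 p.2 k) m ∧
        ¬ Margin β η s (tiltCpl β p.1 (prodXi β shift p.2)) m}) atTop (𝓝 0) ∧
      ∀ τ : ℝ, 0 < τ → Tendsto (fun n : ℕ => (prodLaw n).real {p |
        qSE (gamSE β shift s k) + τ < (∑ i, prodCentre β shift s p.1 p.2 k i ^ 2) / n}) atTop (𝓝 0)

/-- `MinEigEnds.lean`. -/
def MarginEndsStatement : Prop := InteriorStatement → HalfStatement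

end Vale.Agent.P150.High
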