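import Vale.Agent.P150.High.CovSpec

/-!
# P150, all `β < 1`: change of variables for the planted channel

Planted at the all-plus configuration, `y = A (s + √s ξ)` with `A = J + shift` and `ξ ~ N(0, A⁻¹)`.
Exchanging the order, `(J, ξ)` is exponentially equivalent to `ξ ~ N(0, v)` i.i.d. and plain disorder
plus `β²/n (1 - ξ_i ξ_j)` off the diagonal, where `β² v² - shift v + 1 = 0`; one change for all `s`.
-/

open MeasureTheory Filter Matrix
open scoped Topology

namespace Vale.Agent.P150.High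

open Vale.Agent.P150

variable {n : ℕ}

/-- The smaller root of `β² v² - shift v + 1 = 0`. -/
noncomputable def plantVar (β shift : ℝ) : ℝ := 2 / (shift + Real.sqrt (shift ^ 2 - 4 * β ^ 2))

/-- Couplings planted at the all-plus configuration. -/
noncomputable def plantCpl (β : ℝ) (g : Edge n → ℝ) (i j : Fin n) : ℝ :=
  cpl β g i j + if i = j then 0 else β ^ 2 / n

/-- Couplings given `ξ` after the exchange. -/
noncomputable def tiltCpl (β : ℝ) (g : Edge n → ℝ) (ξ : Fin n → ℝ) (i j : Fin n) : ℝ :=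
  cpl β g i j + if i = j then 0 else β ^ 2 / n * (1 - ξ i * ξ j)

/-- The law after the exchange: disorder and standard noise. -/
noncomputable def prodLaw (n : ℕ) : Measure ((Edge n → ℝ) × (Fin n → ℝ)) :=
  (disorder n).prod (gauss (Fin n))

/-- `ξ = √v z`. -/
noncomputable def prodXi (β shift : ℝ) (z : Fin n → ℝ) (i : Fin n) : ℝ :=
  Real.sqrt (plantVar β shift) * z i

/-- `A = J + shift`. -/
def shiftMat (shift : ℝ) (J : Fin n → Fin n → ℝ) : Matrix (Fin n) (Fin n) ℝ :=
  Matrix.of J + shift • (1 : Matrix (Fin n) (Fin n) ℝ)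

/-- `Planted.lean`: exponentially small events transfer to the planted channel. -/
def PlantedStatement : Prop :=
  ∀ β shift c₀ : ℝ, 0 ≤ β → β < 1 → 4 ≤ shift → 0 < c₀ → ∃ c₁ : ℝ, 0 < c₁ ∧ ∀ᶠ n : ℕ in atTop,
    ∀ E : Set ((Fin n → Fin n → ℝ) × (Fin n → ℝ)), MeasurableSet E →
      (prodLaw n).real {p | (tiltCpl β p.1 (prodXi β shift p.2), prodXi β shift p.2) ∈ E}
          ≤ Real.exp (-(c₀ * n)) →
      (disorder n).real {g | ∃ B, IsFactor (plantCpl β g) shift B ∧ Real.exp (-(c₁ * n)) <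
          (gauss (Fin n)).real
            {z | (plantCpl β g, (shiftMat shift (plantCpl β g))⁻¹ *ᵥ fieldOf B z) ∈ E}}
        ≤ Real.exp (-(c₁ * n))

/-- `Gauge.lean`: gauge invariant planted bounds hold under the Gibbs law, with high probability. -/
def GaugeStatement : Prop :=
  ∀ β c₀ : ℝ, 0 ≤ β → β < 1 → 0 < c₀ → ∃ c₁ : ℝ, 0 < c₁ ∧ ∀ ε : ℝ, 0 < ε → ∀ᶠ n : ℕ in atTop,
    ∀ F : (Fin n → Fin n → ℝ) → Cfg n → ℝ, (∀ x, Measurable fun J => F J x) →
      (∀ J x, 0 ≤ F J x ∧ F J x ≤ 1) →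
      (∀ J x, F J x = F (fun i j => spin (x i) * J i j * spin (x j)) fun _ => true) →
      ∫ g, F (plantCpl β g) (fun _ => true) ∂disorder n ≤ Real.exp (-(c₀ * n)) →
      (disorder n).real {g | Real.exp (-(c₁ * n)) < ∑ x, gibbs β g x * F (cpl β g) x} ≤ ε

end Vale.Agent.P150.High
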