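import Vale.Agent.P150.High.AmpLaw
import Vale.Agent.P150.High.ScalarSE

/-!
# P150, all `β < 1`: Gaussian integrals of the ideal fields

The fields `idealZ l` are a Gaussian martingale on the Nishimori line, so
`E tanh Z_l tanh Z_m = q_min` and the directions `idealDir` are orthogonal.
-/

open MeasureTheory ProbabilityTheory Finset

namespace Vale.Agent.P150.High.Amp

open Vale.Agent.P150

variable {ι : Type*} [Fintype ι]

lemma measurable_dot (a : ι → ℝ) : Measurable (dot a) :=
  Finset.measurable_sum _ fun k _ => measurable_const.mul (measurable_pi_apply (X := fun _ : ι => ℝ) k)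

lemma gauss_map_dot (a : ι → ℝ) :
    (gauss ι).map (dot a) = (gaussianReal 0 1).map (fun t => Real.sqrt (∑ k, a k ^ 2) * t) := by
  refine Measure.ext_of_charFun (funext fun t => ?_)
  rw [charFun_apply_real, charFun_apply_real, integral_map (measurable_dot _).aemeasurable (by fun_prop),
    integral_map (by fun_prop) (by fun_prop)]
  have h1 : ∀ z, Complex.exp ((t : ℂ) * (dot a z : ℝ) * Complex.I) =
      Complex.exp ((dot (fun k => t * a k) z : ℝ) * Complex.I) := fun z => by
    rw [← Complex.ofReal_mul]; congr 3; simp only [dot, Finset.mul_sum, mul_assoc]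
  simp only [h1]
  rw [charFun_dot]
  set r := Real.sqrt (∑ k, a k ^ 2)
  have h2 : ∀ x : ℝ, Complex.exp ((t : ℂ) * ((r * x : ℝ) : ℂ) * Complex.I) =
      Complex.exp ((↑(t * r) : ℂ) * (x : ℂ) * Complex.I) := fun x => by push_cast; ring_nf
  simp only [h2]
  rw [← charFun_apply_real, charFun_gaussianReal]
  congr 1
  have hr : r ^ 2 = ∑ k, a k ^ 2 := Real.sq_sqrt (Finset.sum_nonneg fun _ _ => sq_nonneg _)
  simp only [mul_pow, ← Finset.mul_sum, ← hr]
  push_cast; ring

lemma integral_dot {φ : ℝ → ℝ} (hφ : Continuous φ) (a : ι → ℝ) :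
    ∫ z, φ (dot a z) ∂gauss ι = ∫ t, φ (Real.sqrt (∑ k, a k ^ 2) * t) ∂gaussianReal 0 1 := by
  have h := congrArg (fun m => ∫ x, φ x ∂m) (gauss_map_dot a)
  rwa [integral_map (measurable_dot _).aemeasurable hφ.aestronglyMeasurable,
    integral_map (by fun_prop) hφ.aestronglyMeasurable] at h

/-- Orthogonal forms are independent. -/
lemma gauss_map_pair (a b : ι → ℝ) (hab : ∑ k, a k * b k = 0) :
    (gauss ι).map (fun z => (dot a z, dot b z)) = ((gauss ι).map (dot a)).prod ((gauss ι).map (dot b)) := by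
  have ma : ∀ c : ι → ℝ, Measurable (dot c) := fun c => by unfold dot; fun_prop
  rw [Measure.map_prod_map _ _ (ma a) (ma b)]
  refine Measure.ext_of_charFunDual ?_
  ext L
  have hL : ∀ x y : ℝ, L (x, y) = L (1, 0) * x + L (0, 1) * y := fun x y => by
    have : (x, y) = x • ((1 : ℝ), (0 : ℝ)) + y • ((0 : ℝ), (1 : ℝ)) := by simp
    rw [this, map_add, map_smul, map_smul]; simp [mul_comm]
  set p := L (1, 0)
  set q := L (0, 1)
  rw [charFunDual_apply, charFunDual_apply, integral_map ((ma a).prodMk (ma b)).aemeasurable (by fun_prop),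
    integral_map ((ma a).prodMap (ma b)).aemeasurable (by fun_prop)]
  simp only [Prod.map, hL]
  have e : ∀ z w, Complex.exp (((p * dot a z + q * dot b w : ℝ) : ℂ) * Complex.I) =
      Complex.exp ((dot (fun k => p * a k) z : ℝ) * Complex.I) *
        Complex.exp ((dot (fun k => q * b k) w : ℝ) * Complex.I) := fun z w => by
    rw [← Complex.exp_add, ← add_mul, ← Complex.ofReal_add]
    congr 3; simp only [dot, Finset.mul_sum, mul_assoc]
  have e1 : ∀ z, Complex.exp (((p * dot a z + q * dot b z : ℝ) : ℂ) * Complex.I) =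
      Complex.exp ((dot (fun k => p * a k + q * b k) z : ℝ) * Complex.I) := fun z => by
    congr 3; simp only [dot, Finset.mul_sum, add_mul, mul_assoc, Finset.sum_add_distrib]
  simp only [e1]
  simp only [e]
  rw [integral_prod_mul (fun z : ι → ℝ => Complex.exp ((dot (fun k => p * a k) z : ℝ) * Complex.I))
    (fun w : ι → ℝ => Complex.exp ((dot (fun k => q * b k) w : ℝ) * Complex.I)),
    charFun_dot, charFun_dot, charFun_dot, ← Complex.exp_add, ← add_div, ← neg_add, ← Complex.ofReal_add]
  congr 4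
  have : ∀ k, (p * a k + q * b k) ^ 2 = (p * a k) ^ 2 + (q * b k) ^ 2 + 2 * (p * q) * (a k * b k) :=
    fun k => by ring
  simp only [this, Finset.sum_add_distrib, ← Finset.mul_sum, hab]
  ring

lemma integral_dot_pair {F : ℝ → ℝ → ℝ} (hF : Continuous (Function.uncurry F)) {C : ℝ}
    (hb : ∀ x y, |F x y| ≤ C) (a b : ι → ℝ) (hab : ∑ k, a k * b k = 0) :
    ∫ z, F (dot a z) (dot b z) ∂gauss ι = ∫ z, ∫ w, F (dot a z) (dot b w) ∂gauss ι ∂gauss ι := by
  have ma : ∀ c : ι → ℝ, Measurable (dot c) := fun c => by unfold dot; fun_prop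
  have h1 : ∫ z, F (dot a z) (dot b z) ∂gauss ι =
      ∫ q, Function.uncurry F q ∂(gauss ι).map (fun z => (dot a z, dot b z)) :=
    (integral_map (φ := fun z => (dot a z, dot b z)) ((ma a).prodMk (ma b)).aemeasurable
      hF.aestronglyMeasurable).symm
  have h2 : ∫ q, Function.uncurry F q ∂((gauss ι).prod (gauss ι)).map (Prod.map (dot a) (dot b)) =
      ∫ q : (ι → ℝ) × (ι → ℝ), F (dot a q.1) (dot b q.2) ∂(gauss ι).prod (gauss ι) :=
    integral_map ((ma a).prodMap (ma b)).aemeasurable hF.aestronglyMeasurable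
  rw [h1, gauss_map_pair a b hab, Measure.map_prod_map _ _ (ma a) (ma b), h2]
  refine integral_prod (fun q : (ι → ℝ) × (ι → ℝ) => F (dot a q.1) (dot b q.2)) ?_
  exact Integrable.of_bound
    ((hF.comp (((by unfold dot; fun_prop : Continuous (dot a)).comp continuous_fst).prodMk
      ((by unfold dot; fun_prop : Continuous (dot b)).comp continuous_snd))).aestronglyMeasurable) C
    (Filter.Eventually.of_forall fun q => hb _ _)

lemma integral_tanh_dot (a : ι → ℝ) :
    ∫ z, Real.tanh ((∑ k, a k ^ 2) + dot a z) ∂gauss ι = qSE (∑ k, a k ^ 2) := by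
  have hc := PA.continuous_tanh'
  rw [integral_dot (φ := fun x => Real.tanh ((∑ k, a k ^ 2) + x)) (by fun_prop),
    qSE_eq_Fq (Finset.sum_nonneg fun _ _ => sq_nonneg _)]
  rfl

lemma integral_tanh_sq_dot (a : ι → ℝ) :
    ∫ z, Real.tanh ((∑ k, a k ^ 2) + dot a z) ^ 2 ∂gauss ι = qSE (∑ k, a k ^ 2) := by
  have hc := PA.continuous_tanh'
  rw [integral_dot (φ := fun x => Real.tanh ((∑ k, a k ^ 2) + x) ^ 2) (by fun_prop)]
  rfl

/-- Two times along the channel: `E tanh X tanh (X + Y) = E tanh X`. -/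
lemma integral_tanh_mul_dot (a b : ι → ℝ) (hab : ∑ k, a k * b k = 0) :
    ∫ z, Real.tanh ((∑ k, a k ^ 2) + dot a z) *
        Real.tanh ((∑ k, a k ^ 2) + dot a z + ((∑ k, b k ^ 2) + dot b z)) ∂gauss ι =
      qSE (∑ k, a k ^ 2) := by
  set γ := ∑ k, a k ^ 2 with hγ
  set δ := ∑ k, b k ^ 2 with hδ
  have hc := PA.continuous_tanh'
  have hγ0 : 0 ≤ γ := Finset.sum_nonneg fun _ _ => sq_nonneg _
  have hδ0 : 0 ≤ δ := Finset.sum_nonneg fun _ _ => sq_nonneg _
  rcases hδ0.eq_or_lt with h | hδp
  · have hb : b = 0 := funext fun k => by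
      simpa using (Finset.sum_eq_zero_iff_of_nonneg fun j _ => sq_nonneg (b j)).1 h.symm k (mem_univ k)
    rw [← h, hγ]
    simp only [hb, dot, Pi.zero_apply, zero_mul, Finset.sum_const_zero, add_zero, ← sq]
    exact integral_tanh_sq_dot a
  have hS0 : 0 < γ + δ := by linarith
  set A : ι → ℝ := fun k => a k + b k
  set R : ι → ℝ := fun k => δ * a k - γ * b k
  have hAA : ∑ k, A k ^ 2 = γ + δ := by
    have : ∀ k, A k ^ 2 = a k ^ 2 + b k ^ 2 + 2 * (a k * b k) := fun k => by simp only [A]; ring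
    simp only [this, Finset.sum_add_distrib, ← Finset.mul_sum, hab, hγ, hδ]; ring
  have hAR : ∑ k, A k * R k = 0 := by
    have : ∀ k, A k * R k = δ * a k ^ 2 - γ * b k ^ 2 + (δ - γ) * (a k * b k) := fun k => by
      simp only [A, R]; ring
    simp only [this, Finset.sum_add_distrib, Finset.sum_sub_distrib, ← Finset.mul_sum, hab, ← hγ, ← hδ]; ring
  have hA : ∀ z, dot A z = dot a z + dot b z := fun z => by
    simp [A, dot, add_mul, Finset.sum_add_distrib]
  have hR : ∀ z, dot R z = δ * dot a z - γ * dot b z := fun z => by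
    simp only [R, dot, sub_mul, Finset.sum_sub_distrib, Finset.mul_sum, mul_assoc]
  have eX : ∀ z, γ + dot a z = (γ * (γ + δ + dot A z) + dot R z) / (γ + δ) := fun z => by
    rw [hA, hR, eq_div_iff hS0.ne']; ring
  have eS : ∀ z, γ + dot a z + (δ + dot b z) = γ + δ + dot A z := fun z => by rw [hA]; ring
  simp only [eS]
  simp only [eX]
  set F : ℝ → ℝ → ℝ := fun x y => Real.tanh ((γ * (γ + δ + x) + y) / (γ + δ)) * Real.tanh (γ + δ + x)
  have hFb : ∀ x y, |F x y| ≤ 1 := fun x y => by
    rw [abs_mul]; exact mul_le_one₀ (PA.abs_tanh_le_one' _) (abs_nonneg _) (PA.abs_tanh_le_one' _)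
  rw [integral_dot_pair (F := F) (by unfold Function.uncurry; simp only [F]; fun_prop) hFb A R hAR]
  -- average over `R` first: an odd function of the sum
  set g : ℝ → ℝ := fun s => ∫ w, Real.tanh ((γ * s + dot R w) / (γ + δ)) ∂gauss ι
  have hg1 : ∀ s, |g s| ≤ 1 := fun s => by
    have := norm_integral_le_of_norm_le_const (μ := gauss ι)
      (f := fun w => Real.tanh ((γ * s + dot R w) / (γ + δ))) (C := 1)
      (Filter.Eventually.of_forall fun w => PA.abs_tanh_le_one' _)
    simpa using this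
  have hgc : Continuous g := by
    refine continuous_of_dominated (bound := fun _ => (1 : ℝ))
      (fun s => (Continuous.aestronglyMeasurable (by unfold dot; fun_prop)))
      (fun s => Filter.Eventually.of_forall fun w => PA.abs_tanh_le_one' _) (integrable_const _)
      (Filter.Eventually.of_forall fun w => (by unfold dot; fun_prop))
  have hgo : ∀ s, g (-s) = -g s := fun s => by
    simp only [g]
    rw [integral_dot (φ := fun y => Real.tanh ((γ * (-s) + y) / (γ + δ))) (by fun_prop),
      integral_dot (φ := fun y => Real.tanh ((γ * s + y) / (γ + δ))) (by fun_prop), ← integral_neg]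
    set r := Real.sqrt (∑ k, R k ^ 2)
    have h := gaussianReal_map_neg (μ := 0) (v := 1)
    rw [neg_zero] at h
    conv_rhs => rw [← h, integral_map (by fun_prop) (by fun_prop)]
    refine integral_congr_ae (Filter.Eventually.of_forall fun t => ?_)
    simp only
    rw [← Real.tanh_neg]; congr 1; ring
  have hin : ∀ z, ∫ w, F (dot A z) (dot R w) ∂gauss ι = g (γ + δ + dot A z) * Real.tanh (γ + δ + dot A z) :=
    fun z => by simp only [F, g]; rw [integral_mul_const]
  simp only [hin]
  rw [integral_dot (φ := fun x => g (γ + δ + x) * Real.tanh (γ + δ + x)) (by fun_prop), hAA]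
  have hN := PA.nishimori hgc hgo hg1 hS0.le
  unfold PA.chanAvg at hN
  rw [hN]
  -- and back
  have h3 : ∫ t, g (γ + δ + Real.sqrt (γ + δ) * t) ∂gaussianReal 0 1 =
      ∫ z, g (γ + δ + dot A z) ∂gauss ι := by
    rw [integral_dot (φ := fun x => g (γ + δ + x)) (by fun_prop), hAA]
  rw [h3]
  set G : ℝ → ℝ → ℝ := fun x y => Real.tanh ((γ * (γ + δ + x) + y) / (γ + δ))
  have h4 := integral_dot_pair (F := G) (by unfold Function.uncurry; simp only [G]; fun_prop)
    (fun x y => PA.abs_tanh_le_one' _) A R hAR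
  simp only [G] at h4
  simp only [g]
  rw [← h4]
  simp only [← eX]
  exact integral_tanh_dot a

/-! ### The ideal fields -/

variable {K : ℕ} {β shift s : ℝ}

/-- The coefficients of `idealZ l`. -/
noncomputable def zCoef (β shift s : ℝ) (K l : ℕ) (j : Fin (K + 1)) : ℝ :=
  if (j : ℕ) ≤ l then Real.sqrt (gamInc β shift s j) else 0

lemma idealZ_eq (l : ℕ) (w : Fin (K + 1) → ℝ) :
    idealZ β shift s l w = gamSE β shift s l + dot (zCoef β shift s K l) w := by
  simp only [idealZ, dot, zCoef, ite_mul, zero_mul]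

lemma gamInc_nonneg (hβ : |β| ≤ 1) (hc : 4 ≤ shift) (hs : s ∈ Set.Icc (0 : ℝ) 1) :
    ∀ j, 0 ≤ gamInc β shift s j
  | 0 => gamSE_nonneg hc hs 0
  | j + 1 => sub_nonneg.2 (gamSE_mono hβ hc hs j)

lemma sum_gamInc (l : ℕ) : ∑ j ∈ range (l + 1), gamInc β shift s j = gamSE β shift s l := by
  induction l with
  | zero => simp [gamInc]
  | succ l ih => rw [Finset.sum_range_succ, ih]; simp [gamInc]

lemma sum_le_eq_range {K l : ℕ} (hl : l ≤ K) (c : ℕ → ℝ) :
    ∑ j : Fin (K + 1), (if (j : ℕ) ≤ l then c j else 0) = ∑ j ∈ range (l + 1), c j := by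
  rw [Fin.sum_univ_eq_sum_range (fun j => if j ≤ l then c j else 0) (K + 1), ← Finset.sum_filter]
  refine Finset.sum_congr ?_ fun _ _ => rfl
  ext j; simp only [Finset.mem_filter, Finset.mem_range]; omega

lemma zCoef_sq (hβ : |β| ≤ 1) (hc : 4 ≤ shift) (hs : s ∈ Set.Icc (0 : ℝ) 1) {l : ℕ} (hl : l ≤ K) :
    ∑ j, zCoef β shift s K l j ^ 2 = gamSE β shift s l := by
  rw [← sum_gamInc, ← sum_le_eq_range hl]
  refine Finset.sum_congr rfl fun j _ => ?_
  simp only [zCoef]
  split_ifs
  · exact Real.sq_sqrt (gamInc_nonneg hβ hc hs j)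
  · simp

section
variable (hβ : |β| ≤ 1) (hc : 4 ≤ shift) (hs : s ∈ Set.Icc (0 : ℝ) 1)
include hβ hc hs

lemma int_tanh {l : ℕ} (hl : l ≤ K) :
    ∫ w : Fin (K + 1) → ℝ, Real.tanh (idealZ β shift s l w) ∂gauss (Fin (K + 1)) =
      qSE (gamSE β shift s l) := by
  simp only [idealZ_eq, ← zCoef_sq hβ hc hs hl]
  exact integral_tanh_dot _

lemma int_tanh_mul {l m : ℕ} (hlm : l ≤ m) (hm : m ≤ K) :
    ∫ w : Fin (K + 1) → ℝ, Real.tanh (idealZ β shift s l w) * Real.tanh (idealZ β shift s m w)
        ∂gauss (Fin (K + 1)) = qSE (gamSE β shift s l) := by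
  set b : Fin (K + 1) → ℝ := fun j => zCoef β shift s K m j - zCoef β shift s K l j
  have hab : ∑ j, zCoef β shift s K l j * b j = 0 := Finset.sum_eq_zero fun j _ => by
    simp only [b, zCoef]
    split_ifs with h1 h2 <;> first | (exfalso; omega) | simp
  have hb : ∑ j, b j ^ 2 = gamSE β shift s m - gamSE β shift s l := by
    rw [← zCoef_sq (K := K) hβ hc hs hm, ← zCoef_sq (K := K) hβ hc hs (hlm.trans hm), ← Finset.sum_sub_distrib]
    refine Finset.sum_congr rfl fun j _ => ?_
    simp only [b, zCoef]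
    split_ifs with h1 h2 <;> first | (exfalso; omega) | simp
  have h := integral_tanh_mul_dot (zCoef β shift s K l) b hab
  rw [zCoef_sq hβ hc hs (hlm.trans hm), hb] at h
  rw [← h]
  refine integral_congr_ae (Filter.Eventually.of_forall fun w => ?_)
  simp only [idealZ_eq, b, dot, sub_mul, Finset.sum_sub_distrib]
  congr 2; ring

lemma int_coord_tanh {l : ℕ} (hl : l ≤ K) (j : Fin (K + 1)) :
    ∫ w : Fin (K + 1) → ℝ, w j * Real.tanh (idealZ β shift s l w) ∂gauss (Fin (K + 1)) =
      zCoef β shift s K l j * (1 - qSE (gamSE β shift s l)) := by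
  set a := zCoef β shift s K l with ha
  have hcd : Continuous (dot a) := by unfold dot; fun_prop
  have hsq : ∀ x : ℝ, |1 - Real.tanh x ^ 2| ≤ 1 := fun x => by
    rw [abs_le]; constructor <;> linarith [PA.tanh_sq_le_one x, sq_nonneg (Real.tanh x)]
  simp only [idealZ_eq, ← ha]
  rw [gauss_ibp j (C := 1 + |a j|) (M := 0) (φ := fun w => Real.tanh (gamSE β shift s l + dot a w))
    (φ' := fun w => a j * (1 - Real.tanh (gamSE β shift s l + dot a w) ^ 2)) le_rfl
    (PA.continuous_tanh'.comp (continuous_const.add hcd))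
    (continuous_const.mul (continuous_const.sub ((PA.continuous_tanh'.comp (continuous_const.add hcd)).pow 2)))
    (fun w => by rw [zero_mul, Real.exp_zero, mul_one]; linarith [PA.abs_tanh_le_one' (gamSE β shift s l + dot a w), abs_nonneg (a j)])
    (fun w => by
      rw [zero_mul, Real.exp_zero, mul_one, abs_mul]
      linarith [mul_le_of_le_one_right (abs_nonneg (a j)) (hsq (gamSE β shift s l + dot a w))])
    (fun w t => ?_)]
  · rw [integral_const_mul]
    congr 1
    have i : Integrable (fun w => Real.tanh (gamSE β shift s l + dot a w) ^ 2) (gauss (Fin (K + 1))) :=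
      Integrable.of_bound ((PA.continuous_tanh'.comp (continuous_const.add hcd)).pow 2).aestronglyMeasurable 1
        (Filter.Eventually.of_forall fun w => by
          rw [Real.norm_eq_abs, abs_pow]; exact pow_le_one₀ (abs_nonneg _) (PA.abs_tanh_le_one' _))
    rw [integral_sub (integrable_const _) i, ha, ← zCoef_sq (K := K) hβ hc hs hl, integral_tanh_sq_dot]
    simp
  · have hd : ∀ u, dot a (Function.update w j u) = dot a w + a j * (u - w j) := fun u => by
      simp only [dot]
      rw [← Finset.add_sum_erase _ _ (mem_univ j), ← Finset.add_sum_erase _ (fun k => a k * w k) (mem_univ j),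
        Function.update_self, Finset.sum_congr rfl fun i hi => by
          rw [Function.update_of_ne (Finset.ne_of_mem_erase hi)]]
      ring
    simp only [hd]
    exact ((Ising.hasDerivAt_tanh' _).comp t
      ((((hasDerivAt_id t).sub_const (w j)).const_mul (a j)).const_add _ |>.const_add _)).congr_deriv
        (by simp only [id]; ring)

end

/-- `q` is strictly increasing. -/
lemma qSE_strictMono {a b : ℝ} (ha : 0 ≤ a) (hab : a < b) : qSE a < qSE b := by
  rw [qSE_eq_Fq ha, qSE_eq_Fq (ha.trans hab.le)]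
  refine strictMonoOn_of_deriv_pos (convex_Icc 0 b) (PA.continuousOn_Fq b) (fun x hx => ?_)
    ⟨ha, hab.le⟩ ⟨ha.trans hab.le, le_rfl⟩ hab
  rw [interior_Icc] at hx
  rw [(PA.hasDerivAt_Fq hx.1).deriv]
  have hc := PA.continuous_tanh'
  have hp : ∀ t : ℝ, 0 < (1 - Real.tanh (x + Real.sqrt x * t) ^ 2) ^ 2 := fun t =>
    pow_pos (by linarith [(sq_lt_one_iff_abs_lt_one _).2 (Real.abs_tanh_lt_one (x + Real.sqrt x * t))]) 2
  unfold PA.chanAvg
  rw [integral_pos_iff_support_of_nonneg (fun t => (hp t).le)]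
  · rw [show Function.support (fun t : ℝ => (1 - Real.tanh (x + Real.sqrt x * t) ^ 2) ^ 2) = Set.univ from
      Set.eq_univ_of_forall fun t => (hp t).ne', measure_univ]
    exact one_pos
  · exact Integrable.of_bound (by fun_prop) 1 (Filter.Eventually.of_forall fun t => by
      rw [Real.norm_eq_abs, abs_of_pos (hp t)]
      exact pow_le_one₀ (by linarith [PA.tanh_sq_le_one (x + Real.sqrt x * t)])
        (by linarith [sq_nonneg (Real.tanh (x + Real.sqrt x * t))]))

/-- The increments are positive away from the degenerate cases. -/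
lemma gamSE_strict (hβ0 : 0 < β) (hβ : β < 1) (hc : 4 ≤ shift) (hs0 : 0 < s) (hs1 : s < 1) :
    ∀ l, gamSE β shift s l < gamSE β shift s (l + 1)
  | 0 => by
    have hb : |β| ≤ 1 := (abs_of_pos hβ0).le.trans hβ.le
    have h := gamSE_one_sub (s := s) hb hc
    have := mul_pos hs0 (show 0 < 2 - s + plantVar β shift by linarith [plantVar_pos (β := β) hc])
    have := mul_nonneg (sq_nonneg (1 - s)) (qSE_nonneg (gamSE β shift s 0))
    have := mul_pos (pow_pos hβ0 2) (show 0 < s * (2 - s + plantVar β shift)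
      + (1 - s) ^ 2 * qSE (gamSE β shift s 0) by linarith)
    linarith
  | l + 1 => by
    have h := gamSE_succ_sub (β := β) (shift := shift) (s := s) l
    have := mul_pos (mul_pos (pow_pos hβ0 2) (pow_pos (show 0 < 1 - s by linarith) 2))
      (sub_pos.2 (qSE_strictMono (gamSE_nonneg hc ⟨hs0.le, hs1.le⟩ l) (gamSE_strict hβ0 hβ hc hs0 hs1 l)))
    linarith

end Vale.Agent.P150.High.Amp
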