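import Vale.Agent.P150.High.ResCalc

/-!
# P150, from sparse sign vectors to the operator norm

If the bilinear form of `A` at sign vectors is at most `C √(min of the supports)`, `B` is small in
operator norm and `A + B` has small entries, then `A + B` is small in operator norm.
-/

open Matrix Finset
open scoped Matrix.Norms.L2Operator

namespace Vale.Agent.P150.High.SchurOpTools

open Vale.Agent.P150

variable {n : ℕ}

/-- a sign vector, entries `-1, 0, 1` -/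
def sv (σ : Fin n → Fin 3) (i : Fin n) : ℝ := (((σ i).val : ℕ) : ℝ) - 1

/-- the size of the support of a sign vector -/
def nz (σ : Fin n → Fin 3) : ℕ := (univ.filter fun i => σ i ≠ 1).card

/-- the bilinear form -/
def bil (M : Matrix (Fin n) (Fin n) ℝ) (v w : Fin n → ℝ) : ℝ := v ⬝ᵥ (M *ᵥ w)

/-- the sign-vector hypothesis -/
def SparseBound (A : Matrix (Fin n) (Fin n) ℝ) (C : ℝ) : Prop :=
  ∀ σ τ : Fin n → Fin 3, |bil A (sv σ) (sv τ)| ≤ C * √(min (nz σ : ℝ) (nz τ))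

lemma bil_sum_left {α : Type*} (s : Finset α) (M : Matrix (Fin n) (Fin n) ℝ) (v : α → Fin n → ℝ)
    (w : Fin n → ℝ) : bil M (∑ a ∈ s, v a) w = ∑ a ∈ s, bil M (v a) w := sum_dotProduct s v _

lemma bil_sum_right {α : Type*} (s : Finset α) (M : Matrix (Fin n) (Fin n) ℝ) (v : Fin n → ℝ)
    (w : α → Fin n → ℝ) : bil M v (∑ a ∈ s, w a) = ∑ a ∈ s, bil M v (w a) := by
  simp only [bil, Matrix.mulVec_sum, dotProduct_sum]

lemma bil_smul_left (M : Matrix (Fin n) (Fin n) ℝ) (c : ℝ) (v w : Fin n → ℝ) :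
    bil M (c • v) w = c * bil M v w := smul_dotProduct c v _

lemma bil_smul_right (M : Matrix (Fin n) (Fin n) ℝ) (c : ℝ) (v w : Fin n → ℝ) :
    bil M v (c • w) = c * bil M v w := by
  simp only [bil, Matrix.mulVec_smul, dotProduct_smul, smul_eq_mul]

lemma bil_add (A B : Matrix (Fin n) (Fin n) ℝ) (v w : Fin n → ℝ) :
    bil (A + B) v w = bil A v w + bil B v w := by
  simp only [bil, Matrix.add_mulVec, dotProduct_add]

/-- A linear functional on a box is at most its value at a sign vector of the same support. -/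
lemma exists_sign (S : Finset (Fin n)) (x c : Fin n → ℝ) (hx : ∀ i, |x i| ≤ 1)
    (hS : ∀ i, x i ≠ 0 → i ∈ S) : ∃ σ, nz σ ≤ S.card ∧ |x ⬝ᵥ c| ≤ |sv σ ⬝ᵥ c| := by
  refine ⟨fun i => if i ∈ S then (if 0 ≤ c i then 2 else 0) else 1,
    card_le_card fun i hi => ?_, le_trans ?_ (le_abs_self _)⟩
  · have := (mem_filter.1 hi).2
    by_contra h
    simp [h] at this
  · simp only [dotProduct]
    refine (abs_sum_le_sum_abs _ _).trans (sum_le_sum fun i _ => ?_)
    by_cases h : i ∈ S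
    · have e : sv (fun i => if i ∈ S then (if 0 ≤ c i then (2 : Fin 3) else 0) else 1) i * c i = |c i| := by
        rcases le_or_gt 0 (c i) with hc | hc
        · simp only [sv, if_pos h, if_pos hc, abs_of_nonneg hc]; norm_num
        · simp only [sv, if_pos h, if_neg hc.not_ge, abs_of_neg hc]; norm_num
      rw [e, abs_mul]
      exact mul_le_of_le_one_left (abs_nonneg _) (hx i)
    · have hx0 : x i = 0 := by_contra fun h0 => h (hS i h0)
      simp [sv, h, hx0]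

/-- the sign bound extends to boxes -/
lemma SparseBound.box {A : Matrix (Fin n) (Fin n) ℝ} {C : ℝ} (hC : 0 ≤ C) (hA : SparseBound A C)
    (S T : Finset (Fin n)) (x y : Fin n → ℝ) (hx : ∀ i, |x i| ≤ 1) (hy : ∀ i, |y i| ≤ 1)
    (hS : ∀ i, x i ≠ 0 → i ∈ S) (hT : ∀ i, y i ≠ 0 → i ∈ T) :
    |bil A x y| ≤ C * √(min (S.card : ℝ) T.card) := by
  obtain ⟨σ, hσ, h1⟩ := exists_sign S x (A *ᵥ y) hx hS
  obtain ⟨τ, hτ, h2⟩ := exists_sign T y (Aᵀ *ᵥ sv σ) hy hT
  have e : ∀ z : Fin n → ℝ, z ⬝ᵥ (Aᵀ *ᵥ sv σ) = bil A (sv σ) z := fun z => by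
    rw [Matrix.mulVec_transpose, dotProduct_comm, ← Matrix.dotProduct_mulVec]; rfl
  rw [e, e] at h2
  refine h1.trans (h2.trans ((hA σ τ).trans (mul_le_mul_of_nonneg_left (Real.sqrt_le_sqrt ?_) hC)))
  exact min_le_min (by exact_mod_cast hσ) (by exact_mod_cast hτ)

/-! ### dyadic pieces -/

/-- the dyadic level of a number in `[-1,1]` -/
noncomputable def lev (x : ℝ) : ℕ := by
  classical exact if h : ∃ l : ℕ, 1 < |x| * 2 ^ (l + 1) then Nat.find h else 0

lemma exists_lev {x : ℝ} (hx : x ≠ 0) : ∃ l : ℕ, 1 < |x| * 2 ^ (l + 1) := by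
  obtain ⟨l, hl⟩ := pow_unbounded_of_one_lt (1 / |x|) one_lt_two
  refine ⟨l, ?_⟩
  rw [div_lt_iff₀ (abs_pos.2 hx)] at hl
  rw [pow_succ]
  nlinarith [abs_pos.2 hx]

lemma lev_lower {x : ℝ} (hx : x ≠ 0) : 1 < |x| * 2 ^ (lev x + 1) := by
  classical
  rw [lev, dif_pos (exists_lev hx)]
  exact Nat.find_spec (exists_lev hx)

lemma lev_upper {x : ℝ} (hx : |x| ≤ 1) : |x| * 2 ^ lev x ≤ 1 := by
  classical
  rcases Nat.eq_zero_or_pos (lev x) with h | h
  · rw [h, pow_zero, mul_one]; exact hx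
  · have hne : x ≠ 0 := fun h0 => by
      subst h0
      rw [lev, dif_neg (by simp)] at h
      exact lt_irrefl 0 h
    obtain ⟨m, hm⟩ : ∃ m, lev x = m + 1 := ⟨lev x - 1, by omega⟩
    rw [hm]
    refine not_lt.1 fun hlt => ?_
    have hlev := hm
    rw [lev, dif_pos (exists_lev hne)] at hlev
    exact Nat.find_min (exists_lev hne) (by omega : m < Nat.find (exists_lev hne)) hlt

/-- the part of `v` at level `l` -/
noncomputable def piece (v : Fin n → ℝ) (l : ℕ) (i : Fin n) : ℝ := if lev (v i) = l then v i else 0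

lemma sum_piece_apply (v : Fin n → ℝ) (I : Finset ℕ) (i : Fin n) :
    (∑ l ∈ I, piece v l) i = if lev (v i) ∈ I then v i else 0 := by
  rw [Finset.sum_apply]
  exact Finset.sum_ite_eq I _ _

lemma sum_piece_range (v : Fin n → ℝ) {N : ℕ} (hN : ∀ i, lev (v i) < N) :
    ∑ l ∈ range N, piece v l = v := by
  funext i
  rw [sum_piece_apply, if_pos (mem_range.2 (hN i))]

/-- the support of a piece -/
noncomputable def supp (v : Fin n → ℝ) (l : ℕ) : Finset (Fin n) :=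
  univ.filter fun i => piece v l i ≠ 0

lemma supp_card_le (v : Fin n → ℝ) (hv : ∑ i, v i ^ 2 ≤ 1) (l : ℕ) :
    ((supp v l).card : ℝ) ≤ (2 * 2 ^ l) ^ 2 := by
  have h : ∀ i ∈ supp v l, (1:ℝ) ≤ (2 * 2 ^ l) ^ 2 * v i ^ 2 := fun i hi => by
    have hp := (mem_filter.1 hi).2
    unfold piece at hp
    split_ifs at hp with hl
    · have h1 := lev_lower hp
      rw [hl] at h1
      calc (1:ℝ) = 1 ^ 2 := by norm_num
        _ ≤ (|v i| * 2 ^ (l + 1)) ^ 2 := pow_le_pow_left₀ zero_le_one h1.le 2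
        _ = _ := by rw [mul_pow, sq_abs, pow_succ']; ring
    · exact absurd rfl hp
  calc ((supp v l).card : ℝ) = ∑ _i ∈ supp v l, (1:ℝ) := by simp
    _ ≤ ∑ i ∈ supp v l, (2 * 2 ^ l) ^ 2 * v i ^ 2 := sum_le_sum h
    _ ≤ ∑ i, (2 * 2 ^ l) ^ 2 * v i ^ 2 :=
        sum_le_sum_of_subset_of_nonneg (subset_univ _) fun i _ _ => by positivity
    _ ≤ _ := by rw [← mul_sum]; exact mul_le_of_le_one_right (by positivity) hv

lemma abs_le_one_of_sq {v : Fin n → ℝ} (hv : ∑ i, v i ^ 2 ≤ 1) (i : Fin n) : |v i| ≤ 1 :=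
  (sq_le_one_iff_abs_le_one _).1 ((single_le_sum (fun j _ => sq_nonneg (v j)) (mem_univ i)).trans hv)

lemma block_le {A : Matrix (Fin n) (Fin n) ℝ} {C : ℝ} (hC : 0 ≤ C) (hA : SparseBound A C)
    {v w : Fin n → ℝ} (hv : ∑ i, v i ^ 2 ≤ 1) (hw : ∑ i, w i ^ 2 ≤ 1) (l m : ℕ) :
    |bil A (piece v l) (piece w m)| ≤ 2 * C * ((3/4 : ℝ) ^ l * (3/4) ^ m) := by
  have hbox : ∀ (u : Fin n → ℝ) (k : ℕ), ∑ i, u i ^ 2 ≤ 1 → ∀ i, |((2:ℝ) ^ k • piece u k) i| ≤ 1 := by
    intro u k hu i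
    rw [Pi.smul_apply, smul_eq_mul, abs_mul, abs_of_pos (by positivity : (0:ℝ) < 2 ^ k), piece]
    split_ifs with h
    · rw [mul_comm, ← h]; exact lev_upper (abs_le_one_of_sq hu i)
    · simp
  have hsup : ∀ (u : Fin n → ℝ) (k : ℕ) (i : Fin n), ((2:ℝ) ^ k • piece u k) i ≠ 0 → i ∈ supp u k := by
    intro u k i h
    refine mem_filter.2 ⟨mem_univ _, fun h0 => h ?_⟩
    simp [h0]
  have h1 := hA.box hC (supp v l) (supp w m) _ _ (hbox v l hv) (hbox w m hw) (hsup v l) (hsup w m)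
  rw [bil_smul_left, bil_smul_right, abs_mul, abs_mul, abs_of_pos (by positivity : (0:ℝ) < 2 ^ l),
    abs_of_pos (by positivity : (0:ℝ) < 2 ^ m)] at h1
  have hs : √(min ((supp v l).card : ℝ) (supp w m).card) ≤ 2 * 2 ^ min l m := by
    rw [Real.sqrt_le_left (by positivity)]
    rcases le_total l m with h | h
    · rw [min_eq_left h]; exact (min_le_left _ _).trans (supp_card_le v hv l)
    · rw [min_eq_right h]; exact (min_le_right _ _).trans (supp_card_le w hw m)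
  have h2 : (2:ℝ) ^ min l m * (2 * C) ≤ (2 ^ l * 2 ^ m) * (2 * C * ((3/4 : ℝ) ^ l * (3/4) ^ m)) := by
    have h3 : (2:ℝ) ^ l * 2 ^ m = 2 ^ min l m * 2 ^ max l m := by
      rw [← pow_add, ← pow_add, min_add_max]
    have h4 : (1:ℝ) ≤ 2 ^ max l m * ((3/4 : ℝ) ^ l * (3/4) ^ m) := by
      rw [← pow_add]
      refine le_trans ?_ (mul_le_mul_of_nonneg_left
        (pow_le_pow_of_le_one (by norm_num) (by norm_num) (by omega : l + m ≤ 2 * max l m)) (by positivity))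
      rw [pow_mul, ← mul_pow]
      exact one_le_pow₀ (by norm_num)
    calc (2:ℝ) ^ min l m * (2 * C) ≤ 2 ^ min l m * (2 * C) * (2 ^ max l m * ((3/4 : ℝ) ^ l * (3/4) ^ m)) :=
          le_mul_of_one_le_right (by positivity) h4
      _ = _ := by rw [h3]; ring
  refine le_of_mul_le_mul_left (le_trans ?_ h2) (by positivity : (0:ℝ) < 2 ^ l * 2 ^ m)
  rw [mul_assoc]
  refine h1.trans ((mul_le_mul_of_nonneg_left hs hC).trans_eq ?_)
  ring

lemma blocks_le {A : Matrix (Fin n) (Fin n) ℝ} {C : ℝ} (hC : 0 ≤ C) (hA : SparseBound A C)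
    {v w : Fin n → ℝ} (hv : ∑ i, v i ^ 2 ≤ 1) (hw : ∑ i, w i ^ 2 ≤ 1) (I J : Finset ℕ) :
    |bil A (∑ l ∈ I, piece v l) (∑ m ∈ J, piece w m)| ≤
      2 * C * ((∑ l ∈ I, (3/4 : ℝ) ^ l) * ∑ m ∈ J, (3/4 : ℝ) ^ m) := by
  rw [bil_sum_left, sum_mul_sum, mul_sum]
  simp only [bil_sum_right, mul_sum]
  refine (abs_sum_le_sum_abs _ _).trans (sum_le_sum fun l _ => ?_)
  exact (abs_sum_le_sum_abs _ _).trans (sum_le_sum fun m _ => block_le hC hA hv hw l m)

lemma geom_tail (b N : ℕ) : ∑ l ∈ Ico b N, (3/4 : ℝ) ^ l ≤ 4 * (3/4) ^ b := by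
  rw [sum_Ico_eq_sum_range]
  simp only [pow_add, ← mul_sum]
  rw [mul_comm (4:ℝ)]
  refine mul_le_mul_of_nonneg_left ?_ (by positivity)
  rw [geom_sum_eq (by norm_num)]
  have : (0:ℝ) ≤ (3/4) ^ (N - b) := by positivity
  norm_num
  linarith

lemma head_l1 {v : Fin n → ℝ} (hv : ∑ i, v i ^ 2 ≤ 1) (b : ℕ) :
    ∑ i, |(∑ l ∈ range b, piece v l) i| ≤ 2 ^ b := by
  calc ∑ i, |(∑ l ∈ range b, piece v l) i| ≤ ∑ i, 2 ^ b * v i ^ 2 := sum_le_sum fun i _ => by
        rw [sum_piece_apply]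
        split_ifs with h
        · rcases eq_or_ne (v i) 0 with h0 | h0
          · simp [h0]
          · have h1 := lev_lower h0
            have h2 : (2:ℝ) ^ (lev (v i) + 1) ≤ 2 ^ b :=
              pow_le_pow_right₀ (by norm_num) (by simpa using mem_range.1 h)
            calc |v i| = |v i| * 1 := (mul_one _).symm
              _ ≤ |v i| * (|v i| * 2 ^ b) := mul_le_mul_of_nonneg_left
                  (h1.le.trans (mul_le_mul_of_nonneg_left h2 (abs_nonneg _))) (abs_nonneg _)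
              _ = _ := by rw [← mul_assoc, abs_mul_abs_self, ← sq]; ring
        · rw [abs_zero]; positivity
    _ ≤ _ := by rw [← mul_sum]; exact mul_le_of_le_one_right (by positivity) hv

/-- the deterministic step, for vectors in the unit ball -/
lemma unit_bound {A B : Matrix (Fin n) (Fin n) ℝ} {C e e₁ : ℝ} (hC : 0 ≤ C) (he : 0 ≤ e)
    (hA : SparseBound A C) (hB : Fast.OpNorm.OpLe B e₁) (hM : ∀ j k, |(A + B) j k| ≤ e)
    {v w : Fin n → ℝ} (hv : ∑ i, v i ^ 2 ≤ 1) (hw : ∑ i, w i ^ 2 ≤ 1) (b : ℕ) :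
    |bil (A + B) v w| ≤ 4 ^ b * e + 64 * C * (3/4) ^ b + 2 * e₁ := by
  set N := max b ((univ.sup fun i => lev (v i)) + 1 + ((univ.sup fun i => lev (w i)) + 1))
  have hN : ∀ i, lev (v i) < N ∧ lev (w i) < N := fun i => by
    have h1 := Finset.le_sup (f := fun i => lev (v i)) (mem_univ i)
    have h2 := Finset.le_sup (f := fun i => lev (w i)) (mem_univ i)
    omega
  have hbN : b ≤ N := le_max_left _ _
  have hvN := sum_piece_range v fun i => (hN i).1
  have hwN := sum_piece_range w fun i => (hN i).2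
  rw [← sum_range_add_sum_Ico _ hbN] at hvN hwN
  set vL := ∑ l ∈ range b, piece v l with hvL
  set wL := ∑ l ∈ range b, piece w l with hwL
  have e1 : bil A v w - bil A vL wL =
      bil A (∑ l ∈ Ico b N, piece v l) w + bil A vL (∑ l ∈ Ico b N, piece w l) := by
    have h1 : bil A v w = bil A vL w + bil A (∑ l ∈ Ico b N, piece v l) w := by
      conv_lhs => rw [← hvN]
      exact add_dotProduct _ _ _
    have h2 : bil A vL w = bil A vL wL + bil A vL (∑ l ∈ Ico b N, piece w l) := by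
      conv_lhs => rw [← hwN]
      simp only [bil, Matrix.mulVec_add, dotProduct_add]
    linarith
  have hg : ∀ K, ∑ l ∈ range K, (3/4 : ℝ) ^ l ≤ 4 := fun K => by
    have := geom_tail 0 K; simpa using this
  have t1 : |bil A (∑ l ∈ Ico b N, piece v l) w| ≤ 32 * C * (3/4) ^ b := by
    rw [← sum_piece_range w fun i => (hN i).2]
    refine (blocks_le hC hA hv hw _ _).trans ?_
    rw [show 32 * C * (3/4 : ℝ) ^ b = 2 * C * (4 * (3/4) ^ b * 4) by ring]
    exact mul_le_mul_of_nonneg_left (mul_le_mul (geom_tail b N) (hg N) (by positivity) (by positivity)) (by positivity)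
  have t2 : |bil A vL (∑ l ∈ Ico b N, piece w l)| ≤ 32 * C * (3/4) ^ b := by
    refine (blocks_le hC hA hv hw _ _).trans ?_
    rw [show 32 * C * (3/4 : ℝ) ^ b = 2 * C * (4 * (4 * (3/4) ^ b)) by ring]
    exact mul_le_mul_of_nonneg_left (mul_le_mul (hg b) (geom_tail b N) (by positivity) (by positivity)) (by positivity)
  have hB1 : ∀ x y : Fin n → ℝ, ∑ i, x i ^ 2 ≤ 1 → ∑ i, y i ^ 2 ≤ 1 → |bil B x y| ≤ e₁ := fun x y hx hy => by
    refine (hB.bilin x y).trans ?_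
    calc e₁ * √(Fast.OpNorm.nsq x) * √(Fast.OpNorm.nsq y) ≤ e₁ * 1 * 1 :=
          mul_le_mul (mul_le_mul_of_nonneg_left (Real.sqrt_le_one.2 hx) hB.1) (Real.sqrt_le_one.2 hy)
            (Real.sqrt_nonneg _) (mul_nonneg hB.1 zero_le_one)
      _ = e₁ := by ring
  have hL : ∀ (u : Fin n → ℝ) (hu : ∑ i, u i ^ 2 ≤ 1), ∑ i, (∑ l ∈ range b, piece u l) i ^ 2 ≤ 1 := fun u hu => by
    refine (sum_le_sum fun i _ => ?_).trans hu
    rw [sum_piece_apply]
    split_ifs
    · exact le_rfl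
    · rw [zero_pow two_ne_zero]; positivity
  have tM : |bil (A + B) vL wL| ≤ 4 ^ b * e := by
    simp only [bil, dotProduct, Matrix.mulVec, mul_sum]
    calc |∑ i, ∑ k, vL i * ((A + B) i k * wL k)| ≤ ∑ i, ∑ k, |vL i| * (e * |wL k|) := by
          refine (abs_sum_le_sum_abs _ _).trans (sum_le_sum fun i _ => ?_)
          refine (abs_sum_le_sum_abs _ _).trans (sum_le_sum fun k _ => ?_)
          rw [abs_mul, abs_mul]
          exact mul_le_mul_of_nonneg_left (mul_le_mul_of_nonneg_right (hM i k) (abs_nonneg _)) (abs_nonneg _)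
      _ = e * ((∑ i, |vL i|) * ∑ k, |wL k|) := by
          rw [sum_mul_sum, mul_sum]
          simp only [mul_sum]
          exact sum_congr rfl fun i _ => sum_congr rfl fun k _ => by ring
      _ ≤ e * (2 ^ b * 2 ^ b) := mul_le_mul_of_nonneg_left
          (mul_le_mul (head_l1 hv b) (head_l1 hw b) (sum_nonneg fun _ _ => abs_nonneg _) (by positivity)) he
      _ = _ := by rw [← mul_pow, mul_comm]; norm_num
  have hm := hB1 v w hv hw
  have hmL := hB1 vL wL (hL v hv) (hL w hw)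
  rw [bil_add] at tM ⊢
  rw [abs_le] at t1 t2 tM hm hmL ⊢
  constructor <;> linarith

/-- The deterministic lemma. -/
theorem opLe_of_sparse {ε C : ℝ} (hε : 0 < ε) (hC : 0 ≤ C) :
    ∃ b : ℕ, ∀ (n : ℕ) (A B : Matrix (Fin n) (Fin n) ℝ) (e e₁ : ℝ), 0 ≤ e → SparseBound A C →
      Fast.OpNorm.OpLe B e₁ → (∀ j k, |(A + B) j k| ≤ e) →
      Fast.OpNorm.OpLe (A + B) (4 ^ b * e + 2 * e₁ + ε) := by
  obtain ⟨b, hb⟩ := exists_pow_lt_of_lt_one (show (0:ℝ) < ε / (64 * C + 1) by positivity)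
    (show (3/4 : ℝ) < 1 by norm_num)
  refine ⟨b, fun n A B e e₁ he hA hB hM => ?_⟩
  set K := 4 ^ b * e + 2 * e₁ + ε
  have hK : 0 ≤ K := by have := hB.1; positivity
  have hb' : 64 * C * (3/4 : ℝ) ^ b ≤ ε := by
    rw [lt_div_iff₀ (by positivity)] at hb
    have : (0:ℝ) ≤ (3/4) ^ b := by positivity
    linarith
  refine Fast.OpNorm.opLe_of_bilin hK fun v w => ?_
  set a := √(Fast.OpNorm.nsq v)
  set c := √(Fast.OpNorm.nsq w)
  have hunit : ∀ u : Fin n → ℝ, ∑ i, ((√(Fast.OpNorm.nsq u))⁻¹ • u) i ^ 2 ≤ 1 := fun u => by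
    show Fast.OpNorm.nsq _ ≤ 1
    rw [Fast.OpNorm.nsq_smul, inv_pow, Real.sq_sqrt (Fast.OpNorm.nsq_nonneg u)]
    exact inv_mul_le_one
  have hsc : ∀ u : Fin n → ℝ, u = √(Fast.OpNorm.nsq u) • ((√(Fast.OpNorm.nsq u))⁻¹ • u) := fun u => by
    rcases eq_or_ne (√(Fast.OpNorm.nsq u)) 0 with h0 | h0
    · rw [h0]; simp only [zero_smul]
      exact Fast.OpNorm.eq_zero_of_nsq (Real.sqrt_eq_zero'.1 h0)
    · rw [smul_inv_smul₀ h0]
  show |bil (A + B) v w| ≤ _
  conv_lhs => rw [hsc v, hsc w, bil_smul_left, bil_smul_right]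
  rw [abs_mul, abs_mul, abs_of_nonneg (Real.sqrt_nonneg _), abs_of_nonneg (Real.sqrt_nonneg _)]
  calc a * (c * |bil (A + B) (a⁻¹ • v) (c⁻¹ • w)|) ≤ a * (c * K) := by
        gcongr
        exact (unit_bound hC he hA hB hM (hunit v) (hunit w) b).trans (by linarith)
    _ = K * a * c := by ring

/-! ### Schur products and real parts -/

open scoped ComplexConjugate in
/-- A matrix dominated entrywise by a Schur product of bounded matrices is bounded. -/
lemma opLe_of_schur {M : Matrix (Fin n) (Fin n) ℝ} {A B : Matrix (Fin n) (Fin n) ℂ} {a b : ℝ}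
    (ha : ‖A‖ ≤ a) (hb : ‖B‖ ≤ b) (h : ∀ j k, |M j k| ≤ ‖A j k‖ * ‖B j k‖) :
    Fast.OpNorm.OpLe M (a * b) := by
  have ha0 : 0 ≤ a := (norm_nonneg _).trans ha
  have hb0 : 0 ≤ b := (norm_nonneg _).trans hb
  refine Fast.OpNorm.opLe_of_bilin (mul_nonneg ha0 hb0) fun v w => ?_
  have hrow : ∀ j, ∑ k, ‖A j k‖ ^ 2 ≤ a ^ 2 := fun j => by
    have := ResCalc.col_le Aᵀ j
    rw [ResCalc.norm_transpose] at this
    exact this.trans (pow_le_pow_left₀ (norm_nonneg _) ha 2)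
  have hcol : ∀ k, ∑ j, ‖B j k‖ ^ 2 ≤ b ^ 2 := fun k =>
    (ResCalc.col_le B k).trans (pow_le_pow_left₀ (norm_nonneg _) hb 2)
  simp only [dotProduct, Matrix.mulVec, mul_sum]
  refine (abs_sum_le_sum_abs _ _).trans ((sum_le_sum fun j _ => (abs_sum_le_sum_abs _ _).trans
    (sum_le_sum (g := fun k => (|v j| * ‖A j k‖) * (|w k| * ‖B j k‖)) fun k _ => ?_)).trans ?_)
  · rw [abs_mul, abs_mul]
    calc |v j| * (|M j k| * |w k|) ≤ |v j| * ((‖A j k‖ * ‖B j k‖) * |w k|) := by gcongr; exact h j k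
      _ = _ := by ring
  · rw [← Fintype.sum_prod_type' fun j k => |v j| * ‖A j k‖ * (|w k| * ‖B j k‖)]
    refine (Real.sum_mul_le_sqrt_mul_sqrt univ _ _).trans ?_
    have h1 : ∑ p : Fin n × Fin n, (|v p.1| * ‖A p.1 p.2‖) ^ 2 ≤ a ^ 2 * Fast.OpNorm.nsq v := by
      rw [Fintype.sum_prod_type]
      simp only [mul_pow, sq_abs, ← mul_sum, Fast.OpNorm.nsq]
      rw [mul_sum]
      exact sum_le_sum fun j _ => by
        rw [mul_comm (a ^ 2)]; exact mul_le_mul_of_nonneg_left (hrow j) (sq_nonneg _)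
    have h2 : ∑ p : Fin n × Fin n, (|w p.2| * ‖B p.1 p.2‖) ^ 2 ≤ b ^ 2 * Fast.OpNorm.nsq w := by
      rw [Fintype.sum_prod_type, Finset.sum_comm]
      simp only [mul_pow, sq_abs, ← mul_sum, Fast.OpNorm.nsq]
      rw [mul_sum]
      exact sum_le_sum fun k _ => by
        rw [mul_comm (b ^ 2)]; exact mul_le_mul_of_nonneg_left (hcol k) (sq_nonneg _)
    refine (mul_le_mul (Real.sqrt_le_sqrt h1) (Real.sqrt_le_sqrt h2) (Real.sqrt_nonneg _)
      (Real.sqrt_nonneg _)).trans_eq ?_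
    rw [Real.sqrt_mul (sq_nonneg _), Real.sqrt_mul (sq_nonneg _), Real.sqrt_sq ha0, Real.sqrt_sq hb0]
    ring

end Vale.Agent.P150.High.SchurOpTools
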